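import Vale.Agent.P338.MathlibUsed

set_option linter.all false

section

/-! A structured programming language over registers that hold lists with the operations
pop-front, push-front, push-back, all of unit cost.  See `Compile.lean` for its compilation to
multitape Turing machines. -/

namespace Vale.Agent.P338

/-- What one instruction does to one register: first optionally pop the front symbol, then
optionally push a symbol in front, then optionally push a symbol at the back. -/
structure Act (Γ : Type) where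
  pop : Bool := false
  pf : Option Γ := none
  pb : Option Γ := none

/-- Effect of an action on a list. -/
def Act.app {Γ : Type} (a : Act Γ) (l : List Γ) : List Γ :=
  a.pf.toList ++ (if a.pop then l.tail else l) ++ a.pb.toList

/-- Programs. -/
inductive Cmd (ι Γ : Type) where
  | act (f : (ι → Option Γ) → ι → Act Γ)
  | seq (c d : Cmd ι Γ)
  | ite (p : (ι → Option Γ) → Bool) (c d : Cmd ι Γ)
  | loop (p : (ι → Option Γ) → Bool) (c : Cmd ι Γ)

/-- Stores: every register holds a list. -/
abbrev Store (ι Γ : Type) := ι → List Γ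

namespace Store
variable {ι Γ : Type}

/-- Front symbols of all registers. -/
def heads (s : Store ι Γ) : ι → Option Γ := fun i => (s i).head?

theorem ext' {s s' : Store ι Γ} (h : ∀ i, s i = s' i) : s = s' := funext h

variable [DecidableEq ι]

/-- Overwrite one register. -/
def set (s : Store ι Γ) (r : ι) (v : List Γ) : Store ι Γ := fun i => if i = r then v else s i

@[simp] theorem set_same (s : Store ι Γ) (r : ι) (v : List Γ) : (s.set r v) r = v := by
  simp [set]

@[simp] theorem set_ne (s : Store ι Γ) {r r' : ι} (v : List Γ) (h : r' ≠ r) :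
    (s.set r v) r' = s r' := by
  simp [set, h]

@[simp] theorem set_set (s : Store ι Γ) (r : ι) (v w : List Γ) :
    (s.set r v).set r w = s.set r w := by
  funext i; simp only [set]; split <;> rfl

theorem set_comm (s : Store ι Γ) {r r' : ι} (v w : List Γ) (h : r ≠ r') :
    (s.set r v).set r' w = (s.set r' w).set r v := by
  funext i; simp only [set]; split_ifs <;> simp_all

@[simp] theorem set_self (s : Store ι Γ) (r : ι) : s.set r (s r) = s := by
  funext i; simp only [set]; split_ifs <;> simp_all

theorem set_eq_self (s : Store ι Γ) {r : ι} {v : List Γ} (h : s r = v) : s.set r v = s := by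
  rw [← h]; simp

end Store

/-- Big-step semantics with exact cost. -/
inductive Run {ι Γ : Type} : Cmd ι Γ → Store ι Γ → Store ι Γ → ℕ → Prop
  | act (f : (ι → Option Γ) → ι → Act Γ) (s : Store ι Γ) :
      Run (.act f) s (fun i => (f s.heads i).app (s i)) 1
  | seq {c d : Cmd ι Γ} {s s1 s2 : Store ι Γ} {t1 t2 : ℕ} :
      Run c s s1 t1 → Run d s1 s2 t2 → Run (.seq c d) s s2 (t1 + t2)
  | iteT {p : (ι → Option Γ) → Bool} {c d : Cmd ι Γ} {s s' : Store ι Γ} {t : ℕ} :
      p s.heads = true → Run c s s' t → Run (.ite p c d) s s' (t + 1)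
  | iteF {p : (ι → Option Γ) → Bool} {c d : Cmd ι Γ} {s s' : Store ι Γ} {t : ℕ} :
      p s.heads = false → Run d s s' t → Run (.ite p c d) s s' (t + 1)
  | loopF {p : (ι → Option Γ) → Bool} {c : Cmd ι Γ} {s : Store ι Γ} :
      p s.heads = false → Run (.loop p c) s s 1
  | loopT {p : (ι → Option Γ) → Bool} {c : Cmd ι Γ} {s s1 s2 : Store ι Γ} {t1 t2 : ℕ} :
      p s.heads = true → Run c s s1 t1 → Run (.loop p c) s1 s2 t2 →
      Run (.loop p c) s s2 (t1 + t2 + 1)

/-- `Runs c s s' T`: from `s` the program terminates in `s'` with cost at most `T`. -/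
def Runs {ι Γ : Type} (c : Cmd ι Γ) (s s' : Store ι Γ) (T : ℕ) : Prop :=
  ∃ t ≤ T, Run c s s' t

section rules
variable {ι Γ : Type} {c d : Cmd ι Γ} {s s1 s2 s' : Store ι Γ} {T T1 T2 : ℕ}
  {p : (ι → Option Γ) → Bool}

theorem Runs.mono (h : Runs c s s' T1) (hT : T1 ≤ T) : Runs c s s' T := by
  obtain ⟨t, ht, hr⟩ := h
  exact ⟨t, ht.trans hT, hr⟩

theorem Runs.seq (h1 : Runs c s s1 T1) (h2 : Runs d s1 s2 T2) :
    Runs (.seq c d) s s2 (T1 + T2) := by
  obtain ⟨t1, ht1, hr1⟩ := h1
  obtain ⟨t2, ht2, hr2⟩ := h2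
  exact ⟨t1 + t2, by omega, hr1.seq hr2⟩

theorem Runs.seq' (h1 : Runs c s s1 T1) (h2 : Runs d s1 s2 T2) (hT : T1 + T2 ≤ T) :
    Runs (.seq c d) s s2 T := (h1.seq h2).mono hT

theorem Runs.act (f : (ι → Option Γ) → ι → Act Γ) (s : Store ι Γ) :
    Runs (.act f) s (fun i => (f s.heads i).app (s i)) 1 := ⟨1, le_rfl, .act f s⟩

theorem Runs.act' (f : (ι → Option Γ) → ι → Act Γ) {s s' : Store ι Γ}
    (h : ∀ i, (f s.heads i).app (s i) = s' i) : Runs (.act f) s s' 1 := by
  have : s' = (fun i => (f s.heads i).app (s i)) := by funext i; exact (h i).symm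
  rw [this]; exact Runs.act f s

theorem Runs.iteT (hp : p s.heads = true) (h : Runs c s s' T) :
    Runs (.ite p c d) s s' (T + 1) := by
  obtain ⟨t, ht, hr⟩ := h
  exact ⟨t + 1, by omega, .iteT hp hr⟩

theorem Runs.iteF (hp : p s.heads = false) (h : Runs d s s' T) :
    Runs (.ite p c d) s s' (T + 1) := by
  obtain ⟨t, ht, hr⟩ := h
  exact ⟨t + 1, by omega, .iteF hp hr⟩

theorem Runs.loopF (hp : p s.heads = false) : Runs (.loop p c) s s 1 := ⟨1, le_rfl, .loopF hp⟩

theorem Runs.loopT (hp : p s.heads = true) (h1 : Runs c s s1 T1)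
    (h2 : Runs (.loop p c) s1 s2 T2) : Runs (.loop p c) s s2 (T1 + T2 + 1) := by
  obtain ⟨t1, ht1, hr1⟩ := h1
  obtain ⟨t2, ht2, hr2⟩ := h2
  exact ⟨t1 + t2 + 1, by omega, .loopT hp hr1 hr2⟩

/-- A loop that runs exactly `N` times through the stores `S 0, …, S N`. -/
theorem Runs.loopN (N : ℕ) (S : ℕ → Store ι Γ) (K : ℕ)
    (hp : ∀ i < N, p (S i).heads = true) (hb : ∀ i < N, Runs c (S i) (S (i + 1)) K)
    (hN : p (S N).heads = false) : Runs (.loop p c) (S 0) (S N) (N * (K + 1) + 1) := by
  have key : ∀ m ≤ N, Runs (.loop p c) (S (N - m)) (S N) (m * (K + 1) + 1) := by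
    intro m
    induction m with
    | zero => intro _; simpa using Runs.loopF hN
    | succ m ih =>
      intro hm
      have h1 := ih (by omega)
      have h2 := hb (N - (m + 1)) (by omega)
      have e : N - (m + 1) + 1 = N - m := by omega
      rw [e] at h2
      refine (Runs.loopT (hp _ (by omega)) h2 h1).mono ?_
      rw [Nat.succ_mul]; omega
  simpa using key N le_rfl

end rules

end Vale.Agent.P338
end

section

/-! Symbols, unary counters, and basic loops. -/

namespace Vale.Agent.P338

/-- Register symbols: bits, a mark, a sentinel, and further symbols. -/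
inductive Sy (α : Type) where
  | bit (b : Bool)
  | mark
  | sent
  | ext (a : α)

/-- Is this optional symbol the mark? -/
def isMark {α : Type} : Option (Sy α) → Bool
  | some .mark => true
  | _ => false

/-- Is this optional symbol a bit? -/
def isBit {α : Type} : Option (Sy α) → Bool
  | some (.bit _) => true
  | _ => false

/-- Is this optional symbol the bit one? -/
def isOne {α : Type} : Option (Sy α) → Bool
  | some (.bit true) => true
  | _ => false

theorem isOne_bit {α : Type} (b : Bool) : isOne (some (.bit b : Sy α)) = b := by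
  cases b <;> rfl

/-- The unary counter holding `N`. -/
def num {α : Type} (N : ℕ) : List (Sy α) := List.replicate N Sy.mark ++ [Sy.sent]

/-- A list of bits as register content. -/
def bs {α : Type} (l : List Bool) : List (Sy α) := l.map .bit

@[simp] theorem bs_nil {α : Type} : (bs [] : List (Sy α)) = [] := rfl
@[simp] theorem bs_cons {α : Type} (b : Bool) (l : List Bool) :
    (bs (b :: l) : List (Sy α)) = .bit b :: bs l := rfl
@[simp] theorem bs_append {α : Type} (l m : List Bool) :
    (bs (l ++ m) : List (Sy α)) = bs l ++ bs m := by simp [bs]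
@[simp] theorem bs_length {α : Type} (l : List Bool) : (bs l : List (Sy α)).length = l.length := by
  simp [bs]
theorem bs_replicate {α : Type} (n : ℕ) (b : Bool) :
    (bs (List.replicate n b) : List (Sy α)) = List.replicate n (.bit b) := by simp [bs]

section basic
variable {ι α : Type} [DecidableEq ι]

/-- Move the front symbol of `a` to the back of `b` (rotation if `a = b`). -/
def mvB (a b : ι) : Cmd ι (Sy α) :=
  .act fun h i => { pop := decide (i = a), pb := if i = b then h a else none }

/-- Move the front symbol of `a` to the front of `b`. -/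
def mvF (a b : ι) : Cmd ι (Sy α) :=
  .act fun h i => { pop := decide (i = a), pf := if i = b then h a else none }

/-- Copy the front symbol of `a` to the back of `b`, and rotate `a`. -/
def cpB (a b : ι) : Cmd ι (Sy α) :=
  .act fun h i => { pop := decide (i = a), pb := if i = b ∨ i = a then h a else none }

/-- Push a symbol at the back of `b`. -/
def pushB (b : ι) (x : Sy α) : Cmd ι (Sy α) :=
  .act fun _ i => { pb := if i = b then some x else none }

/-- Push a symbol at the front of `b`. -/
def pushF (b : ι) (x : Sy α) : Cmd ι (Sy α) :=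
  .act fun _ i => { pf := if i = b then some x else none }

/-- Remove the front symbol of `a`. -/
def popF (a : ι) : Cmd ι (Sy α) :=
  .act fun _ i => { pop := decide (i = a) }

theorem run_mvB {a b : ι} (hab : a ≠ b) {s : Store ι (Sy α)} {x : Sy α} {l : List (Sy α)}
    (h : s a = x :: l) : Runs (mvB a b) s ((s.set a l).set b (s b ++ [x])) 1 := by
  refine Runs.act' _ fun i => ?_
  by_cases hb : i = b
  · subst hb
    simp [Act.app, Store.heads, h, hab.symm]
  · by_cases ha : i = a
    · subst ha
      simp [Act.app, h, hb]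
    · simp [Act.app, ha, hb]

theorem run_rot {a : ι} {s : Store ι (Sy α)} {x : Sy α} {l : List (Sy α)}
    (h : s a = x :: l) : Runs (mvB a a) s (s.set a (l ++ [x])) 1 := by
  refine Runs.act' _ fun i => ?_
  by_cases ha : i = a
  · subst ha
    simp [Act.app, Store.heads, h]
  · simp [Act.app, ha]

theorem run_mvF {a b : ι} (hab : a ≠ b) {s : Store ι (Sy α)} {x : Sy α} {l : List (Sy α)}
    (h : s a = x :: l) : Runs (mvF a b) s ((s.set a l).set b (x :: s b)) 1 := by
  refine Runs.act' _ fun i => ?_
  by_cases hb : i = b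
  · subst hb
    simp [Act.app, Store.heads, h, hab.symm]
  · by_cases ha : i = a
    · subst ha
      simp [Act.app, h, hb]
    · simp [Act.app, ha, hb]

theorem run_cpB {a b : ι} (hab : a ≠ b) {s : Store ι (Sy α)} {x : Sy α} {l : List (Sy α)}
    (h : s a = x :: l) : Runs (cpB a b) s ((s.set a (l ++ [x])).set b (s b ++ [x])) 1 := by
  refine Runs.act' _ fun i => ?_
  by_cases hb : i = b
  · subst hb
    simp [Act.app, Store.heads, h, hab.symm]
  · by_cases ha : i = a
    · subst ha
      simp [Act.app, Store.heads, h, hb]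
    · simp [Act.app, ha, hb]

theorem run_pushB {b : ι} {s : Store ι (Sy α)} (x : Sy α) :
    Runs (pushB b x) s (s.set b (s b ++ [x])) 1 := by
  refine Runs.act' _ fun i => ?_
  by_cases hb : i = b
  · subst hb; simp [Act.app]
  · simp [Act.app, hb]

theorem run_pushF {b : ι} {s : Store ι (Sy α)} (x : Sy α) :
    Runs (pushF b x) s (s.set b (x :: s b)) 1 := by
  refine Runs.act' _ fun i => ?_
  by_cases hb : i = b
  · subst hb; simp [Act.app]
  · simp [Act.app, hb]

theorem run_popF {a : ι} {s : Store ι (Sy α)} :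
    Runs (popF a) s (s.set a (s a).tail) 1 := by
  refine Runs.act' _ fun i => ?_
  by_cases ha : i = a
  · subst ha; simp [Act.app]
  · simp [Act.app, ha]

/-- Run `body` as often as the counter `c` says.  The counter is rotated meanwhile and restored at
the end. -/
def forN (c : ι) (body : Cmd ι (Sy α)) : Cmd ι (Sy α) :=
  .seq (.loop (fun h => isMark (h c)) (.seq (mvB c c) body)) (mvB c c)

theorem Runs.forN {c : ι} {body : Cmd ι (Sy α)} (N : ℕ) (S : ℕ → Store ι (Sy α)) (K : ℕ)
    (hc : ∀ i, S i c = num N)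
    (hb : ∀ i < N, ∀ x, Runs body ((S i).set c x) ((S (i + 1)).set c x) K) :
    Runs (forN c body) (S 0) (S N) (N * (K + 2) + 2) := by
  let cc : ℕ → List (Sy α) := fun i =>
    List.replicate (N - i) Sy.mark ++ [Sy.sent] ++ List.replicate i Sy.mark
  have h1 : Runs (.loop (fun h => isMark (h c)) (.seq (mvB c c) body))
      ((S 0).set c (cc 0)) ((S N).set c (cc N)) (N * ((K + 1) + 1) + 1) := by
    refine Runs.loopN N (fun i => (S i).set c (cc i)) (K + 1) ?_ ?_ ?_
    · intro i hi
      obtain ⟨m, hm⟩ : ∃ m, N - i = m + 1 := ⟨N - i - 1, by omega⟩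
      simp [Store.heads, cc, hm, List.replicate_succ, isMark]
    · intro i hi
      obtain ⟨m, hm⟩ : ∃ m, N - i = m + 1 := ⟨N - i - 1, by omega⟩
      have e1 : cc i = Sy.mark :: (List.replicate m Sy.mark ++ [Sy.sent] ++ List.replicate i Sy.mark) := by
        simp [cc, hm, List.replicate_succ]
      have e2 : (List.replicate m Sy.mark ++ [Sy.sent] ++ List.replicate i Sy.mark) ++ [Sy.mark]
          = cc (i + 1) := by
        have : N - (i + 1) = m := by omega
        simp only [cc, this, List.append_assoc]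
        rw [← List.replicate_succ' (n := i)]
      have r1 : Runs (mvB c c) ((S i).set c (cc i)) ((S i).set c (cc (i + 1))) 1 := by
        have := run_rot (a := c) (s := (S i).set c (cc i)) (x := Sy.mark)
          (l := List.replicate m Sy.mark ++ [Sy.sent] ++ List.replicate i Sy.mark) (by simp [e1])
        rw [e2] at this
        simpa using this
      exact (r1.seq (hb i hi (cc (i + 1)))).mono (by omega)
    · simp [Store.heads, cc, isMark]
  have h2 : Runs (mvB c c) ((S N).set c (cc N)) (S N) 1 := by
    have := run_rot (a := c) (s := (S N).set c (cc N)) (x := Sy.sent)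
      (l := List.replicate N Sy.mark) (by simp [cc])
    have e : (List.replicate N Sy.mark ++ [Sy.sent] : List (Sy α)) = S N c := by
      rw [hc]; rfl
    rw [e] at this
    simpa using this
  have e0 : (S 0).set c (cc 0) = S 0 := by
    apply Store.set_eq_self
    rw [hc]; simp [cc, num]
  rw [e0] at h1
  exact (h1.seq h2).mono (le_of_eq (by ring))

/-- Move as many symbols as `c` says from the front of `a` to the back of `b`. -/
def moveN (c a b : ι) : Cmd ι (Sy α) := forN c (mvB a b)

theorem run_moveN {c a b : ι} (hca : c ≠ a) (hcb : c ≠ b) (hab : a ≠ b)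
    {s : Store ι (Sy α)} {N : ℕ} {l rest : List (Sy α)} (hc : s c = num N)
    (ha : s a = l ++ rest) (hl : l.length = N) :
    Runs (moveN c a b) s ((s.set a rest).set b (s b ++ l)) (3 * N + 2) := by
  have key := Runs.forN (c := c) (body := mvB a b) N
    (fun i => (s.set a (l.drop i ++ rest)).set b (s b ++ l.take i)) 1
    (by intro i; simp [hca, hcb, hc])
    (by
      intro i hi x
      have hi' : i < l.length := by omega
      have e1 : l.drop i ++ rest = l[i] :: (l.drop (i + 1) ++ rest) := by
        rw [List.drop_eq_getElem_cons hi']; rfl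
      have e2 : s b ++ l.take (i + 1) = (s b ++ l.take i) ++ [l[i]] := by
        rw [List.take_succ_eq_append_getElem hi', List.append_assoc]
      have := run_mvB (a := a) (b := b) hab
        (s := ((s.set a (l.drop i ++ rest)).set b (s b ++ l.take i)).set c x)
        (x := l[i]) (l := l.drop (i + 1) ++ rest)
        (by rw [Store.set_ne _ _ hca.symm, Store.set_ne _ _ hab, Store.set_same, e1])
      convert this using 1
      rw [Store.set_ne _ _ hcb.symm, Store.set_same, e2]
      apply Store.ext'
      intro r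
      simp only [Store.set]
      clear this
      split_ifs <;> simp_all)
  simp only [List.drop_zero, List.take_zero, List.append_nil] at key
  rw [← hl] at key
  simp only [List.drop_length, List.take_length, List.nil_append] at key
  rw [hl] at key
  have e0 : (s.set a (l ++ rest)).set b (s b) = s := by
    rw [Store.set_eq_self s ha, Store.set_self]
  rw [e0] at key
  exact key.mono (by omega)

end basic

end Vale.Agent.P338
end

section

/-! The registers and the text of the transposition program. -/

namespace Vale.Agent.P338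

/-- Main registers. -/
inductive R where
  /- input and output -/
  | inp | out
  /- data, backup of the data, data integer, kernel integer, product -/
  | D | B | C | G | P
  /- scratch strings: element, element, row, one-hot strings, carry, success flag -/
  | X | Y | RW | H | H2 | H3 | CY | FL
  /- counters: q, q, q, E = q * e, e, h, number of blocks, M, M, three variable counters -/
  | q1 | q2 | q3 | nE | ne | nh | nA | M1 | M2 | A1 | A2 | A3
  /- recursion: current size, stack of parities, size minus one, and others -/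
  | K | LV | OD | N1 | N2 | N3 | N4 | N5
  /- state register of the simulation -/
  | ST
  deriving DecidableEq

/-- All registers: the main ones and two for every tape of the simulated machine. -/
inductive Reg (τ : Type) where
  | r (x : R)
  | tl (i : τ)
  | tr (i : τ)
  deriving DecidableEq

section macros
variable {ι α : Type} [DecidableEq ι]

/-- Sequence of a list of commands. -/
def sq : List (Cmd ι (Sy α)) → Cmd ι (Sy α)
  | [] => .act fun _ _ => {}
  | c :: l => .seq c (sq l)

/-- Empty the register `a`. -/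
def clr (a : ι) : Cmd ι (Sy α) := .loop (fun h => (h a).isSome) (popF a)

/-- Append the whole content of `a` to `b`, emptying `a`. -/
def mvAll (a b : ι) : Cmd ι (Sy α) := .loop (fun h => (h a).isSome) (mvB a b)

/-- Append to the back of `b` `k` copies of the symbol `x`. -/
def pushK (k : ℕ) (b : ι) (x : Sy α) : Cmd ι (Sy α) := sq (List.replicate k (pushB b x))

/-- Append `k * N` copies of `x` to `b`, `N` the content of the counter `c`. -/
def fillN (k : ℕ) (c b : ι) (x : Sy α) : Cmd ι (Sy α) := forN c (pushK k b x)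

/-- Remove `k * N` symbols from the front of `a`. -/
def dropN (k : ℕ) (c a : ι) : Cmd ι (Sy α) := forN c (sq (List.replicate k (popF a)))

/-- Make `c` (an empty register) the counter `0`. -/
def zeroC (c : ι) : Cmd ι (Sy α) := pushB c .sent

/-- Add `k * N` to the counter `c`, `N` the content of the counter `d`. -/
def addC (k : ℕ) (d c : ι) : Cmd ι (Sy α) := forN d (sq (List.replicate k (pushF c .mark)))

/-- Subtract `k * N` from the counter `c`, `N` the content of the counter `d`. -/
def subC (k : ℕ) (d c : ι) : Cmd ι (Sy α) := dropN k d c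

/-- Rotate `a` by the content of the counter `c`. -/
def rotN (c a : ι) : Cmd ι (Sy α) := forN c (mvB a a)

/-- Copy the first `2N` symbols of `a`, of length `2N`, to `b` (`N` the content of `c`). -/
def cpy2 (c a b : ι) : Cmd ι (Sy α) := forN c (.seq (cpB a b) (cpB a b))

end macros

section progs
variable {τ α : Type} [DecidableEq τ]

/-- One step of addition: adds the front bits of `X`, `P` and the carry. -/
def addStep : Cmd (Reg τ) (Sy α) :=
  .act fun h i =>
    let a := isOne (h (.r .X)); let b := isOne (h (.r .P)); let c := isOne (h (.r .CY))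
    if i = .r .X then { pop := true, pb := some (.bit (Bool.xor (Bool.xor a b) c)) }
    else if i = .r .P then { pop := true }
    else if i = .r .CY then { pop := true, pf := some (.bit ((a && b) || (c && (a || b)))) }
    else {}

/-- Reads a slot of `8E` bits from `P`, puts its reduction modulo `2^(2E)-1` in `X`. -/
def foldP : Cmd (Reg τ) (Sy α) := sq [
  fillN 2 (.r .nE) (.r .X) (.bit false),
  pushB (.r .CY) (.bit false),
  forN (.r .nE) (.seq addStep addStep), forN (.r .nE) (.seq addStep addStep),
  forN (.r .nE) (.seq addStep addStep), forN (.r .nE) (.seq addStep addStep),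
  popF (.r .CY)]

/-- Rotates `X` by the position of the one in `a`; `a` of length `2E` is kept. -/
def rotH (a : Reg τ) : Cmd (Reg τ) (Sy α) := sq [
  cpy2 (.r .nE) a (.r .H2),
  .loop (fun h => !isOne (h (.r .H2))) (.seq (mvB (.r .H2) (.r .H2)) (mvB (.r .X) (.r .X))),
  clr (.r .H2)]

/-- Makes `H` (empty) the string `onehot (2E)`. -/
def mkH : Cmd (Reg τ) (Sy α) := sq [
  fillN 2 (.r .nE) (.r .H) (.bit false), popF (.r .H), pushF (.r .H) (.bit true)]

/-- Makes `H` (empty) the string of length `2E` with the one at index `h`. -/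
def mkHh : Cmd (Reg τ) (Sy α) := sq [
  fillN 2 (.r .nE) (.r .H) (.bit false), dropN 1 (.r .nh) (.r .H), popF (.r .H),
  pushF (.r .H) (.bit true), forN (.r .nh) (pushF (.r .H) (.bit false))]

/-- Output `X` to `C` as a slot of `8E` bits. -/
def outX : Cmd (Reg τ) (Sy α) := sq [
  moveN (.r .nE) (.r .X) (.r .C), moveN (.r .nE) (.r .X) (.r .C),
  fillN 6 (.r .nE) (.r .C) (.bit false)]

/-- Output `q` zero rows to `C`. -/
def outZ : Cmd (Reg τ) (Sy α) :=
  forN (.r .q1) (forN (.r .q2) (fillN 8 (.r .nE) (.r .C) (.bit false)))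

/-- Encode: move `E` bits `x` from `RW` to `X` as `not x ++ x`. -/
def encRW : Cmd (Reg τ) (Sy α) := sq [
  forN (.r .nE) (.act fun h i =>
    if i = .r .RW then { pop := true }
    else if i = .r .X then { pb := some (.bit (!isOne (h (.r .RW)))) }
    else if i = .r .Y then { pb := h (.r .RW) }
    else {}),
  moveN (.r .nE) (.r .Y) (.r .X)]

/-- First pass: from `D` to `C`, counts the blocks in `nA`. -/
def pass1 : Cmd (Reg τ) (Sy α) :=
  .loop (fun h => (h (.r .D)).isSome) (sq [
    pushF (.r .nA) .mark,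
    mkH, zeroC (.r .A1), addC 1 (.r .ne) (.r .A1),
    zeroC (.r .A2), forN (.r .q1) (addC 1 (.r .nE) (.r .A2)),
    forN (.r .q1) (sq [
      forN (.r .q2) (moveN (.r .nE) (.r .D) (.r .RW)),
      rotN (.r .A2) (.r .RW),
      forN (.r .q2) (sq [encRW, rotH (.r .H), outX]),
      rotN (.r .A1) (.r .H), addC 2 (.r .ne) (.r .A1), subC 1 (.r .nE) (.r .A2)]),
    outZ, clr (.r .H), clr (.r .A1), clr (.r .A2)])

/-- A row of the kernel. -/
def kernRow : Cmd (Reg τ) (Sy α) := sq [
  cpy2 (.r .nE) (.r .H) (.r .G), fillN 6 (.r .nE) (.r .G) (.bit false),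
  forN (.r .A3) (fillN 8 (.r .nE) (.r .G) (.bit false)),
  rotN (.r .A1) (.r .H), addC 2 (.r .ne) (.r .A1)]

/-- The kernel, in `G`. -/
def kernP : Cmd (Reg τ) (Sy α) := sq [
  mkH, zeroC (.r .A1), addC 1 (.r .ne) (.r .A1),
  zeroC (.r .A3), addC 1 (.r .q1) (.r .A3), popF (.r .A3),
  forN (.r .q1) kernRow, forN (.r .q1) kernRow,
  clr (.r .H), clr (.r .A1), clr (.r .A3)]

/-- Skip `q` rows of `P`. -/
def skipP : Cmd (Reg τ) (Sy α) := forN (.r .q1) (forN (.r .q2) (dropN 8 (.r .nE) (.r .P)))

/-- Second pass: from `P` to `C`. -/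
def pass2 : Cmd (Reg τ) (Sy α) :=
  forN (.r .nA) (sq [
    skipP,
    mkH, zeroC (.r .A1), addC 2 (.r .ne) (.r .A1), zeroC (.r .A2), addC 2 (.r .nE) (.r .A2),
    forN (.r .q1) (sq [
      cpy2 (.r .nE) (.r .H) (.r .H3),
      forN (.r .q2) (sq [foldP, rotH (.r .H3), rotN (.r .A2) (.r .H3), outX]),
      clr (.r .H3),
      rotN (.r .A1) (.r .H), addC 4 (.r .ne) (.r .A1), subC 2 (.r .ne) (.r .A2)]),
    outZ, clr (.r .H), clr (.r .A1), clr (.r .A2)])

/-- Third pass: from `P` to `D`. -/
def pass3 : Cmd (Reg τ) (Sy α) :=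
  forN (.r .nA) (sq [
    skipP,
    mkHh, zeroC (.r .A1), addC 1 (.r .ne) (.r .A1), zeroC (.r .A2),
    forN (.r .q1) (sq [
      forN (.r .q2) (sq [foldP, rotH (.r .H), dropN 1 (.r .nE) (.r .X),
        moveN (.r .nE) (.r .X) (.r .RW)]),
      rotN (.r .A2) (.r .RW), forN (.r .q2) (moveN (.r .nE) (.r .RW) (.r .D)),
      rotN (.r .A1) (.r .H), addC 2 (.r .ne) (.r .A1), addC 1 (.r .nE) (.r .A2)]),
    clr (.r .H), clr (.r .A1), clr (.r .A2)])

/-- Interleave: `g` a counter; every block of `2 g` entries of `A1` symbols of `D`: first the first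
half is moved to `X`, then entries are taken alternately from both halves. -/
def ilv (g : Reg τ) : Cmd (Reg τ) (Sy α) := sq [
  .loop (fun h => (h (.r .D)).isSome) (sq [
    forN g (moveN (.r .A1) (.r .D) (.r .X)),
    forN g (.seq (moveN (.r .A1) (.r .X) (.r .C)) (moveN (.r .A1) (.r .D) (.r .C)))]),
  mvAll (.r .C) (.r .D)]

/-- Deinterleave: the inverse operation. -/
def dilv (g : Reg τ) : Cmd (Reg τ) (Sy α) := sq [
  .loop (fun h => (h (.r .D)).isSome) (sq [
    forN g (.seq (moveN (.r .A1) (.r .D) (.r .C)) (moveN (.r .A1) (.r .D) (.r .X))),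
    mvAll (.r .X) (.r .C)]),
  mvAll (.r .C) (.r .D)]

/-- Double the counter `a` using the empty register `b`. -/
def dblC (a b : Reg τ) : Cmd (Reg τ) (Sy α) := sq [
  zeroC b, addC 1 a b, addC 1 b a, clr b]

/-- Naive transposition of all `q × q` blocks of entries of `E` symbols of `D`. -/
def naive : Cmd (Reg τ) (Sy α) := sq [
  zeroC (.r .A1), addC 1 (.r .nE) (.r .A1),
  forN (.r .nh) (sq [ilv (.r .q1), dblC (.r .A1) (.r .A3)]),
  clr (.r .A1)]

/-- Copy `D` to `B` (using the empty register `X`). -/
def backup : Cmd (Reg τ) (Sy α) := sq [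
  .loop (fun h => (h (.r .D)).isSome) (.act fun h i =>
    if i = .r .D then { pop := true }
    else if i = .r .B ∨ i = .r .X then { pb := h (.r .D) } else {}),
  mvAll (.r .X) (.r .D)]

/-- The adaptive transposition of all `q × q` blocks of `D`, `mulP` being the clocked
multiplication program. -/
def swapP (mulP : Cmd (Reg τ) (Sy α)) : Cmd (Reg τ) (Sy α) := sq [
  backup, zeroC (.r .nA), pass1, kernP, mulP,
  .ite (fun h => (h (.r .FL)).isSome)
    (sq [clr (.r .FL), pass2, clr (.r .P), kernP, mulP,
      .ite (fun h => (h (.r .FL)).isSome)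
        (sq [pass3, clr (.r .P)])
        (sq [])])
    (sq []),
  .ite (fun h => (h (.r .FL)).isSome)
    (sq [clr (.r .FL), clr (.r .B)])
    (sq [mvAll (.r .B) (.r .D), naive]),
  clr (.r .nA)]

/-- `q1 := 2^h`, `q2 := 2^h`, `h` the content of `nh`. -/
def mkQ : Cmd (Reg τ) (Sy α) := sq [
  zeroC (.r .q1), pushF (.r .q1) .mark, forN (.r .nh) (dblC (.r .q1) (.r .A3)),
  zeroC (.r .q2), addC 1 (.r .q1) (.r .q2)]

/-- `c := q^2` (`c` empty). -/
def mkSq (c : Reg τ) : Cmd (Reg τ) (Sy α) := sq [
  zeroC c, forN (.r .q1) (addC 1 (.r .q2) c)]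

/-- Transposition of all `q × q` blocks of entries of `q` symbols. -/
def swap1 (mulP : Cmd (Reg τ) (Sy α)) : Cmd (Reg τ) (Sy α) := sq [
  zeroC (.r .ne), pushF (.r .ne) .mark, zeroC (.r .nE), addC 1 (.r .q1) (.r .nE),
  swapP mulP, clr (.r .ne), clr (.r .nE)]

/-- Transposition of all `q × q` blocks of entries of `q^2` symbols. -/
def swap2 (mulP : Cmd (Reg τ) (Sy α)) : Cmd (Reg τ) (Sy α) := sq [
  zeroC (.r .ne), addC 1 (.r .q1) (.r .ne), mkSq (.r .nE),
  swapP mulP, clr (.r .ne), clr (.r .nE)]

/-- `K` holds `k - 1`, `k ≥ 2`; makes `nh := k / 2`, `OD := [bit (k odd)]`, empties `K`. -/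
def halve : Cmd (Reg τ) (Sy α) := sq [
  zeroC (.r .nh), pushB (.r .OD) (.bit false),
  .loop (fun h => isMark (h (.r .K))) (sq [
    popF (.r .K), pushF (.r .nh) .mark, popF (.r .OD),
    .ite (fun h => isMark (h (.r .K)))
      (sq [popF (.r .K), pushB (.r .OD) (.bit true)])
      (sq [pushB (.r .OD) (.bit false)])]),
  clr (.r .K)]

/-- One level down: `K` holds `k - 1` with `k ≥ 2`, afterwards `k / 2 - 1`. -/
def downBody (mulP : Cmd (Reg τ) (Sy α)) : Cmd (Reg τ) (Sy α) := sq [
  halve, mkQ,
  .ite (fun h => isOne (h (.r .OD)))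
    (sq [mkSq (.r .A1), zeroC (.r .q3), addC 2 (.r .A1) (.r .q3), dilv (.r .q3),
      clr (.r .q3), clr (.r .A1)])
    (sq []),
  swap1 mulP, swap2 mulP,
  mvF (.r .OD) (.r .LV),
  zeroC (.r .K), addC 1 (.r .nh) (.r .K), popF (.r .K),
  clr (.r .nh), clr (.r .q1), clr (.r .q2)]

/-- One level up: `K` holds `h - 1`, afterwards `2 h - 1` or `2 h`. -/
def upBody (mulP : Cmd (Reg τ) (Sy α)) : Cmd (Reg τ) (Sy α) := sq [
  zeroC (.r .nh), addC 1 (.r .K) (.r .nh), pushF (.r .nh) .mark, mkQ,
  swap1 mulP,
  mvF (.r .LV) (.r .OD),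
  dblC (.r .K) (.r .A3), pushF (.r .K) .mark,
  .ite (fun h => isOne (h (.r .OD)))
    (sq [pushF (.r .K) .mark, mkSq (.r .A1), zeroC (.r .q3), addC 1 (.r .A1) (.r .q3),
      ilv (.r .q3), clr (.r .q3), clr (.r .A1)])
    (sq []),
  clr (.r .OD), clr (.r .nh), clr (.r .q1), clr (.r .q2)]

/-- Transposition of all `2 × 2` blocks of symbols of `D`. -/
def midP : Cmd (Reg τ) (Sy α) := sq [
  zeroC (.r .A1), pushF (.r .A1) .mark,
  zeroC (.r .q3), pushF (.r .q3) .mark, pushF (.r .q3) .mark,
  ilv (.r .q3), clr (.r .A1), clr (.r .q3)]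

/-- Transposition of a `2^k × 2^k` matrix in `D`, `K` holds `k - 1`. -/
def coreP (mulP : Cmd (Reg τ) (Sy α)) : Cmd (Reg τ) (Sy α) := sq [
  .loop (fun h => isMark (h (.r .K))) (downBody mulP),
  midP,
  .loop (fun h => (h (.r .LV)).isSome) (upBody mulP)]

/-- `N1 := n` from the input of length `n^2`. -/
def rootP : Cmd (Reg τ) (Sy α) := sq [
  .loop (fun h => (h (.r .inp)).isSome) (.act fun h i =>
    if i = .r .inp then { pop := true }
    else if i = .r .X ∨ i = .r .Y then { pb := h (.r .inp) } else {}),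
  mvAll (.r .Y) (.r .inp),
  zeroC (.r .N1), zeroC (.r .N2), pushF (.r .N2) .mark,
  .loop (fun h => (h (.r .X)).isSome) (sq [
    dropN 1 (.r .N2) (.r .X), pushF (.r .N2) .mark, pushF (.r .N2) .mark,
    pushF (.r .N1) .mark]),
  clr (.r .N2)]

/-- Pad the matrix to `2^k × 2^k`, into `D`. -/
def padP : Cmd (Reg τ) (Sy α) := sq [
  forN (.r .N1) (.seq (moveN (.r .N2) (.r .inp) (.r .D)) (fillN 1 (.r .N5) (.r .D) (.bit false))),
  forN (.r .N5) (fillN 1 (.r .N3) (.r .D) (.bit false))]

/-- Extract the `n × n` part of `D`, to `out`. -/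
def cutP : Cmd (Reg τ) (Sy α) := sq [
  forN (.r .N1) (.seq (moveN (.r .N2) (.r .D) (.r .out)) (dropN 1 (.r .N5) (.r .D))),
  clr (.r .D)]

end progs

end Vale.Agent.P338
end

section

/-! Correctness and cost of the basic macros. -/

namespace Vale.Agent.P338
open Reg R

section
variable {ι α : Type} [DecidableEq ι]

omit [DecidableEq ι] in
/-- Adjust the final store and the cost bound. -/
theorem Runs.cast {c : Cmd ι (Sy α)} {s s1 s2 : Store ι (Sy α)} {T1 T2 : ℕ}
    (h : Runs c s s1 T1) (e : s1 = s2) (hT : T1 ≤ T2) : Runs c s s2 T2 := e ▸ h.mono hT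

omit [DecidableEq ι] in
theorem run_sq_nil {s : Store ι (Sy α)} : Runs (sq []) s s 1 := by
  refine Runs.act' _ fun i => ?_
  simp [Act.app]

omit [DecidableEq ι] in
theorem run_sq_cons {c : Cmd ι (Sy α)} {l : List (Cmd ι (Sy α))} {s s1 s2 : Store ι (Sy α)}
    {T1 T2 : ℕ} (h1 : Runs c s s1 T1) (h2 : Runs (sq l) s1 s2 T2) :
    Runs (sq (c :: l)) s s2 (T1 + T2) := h1.seq h2

omit [DecidableEq ι] in
/-- A list of commands each of which runs `S i → S (i+1)` in at most `K`. -/
theorem run_sq_replicate {c : Cmd ι (Sy α)} (k : ℕ) (S : ℕ → Store ι (Sy α)) (K : ℕ)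
    (h : ∀ i < k, Runs c (S i) (S (i + 1)) K) :
    Runs (sq (List.replicate k c)) (S 0) (S k) (k * K + 1) := by
  induction k generalizing S with
  | zero => simpa using run_sq_nil
  | succ k ih =>
    rw [List.replicate_succ]
    refine (run_sq_cons (h 0 (by omega)) (ih (fun i => S (i + 1))
      (fun i hi => h (i + 1) (by omega)))).mono ?_
    rw [Nat.succ_mul]; omega

theorem run_clr {a : ι} {s : Store ι (Sy α)} :
    Runs (clr a) s (s.set a []) (2 * (s a).length + 1) := by
  have key := Runs.loopN (c := popF a) (p := fun h => (h a).isSome) (s a).length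
    (fun i => s.set a ((s a).drop i)) 1
    (by
      intro i hi
      simp only [Store.heads, Store.set_same]
      rw [List.drop_eq_getElem_cons hi]; rfl)
    (by
      intro i hi
      have := run_popF (a := a) (s := s.set a ((s a).drop i))
      simpa using this)
    (by simp [Store.heads])
  simp only [List.drop_zero, Store.set_self, List.drop_length] at key
  exact key.mono (by omega)

theorem run_mvAll {a b : ι} (hab : a ≠ b) {s : Store ι (Sy α)} :
    Runs (mvAll a b) s ((s.set a []).set b (s b ++ s a)) (2 * (s a).length + 1) := by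
  have key := Runs.loopN (c := mvB a b) (p := fun h => (h a).isSome) (s a).length
    (fun i => (s.set a ((s a).drop i)).set b (s b ++ (s a).take i)) 1
    (by
      intro i hi
      simp only [Store.heads]
      rw [Store.set_ne _ _ hab, Store.set_same, List.drop_eq_getElem_cons hi]; rfl)
    (by
      intro i hi
      have := run_mvB (a := a) (b := b) hab
        (s := (s.set a ((s a).drop i)).set b (s b ++ (s a).take i))
        (x := (s a)[i]) (l := (s a).drop (i + 1))
        (by rw [Store.set_ne _ _ hab, Store.set_same, List.drop_eq_getElem_cons hi])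
      convert this using 1
      rw [Store.set_same, List.append_assoc, ← List.take_succ_eq_append_getElem hi]
      apply Store.ext'
      intro r
      simp only [Store.set]
      clear hi this
      split_ifs <;> simp_all)
    (by simp [Store.heads, hab])
  simp only [List.drop_zero, List.take_zero, List.append_nil, Store.set_self, List.drop_length,
    List.take_length] at key
  exact key.mono (by omega)

theorem run_fillN {k : ℕ} {c b : ι} {x : Sy α} (hcb : c ≠ b) {s : Store ι (Sy α)} {N : ℕ}
    (hc : s c = num N) :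
    Runs (fillN k c b x) s (s.set b (s b ++ List.replicate (k * N) x)) (N * (k + 3) + 2) := by
  have key := Runs.forN (c := c) (body := pushK k b x) N
    (fun i => s.set b (s b ++ List.replicate (k * i) x)) (k + 1)
    (by intro i; simp [hcb, hc])
    (by
      intro i _ y
      have := run_sq_replicate (c := pushB b x) k
        (fun j => (s.set b (s b ++ List.replicate (k * i + j) x)).set c y) 1
        (by
          intro j _
          have := run_pushB (b := b) (s := (s.set b (s b ++ List.replicate (k * i + j) x)).set c y) x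
          convert this using 1
          rw [Store.set_ne _ _ hcb.symm, Store.set_same, List.append_assoc,
            ← List.replicate_succ']
          apply Store.ext'
          intro r
          simp only [Store.set]
          clear this
          split_ifs <;> simp_all [Nat.add_assoc])
      simp only [Nat.add_zero, Nat.mul_one] at this
      rw [Nat.mul_succ]
      exact this)
  simp only [Nat.mul_zero, List.replicate_zero, List.append_nil, Store.set_self] at key
  exact key.mono (by ring_nf; omega)

theorem run_dropN {k : ℕ} {c a : ι} (hca : c ≠ a) {s : Store ι (Sy α)} {N : ℕ}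
    (hc : s c = num N) :
    Runs (dropN k c a) s (s.set a ((s a).drop (k * N))) (N * (k + 3) + 2) := by
  have key := Runs.forN (c := c) (body := sq (List.replicate k (popF a))) N
    (fun i => s.set a ((s a).drop (k * i))) (k + 1)
    (by intro i; simp [hca, hc])
    (by
      intro i _ y
      have := run_sq_replicate (c := popF (α := α) a) k
        (fun j => (s.set a ((s a).drop (k * i + j))).set c y) 1
        (by
          intro j _
          have := run_popF (a := a) (s := (s.set a ((s a).drop (k * i + j))).set c y)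
          convert this using 1
          rw [Store.set_ne _ _ hca.symm, Store.set_same, List.tail_drop]
          apply Store.ext'
          intro r
          simp only [Store.set]
          clear this
          split_ifs <;> simp_all [Nat.add_assoc])
      simp only [Nat.add_zero, Nat.mul_one] at this
      rw [Nat.mul_succ]
      exact this)
  simp only [Nat.mul_zero, List.drop_zero, Store.set_self] at key
  exact key.mono (by ring_nf; omega)

theorem run_zeroC {c : ι} {s : Store ι (Sy α)} (h : s c = []) :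
    Runs (zeroC c) s (s.set c (num 0)) 1 := by
  have := run_pushB (b := c) (s := s) (.sent)
  rw [h] at this
  exact this

theorem run_addC {k : ℕ} {d c : ι} (hdc : d ≠ c) {s : Store ι (Sy α)} {N m : ℕ}
    (hd : s d = num N) (hc : s c = num m) :
    Runs (addC k d c) s (s.set c (num (m + k * N))) (N * (k + 3) + 2) := by
  have key := Runs.forN (c := d) (body := sq (List.replicate k (pushF c .mark))) N
    (fun i => s.set c (num (m + k * i))) (k + 1)
    (by intro i; simp [hdc, hd])
    (by
      intro i _ y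
      have := run_sq_replicate (c := pushF (α := α) c .mark) k
        (fun j => (s.set c (num (m + k * i + j))).set d y) 1
        (by
          intro j _
          have := run_pushF (b := c) (s := (s.set c (num (m + k * i + j))).set d y) .mark
          convert this using 1
          rw [Store.set_ne _ _ hdc.symm, Store.set_same]
          have e : (Sy.mark :: num (m + k * i + j) : List (Sy α)) = num (m + k * i + (j + 1)) := by
            simp [num, ← Nat.add_assoc, List.replicate_succ]
          rw [e]
          apply Store.ext'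
          intro r
          simp only [Store.set]
          clear this
          split_ifs <;> simp_all)
      simp only [Nat.add_zero, Nat.mul_one] at this
      rw [Nat.mul_succ, ← Nat.add_assoc]
      exact this)
  simp only [Nat.mul_zero, Nat.add_zero] at key
  rw [← hc, Store.set_self] at key
  exact key.mono (by ring_nf; omega)

theorem num_drop {m j : ℕ} (h : j ≤ m) : (num m : List (Sy α)).drop j = num (m - j) := by
  unfold num
  rw [List.drop_append_of_le_length (by simpa using h), List.drop_replicate]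

theorem run_subC {k : ℕ} {d c : ι} (hdc : d ≠ c) {s : Store ι (Sy α)} {N m : ℕ}
    (hd : s d = num N) (hc : s c = num m) (hm : k * N ≤ m) :
    Runs (subC k d c) s (s.set c (num (m - k * N))) (N * (k + 3) + 2) := by
  have := run_dropN (k := k) (c := d) (a := c) hdc (s := s) (N := N) hd
  rw [hc, num_drop hm] at this
  exact this

theorem run_rotN {c a : ι} (hca : c ≠ a) {s : Store ι (Sy α)} {N : ℕ} (hc : s c = num N) :
    Runs (rotN c a) s (s.set a ((s a).rotate N)) (3 * N + 2) := by
  have hrot : ∀ (s : Store ι (Sy α)), Runs (mvB a a) s (s.set a ((s a).rotate 1)) 1 := by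
    intro s
    rcases hs : s a with _ | ⟨x, l⟩
    · refine Runs.act' _ fun i => ?_
      by_cases ha : i = a
      · subst ha; simp [Act.app, Store.heads, hs]
      · simp [Act.app, ha]
    · have := run_rot hs
      simpa [hs] using this
  have key := Runs.forN (c := c) (body := mvB a a) N
    (fun i => s.set a ((s a).rotate i)) 1
    (by intro i; simp [hca, hc])
    (by
      intro i _ y
      have := hrot ((s.set a ((s a).rotate i)).set c y)
      convert this using 1
      rw [Store.set_ne _ _ hca.symm, Store.set_same, List.rotate_rotate]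
      apply Store.ext'
      intro r
      simp only [Store.set]
      clear hrot this
      split_ifs <;> simp_all)
  simp only [List.rotate_zero, Store.set_self] at key
  exact key.mono (by omega)

theorem run_cpy2 {c a b : ι} (hca : c ≠ a) (hcb : c ≠ b) (hab : a ≠ b) {s : Store ι (Sy α)}
    {N : ℕ} (hc : s c = num N) (ha : (s a).length = 2 * N) :
    Runs (cpy2 c a b) s (s.set b (s b ++ s a)) (5 * N + 2) := by
  have hstep : ∀ j < 2 * N, ∀ y, Runs (cpB a b)
      (((s.set a ((s a).rotate j)).set b (s b ++ (s a).take j)).set c y)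
      (((s.set a ((s a).rotate (j + 1))).set b (s b ++ (s a).take (j + 1))).set c y) 1 := by
    intro j hj y
    have hj' : j < (s a).length := by omega
    have hr : (s a).rotate j = (s a)[j] :: ((s a).drop (j + 1) ++ (s a).take j) := by
      rw [List.rotate_eq_drop_append_take (by omega), List.drop_eq_getElem_cons hj']; rfl
    have hr' : (s a).rotate (j + 1) = ((s a).drop (j + 1) ++ (s a).take j) ++ [(s a)[j]] := by
      rw [List.rotate_eq_drop_append_take (by omega), List.append_assoc,
        ← List.take_succ_eq_append_getElem hj']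
    have := run_cpB (a := a) (b := b) hab
      (s := ((s.set a ((s a).rotate j)).set b (s b ++ (s a).take j)).set c y)
      (x := (s a)[j]) (l := (s a).drop (j + 1) ++ (s a).take j)
      (by rw [Store.set_ne _ _ hca.symm, Store.set_ne _ _ hab, Store.set_same, hr])
    convert this using 1
    rw [← hr', Store.set_ne _ _ hcb.symm, Store.set_same, List.append_assoc (s b),
      ← List.take_succ_eq_append_getElem hj']
    apply Store.ext'
    intro r
    simp only [Store.set]
    clear this
    split_ifs <;> simp_all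
  have key := Runs.forN (c := c) (body := .seq (cpB a b) (cpB a b)) N
    (fun i => (s.set a ((s a).rotate (2 * i))).set b (s b ++ (s a).take (2 * i))) 2
    (by intro i; simp [hca, hcb, hc])
    (by
      intro i hi y
      have h1 := hstep (2 * i) (by omega) y
      have h2 := hstep (2 * i + 1) (by omega) y
      exact (h1.seq h2).mono (by omega))
  simp only [Nat.mul_zero, List.rotate_zero, List.take_zero, List.append_nil, Store.set_self]
    at key
  rw [← ha, List.rotate_length, List.take_length, Store.set_self] at key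
  exact key.mono (by omega)

theorem run_dblC {τ : Type} [DecidableEq τ] {a b : Reg τ} (hab : a ≠ b)
    {s : Store (Reg τ) (Sy α)} {N : ℕ} (ha : s a = num N) (hb : s b = []) :
    Runs (dblC a b) s (s.set a (num (2 * N))) (10 * N + 20) := by
  have h1 := run_zeroC (c := b) (s := s) hb
  have h2 := run_addC (k := 1) (d := a) (c := b) hab (s := s.set b (num 0)) (N := N) (m := 0)
    (by simp [hab, ha]) (by simp)
  have h3 := run_addC (k := 1) (d := b) (c := a) hab.symm
    (s := (s.set b (num 0)).set b (num (0 + 1 * N))) (N := N) (m := N)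
    (by simp) (by simp [hab, ha])
  have h4 := run_clr (a := b)
    (s := ((s.set b (num 0)).set b (num (0 + 1 * N))).set a (num (N + 1 * N)))
  have h := run_sq_cons h1 (run_sq_cons h2 (run_sq_cons h3 (run_sq_cons h4 run_sq_nil)))
  refine Runs.cast h ?_ (by simp [hab.symm, num]; omega)
  apply Store.ext'
  intro r
  simp only [Store.set, Nat.one_mul, Nat.two_mul]
  clear h1 h2 h3 h4 h
  split_ifs <;> simp_all

end

end Vale.Agent.P338
end

section

/-! The text of the second core program, which computes with the residues modulo a prime. -/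

namespace Vale.Agent.P338
open Reg R

section small
variable {ι α : Type} [DecidableEq ι]

/-- Copy the string `a`, of the length given by `nl`, to `b`. -/
def cpL (nl a b : ι) : Cmd ι (Sy α) := forN nl (cpB a b)

/-- One step of incrementing `a` with the carry `cy`. -/
def incStep (a cy : ι) : Cmd ι (Sy α) :=
  .act fun h i =>
    let x := isOne (h a); let c := isOne (h cy)
    if i = a then { pop := true, pb := some (.bit (Bool.xor x c)) }
    else if i = cy then { pop := true, pf := some (.bit (x && c)) }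
    else {}

/-- `a := a + 1` modulo `2^l`. -/
def incr (nl a cy : ι) : Cmd ι (Sy α) := sq [
  pushB cy (.bit true), forN nl (incStep a cy), popF cy]

/-- One step of the comparison of `a` and `b`. -/
def eqStep (a b cy : ι) : Cmd ι (Sy α) :=
  .act fun h i =>
    let x := isOne (h a); let y := isOne (h b); let c := isOne (h cy)
    if i = a then { pop := true, pb := h a }
    else if i = b then { pop := true, pb := h b }
    else if i = cy then { pop := true, pf := some (.bit (c && (x == y))) }
    else {}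

/-- If the strings `a` and `b` are equal then push a mark on `fl`. -/
def eqL (nl a b cy fl : ι) : Cmd ι (Sy α) := sq [
  pushB cy (.bit true), forN nl (eqStep a b cy),
  .ite (fun h => isOne (h cy)) (pushB fl .mark) (sq []), popF cy]

/-- One step of `y := x - p`, keeping `x` and `p`; `cy` is the borrow. -/
def cmpStep (x p y cy : ι) : Cmd ι (Sy α) :=
  .act fun h i =>
    let a := isOne (h x); let b := isOne (h p); let c := isOne (h cy)
    if i = x then { pop := true, pb := h x }
    else if i = p then { pop := true, pb := h p }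
    else if i = y then { pb := some (.bit (Bool.xor (Bool.xor a b) c)) }
    else if i = cy then { pop := true, pf := some (.bit ((!a && (b || c)) || (b && c))) }
    else {}

/-- If `x ≥ p` then `x := x - p`. -/
def condSub (nl x p y cy : ι) : Cmd ι (Sy α) := sq [
  pushB cy (.bit false), forN nl (cmpStep x p y cy),
  .ite (fun h => isOne (h cy)) (clr y) (.seq (clr x) (mvAll y x)), popF cy]

/-- One step of `x := x - y`, consuming `y`. -/
def subStep (x y cy : ι) : Cmd ι (Sy α) :=
  .act fun h i =>
    let a := isOne (h x); let b := isOne (h y); let c := isOne (h cy)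
    if i = x then { pop := true, pb := some (.bit (Bool.xor (Bool.xor a b) c)) }
    else if i = y then { pop := true }
    else if i = cy then { pop := true, pf := some (.bit ((!a && (b || c)) || (b && c))) }
    else {}

/-- `x := x - y` for `y ≤ x`; `y` is emptied. -/
def subL (nl x y cy : ι) : Cmd ι (Sy α) := sq [
  pushB cy (.bit false), forN nl (subStep x y cy), popF cy]

/-- One step of long division: doubles the remainder `x`, of `l` bits and less than `p < 2^(l-1)`,
reduces it modulo `p` and puts the quotient bit in front of `mu`. -/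
def divStep (nl x p y cy mu : ι) : Cmd ι (Sy α) := sq [
  pushF x (.bit false), pushB cy (.bit false), forN nl (cmpStep x p y cy), popF x,
  .ite (fun h => isOne (h cy))
    (.seq (clr y) (pushF mu (.bit false)))
    (sq [clr x, mvAll y x, pushF mu (.bit true)]),
  popF cy]

/-- `mu := 2^l / p`, `one` holding the number one; `nl2` is a second counter holding `l`. -/
def recipP (nl nl2 x p y cy mu one : ι) : Cmd ι (Sy α) := sq [
  cpL nl one x, forN nl2 (divStep nl x p y cy mu), clr x]

end small

/-- Further registers. -/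
inductive Ex where
  | SX | SY | SZ
  | Pm | MU | ZT | HH | ONE | U | V | S | S0 | DD | G0
  | FG | HD | SK
  | nL | nL2 | nLb | nb1 | nc | qm | nk | nt | nhb | TT | kt | m0 | n2 | nd | nh1
  | W2 | W3 | WD | NU | NS
  | sST
  deriving DecidableEq

/-- Index type of the registers beyond the main ones: tapes of the first machine, tapes of the
second machine, further registers. -/
abbrev TF (τ κ : Type) := τ ⊕ (κ ⊕ Ex)

/-- All registers of the second core program. -/
abbrev RF (τ κ : Type) := Reg (TF τ κ)

/-- A further register. -/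
abbrev ex {τ κ : Type} (y : Ex) : RF τ κ := .tl (.inr (.inr y))

section progs
variable {τ κ α : Type} [DecidableEq τ] [DecidableEq κ]
open Ex

/-- Reduction of `X` modulo `p`; `sm` multiplies `SX` and `SY` to `SZ`. -/
def redX (sm : Cmd (RF τ κ) (Sy α)) : Cmd (RF τ κ) (Sy α) := sq [
  cpL (ex nL) (.r .X) (ex SX), cpL (ex nL) (ex MU) (ex SY), sm,
  dropN 1 (ex nL) (ex SZ), mvAll (ex SZ) (ex SX), cpL (ex nL) (ex Pm) (ex SY), sm,
  moveN (ex nL) (ex SZ) (.r .Y), clr (ex SZ), subL (ex nL) (.r .X) (.r .Y) (.r .CY),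
  condSub (ex nL) (.r .X) (ex Pm) (.r .Y) (.r .CY)]

/-- `X := X * v` modulo `p`. -/
def mulX (sm : Cmd (RF τ κ) (Sy α)) (v : RF τ κ) : Cmd (RF τ κ) (Sy α) := sq [
  mvAll (.r .X) (ex SX), cpL (ex nL) v (ex SY), sm,
  moveN (ex nL) (ex SZ) (.r .X), clr (ex SZ), redX sm]

/-- `a := a * v` modulo `p`. -/
def mulR (sm : Cmd (RF τ κ) (Sy α)) (a v : RF τ κ) : Cmd (RF τ κ) (Sy α) := sq [
  mvAll a (.r .X), mulX sm v, mvAll (.r .X) a]

/-- First pass: from `D` to `C`. -/
def passF1 (sm : Cmd (RF τ κ) (Sy α)) : Cmd (RF τ κ) (Sy α) := sq [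
  cpL (ex nL) (ex ONE) (ex U), cpL (ex nL) (ex HH) (ex V),
  zeroC (.r .A2), forN (.r .q1) (addC 1 (ex nb1) (.r .A2)),
  forN (.r .q1) (sq [
    forN (ex nc) (sq [
      forN (.r .q2) (moveN (ex nb1) (.r .D) (.r .RW)),
      rotN (.r .A2) (.r .RW),
      forN (.r .q2) (sq [
        moveN (ex nb1) (.r .RW) (.r .X), fillN 1 (ex nLb) (.r .X) (.bit false),
        mulX sm (ex U), mvAll (.r .X) (.r .C)])]),
    mulR sm (ex U) (ex V), mulR sm (ex V) (ex HH), subC 1 (ex nb1) (.r .A2)]),
  clr (ex U), clr (ex V), clr (.r .A2)]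

/-- A row of the kernel; `A3` holds `b * q - 1`. -/
def kernRowF (sm : Cmd (RF τ κ) (Sy α)) : Cmd (RF τ κ) (Sy α) := sq [
  cpL (ex nL) (ex U) (.r .G), forN (.r .A3) (fillN 1 (ex nL) (.r .G) (.bit false)),
  mulR sm (ex U) (ex V), mulR sm (ex V) (ex ZT)]

/-- The kernel, in `G`. -/
def kernF (sm : Cmd (RF τ κ) (Sy α)) : Cmd (RF τ κ) (Sy α) := sq [
  cpL (ex nL) (ex ONE) (ex U), cpL (ex nL) (ex ONE) (ex V),
  forN (.r .q1) (kernRowF sm), forN (.r .q1) (kernRowF sm),
  clr (ex U), clr (ex V)]

/-- Skip `q` rows of `P`. -/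
def skipF : Cmd (RF τ κ) (Sy α) :=
  forN (.r .q1) (forN (ex nc) (forN (.r .q2) (dropN 1 (ex nL) (.r .P))))

/-- Second pass: from `P` to `C`. -/
def passF2 (sm : Cmd (RF τ κ) (Sy α)) : Cmd (RF τ κ) (Sy α) := sq [
  skipF,
  cpL (ex nL) (ex ONE) (ex S0), cpL (ex nL) (ex HH) (ex DD), cpL (ex nL) (ex ONE) (ex V),
  forN (.r .q1) (sq [
    forN (ex nc) (sq [
      cpL (ex nL) (ex S0) (ex S),
      forN (.r .q2) (sq [
        moveN (ex nL) (.r .P) (.r .X), redX sm, mulX sm (ex S), mvAll (.r .X) (.r .C),
        mulR sm (ex S) (ex V)]),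
      clr (ex S)]),
    mulR sm (ex S0) (ex DD), mulR sm (ex DD) (ex HH), mulR sm (ex DD) (ex HH),
    mulR sm (ex V) (ex ZT)]),
  clr (ex S0), clr (ex DD), clr (ex V)]

/-- Third pass: from `P` to `D`. -/
def passF3 (sm : Cmd (RF τ κ) (Sy α)) : Cmd (RF τ κ) (Sy α) := sq [
  skipF,
  cpL (ex nL) (ex Pm) (ex U), popF (ex U), pushF (ex U) (.bit false),
  cpL (ex nL) (ex ONE) (ex V), zeroC (.r .A2),
  forN (.r .q1) (sq [
    forN (ex nc) (sq [
      forN (.r .q2) (sq [
        moveN (ex nL) (.r .P) (.r .X), redX sm, mulX sm (ex U),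
        moveN (ex nb1) (.r .X) (.r .RW), clr (.r .X)]),
      rotN (.r .A2) (.r .RW),
      forN (.r .q2) (moveN (ex nb1) (.r .RW) (.r .D))]),
    mulR sm (ex U) (ex V), mulR sm (ex V) (ex HH), addC 1 (ex nb1) (.r .A2)]),
  clr (ex U), clr (ex V), clr (.r .A2)]

/-- Three products with the middle field kept: from `D` to `D`. -/
def shearF (sm mulP : Cmd (RF τ κ) (Sy α)) : Cmd (RF τ κ) (Sy α) := sq [
  passF1 sm, kernF sm, mulP, passF2 sm, clr (.r .P), kernF sm, mulP, passF3 sm, clr (.r .P)]

/-- `TT` becomes a counter that starts with a mark iff `4 b ≤ k`. -/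
def testB : Cmd (RF τ κ) (Sy α) := sq [
  zeroC (ex TT), addC 1 (ex nk) (ex TT), pushF (ex TT) .mark, dropN 4 (ex nb1) (ex TT)]

/-- From `K = k - 1`: the counters `nk = k`, `W2 = W3 = 2^k`, `nb1 = nc = b = 2^t`, `nt = t`,
`nhb = b / 2`, `nL = nL2 = l = 3 (k + 1)`, `nLb = l - b`, `m0 = 2^(k-t)`. -/
def sizesF : Cmd (RF τ κ) (Sy α) := sq [
  zeroC (ex nk), addC 1 (.r .K) (ex nk), pushF (ex nk) .mark,
  zeroC (ex W2), pushF (ex W2) .mark, forN (ex nk) (dblC (ex W2) (.r .A3)),
  zeroC (ex W3), addC 1 (ex W2) (ex W3),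
  zeroC (ex nb1), pushF (ex nb1) .mark, zeroC (ex nt), zeroC (ex nhb),
  testB,
  .loop (fun h => isMark (h (ex TT))) (sq [
    clr (ex TT), clr (ex nhb), zeroC (ex nhb), addC 1 (ex nb1) (ex nhb),
    dblC (ex nb1) (.r .A3), pushF (ex nt) .mark, testB]),
  clr (ex TT),
  zeroC (ex nc), addC 1 (ex nb1) (ex nc),
  zeroC (ex nL), addC 3 (ex nk) (ex nL),
  pushF (ex nL) .mark, pushF (ex nL) .mark, pushF (ex nL) .mark,
  zeroC (ex nL2), addC 1 (ex nL) (ex nL2),
  zeroC (ex nLb), addC 1 (ex nL) (ex nLb), subC 1 (ex nb1) (ex nLb),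
  zeroC (ex kt), addC 1 (ex nk) (ex kt), subC 1 (ex nt) (ex kt),
  zeroC (ex m0), pushF (ex m0) .mark, forN (ex kt) (dblC (ex m0) (.r .A3)),
  clr (ex kt)]

/-- One step of the sieve. -/
def sieveStep : Cmd (RF τ κ) (Sy α) :=
  .act fun h i =>
    let m := isOne (h (ex HD)); let k := (h (ex SK)).isSome
    if i = ex FG then
      { pop := true, pb := if m && !k then some (.bit true) else h (ex FG) }
    else if i = ex HD then { pop := true, pb := h (ex HD) }
    else if i = ex SK then { pop := m && k }
    else {}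

/-- `FG` becomes the list of the flags `i` is composite for `i ≤ 2 m0`. -/
def sieveF : Cmd (RF τ κ) (Sy α) := sq [
  fillN 2 (ex m0) (ex FG) (.bit false), pushB (ex FG) (.bit false),
  zeroC (ex n2), addC 2 (ex m0) (ex n2), pushF (ex n2) .mark,
  zeroC (ex nd), addC 2 (ex m0) (ex nd), popF (ex nd),
  zeroC (ex nh1), pushF (ex nh1) .mark,
  forN (ex nd) (sq [
    pushF (ex HD) (.bit true), fillN 1 (ex nh1) (ex HD) (.bit false),
    pushB (ex SK) .mark, pushB (ex SK) .mark,
    forN (ex n2) sieveStep, clr (ex HD), clr (ex SK), pushF (ex nh1) .mark]),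
  clr (ex n2), clr (ex nd), clr (ex nh1)]

/-- `q1 = q2 = p - 1` and `qm = p - 2` for the least prime `p > m0`. -/
def primeF : Cmd (RF τ κ) (Sy α) := sq [
  sieveF, dropN 1 (ex m0) (ex FG), popF (ex FG),
  zeroC (.r .q1), addC 1 (ex m0) (.r .q1),
  .loop (fun h => isOne (h (ex FG))) (sq [popF (ex FG), pushF (.r .q1) .mark]),
  clr (ex FG), clr (ex m0),
  zeroC (.r .q2), addC 1 (.r .q1) (.r .q2), zeroC (ex qm), addC 1 (.r .q1) (ex qm), popF (ex qm)]

/-- The numbers `ONE`, `Pm = p`, `MU = 2^l / p`. -/
def constF : Cmd (RF τ κ) (Sy α) := sq [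
  fillN 1 (ex nL) (ex ONE) (.bit false), popF (ex ONE), pushF (ex ONE) (.bit true),
  cpL (ex nL) (ex ONE) (ex Pm), forN (.r .q1) (incr (ex nL) (ex Pm) (.r .CY)),
  recipP (ex nL) (ex nL2) (.r .X) (ex Pm) (.r .Y) (.r .CY) (ex MU) (ex ONE)]

/-- `ZT` becomes a primitive root and `HH` its inverse. -/
def rootF (sm : Cmd (RF τ κ) (Sy α)) : Cmd (RF τ κ) (Sy α) := sq [
  fillN 1 (ex nL) (ex ZT) (.bit false), pushB (.r .FL) .mark,
  .loop (fun h => (h (.r .FL)).isSome) (sq [
    clr (.r .FL), incr (ex nL) (ex ZT) (.r .CY), cpL (ex nL) (ex ZT) (.r .X),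
    forN (ex qm) (sq [
      clr (ex HH), cpL (ex nL) (.r .X) (ex HH),
      eqL (ex nL) (.r .X) (ex ONE) (.r .CY) (.r .FL), mulX sm (ex ZT)]),
    clr (.r .X)])]

/-- The counters `A3 = b q - 1`, `WD = b q - 2^k`, `NU = b (b / 2) q`, `NS = (b / 2) q`. -/
def cntF : Cmd (RF τ κ) (Sy α) := sq [
  zeroC (.r .A3), forN (ex nc) (addC 1 (.r .q1) (.r .A3)), popF (.r .A3),
  zeroC (ex WD), addC 1 (.r .A3) (ex WD), pushF (ex WD) .mark, subC 1 (ex W2) (ex WD),
  zeroC (ex NS), forN (ex nhb) (addC 1 (.r .q1) (ex NS)),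
  zeroC (ex NU), forN (ex nc) (addC 1 (ex NS) (ex NU))]

/-- Pad the `2^k × 2^k` matrix in `D` to a `b q × b q` matrix. -/
def padF : Cmd (RF τ κ) (Sy α) := sq [
  forN (ex W2) (.seq (moveN (ex W3) (.r .D) (.r .C)) (fillN 1 (ex WD) (.r .C) (.bit false))),
  forN (ex WD) (forN (ex nc) (fillN 1 (.r .q1) (.r .C) (.bit false))),
  mvAll (.r .C) (.r .D)]

/-- Extract the `2^k × 2^k` part of the `b q × b q` matrix in `D`. -/
def cutF : Cmd (RF τ κ) (Sy α) := sq [
  forN (ex W2) (.seq (moveN (ex W3) (.r .D) (.r .C)) (dropN 1 (ex WD) (.r .D))),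
  clr (.r .D), mvAll (.r .C) (.r .D)]

/-- Bring the data from the order of `shearF` to the row-major order of the transposed matrix. -/
def sortF : Cmd (RF τ κ) (Sy α) := sq [
  zeroC (.r .A1), pushF (.r .A1) .mark,
  forN (ex nt) (dilv (ex NU)), forN (ex nt) (ilv (ex NS)), clr (.r .A1)]

/-- Empty all registers used by the preparations. -/
def cleanF : Cmd (RF τ κ) (Sy α) :=
  sq ([.r .q1, .r .q2, .r .A3, ex Pm, ex MU, ex ZT, ex HH, ex ONE, ex nL, ex nL2, ex nLb, ex nb1,
    ex nc, ex qm, ex nk, ex nt, ex nhb, ex W2, ex W3, ex WD, ex NU, ex NS].map clr)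

/-- The second core program: transposition of a `2^k × 2^k` matrix in `D`, `K` holds `k - 1`. -/
def coreF (sm mulP : Cmd (RF τ κ) (Sy α)) : Cmd (RF τ κ) (Sy α) := sq [
  sizesF, primeF, constF, rootF sm, cntF, padF, shearF sm mulP, sortF, cutF, cleanF]

end progs

end Vale.Agent.P338
end

section

/-! Asymptotic bookkeeping for the final theorems of P338. -/

namespace Vale.Agent.P338

open Finset

/-- The cost bound delivered by the program: `T` is the cost of one multiplication. -/
def costBound (T n : ℕ) : ℕ :=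
  (∑ i ∈ range (Nat.log 2 (Nat.clog 2 n) + 1),
      min T (4 ^ Nat.clog 2 n * (Nat.clog 2 n / 2 ^ i + 1))) +
    4 ^ Nat.clog 2 n * (Nat.log 2 (Nat.clog 2 n) + 1)

theorem sum_min_le_aux (T L : ℝ) (hT : 0 ≤ T) (hL : 0 ≤ L) (m J : ℕ) :
    ∑ i ∈ range m, min T (L / 2 ^ i) ≤ J * T + 2 * (L / 2 ^ J) := by
  induction m generalizing J L with
  | zero => simp; positivity
  | succ m ih =>
    rw [sum_range_succ']
    have h2 : ∀ i ∈ range m, min T (L / 2 ^ (i + 1)) = min T ((L / 2) / 2 ^ i) := by
      intro i _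
      congr 1
      rw [pow_succ]
      field_simp
    rw [sum_congr rfl h2]
    cases J with
    | zero =>
      have h3 := ih (L / 2) (by positivity) 0
      have h4 : min T L ≤ L := min_le_right _ _
      simp at h3 ⊢
      linarith
    | succ J =>
      have h3 := ih (L / 2) (by positivity) J
      have h4 : min T (L / 2 ^ 0) ≤ T := min_le_left _ _
      have h5 : L / 2 / 2 ^ J = L / 2 ^ (J + 1) := by
        rw [pow_succ]; field_simp
      rw [h5] at h3
      push_cast
      linarith

theorem sum_min_le (T L : ℝ) (hT : 0 ≤ T) (hL : 0 ≤ L) (m : ℕ) :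
    ∑ i ∈ range m, min T (L / 2 ^ i) ≤ 8 * (T * Real.log (2 + L / T)) := by
  rcases hT.eq_or_lt with h0 | hT0
  · subst h0
    have : ∀ i ∈ range m, min (0 : ℝ) (L / 2 ^ i) = 0 := by
      intro i _
      exact min_eq_left (by positivity)
    rw [sum_congr rfl this]; simp
  have hlog2 : (0.6931471803 : ℝ) < Real.log 2 := Real.log_two_gt_d9
  set x := L / T with hx
  have hx0 : 0 ≤ x := by positivity
  set J := ⌈Real.logb 2 (1 + x)⌉₊ with hJ
  have h1 := sum_min_le_aux T L hT hL m J
  have hlogx : 0 ≤ Real.logb 2 (1 + x) := Real.logb_nonneg (by norm_num) (by linarith)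
  have hJ1 : (J : ℝ) ≤ Real.logb 2 (1 + x) + 1 := (Nat.ceil_lt_add_one hlogx).le
  have hJ2 : 1 + x ≤ 2 ^ J := by
    have : Real.logb 2 (1 + x) ≤ (J : ℝ) := Nat.le_ceil _
    rw [Real.logb_le_iff_le_rpow (by norm_num) (by linarith)] at this
    simpa using this
  have h2 : L / 2 ^ J ≤ T := by
    rw [div_le_iff₀ (by positivity)]
    have : L = T * x := by rw [hx]; field_simp
    rw [this]
    have : x ≤ 2 ^ J := by linarith
    exact mul_le_mul_of_nonneg_left this hT
  have h3 : Real.logb 2 (1 + x) ≤ Real.log (2 + x) / Real.log 2 := by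
    rw [Real.logb]
    apply div_le_div_of_nonneg_right _ (by linarith)
    exact Real.log_le_log (by linarith) (by linarith)
  have h4 : Real.log 2 ≤ Real.log (2 + x) := Real.log_le_log (by norm_num) (by linarith)
  have h5 : (J : ℝ) + 2 ≤ 8 * Real.log (2 + x) := by
    have h6 : Real.log (2 + x) / Real.log 2 ≤ 2 * Real.log (2 + x) := by
      rw [div_le_iff₀ (by linarith)]
      nlinarith
    linarith
  calc ∑ i ∈ range m, min T (L / 2 ^ i) ≤ J * T + 2 * (L / 2 ^ J) := h1
    _ ≤ (J + 2) * T := by linarith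
    _ ≤ 8 * Real.log (2 + x) * T := mul_le_mul_of_nonneg_right h5 hT
    _ = 8 * (T * Real.log (2 + x)) := by ring

theorem two_pow_clog_le (n : ℕ) (hn : 2 ≤ n) : 2 ^ Nat.clog 2 n ≤ 2 * n := by
  have hpos : 0 < Nat.clog 2 n := Nat.clog_pos (by norm_num) hn
  have h := Nat.pow_pred_clog_lt_self (b := 2) (by norm_num) (x := n) (by omega)
  obtain ⟨k, hk⟩ : ∃ k, Nat.clog 2 n = k + 1 := ⟨Nat.clog 2 n - 1, by omega⟩
  rw [hk] at h ⊢
  simp only [Nat.pred_succ] at h
  rw [pow_succ]; omega

theorem four_pow_clog_le (n : ℕ) (hn : 2 ≤ n) : 4 ^ Nat.clog 2 n ≤ 4 * n ^ 2 := by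
  have h := two_pow_clog_le n hn
  calc 4 ^ Nat.clog 2 n = (2 ^ Nat.clog 2 n) ^ 2 := by
        rw [← pow_mul, mul_comm, pow_mul]; norm_num
    _ ≤ (2 * n) ^ 2 := Nat.pow_le_pow_left h 2
    _ = 4 * n ^ 2 := by ring

theorem clog_le_log (n : ℕ) (hn : 16 ≤ n) : (Nat.clog 2 n : ℝ) ≤ 2 * Real.log n := by
  have hlog2 : (0.6931471803 : ℝ) < Real.log 2 := Real.log_two_gt_d9
  have h := two_pow_clog_le n (by omega)
  have h' : (2 : ℝ) ^ Nat.clog 2 n ≤ 2 * n := by exact_mod_cast h
  have h2 := Real.log_le_log (by positivity) h'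
  rw [Real.log_pow, Real.log_mul (by norm_num) (by positivity)] at h2
  have h16 : Real.log 16 ≤ Real.log n := Real.log_le_log (by norm_num) (by exact_mod_cast hn)
  have e16 : Real.log 16 = 4 * Real.log 2 := by
    rw [show (16 : ℝ) = 2 ^ 4 by norm_num, Real.log_pow]; norm_num
  have h3 : (Nat.clog 2 n : ℝ) * Real.log 2 ≤ 2 * Real.log n * Real.log 2 := by
    have : Real.log n + Real.log 2 ≤ 2 * Real.log n * Real.log 2 := by nlinarith
    linarith
  exact le_of_mul_le_mul_right h3 (by linarith)

theorem one_le_loglog (n : ℕ) (hn : 16 ≤ n) : 1 ≤ Real.log (Real.log n) := by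
  have hlog2 : (0.6931471803 : ℝ) < Real.log 2 := Real.log_two_gt_d9
  have h16 : Real.log 16 ≤ Real.log n := Real.log_le_log (by norm_num) (by exact_mod_cast hn)
  have e16 : Real.log 16 = 4 * Real.log 2 := by
    rw [show (16 : ℝ) = 2 ^ 4 by norm_num, Real.log_pow]; norm_num
  have he := Real.exp_one_lt_d9
  rw [Real.le_log_iff_exp_le (by linarith)]
  linarith

theorem loglog_clog_le (n : ℕ) (hn : 16 ≤ n) :
    (Nat.log 2 (Nat.clog 2 n) : ℝ) + 1 ≤ 4 * Real.log (Real.log n) := by
  have hlog2 : (0.6931471803 : ℝ) < Real.log 2 := Real.log_two_gt_d9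
  have h1 := one_le_loglog n hn
  have h2 := clog_le_log n hn
  set k := Nat.clog 2 n with hk
  have hkpos : 0 < k := Nat.clog_pos (by norm_num) (by omega)
  have hkR : (0 : ℝ) < k := by exact_mod_cast hkpos
  have h16 : Real.log 16 ≤ Real.log n := Real.log_le_log (by norm_num) (by exact_mod_cast hn)
  have e16 : Real.log 16 = 4 * Real.log 2 := by
    rw [show (16 : ℝ) = 2 ^ 4 by norm_num, Real.log_pow]; norm_num
  have h3 : (2 : ℝ) ^ Nat.log 2 k ≤ k := by exact_mod_cast Nat.pow_log_le_self 2 hkpos.ne'
  have h4 := Real.log_le_log (by positivity) h3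
  rw [Real.log_pow] at h4
  have h5 : Real.log k ≤ Real.log 2 + Real.log (Real.log n) := by
    rw [← Real.log_mul (by norm_num) (by linarith)]
    exact Real.log_le_log hkR h2
  have h6 : (Nat.log 2 k : ℝ) * Real.log 2 ≤ (4 * Real.log (Real.log n) - 1) * Real.log 2 := by
    nlinarith
  have := le_of_mul_le_mul_right h6 (by linarith)
  linarith

theorem costBound_le (T n : ℕ) (hn : 16 ≤ n) :
    (costBound T n : ℝ) ≤ 200 * ((T : ℝ) * Real.log (2 + (n : ℝ) ^ 2 * Real.log n / T) +
      (n : ℝ) ^ 2 * Real.log (Real.log n)) := by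
  have hlog2 : (0.6931471803 : ℝ) < Real.log 2 := Real.log_two_gt_d9
  have hll := one_le_loglog n hn
  have hk := clog_le_log n hn
  have hkk := loglog_clog_le n hn
  have h4 : ((4 : ℝ) ^ Nat.clog 2 n) ≤ 4 * (n : ℝ) ^ 2 := by
    exact_mod_cast four_pow_clog_le n (by omega)
  have h16 : Real.log 16 ≤ Real.log n := Real.log_le_log (by norm_num) (by exact_mod_cast hn)
  have e16 : Real.log 16 = 4 * Real.log 2 := by
    rw [show (16 : ℝ) = 2 ^ 4 by norm_num, Real.log_pow]; norm_num
  set k := Nat.clog 2 n with hkdef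
  set m := Nat.log 2 k + 1 with hm
  have hmR : (m : ℝ) ≤ 4 * Real.log (Real.log n) := by rw [hm]; push_cast; linarith
  have hn0 : (0 : ℝ) < n := by positivity
  set L : ℝ := (n : ℝ) ^ 2 * Real.log n with hL
  have hL0 : 0 ≤ L := by
    rw [hL]
    have : 0 ≤ Real.log n := by linarith
    positivity
  have hT0 : (0 : ℝ) ≤ T := by positivity
  have hL' : (4 : ℝ) ^ k * k ≤ 8 * L := by
    calc (4 : ℝ) ^ k * k ≤ (4 * (n : ℝ) ^ 2) * (2 * Real.log n) := by
          apply mul_le_mul h4 hk (by positivity) (by positivity)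
      _ = 8 * L := by rw [hL]; ring
  have hterm : ∀ i ∈ range m, (min (T : ℝ) ((4 : ℝ) ^ k * ((k / 2 ^ i : ℕ) + 1))) ≤
      min (T : ℝ) ((8 * L) / 2 ^ i) + 4 ^ k := by
    intro i _
    have hfl : ((k / 2 ^ i : ℕ) : ℝ) ≤ (k : ℝ) / 2 ^ i := by
      have := @Nat.cast_div_le ℝ _ _ _ k (2 ^ i)
      simpa using this
    have h1 : (4 : ℝ) ^ k * ((k / 2 ^ i : ℕ) + 1) ≤ (8 * L) / 2 ^ i + 4 ^ k := by
      have h2 : (4 : ℝ) ^ k * ((k / 2 ^ i : ℕ) : ℝ) ≤ (8 * L) / 2 ^ i := by
        calc (4 : ℝ) ^ k * ((k / 2 ^ i : ℕ) : ℝ) ≤ (4 : ℝ) ^ k * ((k : ℝ) / 2 ^ i) :=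
              mul_le_mul_of_nonneg_left hfl (by positivity)
          _ = ((4 : ℝ) ^ k * k) / 2 ^ i := by ring
          _ ≤ (8 * L) / 2 ^ i := by gcongr
      linarith
    calc min (T : ℝ) ((4 : ℝ) ^ k * ((k / 2 ^ i : ℕ) + 1))
        ≤ min (T : ℝ) ((8 * L) / 2 ^ i + 4 ^ k) := min_le_min_left _ h1
      _ ≤ min (T : ℝ) ((8 * L) / 2 ^ i) + 4 ^ k := by
          rcases le_total (T : ℝ) ((8 * L) / 2 ^ i) with h | h
          · rw [min_eq_left h]
            exact (min_le_left _ _).trans (by linarith [show (0:ℝ) ≤ 4 ^ k by positivity])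
          · rw [min_eq_right h]; exact min_le_right _ _
  have hcast : (costBound T n : ℝ) = (∑ i ∈ range m, min (T : ℝ) ((4 : ℝ) ^ k * ((k / 2 ^ i : ℕ) + 1)))
      + 4 ^ k * m := by
    simp only [costBound, ← hkdef, ← hm]
    push_cast
    ring
  have hsum := sum_min_le (T : ℝ) (8 * L) hT0 (by positivity) m
  have hlogle : Real.log (2 + 8 * L / T) ≤ 4 * Real.log (2 + L / T) := by
    have hx : 0 ≤ L / (T : ℝ) := by positivity
    have e : 8 * L / (T : ℝ) = 8 * (L / T) := by ring
    rw [e]
    have h1 : Real.log (2 + 8 * (L / T)) ≤ Real.log (8 * (2 + L / T)) :=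
      Real.log_le_log (by linarith) (by linarith)
    rw [Real.log_mul (by norm_num) (by linarith)] at h1
    have e8 : Real.log 8 = 3 * Real.log 2 := by
      rw [show (8 : ℝ) = 2 ^ 3 by norm_num, Real.log_pow]; norm_num
    have h2 : Real.log 2 ≤ Real.log (2 + L / T) := Real.log_le_log (by norm_num) (by linarith)
    linarith
  have hB : (4 : ℝ) ^ k * m ≤ 16 * ((n : ℝ) ^ 2 * Real.log (Real.log n)) := by
    calc (4 : ℝ) ^ k * m ≤ (4 * (n : ℝ) ^ 2) * (4 * Real.log (Real.log n)) := by
          apply mul_le_mul h4 hmR (by positivity) (by positivity)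
      _ = 16 * ((n : ℝ) ^ 2 * Real.log (Real.log n)) := by ring
  rw [hcast]
  have h5 : ∑ i ∈ range m, min (T : ℝ) ((4 : ℝ) ^ k * ((k / 2 ^ i : ℕ) + 1)) ≤
      (∑ i ∈ range m, min (T : ℝ) ((8 * L) / 2 ^ i)) + m * 4 ^ k := by
    refine (sum_le_sum hterm).trans ?_
    rw [sum_add_distrib]; simp
  have h6 : (T : ℝ) * Real.log (2 + 8 * L / T) ≤ 4 * (T * Real.log (2 + L / T)) := by
    calc (T : ℝ) * Real.log (2 + 8 * L / T) ≤ T * (4 * Real.log (2 + L / T)) :=
          mul_le_mul_of_nonneg_left hlogle hT0
      _ = _ := by ring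
  have h7 : 0 ≤ (T : ℝ) * Real.log (2 + L / T) := by
    have hx : 0 ≤ L / (T : ℝ) := by positivity
    have : 0 ≤ Real.log (2 + L / T) := Real.log_nonneg (by linarith)
    positivity
  have h8 : 0 ≤ (n : ℝ) ^ 2 * Real.log (Real.log n) := by positivity
  have h9 : (m : ℝ) * 4 ^ k = 4 ^ k * m := mul_comm _ _
  rw [h9] at h5
  clear h9 hlogle hterm hcast hlog2 h16 e16 hL' h4 hk hkk hll hmR hn0 hL0 hT0
  linarith

theorem log_le_two_sqrt (y : ℝ) (hy : 0 < y) : Real.log y ≤ 2 * Real.sqrt y := by
  have h1 : Real.log y = 2 * Real.log (Real.sqrt y) := by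
    rw [Real.log_sqrt hy.le]; ring
  rw [h1]
  have h2 := Real.log_le_sub_one_of_pos (Real.sqrt_pos.mpr hy)
  linarith

/-- If a transposition machine satisfies the cost bound of the reduction and needs time at least
`c n² log n`, then the multiplication needs time at least a constant times `n² log n`. -/
theorem lower_of_costBound (f g : ℕ → ℕ) (C : ℕ)
    (hg : ∀ n, 1 ≤ n → g n ≤ C * costBound (f n) n) (c : ℝ) (hc : 0 < c) (N : ℕ)
    (hlow : ∀ n, N ≤ n → c * ((n : ℝ) ^ 2 * Real.log n) ≤ g n) :
    ∃ c' : ℝ, 0 < c' ∧ ∃ N' : ℕ, ∀ n, N' ≤ n → c' * ((n : ℝ) ^ 2 * Real.log n) ≤ f n := by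
  -- eventually `400 * C * loglog n ≤ c / 2 * log n`
  have hev : ∀ᶠ n : ℕ in Filter.atTop,
      200 * (C : ℝ) * Real.log (Real.log n) ≤ c / 2 * Real.log n := by
    have h1 : Filter.Tendsto (fun n : ℕ => Real.log (n : ℝ)) Filter.atTop Filter.atTop :=
      Real.tendsto_log_atTop.comp tendsto_natCast_atTop_atTop
    have h2 : (fun x : ℝ => Real.log x) =o[Filter.atTop] (fun x : ℝ => x) :=
      Real.isLittleO_log_id_atTop
    have h3 := h2.comp_tendsto h1
    have h4 := h3.bound (show (0 : ℝ) < c / (400 * (C + 1)) by positivity)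
    filter_upwards [h4, h1.eventually_ge_atTop 1] with n hn hn1
    simp only [Function.comp, Real.norm_eq_abs] at hn
    have h5 : Real.log (Real.log n) ≤ c / (400 * (C + 1)) * Real.log n := by
      have := (le_abs_self _).trans hn
      rwa [abs_of_nonneg (by linarith : (0 : ℝ) ≤ Real.log n)] at this
    calc 200 * (C : ℝ) * Real.log (Real.log n)
        ≤ 200 * (C : ℝ) * (c / (400 * (C + 1)) * Real.log n) :=
          mul_le_mul_of_nonneg_left h5 (by positivity)
      _ = (c / 2 * Real.log n) * (C / (C + 1)) := by field_simp; ring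
      _ ≤ (c / 2 * Real.log n) * 1 := by
          apply mul_le_mul_of_nonneg_left _ (by positivity)
          rw [div_le_one (by positivity)]; linarith
      _ = c / 2 * Real.log n := by ring
  obtain ⟨N1, hN1⟩ := Filter.eventually_atTop.mp hev
  set D : ℝ := c / (1600 * (C + 1)) with hD
  have hDpos : 0 < D := by positivity
  refine ⟨min 1 (D ^ 2), by positivity, max (max N N1) 16, fun n hn => ?_⟩
  have hnN : N ≤ n := le_trans (le_trans (le_max_left _ _) (le_max_left _ _)) hn
  have hnN1 : N1 ≤ n := le_trans (le_trans (le_max_right _ _) (le_max_left _ _)) hn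
  have hn16 : 16 ≤ n := le_trans (le_max_right _ _) hn
  have hlog2 : (0.6931471803 : ℝ) < Real.log 2 := Real.log_two_gt_d9
  have h16 : Real.log 16 ≤ Real.log n := Real.log_le_log (by norm_num) (by exact_mod_cast hn16)
  have e16 : Real.log 16 = 4 * Real.log 2 := by
    rw [show (16 : ℝ) = 2 ^ 4 by norm_num, Real.log_pow]; norm_num
  have h1 := hlow n hnN
  have h2 : (g n : ℝ) ≤ C * costBound (f n) n := by exact_mod_cast hg n (by omega)
  have h3 := costBound_le (f n) n hn16
  have h4 := hN1 n hnN1
  set L : ℝ := (n : ℝ) ^ 2 * Real.log n with hL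
  have hn0 : (0 : ℝ) < n := by positivity
  have hLpos : 0 < L := by
    rw [hL]
    have : 0 < Real.log n := by linarith
    positivity
  set T : ℝ := (f n : ℝ) with hT
  have hT0 : 0 ≤ T := by positivity
  have h5 : c * L ≤ 200 * C * (T * Real.log (2 + L / T)) +
      200 * C * ((n : ℝ) ^ 2 * Real.log (Real.log n)) := by
    calc c * L ≤ C * (200 * (T * Real.log (2 + L / T) + (n : ℝ) ^ 2 * Real.log (Real.log n))) :=
          (h1.trans h2).trans (mul_le_mul_of_nonneg_left h3 (by positivity))
      _ = _ := by ring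
  have h6 : 200 * C * ((n : ℝ) ^ 2 * Real.log (Real.log n)) ≤ c / 2 * L := by
    calc 200 * C * ((n : ℝ) ^ 2 * Real.log (Real.log n))
        = (n : ℝ) ^ 2 * (200 * C * Real.log (Real.log n)) := by ring
      _ ≤ (n : ℝ) ^ 2 * (c / 2 * Real.log n) := mul_le_mul_of_nonneg_left h4 (by positivity)
      _ = c / 2 * L := by rw [hL]; ring
  have h7 : c / 2 * L ≤ 200 * C * (T * Real.log (2 + L / T)) := by linarith
  -- conclude
  by_contra hcon
  rw [not_le] at hcon
  have hTL : T < L := by
    have : min 1 (D ^ 2) * L ≤ 1 * L := mul_le_mul_of_nonneg_right (min_le_left _ _) hLpos.le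
    linarith
  have hTD : T < D ^ 2 * L := by
    have : min 1 (D ^ 2) * L ≤ D ^ 2 * L := mul_le_mul_of_nonneg_right (min_le_right _ _) hLpos.le
    linarith
  have hTpos : 0 < T := by
    rcases hT0.eq_or_lt with h | h
    · rw [← h] at h7
      have : 0 < c / 2 * L := by positivity
      simp at h7; linarith
    · exact h
  have h8 : Real.log (2 + L / T) ≤ 2 * Real.sqrt (2 + L / T) := log_le_two_sqrt _ (by positivity)
  have h9 : T * Real.sqrt (2 + L / T) ≤ 2 * D * L := by
    have e : T * Real.sqrt (2 + L / T) = Real.sqrt (T ^ 2 * (2 + L / T)) := by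
      rw [Real.sqrt_mul (by positivity), Real.sqrt_sq hT0]
    rw [e]
    apply Real.sqrt_le_iff.mpr
    refine ⟨by positivity, ?_⟩
    have e2 : T ^ 2 * (2 + L / T) = 2 * T ^ 2 + T * L := by field_simp
    rw [e2]
    have h10 : T ^ 2 ≤ T * L := by rw [pow_two]; exact mul_le_mul_of_nonneg_left hTL.le hT0
    have h11 : T * L ≤ D ^ 2 * L * L := mul_le_mul_of_nonneg_right hTD.le hLpos.le
    have h12 : 0 ≤ D ^ 2 * L * L := (mul_nonneg hT0 hLpos.le).trans h11
    have h13 : (2 * D * L) ^ 2 = 4 * (D ^ 2 * L * L) := by ring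
    rw [h13]
    clear h1 h2 h3 h4 h5 h6 h7 h8
    linarith
  have h10 : c / 2 * L ≤ 200 * C * (2 * (2 * D * L)) := by
    calc c / 2 * L ≤ 200 * C * (T * Real.log (2 + L / T)) := h7
      _ ≤ 200 * C * (T * (2 * Real.sqrt (2 + L / T))) := by gcongr
      _ = 200 * C * (2 * (T * Real.sqrt (2 + L / T))) := by ring
      _ ≤ 200 * C * (2 * (2 * D * L)) := by gcongr
  have h11 : 200 * (C : ℝ) * (2 * (2 * D * L)) = c / 2 * L * (C / (C + 1)) := by
    rw [hD]; field_simp; ring
  rw [h11] at h10
  have h12 : (C : ℝ) / (C + 1) < 1 := by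
    rw [div_lt_one (by positivity)]; linarith
  have h13 : 0 < c / 2 * L := by positivity
  exact absurd h10 (not_le.mpr (mul_lt_of_lt_one_right h13 h12))

end Vale.Agent.P338
end

section

/-! Renaming of registers and symbols: a program over a small set of registers and symbols runs
unchanged inside a larger set of registers and symbols. -/

namespace Vale.Agent.P338

section
variable {κ ι Γ Δ : Type}

open Classical in
/-- Overwrite the registers in the range of `e`. -/
noncomputable def Store.ovr (e : κ → ι) (g : Γ → Δ) (s : Store ι Δ) (a : Store κ Γ) :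
    Store ι Δ := fun i => if h : ∃ k, e k = i then (a h.choose).map g else s i

/-- Change of symbols in an action. -/
def Act.mapS (g : Γ → Δ) (a : Act Γ) : Act Δ where
  pop := a.pop
  pf := a.pf.map g
  pb := a.pb.map g

open Classical in
/-- A function on registers, extended by the trivial action. -/
noncomputable def Act.ext (e : κ → ι) (g : Γ → Δ) (F : κ → Act Γ) (i : ι) : Act Δ :=
  if hk : ∃ k, e k = i then (F hk.choose).mapS g else {}

/-- The program with renamed registers and symbols; `g'` is a left inverse of `g`. -/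
noncomputable def Cmd.lift (e : κ → ι) (g : Γ → Δ) (g' : Δ → Option Γ) : Cmd κ Γ → Cmd ι Δ
  | .act f => .act fun h i => Act.ext e g (f fun k => (h (e k)).bind g') i
  | .seq c d => .seq (c.lift e g g') (d.lift e g g')
  | .ite p c d => .ite (fun h => p fun k => (h (e k)).bind g') (c.lift e g g') (d.lift e g g')
  | .loop p c => .loop (fun h => p fun k => (h (e k)).bind g') (c.lift e g g')

variable {e : κ → ι} {g : Γ → Δ} {g' : Δ → Option Γ}

theorem Act.mapS_app (a : Act Γ) (l : List Γ) : (a.mapS g).app (l.map g) = (a.app l).map g := by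
  obtain ⟨p, pf, pb⟩ := a
  cases p <;> cases pf <;> cases pb <;> simp [Act.app, Act.mapS]

theorem Act.ext_apply (he : Function.Injective e) (F : κ → Act Γ) (k : κ) :
    Act.ext e g F (e k) = (F k).mapS g := by
  have h : ∃ k', e k' = e k := ⟨k, rfl⟩
  simp only [Act.ext, dif_pos h]
  rw [he h.choose_spec]

theorem Act.ext_of_not (F : κ → Act Γ) {i : ι} (h : ¬ ∃ k, e k = i) : Act.ext e g F i = {} := by
  simp only [Act.ext, dif_neg h]

theorem Store.ovr_apply (he : Function.Injective e) (s : Store ι Δ) (a : Store κ Γ) (k : κ) :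
    Store.ovr e g s a (e k) = (a k).map g := by
  have h : ∃ k', e k' = e k := ⟨k, rfl⟩
  simp only [Store.ovr, dif_pos h]
  rw [he h.choose_spec]

theorem Store.ovr_of_not (s : Store ι Δ) (a : Store κ Γ) {i : ι} (h : ¬ ∃ k, e k = i) :
    Store.ovr e g s a i = s i := by
  simp only [Store.ovr, dif_neg h]

theorem Store.ovr_heads (he : Function.Injective e) (hg : ∀ x, g' (g x) = some x)
    (s : Store ι Δ) (a : Store κ Γ) :
    (fun k => ((Store.ovr e g s a).heads (e k)).bind g') = a.heads := by
  funext k
  simp only [Store.heads, Store.ovr_apply he]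
  cases a k <;> simp [hg]

theorem Store.ovr_self (he : Function.Injective e) (s : Store ι Δ) (a : Store κ Γ)
    (h : ∀ k, s (e k) = (a k).map g) : Store.ovr e g s a = s := by
  apply Store.ext'
  intro i
  by_cases hi : ∃ k, e k = i
  · obtain ⟨k, rfl⟩ := hi
    rw [Store.ovr_apply he, h]
  · rw [Store.ovr_of_not _ _ hi]

theorem Store.ovr_set [DecidableEq κ] [DecidableEq ι] (he : Function.Injective e)
    (s : Store ι Δ) (a : Store κ Γ) (k : κ) (v : List Γ) :
    Store.ovr e g s (a.set k v) = (Store.ovr e g s a).set (e k) (v.map g) := by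
  apply Store.ext'
  intro i
  by_cases h : ∃ k, e k = i
  · obtain ⟨k', rfl⟩ := h
    rw [Store.ovr_apply he]
    by_cases hk : k' = k
    · subst hk; simp
    · rw [Store.set_ne _ _ hk, Store.set_ne _ _ (fun h => hk (he h)), Store.ovr_apply he]
  · rw [Store.ovr_of_not _ _ h, Store.set_ne, Store.ovr_of_not _ _ h]
    rintro rfl
    exact h ⟨k, rfl⟩

theorem Run.act_of (f : (ι → Option Γ) → ι → Act Γ) {s s' : Store ι Γ}
    (h : ∀ i, (f s.heads i).app (s i) = s' i) : Run (.act f) s s' 1 := by
  have : s' = (fun i => (f s.heads i).app (s i)) := by funext i; exact (h i).symm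
  rw [this]; exact Run.act f s

theorem Run.lift_act (he : Function.Injective e) (hg : ∀ x, g' (g x) = some x)
    (f : (κ → Option Γ) → κ → Act Γ)
    {a b : Store κ Γ} (h : ∀ k, (f a.heads k).app (a k) = b k) (s : Store ι Δ) :
    Run ((Cmd.act f).lift e g g') (Store.ovr e g s a) (Store.ovr e g s b) 1 := by
  refine Run.act_of _ fun i => ?_
  by_cases hi : ∃ k, e k = i
  · obtain ⟨k, rfl⟩ := hi
    rw [Act.ext_apply he, Store.ovr_apply he, Store.ovr_apply he, Store.ovr_heads he hg,
      Act.mapS_app, h]
  · rw [Act.ext_of_not _ hi, Store.ovr_of_not _ _ hi, Store.ovr_of_not _ _ hi]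
    simp [Act.app]

theorem Run.lift (he : Function.Injective e) (hg : ∀ x, g' (g x) = some x)
    {c : Cmd κ Γ} {a b : Store κ Γ} {t : ℕ}
    (h : Run c a b t) (s : Store ι Δ) :
    Run (c.lift e g g') (Store.ovr e g s a) (Store.ovr e g s b) t := by
  induction h with
  | act f a => exact Run.lift_act he hg f (fun k => rfl) s
  | seq _ _ ih1 ih2 => exact Run.seq ih1 ih2
  | iteT hp _ ih => exact Run.iteT (by rw [Store.ovr_heads he hg]; exact hp) ih
  | iteF hp _ ih => exact Run.iteF (by rw [Store.ovr_heads he hg]; exact hp) ih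
  | loopF hp => exact Run.loopF (by rw [Store.ovr_heads he hg]; exact hp)
  | loopT hp _ _ ih1 ih2 => exact Run.loopT (by rw [Store.ovr_heads he hg]; exact hp) ih1 ih2

/-- The rule for using a program over a smaller set of registers and symbols. -/
theorem Runs.lift (he : Function.Injective e) (hg : ∀ x, g' (g x) = some x)
    {c : Cmd κ Γ} {a b : Store κ Γ} {T : ℕ}
    (h : Runs c a b T) (s : Store ι Δ) (hs : ∀ k, s (e k) = (a k).map g) :
    Runs (c.lift e g g') s (Store.ovr e g s b) T := by
  obtain ⟨t, ht, hr⟩ := h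
  have := hr.lift he hg s
  rw [Store.ovr_self he s a hs] at this
  exact ⟨t, ht, this⟩

end

section
variable {α β : Type}

/-- Change of the further symbols. -/
def Sy.emb (f : α → β) : Sy α → Sy β
  | .bit b => .bit b
  | .mark => .mark
  | .sent => .sent
  | .ext a => .ext (f a)

open Classical in
/-- Left inverse of `Sy.emb f`. -/
noncomputable def Sy.bme (f : α → β) : Sy β → Option (Sy α)
  | .bit b => some (.bit b)
  | .mark => some .mark
  | .sent => some .sent
  | .ext a => if h : ∃ x, f x = a then some (.ext h.choose) else none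

theorem Sy.bme_emb {f : α → β} (hf : Function.Injective f) (x : Sy α) :
    Sy.bme f (Sy.emb f x) = some x := by
  cases x with
  | ext a =>
    have h : ∃ x, f x = f a := ⟨a, rfl⟩
    simp only [Sy.emb, Sy.bme, dif_pos h]
    rw [hf h.choose_spec]
  | _ => rfl

@[simp] theorem Sy.map_emb_bs (f : α → β) (l : List Bool) :
    (bs l : List (Sy α)).map (Sy.emb f) = bs l := by
  simp [bs, Sy.emb]

@[simp] theorem Sy.map_emb_num (f : α → β) (n : ℕ) :
    (num n : List (Sy α)).map (Sy.emb f) = num n := by
  simp [num, Sy.emb]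

end

end Vale.Agent.P338
end
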