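import Vale.Agent.P338.Model
import Vale.Agent.P338.Bdl.B1

set_option linter.all false

section

/-! Rewriting lemmas for the definitions of the machine model. -/

namespace Vale.Agent.P338

theorem Dir.mv_left (p : ℕ) : Dir.move .left p = p - 1 := rfl

theorem Dir.mv_stay (p : ℕ) : Dir.move .stay p = p := rfl

theorem Dir.mv_right (p : ℕ) : Dir.move .right p = p + 1 := rfl

theorem tapeOf_some {X : Type} {w : List Sym} {p : ℕ} {a : Sym} (h : w[p]? = some a) :
    (tapeOf w p : Cell X) = .sym a := by
  rw [tapeOf, h]

theorem tapeOf_none {X : Type} {w : List Sym} {p : ℕ} (h : w[p]? = none) :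
    (tapeOf w p : Cell X) = .blank := by
  rw [tapeOf, h]

end Vale.Agent.P338
end

section

/-! Pure specification of the fast block transposition (SWAP).  All bit strings in this file are
least significant bit first. -/

namespace Vale.Agent.P338

/-- Concatenation of `f 0, …, f (n-1)`. -/
def fm {β : Type} (n : ℕ) (f : ℕ → List β) : List β := (List.range n).flatMap f

@[simp] theorem fm_zero {β : Type} (f : ℕ → List β) : fm 0 f = [] := rfl

theorem fm_succ {β : Type} (n : ℕ) (f : ℕ → List β) : fm (n + 1) f = fm n f ++ f n := by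
  simp [fm, List.range_succ]

theorem fm_succ' {β : Type} (n : ℕ) (f : ℕ → List β) :
    fm (n + 1) f = f 0 ++ fm n (fun i => f (i + 1)) := by
  simp [fm, List.range_succ_eq_map, List.flatMap_map]

@[simp] theorem fm_one {β : Type} (f : ℕ → List β) : fm 1 f = f 0 := by
  simp [fm, List.range_succ]

theorem fm_congr {β : Type} {n : ℕ} {f g : ℕ → List β} (h : ∀ i < n, f i = g i) :
    fm n f = fm n g := by
  induction n with
  | zero => rfl
  | succ n ih => rw [fm_succ, fm_succ, ih (fun i hi => h i (by omega)), h n (by omega)]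

theorem fm_length {β : Type} {n c : ℕ} {f : ℕ → List β} (h : ∀ i < n, (f i).length = c) :
    (fm n f).length = n * c := by
  induction n with
  | zero => simp
  | succ n ih =>
    rw [fm_succ, List.length_append, ih (fun i hi => h i (by omega)), h n (by omega)]; ring

theorem fm_add {β : Type} (a b : ℕ) (f : ℕ → List β) :
    fm (a + b) f = fm a f ++ fm b (fun j => f (a + j)) := by
  induction b with
  | zero => simp
  | succ b ih => rw [← Nat.add_assoc, fm_succ, ih, fm_succ, List.append_assoc]

/-- Regrouping: a concatenation over `a * b` indices is a double concatenation. -/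
theorem fm_mul {β : Type} (a b : ℕ) (f : ℕ → List β) :
    fm (a * b) f = fm a fun i => fm b fun j => f (i * b + j) := by
  induction a with
  | zero => simp
  | succ a ih => rw [Nat.succ_mul, fm_add, ih, fm_succ]

/-- `n` zeros. -/
def zeros (n : ℕ) : List Bool := List.replicate n false

@[simp] theorem zeros_length (n : ℕ) : (zeros n).length = n := by simp [zeros]

/-- Value, least significant bit first. -/
def ofLsb : List Bool → ℕ
  | [] => 0
  | b :: l => b.toNat + 2 * ofLsb l

/-- The `k` lowest bits of `z`, least significant first. -/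
def lsb (k z : ℕ) : List Bool := (List.range k).map z.testBit

/-- Multiplication by `2^m` modulo `2^|x| - 1`: a rotation. -/
def rr (m : ℕ) (x : List Bool) : List Bool := x.rotate (x.length - m % x.length)

/-- The number `1` as a string of `n` bits. -/
def onehot (n : ℕ) : List Bool := true :: zeros (n - 1)

/-- Encoding of an entry `x` of `E` bits as a string of `2E` bits, of value `(x+1)(2^E-1)`. -/
def enc (x : List Bool) : List Bool := x.map (fun b => !b) ++ x

/-- Addition of two strings of equal length with a carry. -/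
def addc : List Bool → List Bool → Bool → List Bool × Bool
  | a :: x, b :: y, c =>
    let r := addc x y ((a && b) || (c && (a || b)))
    (Bool.xor (Bool.xor a b) c :: r.1, r.2)
  | _, _, c => ([], c)

theorem addc_cons (a b : Bool) (x y : List Bool) (c : Bool) :
    addc (a :: x) (b :: y) c = (Bool.xor (Bool.xor a b) c ::
      (addc x y ((a && b) || (c && (a || b)))).1, (addc x y ((a && b) || (c && (a || b)))).2) := rfl

@[simp] theorem addc_nil (y : List Bool) (c : Bool) : addc [] y c = ([], c) := rfl

theorem addc_nil_right (x : List Bool) (c : Bool) : addc x [] c = ([], c) := by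
  cases x <;> rfl

/-- Reduction of a string `V` of `4 * m` bits modulo `2^m - 1`: add the four chunks, each time
feeding the carry into the next addition. -/
def fold4 (m : ℕ) (V : List Bool) : List Bool :=
  let r0 := addc (zeros m) (V.take m) false
  let r1 := addc r0.1 ((V.drop m).take m) r0.2
  let r2 := addc r1.1 ((V.drop (2 * m)).take m) r1.2
  let r3 := addc r2.1 ((V.drop (3 * m)).take m) r2.2
  r3.1

/-- Product of two strings as a string of `2 * M` bits. -/
def mulLsb (M : ℕ) (x y : List Bool) : List Bool := lsb (2 * M) (ofLsb x * ofLsb y)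

/-- First data integer.  `A` blocks, each a `q × q` matrix with entries `ent a i j` of `q * e` bits.
Row `i` is rotated by `i` entries, every entry is encoded and multiplied by `2^(e i^2)`, and put in a
slot of `8 q e` bits; every block is followed by `q` zero rows. -/
def data1 (A q e : ℕ) (ent : ℕ → ℕ → ℕ → List Bool) : List Bool :=
  fm A fun a =>
    (fm q fun i => fm q fun j =>
      rr (e * i ^ 2) (enc (ent a i ((j + (q - i)) % q))) ++ zeros (6 * (q * e))) ++
    zeros (q * (q * (8 * (q * e))))

/-- The kernel integer: `2q` rows of `q` slots of `8 q e` bits; the row number `d` holds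
`2^(-e d^2)` in its lowest slot. -/
def kern (q e : ℕ) : List Bool :=
  fm (2 * q) fun d => (onehot (2 * (q * e))).rotate (e * d ^ 2) ++
    zeros (6 * (q * e)) ++ zeros ((q - 1) * (8 * (q * e)))

/-- The slot of the product belonging to block `a`, row `k`, column `j`. -/
def slotOf (q e : ℕ) (P : List Bool) (a k j : ℕ) : List Bool :=
  (P.drop ((((2 * a + 1) * q + k) * q + j) * (8 * (q * e)))).take (8 * (q * e))

/-- Second data integer. -/
def data2 (A q e : ℕ) (P : List Bool) : List Bool :=
  fm A fun a =>
    (fm q fun k => fm q fun j =>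
      rr (2 * e * k ^ 2 + 2 * e * (q - k) * j) (fold4 (2 * (q * e)) (slotOf q e P a k j)) ++
        zeros (6 * (q * e))) ++
    zeros (q * (q * (8 * (q * e))))

/-- The result. -/
def data3 (A q e h : ℕ) (P : List Bool) : List Bool :=
  fm A fun a => fm q fun l =>
    (fm q fun j =>
      (rr ((2 * (q * e) - h) + e * l ^ 2) (fold4 (2 * (q * e)) (slotOf q e P a l j))).drop
        (q * e)).rotate (l * (q * e))

end Vale.Agent.P338
end

section

/-! The interface between the core program, which transposes a square bit matrix whose side is a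
power of two, and the programs around it. -/

namespace Vale.Agent.P338
open Reg R

/-- `core` transposes the `2^k × 2^k` bit matrix in `D`, where `K` holds `k - 1` and `M1` holds the
length `M ≥ c0 * 4^k` of the multiplications to be used; all registers except the listed ones are
empty before and after. The cost is at most a constant times `F k M`. -/
def CoreSpec {τ α : Type} [DecidableEq τ] (core : Cmd (Reg τ) (Sy α)) (c0 : ℕ)
    (F : ℕ → ℕ → ℕ) : Prop :=
  ∃ C0 : ℕ, ∀ (s : Store (Reg τ) (Sy α)) (k M : ℕ) (f : ℕ → ℕ → Bool),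
    1 ≤ k → c0 * 4 ^ k ≤ M →
    s (r D) = bs (fm (2 ^ k) fun x => fm (2 ^ k) fun y => [f x y]) →
    s (r K) = num (k - 1) → s (r M1) = num M →
    (∀ x, x ∉ [inp, out, D, K, M1, N1, N2, N3, N4, N5] → s (r x) = []) →
    (∀ i, s (tl i) = []) → (∀ i, s (tr i) = []) →
    Runs core s (s.set (r D) (bs (fm (2 ^ k) fun y => fm (2 ^ k) fun x => [f x y])))
      (C0 * F k M)

end Vale.Agent.P338
end

section

/-! The text of the program that transposes rectangular matrices, around an abstract core program
that transposes square matrices whose side is a power of two. -/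

namespace Vale.Agent.P338

section
variable {τ α : Type} [DecidableEq τ]

/-- `a := a ∸ c` for counters. -/
def monC (c a : Reg τ) : Cmd (Reg τ) (Sy α) :=
  forN c (.ite (fun h => isMark (h a)) (popF a) (sq []))

/-- First row: count the columns in `N2`, move the row to `X`. -/
def readR1 : Cmd (Reg τ) (Sy α) :=
  .loop (fun h => isBit (h (.r .inp))) (.act fun h i =>
    if i = .r .inp then { pop := true }
    else if i = .r .X then { pb := h (.r .inp) }
    else if i = .r .N2 then { pf := some .mark } else {})

/-- The other rows: count the separators in `N1`, move the bits to `X`. -/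
def readR2 : Cmd (Reg τ) (Sy α) :=
  .loop (fun h => (h (.r .inp)).isSome) (.act fun h i =>
    if i = .r .inp then { pop := true }
    else if i = .r .X then { pb := if isMark (h (.r .inp)) then none else h (.r .inp) }
    else if i = .r .N1 then
      { pf := if isMark (h (.r .inp)) then some .mark else none } else {})

/-- `N1 := r`, `N2 := c`, `X :=` the entries, from the input of an `r × c` matrix. -/
def readR : Cmd (Reg τ) (Sy α) := sq [zeroC (.r .N1), zeroC (.r .N2), readR1, readR2]

/-- `N4 := max r c`. -/
def sizeR1 : Cmd (Reg τ) (Sy α) := sq [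
  zeroC (.r .N5), addC 1 (.r .N1) (.r .N5), monC (.r .N2) (.r .N5),
  zeroC (.r .N4), addC 1 (.r .N2) (.r .N4), addC 1 (.r .N5) (.r .N4), clr (.r .N5)]

/-- `N3 := 2^k`, `K := k - 1` where `k ≥ 1` is least with `2^k ≥ N4`; empties `N4`. -/
def sizeR2 : Cmd (Reg τ) (Sy α) := sq [
  zeroC (.r .K), zeroC (.r .N3), pushF (.r .N3) .mark, pushF (.r .N3) .mark,
  monC (.r .N3) (.r .N4),
  .loop (fun h => isMark (h (.r .N4))) (sq [
    monC (.r .N3) (.r .N4), dblC (.r .N3) (.r .A3), pushF (.r .K) .mark]),
  clr (.r .N4)]

/-- `out := min g (k-1)`, `K := k - 1 - min g (k-1)`. -/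
def sizeR3 (g : ℕ) : Cmd (Reg τ) (Sy α) := sq [
  zeroC (.r .out),
  sq (List.replicate g (.ite (fun h => isMark (h (.r .K)))
    (sq [popF (.r .K), pushF (.r .out) .mark]) (sq [])))]

/-- `N4 := 2^κ`, `N5 := 2^κ`, `A2 := c0 * 4^κ`, where `κ = K + 1`. -/
def sizeR4 (c0 : ℕ) : Cmd (Reg τ) (Sy α) := sq [
  zeroC (.r .N4), pushF (.r .N4) .mark, pushF (.r .N4) .mark,
  forN (.r .K) (dblC (.r .N4) (.r .A3)),
  zeroC (.r .N5), addC 1 (.r .N4) (.r .N5),
  zeroC (.r .A2), forN (.r .N4) (addC c0 (.r .N5) (.r .A2))]

/-- `M1 := max (r^2 + (c - r)) A2`, empties `A2`. -/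
def sizeR5 : Cmd (Reg τ) (Sy α) := sq [
  zeroC (.r .M1), addC 1 (.r .N2) (.r .M1), monC (.r .N1) (.r .M1),
  zeroC (.r .A1), addC 1 (.r .N1) (.r .A1), forN (.r .N1) (addC 1 (.r .A1) (.r .M1)),
  clr (.r .A1),
  monC (.r .M1) (.r .A2), addC 1 (.r .A2) (.r .M1), clr (.r .A2)]

/-- Pad the matrix to `2^k × 2^k`, into `D`; `N3 := 2^k - r`. -/
def padR : Cmd (Reg τ) (Sy α) := sq [
  zeroC (.r .A1), addC 1 (.r .N3) (.r .A1), subC 1 (.r .N2) (.r .A1),
  zeroC (.r .A2), addC 1 (.r .N3) (.r .A2), subC 1 (.r .N1) (.r .A2),
  forN (.r .N1) (.seq (moveN (.r .N2) (.r .X) (.r .D)) (fillN 1 (.r .A1) (.r .D) (.bit false))),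
  forN (.r .A2) (fillN 1 (.r .N3) (.r .D) (.bit false)),
  clr (.r .A1), clr (.r .N3), zeroC (.r .N3), addC 1 (.r .A2) (.r .N3), clr (.r .A2)]

/-- First redistribution: the leading `g'` column index bits to the front. -/
def peelR1 : Cmd (Reg τ) (Sy α) := sq [
  zeroC (.r .q1), pushF (.r .q1) .mark, forN (.r .K) (dblC (.r .q1) (.r .A3)),
  forN (.r .out) (dblC (.r .q1) (.r .A3)), forN (.r .out) (dblC (.r .q1) (.r .A3)),
  zeroC (.r .A1), addC 1 (.r .N4) (.r .A1),
  forN (.r .out) (dilv (.r .q1)),
  clr (.r .q1), clr (.r .A1)]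

/-- Run the core program on the consecutive chunks of `4^κ` entries. -/
def chunksR (core : Cmd (Reg τ) (Sy α)) : Cmd (Reg τ) (Sy α) := sq [
  mvAll (.r .D) (.r .inp), pushB (.r .inp) .mark,
  .loop (fun h => isBit (h (.r .inp))) (sq [
    forN (.r .N4) (moveN (.r .N5) (.r .inp) (.r .D)), core, mvAll (.r .D) (.r .inp)]),
  popF (.r .inp), mvAll (.r .inp) (.r .D)]

/-- Second redistribution. -/
def peelR2 : Cmd (Reg τ) (Sy α) := sq [
  zeroC (.r .q1), pushF (.r .q1) .mark, forN (.r .K) (dblC (.r .q1) (.r .A3)),
  forN (.r .out) (dblC (.r .q1) (.r .A3)),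
  zeroC (.r .A1), addC 1 (.r .N4) (.r .A1),
  forN (.r .out) (ilv (.r .q1)),
  clr (.r .out)]

/-- Extract the `c × r` part of `D`, to `out`. -/
def cutR : Cmd (Reg τ) (Sy α) :=
  forN (.r .N2) (.seq (moveN (.r .N1) (.r .D) (.r .out)) (dropN 1 (.r .N3) (.r .D)))

/-- Reading the input and computing the sizes. -/
def frontR (g c0 : ℕ) : Cmd (Reg τ) (Sy α) := sq [
  readR, sizeR1, sizeR2, sizeR3 g, sizeR4 c0, sizeR5]

/-- Transposing the padded matrix. -/
def midR (core : Cmd (Reg τ) (Sy α)) : Cmd (Reg τ) (Sy α) := sq [peelR1, chunksR core, peelR2]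

/-- The whole program for rectangular matrices. -/
def rectP (g c0 : ℕ) (core : Cmd (Reg τ) (Sy α)) : Cmd (Reg τ) (Sy α) := sq [
  frontR g c0, padR, midR core, cutR]

end

end Vale.Agent.P338
end

section

/-! Pre- and postprocessing of the transposition program. -/

namespace Vale.Agent.P338
open Reg R

section
variable {τ α : Type}

/-- A store in which only a few registers are used. -/
def ps (inp out D X Y N1 N2 N3 N4 N5 K M1 A3 : List (Sy α)) : Store (Reg τ) (Sy α)
  | .r .inp => inp
  | .r .out => out
  | .r .D => D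
  | .r .X => X
  | .r .Y => Y
  | .r .N1 => N1
  | .r .N2 => N2
  | .r .N3 => N3
  | .r .N4 => N4
  | .r .N5 => N5
  | .r .K => K
  | .r .M1 => M1
  | .r .A3 => A3
  | _ => []

variable [DecidableEq τ] (i o d x y n1 n2 n3 n4 n5 k m a v : List (Sy α))

theorem ps_inp : (ps i o d x y n1 n2 n3 n4 n5 k m a : Store (Reg τ) (Sy α)).set (.r .inp) v =
    ps v o d x y n1 n2 n3 n4 n5 k m a := by
  funext z; rcases z with z | z | z <;> [cases z; skip; skip] <;> simp [Store.set, ps]

theorem ps_out : (ps i o d x y n1 n2 n3 n4 n5 k m a : Store (Reg τ) (Sy α)).set (.r .out) v =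
    ps i v d x y n1 n2 n3 n4 n5 k m a := by
  funext z; rcases z with z | z | z <;> [cases z; skip; skip] <;> simp [Store.set, ps]

theorem ps_D : (ps i o d x y n1 n2 n3 n4 n5 k m a : Store (Reg τ) (Sy α)).set (.r .D) v =
    ps i o v x y n1 n2 n3 n4 n5 k m a := by
  funext z; rcases z with z | z | z <;> [cases z; skip; skip] <;> simp [Store.set, ps]

theorem ps_X : (ps i o d x y n1 n2 n3 n4 n5 k m a : Store (Reg τ) (Sy α)).set (.r .X) v =
    ps i o d v y n1 n2 n3 n4 n5 k m a := by
  funext z; rcases z with z | z | z <;> [cases z; skip; skip] <;> simp [Store.set, ps]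

theorem ps_Y : (ps i o d x y n1 n2 n3 n4 n5 k m a : Store (Reg τ) (Sy α)).set (.r .Y) v =
    ps i o d x v n1 n2 n3 n4 n5 k m a := by
  funext z; rcases z with z | z | z <;> [cases z; skip; skip] <;> simp [Store.set, ps]

theorem ps_N1 : (ps i o d x y n1 n2 n3 n4 n5 k m a : Store (Reg τ) (Sy α)).set (.r .N1) v =
    ps i o d x y v n2 n3 n4 n5 k m a := by
  funext z; rcases z with z | z | z <;> [cases z; skip; skip] <;> simp [Store.set, ps]

theorem ps_N2 : (ps i o d x y n1 n2 n3 n4 n5 k m a : Store (Reg τ) (Sy α)).set (.r .N2) v =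
    ps i o d x y n1 v n3 n4 n5 k m a := by
  funext z; rcases z with z | z | z <;> [cases z; skip; skip] <;> simp [Store.set, ps]

theorem ps_N3 : (ps i o d x y n1 n2 n3 n4 n5 k m a : Store (Reg τ) (Sy α)).set (.r .N3) v =
    ps i o d x y n1 n2 v n4 n5 k m a := by
  funext z; rcases z with z | z | z <;> [cases z; skip; skip] <;> simp [Store.set, ps]

theorem ps_N4 : (ps i o d x y n1 n2 n3 n4 n5 k m a : Store (Reg τ) (Sy α)).set (.r .N4) v =
    ps i o d x y n1 n2 n3 v n5 k m a := by
  funext z; rcases z with z | z | z <;> [cases z; skip; skip] <;> simp [Store.set, ps]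

theorem ps_N5 : (ps i o d x y n1 n2 n3 n4 n5 k m a : Store (Reg τ) (Sy α)).set (.r .N5) v =
    ps i o d x y n1 n2 n3 n4 v k m a := by
  funext z; rcases z with z | z | z <;> [cases z; skip; skip] <;> simp [Store.set, ps]

theorem ps_K : (ps i o d x y n1 n2 n3 n4 n5 k m a : Store (Reg τ) (Sy α)).set (.r .K) v =
    ps i o d x y n1 n2 n3 n4 n5 v m a := by
  funext z; rcases z with z | z | z <;> [cases z; skip; skip] <;> simp [Store.set, ps]

theorem ps_M1 : (ps i o d x y n1 n2 n3 n4 n5 k m a : Store (Reg τ) (Sy α)).set (.r .M1) v =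
    ps i o d x y n1 n2 n3 n4 n5 k v a := by
  funext z; rcases z with z | z | z <;> [cases z; skip; skip] <;> simp [Store.set, ps]

end

section
variable {τ α : Type} [DecidableEq τ]

theorem num_cons (m : ℕ) : (Sy.mark :: num m : List (Sy α)) = num (m + 1) := by
  simp [num, List.replicate_succ]

theorem run_root1 (w : List (Sy α)) :
    Runs (.loop (fun h => (h (.r .inp)).isSome) (.act fun h i =>
      if i = .r .inp then { pop := true }
      else if i = .r .X ∨ i = .r .Y then { pb := h (.r .inp) } else {}))
      (ps w [] [] [] [] [] [] [] [] [] [] [] [] : Store (Reg τ) (Sy α))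
      (ps [] [] [] w w [] [] [] [] [] [] [] []) (2 * w.length + 1) := by
  have key := Runs.loopN (c := .act fun h i =>
      if i = .r .inp then { pop := true }
      else if i = .r .X ∨ i = .r .Y then { pb := h (.r .inp) } else {})
    (p := fun h => (h (.r .inp)).isSome) w.length
    (fun i => (ps (w.drop i) [] [] (w.take i) (w.take i) [] [] [] [] [] [] [] [] :
      Store (Reg τ) (Sy α))) 1
    (by
      intro i hi
      simp only [Store.heads, ps]
      rw [List.drop_eq_getElem_cons hi]; rfl)
    (by
      intro i hi
      rw [List.drop_eq_getElem_cons hi, List.take_succ_eq_append_getElem hi]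
      generalize w[i] = x
      generalize w.drop (i + 1) = l
      generalize w.take i = t
      refine Runs.act' _ fun z => ?_
      rcases z with z | z | z <;> [cases z; skip; skip] <;>
        simp [Act.app, ps, Store.heads])
    (by simp [Store.heads, ps])
  simp only [List.drop_zero, List.take_zero, List.drop_length, List.take_length] at key
  exact key.mono (by omega)

theorem run_root2 (w : List (Sy α)) (n : ℕ) (hw : w.length = n ^ 2) :
    Runs (.loop (fun h => (h (.r .X)).isSome) (sq [
      dropN 1 (.r .N2) (.r .X), pushF (.r .N2) .mark, pushF (.r .N2) .mark,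
      pushF (.r .N1) .mark]))
      (ps w [] [] w [] (num 0) (num 1) [] [] [] [] [] [] : Store (Reg τ) (Sy α))
      (ps w [] [] [] [] (num n) (num (2 * n + 1)) [] [] [] [] [] [])
      (n * (8 * n + 20) + 1) := by
  have key := Runs.loopN (c := sq [
      dropN 1 (.r .N2) (.r .X), pushF (.r .N2) .mark, pushF (.r .N2) .mark,
      pushF (.r .N1) .mark])
    (p := fun h => (h (.r .X)).isSome) n
    (fun i => (ps w [] [] (w.drop (i ^ 2)) [] (num i) (num (2 * i + 1)) [] [] [] [] [] [] :
      Store (Reg τ) (Sy α))) (8 * n + 19)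
    (by
      intro i hi
      simp only [Store.heads, ps]
      have : i ^ 2 < w.length := by rw [hw]; gcongr
      rw [List.drop_eq_getElem_cons this]; rfl)
    (by
      intro i hi
      refine Runs.cast (run_sq_cons (run_dropN (by simp) rfl) (run_sq_cons (run_pushF _)
        (run_sq_cons (run_pushF _) (run_sq_cons (run_pushF _) run_sq_nil)))) ?_ (by omega)
      have e1 : (w.drop (i ^ 2)).drop (1 * (2 * i + 1)) = w.drop ((i + 1) ^ 2) := by
        rw [List.drop_drop]; congr 1; ring
      simp only [ps_X, ps_N2, ps_N1, ps, num_cons, e1]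
      rfl)
    (by simp [Store.heads, ps, ← hw])
  have e : w.drop (n ^ 2) = [] := by rw [← hw]; simp
  simp only [e, zero_pow (two_ne_zero), List.drop_zero] at key
  exact key

theorem run_rootP (w : List (Sy α)) (n : ℕ) (hw : w.length = n ^ 2) :
    Runs rootP
      (ps w [] [] [] [] [] [] [] [] [] [] [] [] : Store (Reg τ) (Sy α))
      (ps w [] [] [] [] (num n) [] [] [] [] [] [] []) (12 * n ^ 2 + 24 * n + 20) := by
  refine Runs.cast (run_sq_cons (run_root1 w) (run_sq_cons (run_mvAll (by simp))
    (run_sq_cons (run_zeroC ?_) (run_sq_cons (run_zeroC ?_) (run_sq_cons (run_pushF _)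
      (run_sq_cons (s1 := ps w [] [] [] [] (num n) (num (2 * n + 1)) [] [] [] [] [] [])
        (s2 := ps w [] [] [] [] (num n) [] [] [] [] [] [] [])
        (T1 := n * (8 * n + 20) + 1) (T2 := 4 * n + 10) ?_ ?_)))))) rfl ?_
  · simp only [ps_Y, ps_inp, ps]
  · simp only [ps_Y, ps_inp, ps_N1, ps]
  · have h := run_root2 (τ := τ) w n hw
    refine cast ?_ h
    congr 1
    simp only [ps_Y, ps_inp, ps_N1, ps_N2, ps, num_cons]
    rfl
  · refine Runs.cast (run_sq_cons run_clr run_sq_nil) ?_ ?_
    · simp only [ps_N2]
    · simp only [ps, num]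
      simp
      omega
  · simp only [ps, hw]
    ring_nf
    omega

theorem run_monus {ι : Type} [DecidableEq ι] {c a : ι} (hca : c ≠ a) {s : Store ι (Sy α)}
    {N m : ℕ} (hc : s c = num N) (ha : s a = num m) :
    Runs (forN c (.ite (fun h => isMark (h a)) (popF a) (sq []))) s (s.set a (num (m - N)))
      (4 * N + 2) := by
  have key := Runs.forN (c := c) (body := .ite (fun h => isMark (h a)) (popF a) (sq [])) N
    (fun i => s.set a (num (m - i))) 2
    (by intro i; simp [hca, hc])
    (by
      intro i _ x
      by_cases hi : i < m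
      · have e : m - i = (m - (i + 1)) + 1 := by omega
        refine Runs.iteT ?_ (Runs.cast run_popF ?_ le_rfl)
        · simp [Store.heads, Store.set_ne _ _ hca.symm, e, num, List.replicate_succ, isMark]
        · rw [Store.set_ne _ _ hca.symm, Store.set_same, e]
          have : (num (m - (i + 1) + 1) : List (Sy α)).tail = num (m - (i + 1)) := by
            simp [num, List.replicate_succ]
          rw [this, Store.set_comm _ _ _ hca, Store.set_set]
      · have e : m - i = 0 := by omega
        have e' : m - (i + 1) = 0 := by omega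
        refine Runs.iteF ?_ (Runs.cast run_sq_nil ?_ le_rfl)
        · simp [Store.heads, Store.set_ne _ _ hca.symm, e, num, isMark]
        · simp only [e, e'])
  simp only [Nat.sub_zero] at key
  rw [← ha, Store.set_self] at key
  exact key.mono (by omega)

theorem run_size1 (m : ℕ) (w : List (Sy α)) (n : ℕ) :
    Runs (forN (.r .N1) (addC m (.r .N2) (.r .M1)))
      (ps w [] [] [] [] (num n) (num n) [] [] [] [] (num 0) [] : Store (Reg τ) (Sy α))
      (ps w [] [] [] [] (num n) (num n) [] [] [] [] (num (m * n * n)) [])
      (n * (n * (m + 3) + 2 + 2) + 2) := by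
  have key := Runs.forN (c := .r .N1) (body := addC m (.r .N2) (.r .M1)) n
    (fun i => (ps w [] [] [] [] (num n) (num n) [] [] [] [] (num (m * n * i)) [] :
      Store (Reg τ) (Sy α))) (n * (m + 3) + 2)
    (by intro i; rfl)
    (by
      intro i hi x
      rw [ps_N1, ps_N1]
      refine Runs.cast (run_addC (by simp) rfl rfl) ?_ (by omega)
      rw [ps_M1]
      rfl)
  exact key

theorem run_size2 (w : List (Sy α)) (n L : ℕ) (m : List (Sy α))
    (h1 : ∀ i < L, 2 ^ (i + 1) < n) (h2 : n ≤ 2 ^ (L + 1)) :
    Runs (.loop (fun h => isMark (h (.r .N4))) (sq [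
      forN (.r .N3) (.ite (fun h => isMark (h (.r .N4))) (popF (.r .N4)) (sq [])),
      dblC (.r .N3) (.r .A3), pushF (.r .K) .mark]))
      (ps w [] [] [] [] (num n) (num n) (num 2) (num (n - 2)) [] (num 0) m [] :
        Store (Reg τ) (Sy α))
      (ps w [] [] [] [] (num n) (num n) (num (2 ^ (L + 1))) (num (n - 2 ^ (L + 1))) [] (num L)
        m [])
      (L * (14 * n + 25) + 1) := by
  have key := Runs.loopN (c := sq [
      forN (.r .N3) (.ite (fun h => isMark (h (.r .N4))) (popF (.r .N4)) (sq [])),
      dblC (.r .N3) (.r .A3), pushF (.r .K) .mark])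
    (p := fun h => isMark (h (.r .N4))) L
    (fun i => (ps w [] [] [] [] (num n) (num n) (num (2 ^ (i + 1))) (num (n - 2 ^ (i + 1))) []
      (num i) m [] : Store (Reg τ) (Sy α))) (14 * n + 24)
    (by
      intro i hi
      obtain ⟨j, hj⟩ : ∃ j, n - 2 ^ (i + 1) = j + 1 := ⟨n - 2 ^ (i + 1) - 1, by
        have := h1 i hi; omega⟩
      simp [Store.heads, ps, hj, num, List.replicate_succ, isMark])
    (by
      intro i hi
      have h3 := h1 i hi
      refine Runs.cast (run_sq_cons (run_monus (by simp) rfl rfl)
        (run_sq_cons (run_dblC (by simp) rfl rfl) (run_sq_cons (run_pushF _) run_sq_nil)))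
        ?_ (by omega)
      have e1 : n - 2 ^ (i + 1) - 2 ^ (i + 1) = n - 2 ^ (i + 1 + 1) := by
        rw [pow_succ 2 (i + 1)]; omega
      have e2 : 2 * 2 ^ (i + 1) = 2 ^ (i + 1 + 1) := by ring
      simp only [ps_N3, ps_N4, ps_K, ps, num_cons, e1, e2])
    (by
      have : n - 2 ^ (L + 1) = 0 := by omega
      simp [Store.heads, ps, this, num, isMark])
  simpa using key

/-- `N2 := n`, `M1 := m n^2`, `N3 := 2^k`, `K := k - 1`, `N5 := 2^k - n`, where `k ≥ 1` is least
with `2^k ≥ n`. -/
def sizeG (m : ℕ) : Cmd (Reg τ) (Sy α) := sq [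
  zeroC (.r .N2), addC 1 (.r .N1) (.r .N2),
  zeroC (.r .M1), forN (.r .N1) (addC m (.r .N2) (.r .M1)),
  zeroC (.r .K), zeroC (.r .N3), pushF (.r .N3) .mark, pushF (.r .N3) .mark,
  zeroC (.r .N4), addC 1 (.r .N1) (.r .N4),
  forN (.r .N3) (.ite (fun h => isMark (h (.r .N4))) (popF (.r .N4)) (sq [])),
  .loop (fun h => isMark (h (.r .N4))) (sq [
    forN (.r .N3) (.ite (fun h => isMark (h (.r .N4))) (popF (.r .N4)) (sq [])),
    dblC (.r .N3) (.r .A3), pushF (.r .K) .mark]),
  clr (.r .N4),
  zeroC (.r .N5), addC 1 (.r .N3) (.r .N5), subC 1 (.r .N1) (.r .N5)]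

/-- The whole transposition program with the core program `core`. -/
def transG (m : ℕ) (core : Cmd (Reg τ) (Sy α)) : Cmd (Reg τ) (Sy α) := sq [
  rootP, sizeG m, padP, core, cutP]

theorem run_sizeG (m : ℕ) (w : List (Sy α)) (n L : ℕ) (hn : 1 ≤ n)
    (h1 : ∀ i < L, 2 ^ (i + 1) < n) (h2 : n ≤ 2 ^ (L + 1)) (h3 : 2 ^ (L + 1) ≤ 2 * n) :
    Runs (sizeG m)
      (ps w [] [] [] [] (num n) [] [] [] [] [] [] [] : Store (Reg τ) (Sy α))
      (ps w [] [] [] [] (num n) (num n) (num (2 ^ (L + 1))) [] (num (2 ^ (L + 1) - n)) (num L)
        (num (m * n * n)) [])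
      ((m + 200) * n ^ 2 + 200) := by
  have hL : L < 2 ^ L := Nat.lt_two_pow_self
  have hL' : L ≤ n := by rw [pow_succ] at h3; omega
  have hLn : L * (14 * n + 25) ≤ n * (14 * n + 25) := Nat.mul_le_mul_right _ hL'
  have hnn : n ≤ n ^ 2 := by nlinarith
  refine Runs.cast (T1 := 1 + (n * (1 + 3) + 2 + (1 + (n * (n * (m + 3) + 2 + 2) + 2 + (1 + (1 + (1 +
    (1 + (1 + (n * (1 + 3) + 2 + (4 * 2 + 2 + (L * (14 * n + 25) + 1 + (3 + (1 + (2 ^ (L + 1) *
    (1 + 3) + 2 + (n * (1 + 3) + 2 + 1)))))))))))))))) (run_sq_cons (run_zeroC ?_) (run_sq_cons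
      (run_addC (N := n) (m := 0) (by simp) ?_ ?_)
    (run_sq_cons (run_zeroC ?_) (run_sq_cons
      (s1 := ps w [] [] [] [] (num n) (num n) [] [] [] [] (num (m * n * n)) []) ?_
    (run_sq_cons (run_zeroC ?_) (run_sq_cons (run_zeroC ?_) (run_sq_cons (run_pushF _)
    (run_sq_cons (run_pushF _) (run_sq_cons (run_zeroC ?_) (run_sq_cons
      (run_addC (N := n) (m := 0) (by simp) ?_ ?_)
    (run_sq_cons (run_monus (N := 2) (m := n) (by simp) ?_ ?_)
    (run_sq_cons
      (s1 := ps w [] [] [] [] (num n) (num n) (num (2 ^ (L + 1))) (num (n - 2 ^ (L + 1))) [] (num L)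
        (num (m * n * n)) []) ?_
    (run_sq_cons (Runs.cast run_clr rfl ?_) (run_sq_cons (run_zeroC ?_)
    (run_sq_cons (run_addC (N := 2 ^ (L + 1)) (m := 0) (by simp) ?_ ?_)
    (run_sq_cons (run_subC (N := n) (m := 2 ^ (L + 1)) (by simp) ?_ ?_ (by omega))
      run_sq_nil)))))))))))))))) ?_ ?_
  · rfl
  · simp only [ps_N2, ps]
  · simp only [ps_N2, ps]
  · simp only [ps_N2, ps]
  · have h := run_size1 (τ := τ) m w n
    refine cast ?_ h
    congr 1
    simp only [ps_N2, ps_M1, Nat.zero_add, Nat.one_mul]
  · rfl
  · simp only [ps_K, ps]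
  · simp only [ps_K, ps_N3, ps]
  · simp only [ps_K, ps_N3, ps_N4, ps]
  · simp only [ps_K, ps_N3, ps_N4, ps]
  · simp only [ps_K, ps_N3, ps_N4, ps, num_cons]
  · simp only [ps_K, ps_N3, ps_N4, ps, num_cons, Nat.zero_add, Nat.one_mul]
  · have h := run_size2 (τ := τ) w n L (num (m * n * n)) h1 h2
    refine cast ?_ h
    congr 1
    simp only [ps_K, ps_N3, ps_N4, ps, num_cons]
  · have : n - 2 ^ (L + 1) = 0 := by omega
    simp [ps, this, num]
  · simp only [ps_N4, ps]
  · simp only [ps_N4, ps_N5, ps]
  · simp only [ps_N4, ps_N5, ps]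
  · simp only [ps_N4, ps_N5, ps]
  · simp only [ps_N4, ps_N5, ps, Nat.zero_add, Nat.one_mul]
  · simp only [ps_N4, ps_N5, Nat.zero_add, Nat.one_mul]
  · ring_nf at *
    nlinarith

omit [DecidableEq τ] in
theorem bs_fm (n : ℕ) (f : ℕ → List Bool) :
    (bs (fm n f) : List (Sy α)) = fm n (fun i => bs (f i)) := by
  induction n with
  | zero => rfl
  | succ n ih => rw [fm_succ, fm_succ, bs_append, ih]

theorem fm_split_first {β : Type} (n i : ℕ) (h : i < n) (f : ℕ → List β) :
    fm (n - i) (fun j => f (i + j)) = f i ++ fm (n - (i + 1)) (fun j => f (i + 1 + j)) := by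
  obtain ⟨m, hm⟩ : ∃ m, n - i = m + 1 := ⟨n - i - 1, by omega⟩
  have hm' : n - (i + 1) = m := by omega
  rw [hm, hm', fm_succ']
  congr 1
  exact fm_congr fun j _ => by
    congr 1
    omega

theorem run_pad1 (n p : ℕ) (row : ℕ → List (Sy α)) (hrow : ∀ i < n, (row i).length = n)
    (n3 n4 k m a : List (Sy α)) :
    Runs (forN (.r .N1) (.seq (moveN (.r .N2) (.r .inp) (.r .D))
        (fillN 1 (.r .N5) (.r .D) (Sy.bit false))))
      (ps (fm n row) [] [] [] [] (num n) (num n) n3 n4 (num p) k m a : Store (Reg τ) (Sy α))
      (ps [] [] (fm n fun i => row i ++ List.replicate p (Sy.bit false)) [] [] (num n) (num n) n3 n4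
        (num p) k m a)
      (n * ((3 * n + 2) + (p * 4 + 2) + 2) + 2) := by
  have key := Runs.forN (c := .r .N1) (body := .seq (moveN (.r .N2) (.r .inp) (.r .D))
        (fillN 1 (.r .N5) (.r .D) (Sy.bit false))) n
    (fun i => (ps (fm (n - i) fun j => row (i + j)) []
      (fm i fun i => row i ++ List.replicate p (Sy.bit false)) [] [] (num n) (num n) n3 n4 (num p)
      k m a : Store (Reg τ) (Sy α))) ((3 * n + 2) + (p * 4 + 2))
    (by intro i; rfl)
    (by
      intro i hi x
      rw [ps_N1, ps_N1]
      refine Runs.cast (Runs.seq (run_moveN (N := n) (l := row i)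
        (rest := fm (n - (i + 1)) fun j => row (i + 1 + j)) (by simp) (by simp) (by simp) rfl ?_
        (hrow i hi)) (run_fillN (by simp) rfl)) ?_ (by omega)
      · exact fm_split_first n i hi row
      · simp only [ps_inp, ps_D, ps, Nat.one_mul, fm_succ, List.append_assoc])
  simp only [Nat.sub_zero, Nat.zero_add, Nat.sub_self, fm_zero] at key
  exact key

theorem run_pad2 (q p : ℕ) (n1 n2 n4 k m a D : List (Sy α)) :
    Runs (forN (.r .N5) (fillN 1 (.r .N3) (.r .D) (Sy.bit false)))
      (ps [] [] D [] [] n1 n2 (num q) n4 (num p) k m a : Store (Reg τ) (Sy α))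
      (ps [] [] (D ++ List.replicate (p * q) (Sy.bit false)) [] [] n1 n2 (num q) n4
        (num p) k m a)
      (p * ((q * 4 + 2) + 2) + 2) := by
  have key := Runs.forN (c := .r .N5) (body := fillN 1 (.r .N3) (.r .D) (Sy.bit false)) p
    (fun i => (ps [] [] (D ++ List.replicate (i * q) (Sy.bit false)) [] [] n1 n2 (num q) n4 (num p)
      k m a : Store (Reg τ) (Sy α))) (q * 4 + 2)
    (by intro i; rfl)
    (by
      intro i hi x
      rw [ps_N5, ps_N5]
      refine Runs.cast (run_fillN (by simp) rfl) ?_ (by omega)
      simp only [ps_D, ps, Nat.zero_mul, Nat.zero_add, List.append_assoc, ← List.replicate_add,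
        Nat.succ_mul])
  simp only [Nat.zero_mul, List.replicate_zero, List.append_nil] at key
  exact key

theorem run_cut1 (n q p : ℕ) (hq : n ≤ q) (f g : ℕ → List (Sy α))
    (hf : ∀ i < n, (f i).length = n) (hg : ∀ i < n, (g i).length = p)
    (n3 n4 k m a : List (Sy α)) :
    Runs (forN (.r .N1) (.seq (moveN (.r .N2) (.r .D) (.r .out)) (dropN 1 (.r .N5) (.r .D))))
      (ps [] [] (fm q fun i => f i ++ g i) [] [] (num n) (num n) n3 n4 (num p) k m a :
        Store (Reg τ) (Sy α))
      (ps [] (fm n f) (fm (q - n) fun j => f (n + j) ++ g (n + j)) [] [] (num n) (num n) n3 n4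
        (num p) k m a)
      (n * ((3 * n + 2) + (p * 4 + 2) + 2) + 2) := by
  have key := Runs.forN (c := .r .N1) (body := .seq (moveN (.r .N2) (.r .D) (.r .out))
      (dropN 1 (.r .N5) (.r .D))) n
    (fun i => (ps [] (fm i f) (fm (q - i) fun j => f (i + j) ++ g (i + j)) [] [] (num n) (num n)
      n3 n4 (num p) k m a : Store (Reg τ) (Sy α))) ((3 * n + 2) + (p * 4 + 2))
    (by intro i; rfl)
    (by
      intro i hi x
      rw [ps_N1, ps_N1]
      refine Runs.cast (Runs.seq (run_moveN (N := n) (l := f i)
        (rest := g i ++ fm (q - (i + 1)) fun j => f (i + 1 + j) ++ g (i + 1 + j)) (by simp)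
        (by simp) (by simp) rfl ?_ (hf i hi)) (run_dropN (N := p) (by simp) rfl)) ?_ (by omega)
      · have := fm_split_first q i (by omega) (fun i => f i ++ g i)
        simp only [List.append_assoc] at this
        exact this
      · have : (g i ++ fm (q - (i + 1)) fun j => f (i + 1 + j) ++ g (i + 1 + j)).drop (1 * p) =
            fm (q - (i + 1)) fun j => f (i + 1 + j) ++ g (i + 1 + j) := by
          rw [Nat.one_mul]
          exact List.drop_left' (hg i hi)
        simp only [ps_out, ps_D, ps, this, fm_succ])
  simp only [Nat.sub_zero, Nat.zero_add, fm_zero] at key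
  exact key

theorem run_padP (n q : ℕ) (row : ℕ → List (Sy α)) (hrow : ∀ i < n, (row i).length = n)
    (hn : 1 ≤ n) (hq : q ≤ 2 * n) (n4 k m a : List (Sy α)) :
    Runs padP
      (ps (fm n row) [] [] [] [] (num n) (num n) (num q) n4 (num (q - n)) k m a :
        Store (Reg τ) (Sy α))
      (ps [] [] ((fm n fun i => row i ++ List.replicate (q - n) (Sy.bit false)) ++
        List.replicate ((q - n) * q) (Sy.bit false)) [] [] (num n) (num n) (num q) n4
        (num (q - n)) k m a)
      (40 * n ^ 2) := by
  refine Runs.cast (run_sq_cons (run_pad1 n (q - n) row hrow (num q) n4 k m a)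
    (run_sq_cons (run_pad2 q (q - n) (num n) (num n) n4 k m a _) run_sq_nil)) rfl ?_
  have : q - n ≤ n := by omega
  have h2 : (q - n) * (q * 4 + 2 + 2) ≤ n * (2 * n * 4 + 2 + 2) := by gcongr
  have h3 : n * ((3 * n + 2) + ((q - n) * 4 + 2) + 2) ≤ n * ((3 * n + 2) + (n * 4 + 2) + 2) := by
    gcongr
  nlinarith

theorem run_cutP (n q : ℕ) (hn : 1 ≤ n) (hnq : n ≤ q) (hq : q ≤ 2 * n) (f g : ℕ → List (Sy α))
    (hf : ∀ i < q, (f i).length = n) (hg : ∀ i < q, (g i).length = q - n)
    (n3 n4 k m a : List (Sy α)) :
    Runs cutP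
      (ps [] [] (fm q fun i => f i ++ g i) [] [] (num n) (num n) n3 n4 (num (q - n)) k m a :
        Store (Reg τ) (Sy α))
      (ps [] (fm n f) [] [] [] (num n) (num n) n3 n4 (num (q - n)) k m a)
      (40 * n ^ 2) := by
  refine Runs.cast (run_sq_cons (run_cut1 n q (q - n) hnq f g (fun i hi => hf i (by omega))
    (fun i hi => hg i (by omega)) n3 n4 k m a)
    (run_sq_cons run_clr run_sq_nil)) ?_ ?_
  · simp only [ps_D]
  · have : q - n ≤ n := by omega
    have h3 : n * ((3 * n + 2) + ((q - n) * 4 + 2) + 2) ≤
        n * ((3 * n + 2) + (n * 4 + 2) + 2) := by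
      gcongr
    have h4 : (fm (q - n) fun j => f (n + j) ++ g (n + j)).length = (q - n) * q := by
      apply fm_length
      intro i hi
      rw [List.length_append, hf _ (by omega), hg _ (by omega)]
      omega
    have h5 : (q - n) * q ≤ n * (2 * n) := by gcongr
    simp only [ps, h4]
    nlinarith

omit [DecidableEq τ] in
theorem ofFn_flatten_eq_fm {β : Type} (n : ℕ) (F : Fin n → List β) (f : ℕ → List β)
    (h : ∀ i : Fin n, F i = f i) : (List.ofFn F).flatten = fm n f := by
  have e : F = fun i : Fin n => f i := funext h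
  subst e
  unfold fm
  rw [List.ofFn_eq_map, List.flatMap_def]
  congr 1
  rw [← List.map_coe_finRange_eq_range, List.map_map]
  rfl

theorem ofFn_eq_fm {β : Type} (n : ℕ) (F : Fin n → β) (f : ℕ → β)
    (h : ∀ i : Fin n, F i = f i) : List.ofFn F = fm n (fun i => [f i]) := by
  have h2 : List.ofFn F = (List.ofFn (fun i => [F i])).flatten := by
    rw [List.ofFn_eq_map, List.ofFn_eq_map]
    induction List.finRange n with
    | nil => rfl
    | cons a l ih => simp [ih]
  rw [h2]
  exact ofFn_flatten_eq_fm n _ _ (fun i => by rw [h i])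

/-- The matrix, extended by zeros. -/
def extM {n : ℕ} (M : Matrix (Fin n) (Fin n) Bool) (x y : ℕ) : Bool :=
  if h : x < n ∧ y < n then M ⟨x, h.1⟩ ⟨y, h.2⟩ else false

theorem rowMajor_eq_fm {n : ℕ} (M : Matrix (Fin n) (Fin n) Bool) :
    rowMajor M = fm n fun x => fm n fun y => [extM M x y] := by
  unfold rowMajor
  apply ofFn_flatten_eq_fm
  intro i
  apply ofFn_eq_fm
  intro j
  simp [extM]

theorem rowMajor_transpose_eq_fm {n : ℕ} (M : Matrix (Fin n) (Fin n) Bool) :
    rowMajor M.transpose = fm n fun y => fm n fun x => [extM M x y] := by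
  unfold rowMajor
  apply ofFn_flatten_eq_fm
  intro i
  apply ofFn_eq_fm
  intro j
  simp [extM, Matrix.transpose_apply]

theorem fm_const_singleton {β : Type} (n : ℕ) (f : ℕ → β) (b : β) (h : ∀ i < n, f i = b) :
    fm n (fun i => [f i]) = List.replicate n b := by
  induction n with
  | zero => rfl
  | succ n ih =>
    rw [fm_succ, ih (fun i hi => h i (by omega)), h n (by omega), List.replicate_succ']

theorem fm_const_replicate {β : Type} (n m : ℕ) (b : β) :
    fm n (fun _ => List.replicate m b) = List.replicate (n * m) b := by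
  induction n with
  | zero => simp
  | succ n ih => rw [fm_succ, ih, ← List.replicate_add, Nat.succ_mul]

theorem extM_row {n q : ℕ} (hq : n ≤ q) (M : Matrix (Fin n) (Fin n) Bool) (x : ℕ) :
    fm q (fun y => [extM M x y]) = fm n (fun y => [extM M x y]) ++
      List.replicate (q - n) false := by
  obtain ⟨p, rfl⟩ := Nat.exists_eq_add_of_le hq
  rw [fm_add, Nat.add_sub_cancel_left]
  congr 1
  apply fm_const_singleton
  intro i _
  simp [extM]

theorem extM_all {n q : ℕ} (hq : n ≤ q) (M : Matrix (Fin n) (Fin n) Bool) :
    (fm q fun x => fm q fun y => [extM M x y]) =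
      (fm n fun x => fm n (fun y => [extM M x y]) ++ List.replicate (q - n) false) ++
        List.replicate ((q - n) * q) false := by
  obtain ⟨p, rfl⟩ := Nat.exists_eq_add_of_le hq
  rw [fm_add, Nat.add_sub_cancel_left]
  congr 1
  · exact fm_congr fun i _ => by
      have := extM_row (q := n + p) (by omega) M i
      rwa [Nat.add_sub_cancel_left] at this
  · rw [← fm_const_replicate]
    exact fm_congr fun i _ => by
      apply fm_const_singleton
      intro j _
      simp [extM]

/-- The initial store. -/
def initS (w : List (Sy α)) : Store (Reg τ) (Sy α) := Store.set (fun _ => []) (r inp) w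

theorem initS_eq (w : List (Sy α)) : (initS w : Store (Reg τ) (Sy α)) =
    ps w [] [] [] [] [] [] [] [] [] [] [] [] := by
  funext z; rcases z with z | z | z <;> [cases z; skip; skip] <;> simp [initS, Store.set, ps]

theorem run_transG (core : Cmd (Reg τ) (Sy α)) (c0 m : ℕ) (F : ℕ → ℕ → ℕ)
    (hcore : CoreSpec core c0 F) (hm : 4 * c0 ≤ m) :
    ∃ C0 : ℕ, ∀ (n : ℕ), 1 ≤ n → ∀ (M : Matrix (Fin n) (Fin n) Bool),
    ∃ s' : Store (Reg τ) (Sy α), s' (r out) = bs (rowMajor M.transpose) ∧
    Runs (transG m core) (initS (bs (rowMajor M))) s'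
      (C0 * (F (max 1 (Nat.clog 2 n)) (m * n ^ 2) + n ^ 2)) := by
  obtain ⟨C0, hC⟩ := hcore
  refine ⟨C0 + (m + 1000), fun n hn M => ?_⟩
  obtain ⟨L, hL⟩ : ∃ L, max 1 (Nat.clog 2 n) = L + 1 := ⟨max 1 (Nat.clog 2 n) - 1, by omega⟩
  have h1 : ∀ i < L, 2 ^ (i + 1) < n := by
    intro i hi
    apply (Nat.lt_clog_iff_pow_lt (by norm_num)).1
    omega
  have h2 : n ≤ 2 ^ (L + 1) := by
    refine (Nat.le_pow_clog (b := 2) (by norm_num) n).trans ?_
    exact Nat.pow_le_pow_right (by norm_num) (by omega)
  have h3 : 2 ^ (L + 1) ≤ 2 * n := by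
    rcases Nat.eq_zero_or_pos L with h | h
    · subst h; omega
    · have := h1 (L - 1) (by omega)
      rw [Nat.sub_add_cancel h] at this
      rw [pow_succ]; omega
  have h4 : c0 * 4 ^ (L + 1) ≤ m * n * n := by
    have e : (4 : ℕ) ^ (L + 1) = (2 ^ (L + 1)) ^ 2 := by
      rw [← pow_mul, mul_comm, pow_mul]; norm_num
    rw [e]
    calc c0 * (2 ^ (L + 1)) ^ 2 ≤ c0 * (2 * n) ^ 2 := by gcongr
      _ = (4 * c0) * n * n := by ring
      _ ≤ m * n * n := by gcongr
  refine ⟨ps [] (fm n fun y => bs (fm n fun x => [extM M x y])) [] [] [] (num n) (num n)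
    (num (2 ^ (L + 1))) [] (num (2 ^ (L + 1) - n)) (num L) (num (m * n * n)) [], ?_, ?_⟩
  · rw [rowMajor_transpose_eq_fm, bs_fm]
    rfl
  · have hw : (bs (rowMajor M) : List (Sy α)) = fm n fun x => bs (fm n fun y => [extM M x y]) := by
      rw [rowMajor_eq_fm, bs_fm]
    have hrow : ∀ (g : ℕ → ℕ → Bool) (i : ℕ),
        (bs (fm n fun y => [g i y]) : List (Sy α)).length = n := by
      intro g i
      rw [bs_length, fm_length (c := 1) (fun _ _ => rfl), Nat.mul_one]
    have hwl : (bs (rowMajor M) : List (Sy α)).length = n ^ 2 := by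
      rw [hw, fm_length (c := n) (fun i _ => hrow (extM M) i)]
      ring
    rw [initS_eq]
    have r1 := run_rootP (τ := τ) _ n hwl
    have r2 := run_sizeG (τ := τ) m (bs (rowMajor M) : List (Sy α)) n L hn h1 h2 h3
    have r3 := run_padP (τ := τ) n (2 ^ (L + 1)) (fun x => (bs (fm n fun y => [extM M x y]) :
      List (Sy α))) (fun i _ => hrow (extM M) i) hn h3 [] (num L) (num (m * n * n)) []
    rw [← hw] at r3
    have e3 : ((fm n fun i => (bs (fm n fun y => [extM M i y]) : List (Sy α)) ++
        List.replicate (2 ^ (L + 1) - n) (Sy.bit false)) ++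
        List.replicate ((2 ^ (L + 1) - n) * 2 ^ (L + 1)) (Sy.bit false)) =
        bs (fm (2 ^ (L + 1)) fun x => fm (2 ^ (L + 1)) fun y => [extM M x y]) := by
      rw [extM_all h2, bs_append, bs_fm, bs_replicate]
      congr 1
      exact fm_congr fun i _ => by rw [bs_append, bs_replicate]
    rw [e3] at r3
    have r4 := hC (ps [] [] (bs (fm (2 ^ (L + 1)) fun x => fm (2 ^ (L + 1)) fun y =>
        [extM M x y])) [] [] (num n) (num n) (num (2 ^ (L + 1))) [] (num (2 ^ (L + 1) - n))
        (num L) (num (m * n * n)) []) (L + 1) (m * n * n) (extM M) (by omega) h4 rfl rfl rfl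
        (by intro x hx; cases x <;> first | rfl | (exact absurd (by simp) hx))
        (fun _ => rfl) (fun _ => rfl)
    rw [ps_D] at r4
    have e4 : (bs (fm (2 ^ (L + 1)) fun y => fm (2 ^ (L + 1)) fun x => [extM M x y]) :
        List (Sy α)) = fm (2 ^ (L + 1)) fun y => bs (fm n fun x => [extM M x y]) ++
          bs (fm (2 ^ (L + 1) - n) fun x => [extM M (n + x) y]) := by
      rw [bs_fm]
      refine fm_congr fun y _ => ?_
      rw [← bs_append]
      congr 1
      have := fm_add n (2 ^ (L + 1) - n) (fun x => [extM M x y])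
      rwa [Nat.add_sub_cancel' h2] at this
    rw [e4] at r4
    have r5 := run_cutP (τ := τ) n (2 ^ (L + 1)) hn h2 h3
      (fun y => (bs (fm n fun x => [extM M x y]) : List (Sy α)))
      (fun y => bs (fm (2 ^ (L + 1) - n) fun x => [extM M (n + x) y]))
      (fun y _ => hrow (fun y x => extM M x y) y)
      (fun y _ => by rw [bs_length, fm_length (c := 1) (fun _ _ => rfl), Nat.mul_one])
      (num (2 ^ (L + 1))) [] (num L) (num (m * n * n)) []
    refine Runs.cast (run_sq_cons r1 (run_sq_cons r2 (run_sq_cons r3 (run_sq_cons r4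
      (run_sq_cons r5 run_sq_nil))))) rfl ?_
    have e5 : m * n * n = m * n ^ 2 := by ring
    rw [hL, e5]
    have hnn : n ≤ n ^ 2 := by nlinarith
    generalize F (L + 1) (m * n ^ 2) = X
    have h1' : 1 ≤ n ^ 2 := Nat.one_le_pow _ _ hn
    have h5 : 0 ≤ m * X := Nat.zero_le _
    nlinarith

end

end Vale.Agent.P338
end

section

/-! Interleaving, deinterleaving and naive block transposition. -/

namespace Vale.Agent.P338
open Reg R

/-- The part of the concatenation `fm N f` from index `i` on. -/
def ft {β : Type} (i N : ℕ) (f : ℕ → List β) : List β := fm (N - i) fun j => f (i + j)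

theorem ft_zero {β : Type} (N : ℕ) (f : ℕ → List β) : ft 0 N f = fm N f := by
  simp [ft]

theorem ft_self {β : Type} (N : ℕ) (f : ℕ → List β) : ft N N f = [] := by
  simp [ft]

theorem ft_step {β : Type} {i N : ℕ} (h : i < N) (f : ℕ → List β) :
    ft i N f = f i ++ ft (i + 1) N f := by
  obtain ⟨m, hm⟩ : ∃ m, N - i = m + 1 := ⟨N - i - 1, by omega⟩
  have h2 : N - (i + 1) = m := by omega
  unfold ft
  rw [hm, h2, fm_succ']
  simp [Nat.add_assoc, Nat.add_comm 1]

/-- Regrouping of a double concatenation. -/
theorem fm_fm {β : Type} (A k : ℕ) (hk : 1 ≤ k) (G : ℕ → ℕ → List β) :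
    (fm A fun a => fm k fun u => G a u) = fm (A * k) fun x => G (x / k) (x % k) := by
  rw [fm_mul]
  refine fm_congr fun a _ => fm_congr fun u hu => ?_
  have h1 : (a * k + u) / k = a := by
    rw [Nat.add_comm, Nat.add_mul_div_right _ _ (by omega), Nat.div_eq_of_lt hu, Nat.zero_add]
  have h2 : (a * k + u) % k = u := by
    rw [Nat.add_comm, Nat.add_mul_mod_self_right, Nat.mod_eq_of_lt hu]
  rw [h1, h2]

theorem fm_two {β : Type} (f : ℕ → List β) : fm 2 f = f 0 ++ f 1 := by
  rw [fm_succ, fm_one]

section
variable {τ α : Type} [DecidableEq τ]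

/-- Move `N` entries of length `m` from `a` to `b`. -/
theorem run_moveNN {g c a b : Reg τ} (hgc : g ≠ c) (hga : g ≠ a) (hgb : g ≠ b) (hca : c ≠ a)
    (hcb : c ≠ b) (hab : a ≠ b) {s : Store (Reg τ) (Sy α)} {N m : ℕ} {f : ℕ → List (Sy α)}
    {rest : List (Sy α)} (hf : ∀ i, (f i).length = m) (hg : s g = num N) (hc : s c = num m)
    (ha : s a = fm N f ++ rest) :
    Runs (forN g (moveN c a b)) s ((s.set a rest).set b (s b ++ fm N f))
      (N * (3 * m + 4) + 2) := by
  have key := Runs.forN (c := g) (body := moveN c a b) N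
    (fun i => (s.set a (ft i N f ++ rest)).set b (s b ++ fm i f)) (3 * m + 2)
    (by intro i; simp [hga, hgb, hg])
    (by
      intro i hi x
      have := run_moveN (c := c) (a := a) (b := b) hca hcb hab
        (s := ((s.set a (ft i N f ++ rest)).set b (s b ++ fm i f)).set g x) (N := m)
        (l := f i) (rest := ft (i + 1) N f ++ rest)
        (by simp [hgc.symm, hca, hcb, hc])
        (by simp [hga.symm, hab, ft_step hi]) (hf i)
      convert this using 1
      rw [Store.set_ne _ _ hgb.symm, Store.set_same, List.append_assoc, ← fm_succ]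
      apply Store.ext'
      intro r
      simp only [Store.set]
      clear hi this
      split_ifs <;> simp_all)
  simp only [ft_zero, ft_self, fm_zero, List.append_nil, List.nil_append] at key
  have e0 : (s.set a (fm N f ++ rest)).set b (s b) = s := by
    rw [Store.set_eq_self s ha, Store.set_self]
  rw [e0] at key
  exact key.mono (le_of_eq (by ring))

/-- Alternating move from `X` and `D` to `C`. -/
theorem run_alt {g : Reg τ} (hg : g ≠ r D ∧ g ≠ r X ∧ g ≠ r C ∧ g ≠ r A1)
    {s : Store (Reg τ) (Sy α)} {N m : ℕ} {f f' : ℕ → List (Sy α)}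
    {rest : List (Sy α)} (hf : ∀ i, (f i).length = m) (hf' : ∀ i, (f' i).length = m)
    (hgN : s g = num N) (hc : s (r A1) = num m)
    (hX : s (r X) = fm N f) (hD : s (r D) = fm N f' ++ rest) :
    Runs (forN g (.seq (moveN (.r .A1) (.r .X) (.r .C)) (moveN (.r .A1) (.r .D) (.r .C)))) s
      (((s.set (r X) []).set (r D) rest).set (r C) (s (r C) ++ fm N fun i => f i ++ f' i))
      (N * (6 * m + 6) + 2) := by
  obtain ⟨g1, g2, g3, g4⟩ := hg
  have key := Runs.forN (c := g)
    (body := .seq (moveN (.r .A1) (.r .X) (.r .C)) (moveN (.r .A1) (.r .D) (.r .C))) N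
    (fun i => ((s.set (r X) (ft i N f)).set (r D) (ft i N f' ++ rest)).set (r C)
      (s (r C) ++ fm i fun i => f i ++ f' i)) (6 * m + 4)
    (by intro i; simp [g1, g2, g3, hgN])
    (by
      intro i hi x
      have h1 := run_moveN (c := r A1) (a := r X) (b := r C) (by simp) (by simp) (by simp)
        (s := (((s.set (r X) (ft i N f)).set (r D) (ft i N f' ++ rest)).set (r C)
          (s (r C) ++ fm i fun i => f i ++ f' i)).set g x) (N := m)
        (l := f i) (rest := ft (i + 1) N f)
        (by simp [g4.symm, hc])
        (by simp [g2.symm, ft_step hi]) (hf i)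
      have h2 := run_moveN (c := r A1) (a := r D) (b := r C) (by simp) (by simp) (by simp)
        (s := (((s.set (r X) (ft (i + 1) N f)).set (r D) (ft i N f' ++ rest)).set (r C)
          (s (r C) ++ (fm i fun i => f i ++ f' i) ++ f i)).set g x) (N := m)
        (l := f' i) (rest := ft (i + 1) N f' ++ rest)
        (by simp [g4.symm, hc])
        (by simp [g1.symm, ft_step hi]) (hf' i)
      refine Runs.cast ((Runs.cast h1 ?_ le_rfl).seq h2) ?_ (by omega)
      · rw [Store.set_ne _ _ g3.symm, Store.set_same]
        apply Store.ext'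
        intro r
        simp only [Store.set]
        clear hi h1 h2
        split_ifs <;> simp_all
      · rw [Store.set_ne _ _ g3.symm, Store.set_same]
        apply Store.ext'
        intro r
        simp only [Store.set]
        clear hi h1 h2
        split_ifs <;> simp_all [fm_succ])
  simp only [ft_zero, ft_self, fm_zero, List.append_nil, List.nil_append] at key
  have e0 : ((s.set (r X) (fm N f)).set (r D) (fm N f' ++ rest)).set (r C) (s (r C)) = s := by
    rw [Store.set_eq_self s hX, Store.set_eq_self s hD, Store.set_self]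
  rw [e0] at key
  exact key.mono (le_of_eq (by ring))

/-- Alternating move from `D` to `C` and `X`. -/
theorem run_alt' {g : Reg τ} (hg : g ≠ r D ∧ g ≠ r X ∧ g ≠ r C ∧ g ≠ r A1)
    {s : Store (Reg τ) (Sy α)} {N m : ℕ} {f f' : ℕ → List (Sy α)}
    {rest : List (Sy α)} (hf : ∀ i, (f i).length = m) (hf' : ∀ i, (f' i).length = m)
    (hgN : s g = num N) (hc : s (r A1) = num m)
    (hD : s (r D) = (fm N fun i => f i ++ f' i) ++ rest) :
    Runs (forN g (.seq (moveN (.r .A1) (.r .D) (.r .C)) (moveN (.r .A1) (.r .D) (.r .X)))) s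
      (((s.set (r D) rest).set (r C) (s (r C) ++ fm N f)).set (r X) (s (r X) ++ fm N f'))
      (N * (6 * m + 6) + 2) := by
  obtain ⟨g1, g2, g3, g4⟩ := hg
  have key := Runs.forN (c := g)
    (body := .seq (moveN (.r .A1) (.r .D) (.r .C)) (moveN (.r .A1) (.r .D) (.r .X))) N
    (fun i => ((s.set (r D) (ft i N (fun i => f i ++ f' i) ++ rest)).set (r C)
      (s (r C) ++ fm i f)).set (r X) (s (r X) ++ fm i f')) (6 * m + 4)
    (by intro i; simp [g1, g2, g3, hgN])
    (by
      intro i hi x
      have h1 := run_moveN (c := r A1) (a := r D) (b := r C) (by simp) (by simp) (by simp)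
        (s := (((s.set (r D) (ft i N (fun i => f i ++ f' i) ++ rest)).set (r C)
          (s (r C) ++ fm i f)).set (r X) (s (r X) ++ fm i f')).set g x) (N := m)
        (l := f i) (rest := f' i ++ ft (i + 1) N (fun i => f i ++ f' i) ++ rest)
        (by simp [g4.symm, hc])
        (by simp [g1.symm, ft_step hi]) (hf i)
      have h2 := run_moveN (c := r A1) (a := r D) (b := r X) (by simp) (by simp) (by simp)
        (s := (((s.set (r D) (f' i ++ ft (i + 1) N (fun i => f i ++ f' i) ++ rest)).set (r C)
          (s (r C) ++ fm (i + 1) f)).set (r X) (s (r X) ++ fm i f')).set g x) (N := m)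
        (l := f' i) (rest := ft (i + 1) N (fun i => f i ++ f' i) ++ rest)
        (by simp [g4.symm, hc])
        (by simp [g1.symm]) (hf' i)
      refine Runs.cast ((Runs.cast h1 ?_ le_rfl).seq h2) ?_ (by omega)
      · rw [Store.set_ne _ _ g3.symm, Store.set_ne _ _ (by simp), Store.set_same]
        apply Store.ext'
        intro r
        simp only [Store.set]
        clear hi h1 h2
        split_ifs <;> simp_all [fm_succ]
      · rw [Store.set_ne _ _ g2.symm, Store.set_same]
        apply Store.ext'
        intro r
        simp only [Store.set]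
        clear hi h1 h2
        split_ifs <;> simp_all [fm_succ])
  simp only [ft_zero, ft_self, fm_zero, List.append_nil, List.nil_append] at key
  have e0 : ((s.set (r D) ((fm N fun i => f i ++ f' i) ++ rest)).set (r C) (s (r C))).set (r X)
      (s (r X)) = s := by
    rw [Store.set_eq_self s hD, Store.set_self, Store.set_self]
  rw [e0] at key
  exact key.mono (le_of_eq (by ring))

/-- Auxiliary arithmetic. -/
theorem arith_ilv {A N m : ℕ} (hA : 1 ≤ A) (hN : 1 ≤ N) (hm : 1 ≤ m) :
    N ≤ N * m ∧ 1 ≤ N * m ∧ 1 ≤ A * (N * m) ∧ A ≤ A * (N * m) := by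
  have h1 : N ≤ N * m := Nat.le_mul_of_pos_right _ hm
  have h2 : 1 ≤ N * m := hN.trans h1
  have h3 : A ≤ A * (N * m) := Nat.le_mul_of_pos_right _ h2
  exact ⟨h1, h2, hA.trans h3, h3⟩

theorem run_ilv {g : Reg τ} (hg : g ≠ r D ∧ g ≠ r X ∧ g ≠ r C ∧ g ≠ r A1) :
    ∃ C0 : ℕ, ∀ (s : Store (Reg τ) (Sy α)) (A N m : ℕ) (ent : ℕ → ℕ → ℕ → List (Sy α)),
    1 ≤ A → 1 ≤ N → 1 ≤ m → (∀ a b v, (ent a b v).length = m) →
    s (r D) = (fm A fun a => fm 2 fun b => fm N fun v => ent a b v) →
    s g = num N → s (r A1) = num m → s (r X) = [] → s (r C) = [] →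
    Runs (ilv g) s (s.set (r D) (fm A fun a => fm N fun v => fm 2 fun b => ent a b v))
      (C0 * (A * (N * m))) := by
  refine ⟨100, fun s A N m ent hA hN hm hent hD hgN hA1 hX hC => ?_⟩
  have g1 := hg.1
  have g2 := hg.2.1
  have g3 := hg.2.2.1
  have g4 := hg.2.2.2
  obtain ⟨a1, a2, a3, a4⟩ := arith_ilv hA hN hm
  set f : ℕ → List (Sy α) := fun a => fm 2 fun b => fm N fun v => ent a b v with hf
  set f' : ℕ → List (Sy α) := fun a => fm N fun v => fm 2 fun b => ent a b v with hf'
  have hfl : ∀ a, (f a).length = 2 * (N * m) := fun a =>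
    fm_length fun b _ => fm_length fun v _ => hent a b v
  have hfl' : ∀ a, (f' a).length = N * (2 * m) := fun a =>
    fm_length fun b _ => fm_length fun v _ => hent a v b
  have key := Runs.loopN (p := fun h => (h (.r .D)).isSome)
    (c := sq [
      forN g (moveN (.r .A1) (.r .D) (.r .X)),
      forN g (.seq (moveN (.r .A1) (.r .X) (.r .C)) (moveN (.r .A1) (.r .D) (.r .C)))]) A
    (fun i => (s.set (r D) (ft i A f)).set (r C) (fm i f')) (20 * (N * m) + 5)
    (by
      intro i hi
      simp only [Store.heads]
      rw [Store.set_ne _ _ (by simp), Store.set_same, ft_step hi]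
      have := hfl i
      cases hfi : f i with
      | nil => rw [hfi] at this; simp at this; omega
      | cons x l => rfl)
    (by
      intro i hi
      have h1 := run_moveNN (g := g) (c := r A1) (a := r D) (b := r X) g4 g1 g2 (by simp)
        (by simp) (by simp) (s := (s.set (r D) (ft i A f)).set (r C) (fm i f')) (N := N) (m := m)
        (f := fun v => ent i 0 v) (rest := (fm N fun v => ent i 1 v) ++ ft (i + 1) A f)
        (fun v => hent i 0 v) (by simp [g1, g3, hgN]) (by simp [hA1])
        (by simp [ft_step hi, hf, fm_two])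
      have h2 := run_alt (g := g) hg (N := N) (m := m)
        (s := ((s.set (r D) ((fm N fun v => ent i 1 v) ++ ft (i + 1) A f)).set (r C)
          (fm i f')).set (r X) (fm N fun v => ent i 0 v))
        (f := fun v => ent i 0 v) (f' := fun v => ent i 1 v) (rest := ft (i + 1) A f)
        (fun v => hent i 0 v) (fun v => hent i 1 v) (by simp [g1, g2, g3, hgN])
        (by simp [hA1]) (by simp) (by simp)
      refine Runs.cast (run_sq_cons (Runs.cast h1 ?_ le_rfl) (run_sq_cons h2 run_sq_nil)) ?_ ?_
      · apply Store.ext'
        intro r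
        simp only [Store.set]
        clear hA hN hm a1 a2 a3 a4 hi h1 h2
        split_ifs <;> simp_all
      · apply Store.ext'
        intro r
        simp only [Store.set]
        clear hA hN hm a1 a2 a3 a4 hi h1 h2
        split_ifs <;> simp_all [fm_succ]
      · ring_nf at *
        omega)
    (by simp [Store.heads, ft_self])
  have e0 : (s.set (r D) (ft 0 A f)).set (r C) (fm 0 f') = s := by
    rw [ft_zero, fm_zero, Store.set_eq_self s hD, Store.set_eq_self s hC]
  rw [e0] at key
  have h2 := run_mvAll (a := r C) (b := r D) (by simp)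
    (s := (s.set (r D) (ft A A f)).set (r C) (fm A f'))
  refine Runs.cast (run_sq_cons key (run_sq_cons h2 run_sq_nil)) ?_ ?_
  · rw [ft_self]
    apply Store.ext'
    intro r
    simp only [Store.set]
    clear hA hN hm a1 a2 a3 a4 key h2
    split_ifs <;> simp_all
  · have hl : (fm A f').length = A * (N * (2 * m)) := fm_length fun b _ => hfl' b
    rw [Store.set_same, hl]
    ring_nf at *
    omega

theorem run_dilv {g : Reg τ} (hg : g ≠ r D ∧ g ≠ r X ∧ g ≠ r C ∧ g ≠ r A1) :
    ∃ C0 : ℕ, ∀ (s : Store (Reg τ) (Sy α)) (A N m : ℕ) (ent : ℕ → ℕ → ℕ → List (Sy α)),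
    1 ≤ A → 1 ≤ N → 1 ≤ m → (∀ a b v, (ent a b v).length = m) →
    s (r D) = (fm A fun a => fm N fun v => fm 2 fun b => ent a b v) →
    s g = num N → s (r A1) = num m → s (r X) = [] → s (r C) = [] →
    Runs (dilv g) s (s.set (r D) (fm A fun a => fm 2 fun b => fm N fun v => ent a b v))
      (C0 * (A * (N * m))) := by
  refine ⟨100, fun s A N m ent hA hN hm hent hD hgN hA1 hX hC => ?_⟩
  have g1 := hg.1
  have g2 := hg.2.1
  have g3 := hg.2.2.1
  have g4 := hg.2.2.2
  obtain ⟨a1, a2, a3, a4⟩ := arith_ilv hA hN hm
  set f' : ℕ → List (Sy α) := fun a => fm 2 fun b => fm N fun v => ent a b v with hf'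
  set f : ℕ → List (Sy α) := fun a => fm N fun v => fm 2 fun b => ent a b v with hf
  have hfl' : ∀ a, (f' a).length = 2 * (N * m) := fun a =>
    fm_length fun b _ => fm_length fun v _ => hent a b v
  have hfl : ∀ a, (f a).length = N * (2 * m) := fun a =>
    fm_length fun b _ => fm_length fun v _ => hent a v b
  have key := Runs.loopN (p := fun h => (h (.r .D)).isSome)
    (c := sq [
      forN g (.seq (moveN (.r .A1) (.r .D) (.r .C)) (moveN (.r .A1) (.r .D) (.r .X))),
      mvAll (.r .X) (.r .C)]) A
    (fun i => (s.set (r D) (ft i A f)).set (r C) (fm i f')) (20 * (N * m) + 5)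
    (by
      intro i hi
      simp only [Store.heads]
      rw [Store.set_ne _ _ (by simp), Store.set_same, ft_step hi]
      have := hfl i
      have a5 : N * (2 * m) = 2 * (N * m) := by ring
      cases hfi : f i with
      | nil => rw [hfi] at this; simp only [List.length_nil] at this; omega
      | cons x l => rfl)
    (by
      intro i hi
      have h1 := run_alt' (g := g) hg (N := N) (m := m)
        (s := (s.set (r D) (ft i A f)).set (r C) (fm i f'))
        (f := fun v => ent i 0 v) (f' := fun v => ent i 1 v) (rest := ft (i + 1) A f)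
        (fun v => hent i 0 v) (fun v => hent i 1 v) (by simp [g1, g3, hgN])
        (by simp [hA1]) (by simp [ft_step hi, hf, fm_two])
      have h2 := run_mvAll (a := r X) (b := r C) (by simp)
        (s := ((s.set (r D) (ft (i + 1) A f)).set (r C) (fm i f' ++ fm N fun v => ent i 0 v)).set
          (r X) (fm N fun v => ent i 1 v))
      refine Runs.cast (run_sq_cons (Runs.cast h1 ?_ le_rfl) (run_sq_cons h2 run_sq_nil)) ?_ ?_
      · apply Store.ext'
        intro r
        simp only [Store.set]
        clear hA hN hm a1 a2 a3 a4 hi h1 h2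
        split_ifs <;> simp_all
      · apply Store.ext'
        intro r
        simp only [Store.set]
        clear hA hN hm a1 a2 a3 a4 hi h1 h2
        split_ifs <;> simp_all [fm_succ]
      · have hl : (fm N fun v => ent i 1 v).length = N * m := fm_length fun b _ => hent i 1 b
        rw [Store.set_same, hl]
        ring_nf at *
        omega)
    (by simp [Store.heads, ft_self])
  have e0 : (s.set (r D) (ft 0 A f)).set (r C) (fm 0 f') = s := by
    rw [ft_zero, fm_zero, Store.set_eq_self s hD, Store.set_eq_self s hC]
  rw [e0] at key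
  have h2 := run_mvAll (a := r C) (b := r D) (by simp)
    (s := (s.set (r D) (ft A A f)).set (r C) (fm A f'))
  refine Runs.cast (run_sq_cons key (run_sq_cons h2 run_sq_nil)) ?_ ?_
  · rw [ft_self]
    apply Store.ext'
    intro r
    simp only [Store.set]
    clear hA hN hm a1 a2 a3 a4 key h2
    split_ifs <;> simp_all
  · have hl : (fm A f').length = A * (2 * (N * m)) := fm_length fun b _ => hfl' b
    rw [Store.set_same, hl]
    ring_nf at *
    omega

/-- The stage `t` of the naive transposition. -/
def nst (A h : ℕ) (ent : ℕ → ℕ → ℕ → List (Sy α)) (t : ℕ) : List (Sy α) :=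
  fm A fun a => fm (2 ^ (h - t)) fun u => fm (2 ^ h) fun v => fm (2 ^ t) fun w =>
    ent a (u * 2 ^ t + w) v

theorem nst_zero (A h : ℕ) (ent : ℕ → ℕ → ℕ → List (Sy α)) :
    nst A h ent 0 = fm A fun a => fm (2 ^ h) fun i => fm (2 ^ h) fun j => ent a i j := by
  simp [nst]

theorem nst_last (A h : ℕ) (ent : ℕ → ℕ → ℕ → List (Sy α)) :
    nst A h ent h = fm A fun a => fm (2 ^ h) fun j => fm (2 ^ h) fun i => ent a i j := by
  simp [nst]

/-- The entries seen by the interleaving in stage `t`. -/
def nent (h : ℕ) (ent : ℕ → ℕ → ℕ → List (Sy α)) (t : ℕ) (x b v : ℕ) : List (Sy α) :=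
  fm (2 ^ t) fun w => ent (x / 2 ^ (h - t - 1)) ((x % 2 ^ (h - t - 1) * 2 + b) * 2 ^ t + w) v

theorem nst_eq (A h : ℕ) (ent : ℕ → ℕ → ℕ → List (Sy α)) {t : ℕ} (ht : t < h) :
    nst A h ent t = fm (A * 2 ^ (h - t - 1)) fun x => fm 2 fun b => fm (2 ^ h) fun v =>
      nent h ent t x b v := by
  have e : 2 ^ (h - t) = 2 ^ (h - t - 1) * 2 := by
    rw [← pow_succ]; congr 1; omega
  have h1 := fm_fm A (2 ^ (h - t - 1)) Nat.one_le_two_pow (fun a u => fm 2 fun b =>
    fm (2 ^ h) fun v => fm (2 ^ t) fun w => ent a ((u * 2 + b) * 2 ^ t + w) v)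
  unfold nst nent
  rw [← h1]
  refine fm_congr fun a _ => ?_
  rw [e, fm_mul]

theorem nst_succ (A h : ℕ) (ent : ℕ → ℕ → ℕ → List (Sy α)) {t : ℕ} :
    nst A h ent (t + 1) = fm (A * 2 ^ (h - t - 1)) fun x => fm (2 ^ h) fun v => fm 2 fun b =>
      nent h ent t x b v := by
  have h1 := fm_fm A (2 ^ (h - t - 1)) Nat.one_le_two_pow (fun a u =>
    fm (2 ^ h) fun v => fm 2 fun b => fm (2 ^ t) fun w => ent a ((u * 2 + b) * 2 ^ t + w) v)
  unfold nst nent
  rw [← h1]
  refine fm_congr fun a _ => ?_
  rw [show h - (t + 1) = h - t - 1 by omega]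
  refine fm_congr fun u _ => fm_congr fun v _ => ?_
  rw [show 2 ^ (t + 1) = 2 * 2 ^ t by ring, fm_mul]
  refine fm_congr fun b _ => fm_congr fun w _ => ?_
  congr 1
  ring

theorem run_naive : ∃ C0 : ℕ, ∀ (s : Store (Reg τ) (Sy α)) (A h E : ℕ)
    (ent : ℕ → ℕ → ℕ → List (Sy α)),
    1 ≤ A → 1 ≤ h → 1 ≤ E → (∀ a i j, (ent a i j).length = E) →
    s (r D) = (fm A fun a => fm (2 ^ h) fun i => fm (2 ^ h) fun j => ent a i j) →
    s (r q1) = num (2 ^ h) → s (r nE) = num E → s (r nh) = num h →
    s (r X) = [] → s (r C) = [] → s (r A1) = [] → s (r A3) = [] →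
    Runs naive s (s.set (r D) (fm A fun a => fm (2 ^ h) fun j => fm (2 ^ h) fun i => ent a i j))
      (C0 * (h * (A * (2 ^ h * (2 ^ h * E))))) := by
  obtain ⟨C1, hC1⟩ := run_ilv (τ := τ) (α := α) (g := r q1) (by simp)
  refine ⟨C1 + 100, fun s A h E ent hA hh hE hent hD hq hnE hnh hX hC hA1 hA3 => ?_⟩
  have w2 : 2 ^ h * E ≤ A * (2 ^ h * (2 ^ h * E)) := by
    calc 2 ^ h * E = 1 * (1 * (2 ^ h * E)) := by ring
      _ ≤ A * (2 ^ h * (2 ^ h * E)) :=
        Nat.mul_le_mul hA (Nat.mul_le_mul_right _ Nat.one_le_two_pow)
  have w3 : E ≤ 2 ^ h * E := Nat.le_mul_of_pos_left _ (by positivity)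
  have w1 : 1 ≤ A * (2 ^ h * (2 ^ h * E)) := by omega
  have h1 := run_zeroC (c := r A1) (s := s) hA1
  have h2 := run_addC (k := 1) (d := r nE) (c := r A1) (by simp) (s := s.set (r A1) (num 0))
    (N := E) (m := 0) (by simp [hnE]) (by simp)
  have key := Runs.forN (c := r nh) (body := sq [ilv (.r .q1), dblC (.r .A1) (.r .A3)]) h
    (fun t => (s.set (r D) (nst A h ent t)).set (r A1) (num (2 ^ t * E)))
    ((C1 + 50) * (A * (2 ^ h * (2 ^ h * E))))
    (by intro i; simp [hnh])
    (by
      intro t ht x
      have i1 := hC1 (((s.set (r D) (nst A h ent t)).set (r A1) (num (2 ^ t * E))).set (r nh) x)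
        (A * 2 ^ (h - t - 1)) (2 ^ h) (2 ^ t * E) (nent h ent t)
        (Nat.mul_pos hA (by positivity)) Nat.one_le_two_pow (Nat.mul_pos (by positivity) hE)
        (fun x b v => fm_length fun w _ => hent _ _ _)
        (by simp [nst_eq A h ent ht]) (by simp [hq]) (by simp) (by simp [hX]) (by simp [hC])
      rw [← nst_succ A h ent] at i1
      have i2 := run_dblC (a := r A1) (b := r A3) (by simp)
        (s := ((s.set (r D) (nst A h ent (t + 1))).set (r A1) (num (2 ^ t * E))).set (r nh) x)
        (N := 2 ^ t * E) (by simp) (by simp [hA3])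
      refine Runs.cast (run_sq_cons (Runs.cast i1 ?_ le_rfl) (run_sq_cons i2 run_sq_nil)) ?_ ?_
      · apply Store.ext'
        intro r
        simp only [Store.set]
        clear hC1 hA hh hE w2 w3 w1 h1 h2 ht i1 i2
        split_ifs <;> simp_all
      · have e3 : 2 * (2 ^ t * E) = 2 ^ (t + 1) * E := by ring
        rw [e3]
        apply Store.ext'
        intro r
        simp only [Store.set]
        clear hC1 hA hh hE w2 w3 w1 h1 h2 ht i1 i2
        split_ifs <;> simp_all
      · have b1 : A * 2 ^ (h - t - 1) * (2 ^ h * (2 ^ t * E)) ≤ A * (2 ^ h * (2 ^ h * E)) := by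
          have b0 : 2 ^ (h - t - 1) * 2 ^ t ≤ 2 ^ h := by
            rw [← pow_add]; exact Nat.pow_le_pow_right (by norm_num) (by omega)
          calc A * 2 ^ (h - t - 1) * (2 ^ h * (2 ^ t * E))
              = A * (2 ^ h * ((2 ^ (h - t - 1) * 2 ^ t) * E)) := by ring
            _ ≤ _ := by gcongr
        have b2 : 2 ^ t * E ≤ 2 ^ h * E :=
          Nat.mul_le_mul_right _ (Nat.pow_le_pow_right (by norm_num) ht.le)
        have b3 := Nat.mul_le_mul_left C1 b1
        rw [Nat.add_mul]
        omega)
  have h3 := run_clr (a := r A1)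
    (s := (s.set (r D) (nst A h ent h)).set (r A1) (num (2 ^ h * E)))
  refine Runs.cast (run_sq_cons h1 (run_sq_cons (Runs.cast h2 ?_ le_rfl) (run_sq_cons key
    (run_sq_cons h3 run_sq_nil)))) ?_ ?_
  · rw [nst_zero]
    apply Store.ext'
    intro r
    simp only [Store.set]
    clear hC1 hA hh hE w2 w3 w1 h1 h2 key h3
    split_ifs <;> simp_all
  · rw [nst_last]
    apply Store.ext'
    intro r
    simp only [Store.set]
    clear hC1 hA hh hE w2 w3 w1 h1 h2 key h3
    split_ifs <;> simp_all
  · rw [Store.set_same]
    have hl : (num (2 ^ h * E) : List (Sy α)).length = 2 ^ h * E + 1 := by simp [num]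
    rw [hl]
    have c1 : h ≤ h * (A * (2 ^ h * (2 ^ h * E))) := Nat.le_mul_of_pos_right _ w1
    have c2 : A * (2 ^ h * (2 ^ h * E)) ≤ h * (A * (2 ^ h * (2 ^ h * E))) :=
      Nat.le_mul_of_pos_left _ hh
    have c3 : h * ((C1 + 50) * (A * (2 ^ h * (2 ^ h * E))) + 2) =
      C1 * (h * (A * (2 ^ h * (2 ^ h * E)))) + 50 * (h * (A * (2 ^ h * (2 ^ h * E)))) + 2 * h := by
      ring
    rw [c3, Nat.add_mul]
    omega

end

end Vale.Agent.P338
end

section

/-! Stack machines with an input stream and an output stream, in the form of program fragments that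
can be combined.  They are the target of the compilation of the register language and the source of
the compilation to multitape Turing machines. -/

namespace Vale.Agent.P338

/-- What one step does to one stack: first optionally pop, then optionally push. -/
structure SOp (Γ : Type) where
  pop : Bool := false
  push : Option Γ := none

/-- Effect on a stack (top first). -/
def SOp.app {Γ : Type} (a : SOp Γ) (l : List Γ) : List Γ :=
  a.push.toList ++ (if a.pop then l.tail else l)

/-- The memory of a stack machine: stacks, remaining input, output so far. -/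
structure Mem (K Γ : Type) where
  stk : K → List Γ
  inp : List Sym
  out : List Bool

/-- The effect of one step: the next state (`none` means exit), the stack operations, whether to
advance the input, and an optional output bit. -/
structure Eff (S K Γ : Type) where
  next : Option S
  ops : K → SOp Γ := fun _ => {}
  adv : Bool := false
  emit : Option Bool := none

/-- A fragment: states with a start state and a step function. -/
structure Frag (K Γ : Type) where
  S : Type
  fin : Finite S
  start : S
  step : S → Option Sym → (K → Option Γ) → Eff S K Γ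

variable {K Γ : Type}

/-- The tops of all stacks. -/
def Mem.tops (m : Mem K Γ) : K → Option Γ := fun k => (m.stk k).head?

/-- Effect on the memory. -/
def Eff.app {S : Type} (e : Eff S K Γ) (m : Mem K Γ) : Mem K Γ where
  stk := fun k => (e.ops k).app (m.stk k)
  inp := if e.adv then m.inp.tail else m.inp
  out := m.out ++ e.emit.toList

/-- The effect in state `q` on memory `m`. -/
def Frag.eff (F : Frag K Γ) (q : F.S) (m : Mem K Γ) : Eff F.S K Γ := F.step q m.inp.head? m.tops

/-- `F.Exits q m m' t`: started in state `q` with memory `m` the fragment exits after exactly `t`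
steps with memory `m'`. -/
inductive Frag.Exits (F : Frag K Γ) : F.S → Mem K Γ → Mem K Γ → ℕ → Prop
  | done {q : F.S} {m : Mem K Γ} (h : (F.eff q m).next = none) :
      F.Exits q m ((F.eff q m).app m) 1
  | more {q q' : F.S} {m m' : Mem K Γ} {t : ℕ} (h : (F.eff q m).next = some q')
      (h' : F.Exits q' ((F.eff q m).app m) m' t) : F.Exits q m m' (t + 1)

/-- A one-state fragment. -/
def Frag.single (g : Option Sym → (K → Option Γ) → Eff Unit K Γ) : Frag K Γ where
  S := Unit
  fin := inferInstance
  start := ()
  step := fun _ => g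

/-- Change of state space of an effect. -/
def Eff.map {S S' : Type} (f : Option S → Option S') (e : Eff S K Γ) : Eff S' K Γ where
  next := f e.next
  ops := e.ops
  adv := e.adv
  emit := e.emit

@[simp] theorem Eff.map_next {S S' : Type} (f : Option S → Option S') (e : Eff S K Γ) :
    (e.map f).next = f e.next := rfl

@[simp] theorem Eff.map_app {S S' : Type} (f : Option S → Option S') (e : Eff S K Γ)
    (m : Mem K Γ) : (e.map f).app m = e.app m := rfl

/-- Sequential composition. -/
def Frag.seq (F G : Frag K Γ) : Frag K Γ where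
  S := F.S ⊕ G.S
  fin := by have := F.fin; have := G.fin; infer_instance
  start := .inl F.start
  step := fun q a h => match q with
    | .inl q => (F.step q a h).map fun o => some (match o with
      | some q' => .inl q'
      | none => .inr G.start)
    | .inr q => (G.step q a h).map fun o => o.map .inr

theorem Frag.Exits.seq_right {F G : Frag K Γ} {q : G.S} {m m' : Mem K Γ} {t : ℕ}
    (h : G.Exits q m m' t) : (F.seq G).Exits (.inr q) m m' t := by
  induction h with
  | @done q m h =>
    have := Frag.Exits.done (F := F.seq G) (q := .inr q) (m := m)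
      (by simp [Frag.eff, Frag.seq]; simpa [Frag.eff] using h)
    simpa [Frag.eff, Frag.seq] using this
  | @more q q' m m' t h h' ih =>
    refine Frag.Exits.more (F := F.seq G) (q := .inr q) (q' := .inr q') ?_ ?_
    · simp only [Frag.eff, Frag.seq, Eff.map_next]
      simp only [Frag.eff] at h
      rw [h]; rfl
    · simpa [Frag.eff, Frag.seq] using ih

theorem Frag.Exits.seq {F G : Frag K Γ} {q : F.S} {m m1 m' : Mem K Γ} {t t' : ℕ}
    (h : F.Exits q m m1 t) (h' : G.Exits G.start m1 m' t') :
    (F.seq G).Exits (.inl q) m m' (t + t') := by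
  induction h with
  | @done q m h =>
    rw [Nat.add_comm]
    refine Frag.Exits.more (F := F.seq G) (q := .inl q) (q' := .inr G.start) ?_ ?_
    · simp only [Frag.eff, Frag.seq, Eff.map_next]
      simp only [Frag.eff] at h
      rw [h]
    · have := Frag.Exits.seq_right (F := F) h'
      simpa [Frag.eff, Frag.seq] using this
  | @more q q' m m1 t h _ ih =>
    rw [Nat.add_right_comm]
    refine Frag.Exits.more (F := F.seq G) (q := .inl q) (q' := .inl q') ?_ ?_
    · simp only [Frag.eff, Frag.seq, Eff.map_next]
      simp only [Frag.eff] at h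
      rw [h]
    · have := ih h'
      simpa [Frag.eff, Frag.seq] using this

/-- Conditional. -/
def Frag.ite (p : (K → Option Γ) → Bool) (F G : Frag K Γ) : Frag K Γ where
  S := Option (F.S ⊕ G.S)
  fin := by have := F.fin; have := G.fin; infer_instance
  start := none
  step := fun q a h => match q with
    | none => { next := some (some (if p h then .inl F.start else .inr G.start)) }
    | some (.inl q) => (F.step q a h).map fun o => o.map fun q' => some (.inl q')
    | some (.inr q) => (G.step q a h).map fun o => o.map fun q' => some (.inr q')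

theorem Frag.Exits.ite_inl {p : (K → Option Γ) → Bool} {F G : Frag K Γ} {q : F.S}
    {m m' : Mem K Γ} {t : ℕ} (h : F.Exits q m m' t) :
    (Frag.ite p F G).Exits (some (.inl q)) m m' t := by
  induction h with
  | @done q m h =>
    have := Frag.Exits.done (F := Frag.ite p F G) (q := some (.inl q)) (m := m)
      (by simp [Frag.eff, Frag.ite]; simpa [Frag.eff] using h)
    simpa [Frag.eff, Frag.ite] using this
  | @more q q' m m' t h h' ih =>
    refine Frag.Exits.more (F := Frag.ite p F G) (q := some (.inl q)) (q' := some (.inl q')) ?_ ?_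
    · simp only [Frag.eff, Frag.ite, Eff.map_next]
      simp only [Frag.eff] at h
      rw [h]; rfl
    · simpa [Frag.eff, Frag.ite] using ih

theorem Frag.Exits.ite_inr {p : (K → Option Γ) → Bool} {F G : Frag K Γ} {q : G.S}
    {m m' : Mem K Γ} {t : ℕ} (h : G.Exits q m m' t) :
    (Frag.ite p F G).Exits (some (.inr q)) m m' t := by
  induction h with
  | @done q m h =>
    have := Frag.Exits.done (F := Frag.ite p F G) (q := some (.inr q)) (m := m)
      (by simp [Frag.eff, Frag.ite]; simpa [Frag.eff] using h)
    simpa [Frag.eff, Frag.ite] using this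
  | @more q q' m m' t h h' ih =>
    refine Frag.Exits.more (F := Frag.ite p F G) (q := some (.inr q)) (q' := some (.inr q')) ?_ ?_
    · simp only [Frag.eff, Frag.ite, Eff.map_next]
      simp only [Frag.eff] at h
      rw [h]; rfl
    · simpa [Frag.eff, Frag.ite] using ih

/-- An effect that does nothing leaves the memory alone. -/
theorem Eff.app_trivial {S : Type} (o : Option S) (m : Mem K Γ) :
    ({ next := o } : Eff S K Γ).app m = m := by
  simp [Eff.app, SOp.app]

theorem Frag.Exits.iteT {p : (K → Option Γ) → Bool} {F G : Frag K Γ}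
    {m m' : Mem K Γ} {t : ℕ} (hp : p m.tops = true) (h : F.Exits F.start m m' t) :
    (Frag.ite p F G).Exits (Frag.ite p F G).start m m' (t + 1) := by
  refine Frag.Exits.more (F := Frag.ite p F G) (q := none) (q' := some (.inl F.start)) ?_ ?_
  · simp [Frag.eff, Frag.ite, hp]
  · simp only [Frag.eff, Frag.ite, Eff.app_trivial]
    exact h.ite_inl

theorem Frag.Exits.iteF {p : (K → Option Γ) → Bool} {F G : Frag K Γ}
    {m m' : Mem K Γ} {t : ℕ} (hp : p m.tops = false) (h : G.Exits G.start m m' t) :
    (Frag.ite p F G).Exits (Frag.ite p F G).start m m' (t + 1) := by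
  refine Frag.Exits.more (F := Frag.ite p F G) (q := none) (q' := some (.inr G.start)) ?_ ?_
  · simp [Frag.eff, Frag.ite, hp]
  · simp only [Frag.eff, Frag.ite, Eff.app_trivial]
    exact h.ite_inr

/-- Loop. -/
def Frag.loop (p : (K → Option Γ) → Bool) (F : Frag K Γ) : Frag K Γ where
  S := Option F.S
  fin := by have := F.fin; infer_instance
  start := none
  step := fun q a h => match q with
    | none => { next := if p h then some (some F.start) else none }
    | some q => (F.step q a h).map some

theorem Frag.Exits.loopF {p : (K → Option Γ) → Bool} {F : Frag K Γ} {m : Mem K Γ}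
    (hp : p m.tops = false) : (Frag.loop p F).Exits (Frag.loop p F).start m m 1 := by
  have := Frag.Exits.done (F := Frag.loop p F) (q := none) (m := m)
    (by simp [Frag.eff, Frag.loop, hp])
  simp only [Frag.eff, Frag.loop, Eff.app_trivial] at this
  exact this

theorem Frag.Exits.loop_body {p : (K → Option Γ) → Bool} {F : Frag K Γ} {q : F.S}
    {m m1 m' : Mem K Γ} {t t' : ℕ} (h : F.Exits q m m1 t)
    (h' : (Frag.loop p F).Exits none m1 m' t') :
    (Frag.loop p F).Exits (some q) m m' (t + t') := by
  induction h with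
  | @done q m h =>
    rw [Nat.add_comm]
    refine Frag.Exits.more (F := Frag.loop p F) (q := some q) (q' := none) ?_ ?_
    · simp only [Frag.eff, Frag.loop, Eff.map_next]
      simp only [Frag.eff] at h
      rw [h]
    · simpa [Frag.eff, Frag.loop] using h'
  | @more q q' m m1 t h _ ih =>
    rw [Nat.add_right_comm]
    refine Frag.Exits.more (F := Frag.loop p F) (q := some q) (q' := some q') ?_ ?_
    · simp only [Frag.eff, Frag.loop, Eff.map_next]
      simp only [Frag.eff] at h
      rw [h]
    · have := ih h'
      simpa [Frag.eff, Frag.loop] using this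

theorem Frag.Exits.loopT {p : (K → Option Γ) → Bool} {F : Frag K Γ}
    {m m1 m' : Mem K Γ} {t t' : ℕ} (hp : p m.tops = true) (h : F.Exits F.start m m1 t)
    (h' : (Frag.loop p F).Exits (Frag.loop p F).start m1 m' t') :
    (Frag.loop p F).Exits (Frag.loop p F).start m m' (t + t' + 1) := by
  refine Frag.Exits.more (F := Frag.loop p F) (q := none) (q' := some F.start) ?_ ?_
  · simp [Frag.eff, Frag.loop, hp]
  · simp only [Frag.eff, Frag.loop, Eff.app_trivial]
    exact h.loop_body h'

end Vale.Agent.P338
end

section

/-! Compilation of a stack machine fragment to a multitape Turing machine. -/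

namespace Vale.Agent.P338

variable {K Γ : Type}

/-- Read an input cell. -/
def Cell.inSym {X : Type} : Cell X → Option Sym
  | .sym a => some a
  | _ => none

/-- Read the top of a stack from a cell; `ext none` is the bottom marker. -/
def Cell.top : Cell (Option Γ) → Option Γ
  | .ext (some g) => some g
  | _ => none

/-- The tape content of a stack (top first in the list): bottom marker in cell 0, then the stack
from bottom to top. -/
def stackTape (l : List Γ) (p : ℕ) : Cell (Option Γ) :=
  match p with
  | 0 => .ext none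
  | p + 1 => match l.reverse[p]? with
    | some g => .ext (some g)
    | none => .blank

/-- First phase on a stack tape: pop or replace or prepare a push. Returns what is written, the
head movement, and the pending push. -/
def SOp.phase (a : SOp Γ) (c : Cell (Option Γ)) : (Cell (Option Γ) × Dir) × Option Γ :=
  if a.pop && c.top.isSome then
    match a.push with
    | some x => ((.ext (some x), .stay), none)
    | none => ((.blank, .left), none)
  else
    match a.push with
    | some x => ((c, .right), some x)
    | none => ((c, .stay), none)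

/-- Second phase on a stack tape. -/
def phase2 (f : Option Γ) (c : Cell (Option Γ)) : Cell (Option Γ) × Dir :=
  match f with
  | some x => (.ext (some x), .stay)
  | none => (c, .stay)

/-- The Turing machine of a fragment. Tapes: one per stack, the input tape `inr false` and the
output tape `inr true`.  States: `none` is the start state in which the bottom markers are written;
`some (inl q)` is the main state `q` (`q = none` is the final state); `some (inr (q, f))` is the
state in which the pending pushes `f` are executed. -/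
def Frag.toMachine [Finite K] [Finite Γ] (F : Frag K Γ) : Machine where
  Tape := K ⊕ Bool
  Ext := Option Γ
  State := Option (Option F.S ⊕ (Option F.S × (K → Option Γ)))
  finTape := inferInstance
  finExt := inferInstance
  finState := by have := F.fin; infer_instance
  inTape := .inr false
  outTape := .inr true
  start := none
  step := fun q c => match q with
    | none => some (some (.inl (some F.start)), fun i => match i with
        | .inl _ => (.ext none, .stay)
        | .inr b => (c (.inr b), .stay))
    | some (.inl none) => none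
    | some (.inl (some q)) =>
        let e := F.step q (c (.inr false)).inSym (fun k => (c (.inl k)).top)
        some (some (.inr (e.next, fun k => ((e.ops k).phase (c (.inl k))).2)), fun i => match i with
          | .inl k => ((e.ops k).phase (c (.inl k))).1
          | .inr false => (c (.inr false), if e.adv then .right else .stay)
          | .inr true => match e.emit with
            | some b => (.sym (.bit b), .right)
            | none => (c (.inr true), .stay))
    | some (.inr (q, f)) => some (some (.inl q), fun i => match i with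
        | .inl k => phase2 (f k) (c (.inl k))
        | .inr b => (c (.inr b), .stay))

/-- The Turing machine configuration that represents a stack machine configuration, for input
`w`. -/
def Frag.cfg [Finite K] [Finite Γ] (F : Frag K Γ) (w : List Sym) (q : Option F.S)
    (stk : K → List Γ) (p : ℕ) (out : List Bool) : F.toMachine.Cfg where
  state := some (.inl q)
  head := fun i => match i with
    | .inl k => (stk k).length
    | .inr false => p
    | .inr true => out.length
  cont := fun i => match i with
    | .inl k => stackTape (stk k)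
    | .inr false => tapeOf w
    | .inr true => tapeOf (out.map .bit)

/-- The Turing machine configuration between the two phases of a step with effect `e`. -/
def Frag.mid [Finite K] [Finite Γ] (F : Frag K Γ) (w : List Sym) (e : Eff F.S K Γ)
    (stk : K → List Γ) (p : ℕ) (out : List Bool) : F.toMachine.Cfg where
  state := some (.inr (e.next, fun k =>
    ((e.ops k).phase (stackTape (stk k) (stk k).length)).2))
  head := fun i => match i with
    | .inl k => ((e.ops k).phase (stackTape (stk k) (stk k).length)).1.2.move (stk k).length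
    | .inr false => if e.adv then p + 1 else p
    | .inr true => (out ++ e.emit.toList).length
  cont := fun i => match i with
    | .inl k => fun r => if r = (stk k).length then
        ((e.ops k).phase (stackTape (stk k) (stk k).length)).1.1 else stackTape (stk k) r
    | .inr false => tapeOf w
    | .inr true => tapeOf ((out ++ e.emit.toList).map .bit)

@[simp] theorem stackTape_length (l : List Γ) : (stackTape l l.length).top = l.head? := by
  cases l with
  | nil => rfl
  | cons x l => simp [stackTape, Cell.top]

theorem tapeOf_inSym {X : Type} (w : List Sym) (p : ℕ) :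
    (tapeOf w p : Cell X).inSym = (w.drop p).head? := by
  rw [List.head?_drop]
  unfold tapeOf
  cases w[p]? <;> rfl

theorem Cfg.ext' {M : Machine} {c c' : M.Cfg} (h1 : c.state = c'.state)
    (h2 : ∀ i, c.head i = c'.head i) (h3 : ∀ i p, c.cont i p = c'.cont i p) : c = c' := by
  cases c; cases c'
  simp only [Machine.Cfg.mk.injEq]
  exact ⟨h1, funext h2, funext fun i => funext (h3 i)⟩

theorem stackTape_push (l : List Γ) (x : Γ) (p : ℕ) :
    (if p = l.length + 1 then Cell.ext (some x) else stackTape l p) = stackTape (x :: l) p := by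
  cases p with
  | zero => simp [stackTape]
  | succ p =>
    simp only [stackTape, Nat.add_right_cancel_iff, List.reverse_cons]
    split_ifs with h
    · subst h; simp
    · rcases Nat.lt_or_ge p l.length with h1 | h1
      · rw [List.getElem?_append_left (by simpa using h1)]
      · rw [List.getElem?_eq_none (by simpa using h1), List.getElem?_eq_none]
        simp only [List.length_append, List.length_reverse, List.length_cons, List.length_nil]
        omega

theorem stackTape_replace (l : List Γ) (x y : Γ) (p : ℕ) :
    (if p = l.length + 1 then Cell.ext (some y) else stackTape (x :: l) p) =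
      stackTape (y :: l) p := by
  rw [← stackTape_push l y p, ← stackTape_push l x p]
  split_ifs <;> rfl

theorem stackTape_pop (l : List Γ) (x : Γ) (p : ℕ) :
    (if p = l.length + 1 then Cell.blank else stackTape (x :: l) p) = stackTape l p := by
  rw [← stackTape_push l x p]
  split_ifs with h
  · subst h
    simp [stackTape]
  · rfl

theorem tapeOf_snoc {X : Type} (o : List Sym) (b : Sym) (p : ℕ) :
    (if p = o.length then Cell.sym b else (tapeOf o p : Cell X)) = tapeOf (o ++ [b]) p := by
  unfold tapeOf
  split_ifs with h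
  · subst h; simp
  · rcases Nat.lt_or_ge p o.length with h1 | h1
    · rw [List.getElem?_append_left h1]
    · rw [List.getElem?_eq_none h1, List.getElem?_eq_none]
      simp only [List.length_append, List.length_cons, List.length_nil]
      omega

theorem write_same {β : Type} (f : ℕ → β) (p r : ℕ) : (if r = p then f p else f r) = f r := by
  split_ifs with h
  · rw [h]
  · rfl

/-- The combined effect of the two phases on one stack tape. -/
theorem phases (a : SOp Γ) (l : List Γ) :
    let r := a.phase (stackTape l l.length)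
    let h1 := r.1.2.move l.length
    let c1 : ℕ → Cell (Option Γ) := fun p => if p = l.length then r.1.1 else stackTape l p
    let r2 := phase2 r.2 (c1 h1)
    r2.2.move h1 = (a.app l).length ∧
      ∀ p, (if p = h1 then r2.1 else c1 p) = stackTape (a.app l) p := by
  intro r h1 c1 r2
  rcases a with ⟨pop, push⟩
  by_cases hpop : pop = true ∧ l ≠ []
  · obtain ⟨hp, hl⟩ := hpop
    obtain ⟨x, l, rfl⟩ := List.exists_cons_of_ne_nil hl
    subst hp
    cases push with
    | none =>
      have hr : r = ((.blank, .left), none) := by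
        simp only [r, SOp.phase, stackTape_length]; rfl
      have happ : SOp.app ⟨true, none⟩ (x :: l) = l := by simp [SOp.app]
      have hh : h1 = l.length := by simp [h1, hr, Dir.mv_left, Dir.mv_stay, Dir.mv_right]
      rw [happ]
      constructor
      · simp [r2, hr, phase2, hh, Dir.mv_left, Dir.mv_stay, Dir.mv_right]
      · intro p
        have : (if p = h1 then r2.1 else c1 p) = c1 p := by
          split_ifs with h
          · subst h; simp [r2, hr, phase2]
          · rfl
        rw [this]
        simp only [c1, hr, List.length_cons]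
        exact stackTape_pop l x p
    | some y =>
      have hr : r = ((.ext (some y), .stay), none) := by
        simp only [r, SOp.phase, stackTape_length]; rfl
      have happ : SOp.app ⟨true, some y⟩ (x :: l) = y :: l := by simp [SOp.app]
      have hh : h1 = l.length + 1 := by simp [h1, hr, Dir.mv_left, Dir.mv_stay, Dir.mv_right]
      rw [happ]
      constructor
      · simp [r2, hr, phase2, hh, Dir.mv_left, Dir.mv_stay, Dir.mv_right]
      · intro p
        have : (if p = h1 then r2.1 else c1 p) = c1 p := by
          split_ifs with h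
          · subst h; simp [r2, hr, phase2]
          · rfl
        rw [this]
        simp only [c1, hr, List.length_cons]
        exact stackTape_replace l x y p
  · have hl : (if pop then l.tail else l) = l := by
      split_ifs with h
      · have : l = [] := by
          by_contra hne
          exact hpop ⟨h, hne⟩
        subst this; rfl
      · rfl
    have hc : (pop && (stackTape l l.length).top.isSome) = false := by
      rw [stackTape_length]
      cases pop with
      | false => rfl
      | true =>
        have : l = [] := by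
          by_contra hne
          exact hpop ⟨rfl, hne⟩
        subst this; rfl
    cases push with
    | none =>
      have hr : r = ((stackTape l l.length, .stay), none) := by
        simp only [r, SOp.phase, hc]; rfl
      have happ : SOp.app ⟨pop, none⟩ l = l := by simp [SOp.app, hl]
      have hh : h1 = l.length := by simp [h1, hr, Dir.mv_left, Dir.mv_stay, Dir.mv_right]
      rw [happ]
      constructor
      · simp [r2, hr, phase2, hh, Dir.mv_left, Dir.mv_stay, Dir.mv_right]
      · intro p
        have : (if p = h1 then r2.1 else c1 p) = c1 p := by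
          split_ifs with h
          · subst h; simp [r2, hr, phase2]
          · rfl
        rw [this]
        simp only [c1, hr]
        split_ifs with h
        · rw [h]
        · rfl
    | some y =>
      have hr : r = ((stackTape l l.length, .right), some y) := by
        simp only [r, SOp.phase, hc]; rfl
      have happ : SOp.app ⟨pop, some y⟩ l = y :: l := by simp [SOp.app, hl]
      have hh : h1 = l.length + 1 := by simp [h1, hr, Dir.mv_left, Dir.mv_stay, Dir.mv_right]
      rw [happ]
      constructor
      · simp [r2, hr, phase2, hh, Dir.mv_left, Dir.mv_stay, Dir.mv_right]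
      · intro p
        have e1 : c1 = stackTape l := by
          funext p
          simp only [c1, hr]
          split_ifs with h
          · rw [h]
          · rfl
        rw [e1, hh]
        simp only [r2, hr, phase2]
        exact stackTape_push l y p

theorem Frag.next_cfg [Finite K] [Finite Γ] (F : Frag K Γ) (w : List Sym) (q : F.S)
    (m : Mem K Γ) (p : ℕ) (hp : m.inp = w.drop p) :
    F.toMachine.next (F.cfg w (some q) m.stk p m.out) =
      some (F.mid w (F.eff q m) m.stk p m.out) := by
  have he : F.step q (tapeOf w p : Cell (Option Γ)).inSym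
      (fun k => (stackTape (m.stk k) (m.stk k).length).top) = F.eff q m := by
    simp only [tapeOf_inSym, stackTape_length, Frag.eff, hp]
    rfl
  simp only [Machine.next, Frag.cfg, Frag.toMachine, Option.map_some, he]
  congr 1
  apply Cfg.ext'
  · rfl
  · intro i
    match i with
    | .inl k => rfl
    | .inr false =>
      simp only [Frag.mid]
      cases (F.eff q m).adv <;> rfl
    | .inr true =>
      simp only [Frag.mid]
      cases (F.eff q m).emit <;> simp [Dir.mv_left, Dir.mv_stay, Dir.mv_right]
  · intro i r
    match i with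
    | .inl k => rfl
    | .inr false => exact write_same (tapeOf w) p r
    | .inr true =>
      simp only [Frag.mid]
      cases (F.eff q m).emit with
      | none =>
        simp only [Option.toList_none, List.append_nil]
        exact write_same (tapeOf (m.out.map .bit)) m.out.length r
      | some b =>
        have := tapeOf_snoc (X := Option Γ) (m.out.map .bit) (.bit b) r
        rw [List.length_map] at this
        rw [show (m.out ++ Option.toList (some b)).map Sym.bit = m.out.map .bit ++ [.bit b] by simp]
        exact this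

theorem Frag.next_mid [Finite K] [Finite Γ] (F : Frag K Γ) (w : List Sym) (e : Eff F.S K Γ)
    (m : Mem K Γ) (p : ℕ) :
    F.toMachine.next (F.mid w e m.stk p m.out) =
      some (F.cfg w e.next (e.app m).stk (if e.adv then p + 1 else p) (e.app m).out) := by
  simp only [Machine.next, Frag.mid, Frag.toMachine, Option.map_some]
  congr 1
  apply Cfg.ext'
  · rfl
  · intro i
    match i with
    | .inl k => exact (phases (e.ops k) (m.stk k)).1
    | .inr false => rfl
    | .inr true => rfl
  · intro i r
    match i with
    | .inl k => exact (phases (e.ops k) (m.stk k)).2 r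
    | .inr false => exact write_same (tapeOf w) _ r
    | .inr true => exact write_same (tapeOf ((m.out ++ e.emit.toList).map .bit)) _ r

theorem Machine.Steps.head {M : Machine} {t : ℕ} {c c' c'' : M.Cfg} (h : M.next c = some c')
    (h' : M.Steps t c' c'') : M.Steps (t + 1) c c'' := by
  induction h' with
  | refl => exact (Machine.Steps.refl c).tail h
  | tail _ h2 ih => exact (ih h).tail h2

/-- A run of the fragment is a run of the machine that takes twice as many steps. -/
theorem Frag.Exits.steps [Finite K] [Finite Γ] {F : Frag K Γ} {q : F.S} {m m' : Mem K Γ} {t : ℕ}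
    (h : F.Exits q m m' t) (w : List Sym) (p : ℕ) (hp : m.inp = w.drop p) :
    ∃ p', F.toMachine.Steps (2 * t) (F.cfg w (some q) m.stk p m.out)
      (F.cfg w none m'.stk p' m'.out) := by
  have hinp : ∀ (q : F.S) (m : Mem K Γ) (p : ℕ), m.inp = w.drop p →
      ((F.eff q m).app m).inp = w.drop (if (F.eff q m).adv then p + 1 else p) := by
    intro q m p hp
    simp only [Eff.app]
    split_ifs
    · rw [hp, List.tail_drop]
    · exact hp
  induction h generalizing p with
  | @done q m h =>
    refine ⟨if (F.eff q m).adv then p + 1 else p, ?_⟩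
    have h1 := F.next_cfg w q m p hp
    have h2 := F.next_mid w (F.eff q m) m p
    rw [h] at h2
    exact Machine.Steps.head h1 (Machine.Steps.head h2 (.refl _))
  | @more q q' m m' t h _ ih =>
    obtain ⟨p', h'⟩ := ih _ (hinp q m p hp)
    refine ⟨p', ?_⟩
    have h1 := F.next_cfg w q m p hp
    have h2 := F.next_mid w (F.eff q m) m p
    rw [h] at h2
    have := Machine.Steps.head h1 (Machine.Steps.head h2 h')
    rwa [show 2 * (t + 1) = 2 * t + 1 + 1 by ring]

/-- The machine of a fragment halts on input `w` with the output of the fragment. -/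
theorem Frag.Exits.haltsWith [Finite K] [Finite Γ] {F : Frag K Γ} {w : List Sym} {m' : Mem K Γ}
    {t : ℕ} (h : F.Exits F.start ⟨fun _ => [], w, []⟩ m' t) :
    F.toMachine.HaltsWith w (2 * t + 1) m'.out := by
  obtain ⟨p', h'⟩ := h.steps w 0 rfl
  refine ⟨_, Machine.Steps.head ?_ h', rfl, rfl⟩
  have hin : (F.toMachine.init w).cont (.inr false) = tapeOf w := if_pos rfl
  have hout : (F.toMachine.init w).cont (.inr true) = fun _ => .blank :=
    if_neg (by intro h; exact Bool.noConfusion (Sum.inr.inj h))
  have hstk : ∀ k, (F.toMachine.init w).cont (.inl k) = fun _ => .blank := fun k =>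
    if_neg (by intro h; cases h)
  have hn : F.toMachine.next (F.toMachine.init w) = some
    { state := some (.inl (some F.start))
      head := fun i => match i with
        | .inl _ => 0
        | .inr _ => 0
      cont := fun i p => match i with
        | .inl k => if p = 0 then .ext none else (F.toMachine.init w).cont (.inl k) p
        | .inr b => if p = 0 then (F.toMachine.init w).cont (.inr b) 0
          else (F.toMachine.init w).cont (.inr b) p } := by
    refine congrArg some (?_ : (_ : F.toMachine.Cfg) = _)
    apply Cfg.ext'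
    · rfl
    · intro i
      match i with
      | .inl k => rfl
      | .inr b => rfl
    · intro i r
      match i with
      | .inl k => rfl
      | .inr b => rfl
  rw [hn]
  congr 1
  apply Cfg.ext'
  · rfl
  · intro i
    match i with
    | .inl k => rfl
    | .inr false => rfl
    | .inr true => rfl
  · intro i r
    match i with
    | .inl k =>
      show (if r = 0 then .ext none else (F.toMachine.init w).cont (.inl k) r) = stackTape [] r
      rw [hstk]
      cases r with
      | zero => rfl
      | succ r => rfl
    | .inr false =>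
      show (if r = 0 then (F.toMachine.init w).cont (.inr false) 0
        else (F.toMachine.init w).cont (.inr false) r) = tapeOf w r
      rw [hin]
      exact write_same (tapeOf w) 0 r
    | .inr true =>
      show (if r = 0 then (F.toMachine.init w).cont (.inr true) 0
        else (F.toMachine.init w).cont (.inr true) r) = tapeOf [] r
      rw [hout]
      exact write_same (fun _ => Cell.blank) 0 r

end Vale.Agent.P338
end
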