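import Vale.Agent.P338.Bdl.B2
import Vale.Agent.P338.Bdl.B1
import Vale.Agent.P338.RectModel

set_option linter.all false

section

/-! Compilation of the register language `Cmd` to multitape Turing machines.  Every register is
held on two stacks, a front stack and a back stack; the back stack is moved onto the front stack when
the latter gets empty, at constant amortized cost. -/

namespace Vale.Agent.P338

open Finset

variable {ι Γ : Type}

/-- The list held in register `i`: front stack, then back stack in reverse. -/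
def Mem.reg (m : Mem (ι × Bool) Γ) (i : ι) : List Γ := m.stk (i, false) ++ (m.stk (i, true)).reverse

/-- Registers are normal if the front stack is empty only when the back stack is. -/
def Mem.Normal (m : Mem (ι × Bool) Γ) : Prop :=
  ∀ i, m.stk (i, false) = [] → m.stk (i, true) = []

/-- The potential: total length of the back stacks. -/
def Mem.pot [Fintype ι] (m : Mem (ι × Bool) Γ) : ℕ := ∑ i, (m.stk (i, true)).length

/-- Fronts of the registers, from the tops of the stacks. -/
def fronts (h : ι × Bool → Option Γ) : ι → Option Γ := fun i => h (i, false)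

theorem Mem.Normal.fronts_eq {m : Mem (ι × Bool) Γ} (hm : m.Normal) :
    fronts m.tops = Store.heads m.reg := by
  funext i
  simp only [fronts, Mem.tops, Store.heads, Mem.reg]
  cases h : m.stk (i, false) with
  | nil => simp [hm i h]
  | cons x l => simp

/-- Move the back stacks of the registers in `T` onto the front stacks. -/
def Mem.flush (T : ι → Bool) (m : Mem (ι × Bool) Γ) : Mem (ι × Bool) Γ where
  stk := fun k => match k with
    | (i, false) => if T i then (m.stk (i, true)).reverse ++ m.stk (i, false) else m.stk (i, false)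
    | (i, true) => if T i then [] else m.stk (i, true)
  inp := m.inp
  out := m.out

/-- The normalisation fragment. -/
noncomputable def normF (ι Γ : Type) [Finite ι] : Frag (ι × Bool) Γ where
  S := Option (ι → Bool)
  fin := inferInstance
  start := none
  step := fun q _ h => match q with
    | none =>
      open Classical in
      { next := if ∃ i, h (i, false) = none ∧ h (i, true) ≠ none then
          some (some fun i => decide (h (i, false) = none ∧ h (i, true) ≠ none)) else none }
    | some T =>
      open Classical in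
      { next := if ∃ i, T i = true ∧ h (i, true) ≠ none then some (some T) else none
        ops := fun k => match k with
          | (i, false) => { push := if T i then h (i, true) else none }
          | (i, true) => { pop := T i } }

theorem normF_flush [Finite ι] (T : ι → Bool) (n : ℕ) (m : Mem (ι × Bool) Γ)
    (hn : ∀ i, T i = true → (m.stk (i, true)).length ≤ n) :
    ∃ t ≤ n + 1, (normF ι Γ).Exits (some T) m (m.flush T) t := by
  classical
  have happ : ∀ m : Mem (ι × Bool) Γ,
      (((normF ι Γ).eff (some T) m).app m).flush T = m.flush T := by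
    intro m
    simp only [Mem.flush, Eff.app, Frag.eff, normF, SOp.app, Option.toList_none, List.append_nil,
      Bool.false_eq_true, if_false]
    congr 1
    funext k
    match k with
    | (i, false) =>
      simp only
      by_cases hT : T i = true
      · simp only [hT, if_true, Mem.tops]
        cases m.stk (i, true) <;> simp
      · simp [hT]
    | (i, true) =>
      simp only
      by_cases hT : T i = true <;> simp [hT]
  have hdone : ∀ m : Mem (ι × Bool) Γ, (∀ i, T i = true → m.stk (i, true) = []) →
      (normF ι Γ).Exits (some T) m (m.flush T) 1 := by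
    intro m hm
    have h0 : ((normF ι Γ).eff (some T) m).next = none := by
      refine if_neg ?_
      rintro ⟨i, hi, hi'⟩
      simp only [Mem.tops, hm i hi] at hi'
      exact absurd rfl hi'
    have := Frag.Exits.done h0
    have e : ((normF ι Γ).eff (some T) m).app m = m.flush T := by
      simp only [Mem.flush, Eff.app, Frag.eff, normF, SOp.app, Option.toList_none, List.append_nil,
        Bool.false_eq_true, if_false]
      congr 1
      funext k
      match k with
      | (i, false) =>
        simp only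
        by_cases hT : T i = true
        · simp [hT, Mem.tops, hm i hT]
        · simp [hT]
      | (i, true) =>
        simp only
        by_cases hT : T i = true
        · simp [hT, hm i hT]
        · simp [hT]
    rwa [e] at this
  induction n generalizing m with
  | zero =>
    refine ⟨1, le_rfl, hdone m fun i hi => ?_⟩
    exact List.length_eq_zero_iff.mp (Nat.le_zero.mp (hn i hi))
  | succ n ih =>
    by_cases hex : ∃ i, T i = true ∧ m.stk (i, true) ≠ []
    · have h0 : ((normF ι Γ).eff (some T) m).next = some (some T) := by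
        refine if_pos ?_
        obtain ⟨i, hi, hi'⟩ := hex
        refine ⟨i, hi, ?_⟩
        simp only [Mem.tops]
        rw [Ne, List.head?_eq_none_iff]
        exact hi'
      obtain ⟨t, ht, hE⟩ := ih (((normF ι Γ).eff (some T) m).app m) (by
        intro i hi
        have := hn i hi
        simp only [Eff.app, Frag.eff, normF, SOp.app, hi]
        simp only [Option.toList_none, List.nil_append, if_true, List.length_tail]
        omega)
      rw [happ] at hE
      exact ⟨t + 1, by omega, .more h0 hE⟩
    · push Not at hex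
      exact ⟨1, by omega, hdone m hex⟩

theorem Mem.flush_reg (T : ι → Bool) (m : Mem (ι × Bool) Γ) (i : ι)
    (h : T i = true → m.stk (i, false) = []) : (m.flush T).reg i = m.reg i := by
  simp only [Mem.reg, Mem.flush]
  by_cases hT : T i = true
  · simp [hT, h hT]
  · simp [hT]

/-- Specification of the normalisation. -/
theorem normF_exits [Fintype ι] (m : Mem (ι × Bool) Γ) :
    ∃ m' t, (normF ι Γ).Exits (normF ι Γ).start m m' t ∧ m'.Normal ∧ (∀ i, m'.reg i = m.reg i) ∧
      m'.inp = m.inp ∧ m'.out = m.out ∧ t + m'.pot ≤ m.pot + 2 := by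
  classical
  by_cases hex : ∃ i, m.tops (i, false) = none ∧ m.tops (i, true) ≠ none
  · let T : ι → Bool := fun i => decide (m.tops (i, false) = none ∧ m.tops (i, true) ≠ none)
    have h0 : ((normF ι Γ).eff none m).next = some (some T) := by
      exact if_pos hex
    obtain ⟨t, ht, hE⟩ := normF_flush T (∑ i, if T i then (m.stk (i, true)).length else 0) m (by
      intro i hi
      have := Finset.single_le_sum (f := fun i => if T i then (m.stk (i, true)).length else 0)
        (fun _ _ => Nat.zero_le _) (Finset.mem_univ i)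
      simpa [hi] using this)
    have e : ((normF ι Γ).eff none m).app m = m := Eff.app_trivial _ m
    rw [← e] at hE
    have hE' : (normF ι Γ).Exits none m (m.flush T) (t + 1) := by
      have := Frag.Exits.more h0 hE
      rwa [e] at this
    refine ⟨m.flush T, t + 1, hE', ?_, ?_, rfl, rfl, ?_⟩
    · intro i hi
      simp only [Mem.flush] at hi ⊢
      cases hT : T i with
      | true => simp
      | false =>
        simp only [hT, Bool.false_eq_true, if_false] at hi ⊢
        have := of_decide_eq_false hT
        by_contra hne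
        apply this
        simp only [Mem.tops]
        refine ⟨by simp [hi], ?_⟩
        rw [Ne, List.head?_eq_none_iff]
        exact hne
    · intro i
      apply Mem.flush_reg
      intro hT
      have := (of_decide_eq_true hT).1
      simpa [Mem.tops] using this
    · have : (m.flush T).pot + (∑ i, if T i then (m.stk (i, true)).length else 0) = m.pot := by
        simp only [Mem.pot, Mem.flush]
        rw [← Finset.sum_add_distrib]
        refine Finset.sum_congr rfl fun i _ => ?_
        cases T i <;> simp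
      omega
  · have h0 : ((normF ι Γ).eff none m).next = none := by
      exact if_neg hex
    have e : ((normF ι Γ).eff none m).app m = m := Eff.app_trivial _ m
    have := Frag.Exits.done h0
    rw [e] at this
    refine ⟨m, 1, this, ?_, fun _ => rfl, rfl, rfl, by omega⟩
    intro i hi
    by_contra hne
    apply hex
    refine ⟨i, by simp [Mem.tops, hi], ?_⟩
    simp only [Mem.tops]
    rw [Ne, List.head?_eq_none_iff]
    exact hne

/-- The fragment of one act. -/
def actStep (f : (ι → Option Γ) → ι → Act Γ) : Frag (ι × Bool) Γ :=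
  Frag.single fun _ h =>
    { next := none
      ops := fun k => match k with
        | (i, false) => { pop := (f (fronts h) i).pop, push := (f (fronts h) i).pf }
        | (i, true) => { push := (f (fronts h) i).pb } }

theorem actStep_exits [Fintype ι] (f : (ι → Option Γ) → ι → Act Γ) (m : Mem (ι × Bool) Γ)
    (hm : m.Normal) :
    ∃ m', (actStep f).Exits (actStep f).start m m' 1 ∧
      (∀ i, m'.reg i = (f (Store.heads m.reg) i).app (m.reg i)) ∧
      m'.inp = m.inp ∧ m'.out = m.out ∧ m'.pot ≤ m.pot + Fintype.card ι := by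
  have h0 : ((actStep f).eff (actStep f).start m).next = none := rfl
  refine ⟨_, Frag.Exits.done h0, ?_, ?_, ?_, ?_⟩
  · intro i
    simp only [Mem.reg, Eff.app, Frag.eff, actStep, Frag.single, SOp.app, Act.app, hm.fronts_eq]
    have htail : (if (f (Store.heads m.reg) i).pop = true then (m.reg i).tail else m.reg i) =
        (if (f (Store.heads m.reg) i).pop = true then (m.stk (i, false)).tail
          else m.stk (i, false)) ++ (m.stk (i, true)).reverse := by
      split_ifs
      · simp only [Mem.reg]
        cases h : m.stk (i, false) with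
        | nil => simp [hm i h]
        | cons x l => simp
      · rfl
    have hpb : ∀ o : Option Γ, o.toList.reverse = o.toList := by
      intro o; cases o <;> rfl
    simp only [Mem.reg] at htail
    simp only [htail]
    simp [hpb]
  · simp [Eff.app, Frag.eff, actStep, Frag.single]
  · simp [Eff.app, Frag.eff, actStep, Frag.single]
  · simp only [Mem.pot, Eff.app, Frag.eff, actStep, Frag.single, SOp.app]
    have : ∀ i ∈ (Finset.univ : Finset ι),
        ((f (fronts m.tops) i).pb.toList ++
          (if false = true then (m.stk (i, true)).tail else m.stk (i, true))).length ≤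
        (m.stk (i, true)).length + 1 := by
      intro i _
      cases (f (fronts m.tops) i).pb <;> simp
    refine (Finset.sum_le_sum this).trans ?_
    rw [Finset.sum_add_distrib]
    simp

/-- Compilation of commands to fragments. -/
noncomputable def Cmd.frag [Finite ι] : Cmd ι Γ → Frag (ι × Bool) Γ
  | .act f => (actStep f).seq (normF ι Γ)
  | .seq c d => c.frag.seq d.frag
  | .ite p c d => Frag.ite (fun h => p (fronts h)) c.frag d.frag
  | .loop p c => Frag.loop (fun h => p (fronts h)) c.frag

theorem Run.frag [Fintype ι] {c : Cmd ι Γ} {s s' : Store ι Γ} {t : ℕ} (h : Run c s s' t)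
    (m : Mem (ι × Bool) Γ) (hm : m.Normal) (hs : m.reg = s) :
    ∃ m' T, c.frag.Exits c.frag.start m m' T ∧ m'.Normal ∧ m'.reg = s' ∧ m'.inp = m.inp ∧
      m'.out = m.out ∧ T + m'.pot ≤ m.pot + (Fintype.card ι + 3) * t := by
  induction h generalizing m with
  | act f s =>
    obtain ⟨m1, h1, hr1, hi1, ho1, hp1⟩ := actStep_exits f m hm
    obtain ⟨m2, t2, h2, hn2, hr2, hi2, ho2, hp2⟩ := normF_exits m1
    refine ⟨m2, 1 + t2, h1.seq h2, hn2, ?_, hi2.trans hi1, ho2.trans ho1, by omega⟩
    funext i
    rw [hr2, hr1, hs]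
  | @seq c d s s1 s2 t1 t2 _ _ ih1 ih2 =>
    obtain ⟨m1, T1, h1, hn1, hr1, hi1, ho1, hp1⟩ := ih1 m hm hs
    obtain ⟨m2, T2, h2, hn2, hr2, hi2, ho2, hp2⟩ := ih2 m1 hn1 hr1
    refine ⟨m2, T1 + T2, h1.seq h2, hn2, hr2, hi2.trans hi1, ho2.trans ho1, ?_⟩
    rw [Nat.mul_add]; omega
  | @iteT p c d s s' t hp _ ih =>
    obtain ⟨m1, T1, h1, hn1, hr1, hi1, ho1, hp1⟩ := ih m hm hs
    refine ⟨m1, T1 + 1, Frag.Exits.iteT ?_ h1, hn1, hr1, hi1, ho1, ?_⟩
    · rw [hm.fronts_eq, hs]; exact hp
    · rw [Nat.mul_succ]; omega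
  | @iteF p c d s s' t hp _ ih =>
    obtain ⟨m1, T1, h1, hn1, hr1, hi1, ho1, hp1⟩ := ih m hm hs
    refine ⟨m1, T1 + 1, Frag.Exits.iteF ?_ h1, hn1, hr1, hi1, ho1, ?_⟩
    · rw [hm.fronts_eq, hs]; exact hp
    · rw [Nat.mul_succ]; omega
  | @loopF p c s hp =>
    refine ⟨m, 1, Frag.Exits.loopF ?_, hm, hs, rfl, rfl, by omega⟩
    rw [hm.fronts_eq, hs]; exact hp
  | @loopT p c s s1 s2 t1 t2 hp _ _ ih1 ih2 =>
    obtain ⟨m1, T1, h1, hn1, hr1, hi1, ho1, hp1⟩ := ih1 m hm hs
    obtain ⟨m2, T2, h2, hn2, hr2, hi2, ho2, hp2⟩ := ih2 m1 hn1 hr1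
    refine ⟨m2, T1 + T2 + 1, Frag.Exits.loopT ?_ h1 h2, hn2, hr2, hi2.trans hi1,
      ho2.trans ho1, ?_⟩
    · rw [hm.fronts_eq, hs]; exact hp
    · rw [Nat.mul_succ, Nat.mul_add]; omega

/-- A register grows by at most two symbols per unit of cost. -/
theorem Run.length_le {c : Cmd ι Γ} {s s' : Store ι Γ} {t : ℕ} (h : Run c s s' t) (i : ι) :
    (s' i).length ≤ (s i).length + 2 * t := by
  induction h with
  | act f s =>
    have h1 : ∀ o : Option Γ, o.toList.length ≤ 1 := by intro o; cases o <;> simp
    have h2 := h1 (f s.heads i).pf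
    have h3 := h1 (f s.heads i).pb
    simp only [Act.app, List.length_append]
    split_ifs
    · rw [List.length_tail]; omega
    · omega
  | seq _ _ ih1 ih2 => omega
  | iteT _ _ ih => omega
  | iteF _ _ ih => omega
  | loopF _ => omega
  | loopT _ _ _ ih1 ih2 => omega

section io

variable [DecidableEq ι]

/-- Read the input onto the back stack of register `r`. -/
def readF (enc : Sym → Γ) (r : ι) : Frag (ι × Bool) Γ :=
  Frag.single fun a _ => match a with
    | some x => { next := some ()
                  ops := fun k => if k = (r, true) then { push := some (enc x) } else {}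
                  adv := true }
    | none => { next := none }

theorem readF_exits (enc : Sym → Γ) (r : ι) (w : List Sym) (stk : ι × Bool → List Γ)
    (out : List Bool) :
    (readF enc r).Exits (readF enc r).start ⟨stk, w, out⟩
      ⟨fun k => if k = (r, true) then (w.map enc).reverse ++ stk k else stk k, [], out⟩
      (w.length + 1) := by
  induction w generalizing stk with
  | nil =>
    have h0 : ((readF enc r).eff (readF enc r).start ⟨stk, [], out⟩).next = none := rfl
    have := Frag.Exits.done h0
    have e : ((readF enc r).eff (readF enc r).start ⟨stk, [], out⟩).app ⟨stk, [], out⟩ =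
        ⟨fun k => if k = (r, true) then (([] : List Sym).map enc).reverse ++ stk k else stk k,
          [], out⟩ := by
      simp [Eff.app, Frag.eff, readF, Frag.single, SOp.app]
    rw [e] at this
    exact this
  | cons a w ih =>
    have h0 : ((readF enc r).eff (readF enc r).start ⟨stk, a :: w, out⟩).next = some () := rfl
    have h1 := ih (fun k => if k = (r, true) then enc a :: stk k else stk k)
    have e : ((readF enc r).eff (readF enc r).start ⟨stk, a :: w, out⟩).app ⟨stk, a :: w, out⟩ =
        ⟨fun k => if k = (r, true) then enc a :: stk k else stk k, w, out⟩ := by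
      simp only [Eff.app, Frag.eff, readF, Frag.single, List.head?_cons, List.tail_cons, if_true,
        Option.toList_none, List.append_nil]
      congr 1
      funext k
      split_ifs <;> simp [SOp.app]
    rw [← e] at h1
    have := Frag.Exits.more h0 h1
    convert this using 2
    · funext k
      split_ifs <;> simp
    · rfl

/-- Pop everything from the front stack of register `r` and write it to the output. -/
def popF' (dec : Γ → Option Bool) (r : ι) : Frag (ι × Bool) Γ :=
  Frag.single fun _ h => match h (r, false) with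
    | some x => { next := some ()
                  ops := fun k => if k = (r, false) then { pop := true } else {}
                  emit := dec x }
    | none => { next := none }

theorem popF'_exits (dec : Γ → Option Bool) (r : ι) (l : List Γ) (m : Mem (ι × Bool) Γ)
    (hl : m.stk (r, false) = l) :
    (popF' dec r).Exits (popF' dec r).start m
      ⟨fun k => if k = (r, false) then [] else m.stk k, m.inp, m.out ++ l.filterMap dec⟩
      (l.length + 1) := by
  induction l generalizing m with
  | nil =>
    have h0 : ((popF' dec r).eff (popF' dec r).start m).next = none := by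
      simp [Frag.eff, popF', Frag.single, Mem.tops, hl]
    have := Frag.Exits.done h0
    convert this using 1
    · simp only [Frag.eff, popF', Frag.single, Mem.tops, hl, List.head?_nil, Eff.app_trivial]
      cases m with
      | mk stk inp out =>
        simp only [Mem.mk.injEq, List.filterMap_nil, List.append_nil, and_true]
        funext k
        split_ifs with h
        · rw [h]; exact hl.symm
        · rfl
    · rfl
  | cons x l ih =>
    have h0 : ((popF' dec r).eff (popF' dec r).start m).next = some () := by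
      simp [Frag.eff, popF', Frag.single, Mem.tops, hl]
    have e : ((popF' dec r).eff (popF' dec r).start m).app m =
        ⟨fun k => if k = (r, false) then l else m.stk k, m.inp, m.out ++ (dec x).toList⟩ := by
      simp only [Frag.eff, popF', Frag.single, Mem.tops, hl, List.head?_cons, Eff.app]
      congr 1
      funext k
      split_ifs with h
      · rw [h, hl]; simp [SOp.app]
      · simp [SOp.app]
    have h1 := ih (((popF' dec r).eff (popF' dec r).start m).app m) (by rw [e]; simp)
    have := Frag.Exits.more h0 h1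
    convert this using 2
    · rw [e]
      funext k
      simp only
      split_ifs <;> rfl
    · rw [e]
    · rw [e]
      simp only [List.append_assoc]
      congr 1
      cases h : dec x with
      | none => simp [h]
      | some b => simp [h]
    · rfl

/-- Move the back stack of register `r` onto its front stack. -/
def transF (r : ι) : Frag (ι × Bool) Γ :=
  Frag.single fun _ h => match h (r, true) with
    | some x => { next := some ()
                  ops := fun k => if k = (r, false) then { push := some x }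
                      else if k = (r, true) then { pop := true } else {} }
    | none => { next := none }

theorem transF_exits (r : ι) (l : List Γ) (m : Mem (ι × Bool) Γ)
    (hl : m.stk (r, true) = l) :
    (transF r).Exits (transF r).start m
      ⟨fun k => if k = (r, false) then l.reverse ++ m.stk k else if k = (r, true) then []
        else m.stk k, m.inp, m.out⟩
      (l.length + 1) := by
  induction l generalizing m with
  | nil =>
    have h0 : ((transF r : Frag (ι × Bool) Γ).eff (transF r : Frag (ι × Bool) Γ).start m).next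
        = none := by
      simp [Frag.eff, transF, Frag.single, Mem.tops, hl]
    have := Frag.Exits.done h0
    convert this using 1
    · simp only [Frag.eff, transF, Frag.single, Mem.tops, hl, List.head?_nil, Eff.app_trivial]
      cases m with
      | mk stk inp out =>
        simp only [Mem.mk.injEq, and_true]
        funext k
        split_ifs with h h'
        · simp
        · rw [h']; exact hl.symm
        · rfl
    · rfl
  | cons x l ih =>
    have h0 : ((transF r : Frag (ι × Bool) Γ).eff (transF r : Frag (ι × Bool) Γ).start m).next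
        = some () := by
      simp [Frag.eff, transF, Frag.single, Mem.tops, hl]
    have e : ((transF r : Frag (ι × Bool) Γ).eff (transF r : Frag (ι × Bool) Γ).start m).app m =
        ⟨fun k => if k = (r, false) then x :: m.stk k else if k = (r, true) then l else m.stk k,
          m.inp, m.out⟩ := by
      simp only [Frag.eff, transF, Frag.single, Mem.tops, hl, List.head?_cons, Eff.app]
      simp only [Bool.false_eq_true, if_false, Option.toList_none, List.append_nil]
      congr 1
      funext k
      split_ifs with h h'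
      · simp [SOp.app]
      · rw [h', hl]; simp [SOp.app]
      · simp [SOp.app]
    have h1 := ih (((transF r : Frag (ι × Bool) Γ).eff
      (transF r : Frag (ι × Bool) Γ).start m).app m) (by rw [e]; simp)
    have := Frag.Exits.more h0 h1
    convert this using 2
    · rw [e]
      funext k
      simp only
      split_ifs <;> simp
    · rw [e]
    · rw [e]
    · rfl

end io

theorem Frag.Exits.seq' {K : Type} {F G : Frag K Γ} {m m1 m' : Mem K Γ} {t t' : ℕ}
    (h : F.Exits F.start m m1 t) (h' : G.Exits G.start m1 m' t') :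
    (F.seq G).Exits (F.seq G).start m m' (t + t') := h.seq h'

/-- The compilation theorem.  For every program there is a Turing machine and a constant `C` such
that whenever the program, started with the encoded input word in register `r` and all other
registers empty, terminates with cost `t`, then the machine halts on that input within
`C * (t + |w| + 1)` steps, with the decoded content of register `o` on its output tape. -/
theorem Cmd.compile [Finite ι] [DecidableEq ι] [Finite Γ] (c : Cmd ι Γ) (enc : Sym → Γ)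
    (dec : Γ → Option Bool) (r o : ι) :
    ∃ (B : Machine) (C : ℕ), ∀ (w : List Sym) (s' : Store ι Γ) (t : ℕ),
      Run c (fun i => if i = r then w.map enc else []) s' t →
      ∃ T ≤ C * (t + w.length + 1), B.HaltsWith w T ((s' o).filterMap dec) := by
  have := Fintype.ofFinite ι
  let P : Frag (ι × Bool) Γ :=
    (readF enc r).seq ((normF ι Γ).seq (c.frag.seq ((popF' dec o).seq
      ((transF o).seq (popF' dec o)))))
  refine ⟨P.toMachine, 2 * (Fintype.card ι + 3) + 20, fun w s' t hrun => ?_⟩
  -- reading
  obtain ⟨m1, hm1⟩ : ∃ m1 : Mem (ι × Bool) Γ, m1 =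
    ⟨fun k => if k = (r, true) then (w.map enc).reverse ++ [] else [], [], []⟩ := ⟨_, rfl⟩
  have h1 : (readF enc r).Exits (readF enc r).start ⟨fun _ => [], w, []⟩ m1 (w.length + 1) := by
    rw [hm1]; exact readF_exits enc r w (fun _ => []) []
  have hreg1 : m1.reg = fun i => if i = r then w.map enc else [] := by
    funext i
    by_cases hi : i = r
    · subst hi
      simp [Mem.reg, hm1]
    · simp [Mem.reg, hm1, hi]
  have hpot1 : m1.pot = w.length := by
    simp only [Mem.pot, hm1]
    rw [Finset.sum_eq_single r]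
    · simp
    · intro i _ hi
      simp [hi]
    · simp
  -- normalisation
  obtain ⟨m2, t2, h2, hn2, hr2, hi2, ho2, hp2⟩ := normF_exits m1
  have hr2' : m2.reg = fun i => if i = r then w.map enc else [] := by
    rw [← hreg1]; funext i; exact hr2 i
  -- the program
  obtain ⟨m3, t3, h3, hn3, hr3, hi3, ho3, hp3⟩ := hrun.frag m2 hn2 hr2'
  -- output
  obtain ⟨m4, hm4⟩ : ∃ m4 : Mem (ι × Bool) Γ, m4 = ⟨fun k => if k = (o, false) then []
    else m3.stk k, m3.inp, m3.out ++ (m3.stk (o, false)).filterMap dec⟩ := ⟨_, rfl⟩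
  have h4 := popF'_exits dec o _ m3 rfl
  rw [← hm4] at h4
  have h5 := transF_exits o (m3.stk (o, true)) m4 (by simp [hm4])
  obtain ⟨m5, hm5⟩ : ∃ m5 : Mem (ι × Bool) Γ, m5 = ⟨fun k => if k = (o, false) then
    (m3.stk (o, true)).reverse ++ m4.stk k else if k = (o, true) then [] else m4.stk k, m4.inp,
    m4.out⟩ := ⟨_, rfl⟩
  rw [← hm5] at h5
  have h6 := popF'_exits dec o (m3.stk (o, true)).reverse m5 (by simp [hm5, hm4])
  have hP := h1.seq' (h2.seq' (h3.seq' (h4.seq' (h5.seq' h6))))
  have hH := Frag.Exits.haltsWith (F := P) hP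
  have hout : m3.out = [] := by rw [ho3, ho2, hm1]
  have hlen := hrun.length_le o
  have hlen0 : (if o = r then w.map enc else []).length ≤ w.length := by
    split_ifs <;> simp
  have hlen3 : (m3.stk (o, false)).length + (m3.stk (o, true)).length = (s' o).length := by
    rw [← hr3]; simp [Mem.reg]
  have hfinal : m5.out ++ List.filterMap dec (m3.stk (o, true)).reverse =
      (s' o).filterMap dec := by
    simp only [hm5, hm4, hout, List.nil_append]
    rw [← List.filterMap_append, ← hr3]
    rfl
  simp only [hfinal] at hH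
  refine ⟨_, ?_, hH⟩
  · simp only [List.length_reverse]
    have e1 : (2 * (Fintype.card ι + 3) + 20) * (t + w.length + 1) =
      2 * ((Fintype.card ι + 3) * t) + 20 * t + (2 * (Fintype.card ι + 3) + 20) * w.length +
      (2 * (Fintype.card ι + 3) + 20) := by ring
    have e2 : 20 * w.length ≤ (2 * (Fintype.card ι + 3) + 20) * w.length :=
      Nat.mul_le_mul_right _ (by omega)
    rw [e1]
    omega

/-- The register symbol of an input symbol. -/
def Sym.toSy {α : Type} : Sym → Sy α
  | .bit b => .bit b
  | .sep => .mark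

theorem map_toSy_bit {α : Type} (w : List Bool) :
    ((w.map Sym.bit).map Sym.toSy : List (Sy α)) = bs w := by
  simp [bs, Sym.toSy]

/-- The bit held by a register symbol. -/
def Sy.toBit {α : Type} : Sy α → Option Bool
  | .bit b => some b
  | _ => none

theorem bs_filterMap {α : Type} (o : List Bool) : (bs o : List (Sy α)).filterMap Sy.toBit = o := by
  induction o with
  | nil => rfl
  | cons b o ih => simp [Sy.toBit, ih]

instance {α : Type} [Finite α] : Finite (Sy α) := by
  have e : Function.Injective (fun x : Sy α => match x with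
    | .bit b => (some (some b), (none : Option α))
    | .mark => (some none, none)
    | .sent => (none, none)
    | .ext a => (none, some a)) := by
    intro x y h
    cases x <;> cases y <;> simp_all
  exact Finite.of_injective _ e

/-- Compilation of programs over the symbols `Sy α`: the input word is in register `inp`, the
output is a list of bits in register `out`. -/
theorem compile {ι α : Type} [Finite ι] [DecidableEq ι] [Finite α] (c : Cmd ι (Sy α))
    (inp out : ι) :
    ∃ (B : Machine) (C : ℕ), ∀ (w : List Sym) (s' : Store ι (Sy α)) (T : ℕ) (o : List Bool),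
      Runs c (fun i => if i = inp then w.map Sym.toSy else []) s' T → s' out = bs o →
      ∃ t ≤ C * (T + w.length + 1), B.HaltsWith w t o := by
  obtain ⟨B, C, h⟩ := c.compile (Sym.toSy (α := α)) Sy.toBit inp out
  refine ⟨B, C, fun w s' T o hr ho => ?_⟩
  obtain ⟨t, ht, hr⟩ := hr
  obtain ⟨u, hu, hB⟩ := h w s' t hr
  rw [ho, bs_filterMap] at hB
  exact ⟨u, hu.trans (Nat.mul_le_mul_left _ (by omega)), hB⟩

/-- Compilation, for inputs that consist of bits. -/
theorem compile_bits {ι α : Type} [Finite ι] [DecidableEq ι] [Finite α] (c : Cmd ι (Sy α))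
    (inp out : ι) :
    ∃ (B : Machine) (C : ℕ), ∀ (w : List Bool) (s' : Store ι (Sy α)) (T : ℕ) (o : List Bool),
      Runs c (fun i => if i = inp then bs w else []) s' T → s' out = bs o →
      ∃ t ≤ C * (T + w.length + 1), B.HaltsWith (w.map .bit) t o := by
  obtain ⟨B, C, h⟩ := compile c inp out
  refine ⟨B, C, fun w s' T o hr ho => ?_⟩
  have := h (w.map .bit) s' T o (by rw [map_toSy_bit]; exact hr) ho
  simpa using this

end Vale.Agent.P338
end

section

/-! Rectangular matrices: stores, reading the input, sizes, padding. -/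

namespace Vale.Agent.P338.RC
open Vale.Agent.P338 Reg R

/-- Contents of the registers used by the program for rectangular matrices. -/
structure Rg (α : Type) where
  inp : List (Sy α) := []
  out : List (Sy α) := []
  D : List (Sy α) := []
  X : List (Sy α) := []
  C : List (Sy α) := []
  N1 : List (Sy α) := []
  N2 : List (Sy α) := []
  N3 : List (Sy α) := []
  N4 : List (Sy α) := []
  N5 : List (Sy α) := []
  K : List (Sy α) := []
  M1 : List (Sy α) := []
  A1 : List (Sy α) := []
  A2 : List (Sy α) := []
  A3 : List (Sy α) := []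
  q1 : List (Sy α) := []

section
variable {τ α : Type}

/-- The store with these contents. -/
def Rg.st (s : Rg α) : Store (Reg τ) (Sy α)
  | .r .inp => s.inp
  | .r .out => s.out
  | .r .D => s.D
  | .r .X => s.X
  | .r .C => s.C
  | .r .N1 => s.N1
  | .r .N2 => s.N2
  | .r .N3 => s.N3
  | .r .N4 => s.N4
  | .r .N5 => s.N5
  | .r .K => s.K
  | .r .M1 => s.M1
  | .r .A1 => s.A1
  | .r .A2 => s.A2
  | .r .A3 => s.A3
  | .r .q1 => s.q1
  | _ => []

variable [DecidableEq τ] (s : Rg α) (v : List (Sy α))

theorem set_inp : (s.st : Store (Reg τ) (Sy α)).set (.r .inp) v = ({s with inp := v} : Rg α).st := by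
  funext z; rcases z with z | z | z <;> [cases z; skip; skip] <;> simp [Store.set, Rg.st]
theorem set_out : (s.st : Store (Reg τ) (Sy α)).set (.r .out) v = ({s with out := v} : Rg α).st := by
  funext z; rcases z with z | z | z <;> [cases z; skip; skip] <;> simp [Store.set, Rg.st]
theorem set_D : (s.st : Store (Reg τ) (Sy α)).set (.r .D) v = ({s with D := v} : Rg α).st := by
  funext z; rcases z with z | z | z <;> [cases z; skip; skip] <;> simp [Store.set, Rg.st]
theorem set_X : (s.st : Store (Reg τ) (Sy α)).set (.r .X) v = ({s with X := v} : Rg α).st := by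
  funext z; rcases z with z | z | z <;> [cases z; skip; skip] <;> simp [Store.set, Rg.st]
theorem set_N1 : (s.st : Store (Reg τ) (Sy α)).set (.r .N1) v = ({s with N1 := v} : Rg α).st := by
  funext z; rcases z with z | z | z <;> [cases z; skip; skip] <;> simp [Store.set, Rg.st]
theorem set_N2 : (s.st : Store (Reg τ) (Sy α)).set (.r .N2) v = ({s with N2 := v} : Rg α).st := by
  funext z; rcases z with z | z | z <;> [cases z; skip; skip] <;> simp [Store.set, Rg.st]
theorem set_N3 : (s.st : Store (Reg τ) (Sy α)).set (.r .N3) v = ({s with N3 := v} : Rg α).st := by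
  funext z; rcases z with z | z | z <;> [cases z; skip; skip] <;> simp [Store.set, Rg.st]
theorem set_N4 : (s.st : Store (Reg τ) (Sy α)).set (.r .N4) v = ({s with N4 := v} : Rg α).st := by
  funext z; rcases z with z | z | z <;> [cases z; skip; skip] <;> simp [Store.set, Rg.st]
theorem set_N5 : (s.st : Store (Reg τ) (Sy α)).set (.r .N5) v = ({s with N5 := v} : Rg α).st := by
  funext z; rcases z with z | z | z <;> [cases z; skip; skip] <;> simp [Store.set, Rg.st]
theorem set_K : (s.st : Store (Reg τ) (Sy α)).set (.r .K) v = ({s with K := v} : Rg α).st := by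
  funext z; rcases z with z | z | z <;> [cases z; skip; skip] <;> simp [Store.set, Rg.st]
theorem set_M1 : (s.st : Store (Reg τ) (Sy α)).set (.r .M1) v = ({s with M1 := v} : Rg α).st := by
  funext z; rcases z with z | z | z <;> [cases z; skip; skip] <;> simp [Store.set, Rg.st]
theorem set_A1 : (s.st : Store (Reg τ) (Sy α)).set (.r .A1) v = ({s with A1 := v} : Rg α).st := by
  funext z; rcases z with z | z | z <;> [cases z; skip; skip] <;> simp [Store.set, Rg.st]
theorem set_A2 : (s.st : Store (Reg τ) (Sy α)).set (.r .A2) v = ({s with A2 := v} : Rg α).st := by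
  funext z; rcases z with z | z | z <;> [cases z; skip; skip] <;> simp [Store.set, Rg.st]
theorem set_q1 : (s.st : Store (Reg τ) (Sy α)).set (.r .q1) v = ({s with q1 := v} : Rg α).st := by
  funext z; rcases z with z | z | z <;> [cases z; skip; skip] <;> simp [Store.set, Rg.st]

end

section
variable {τ α : Type} [DecidableEq τ]

theorem run_monC {c a : Reg τ} (hca : c ≠ a) {s : Store (Reg τ) (Sy α)}
    {N m : ℕ} (hc : s c = num N) (ha : s a = num m) :
    Runs (monC c a) s (s.set a (num (m - N))) (4 * N + 2) := run_monus hca hc ha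

/-- The first row. -/
theorem run_readR1 (l : List Bool) (rest : List (Sy α)) (h0 : isBit rest.head? = false)
    (n1 : List (Sy α)) :
    Runs readR1 (({inp := bs l ++ rest, N1 := n1, N2 := num 0} : Rg α).st : Store (Reg τ) (Sy α))
      ({inp := rest, X := bs l, N1 := n1, N2 := num l.length} : Rg α).st
      (2 * l.length + 1) := by
  have key := Runs.loopN (p := fun h => isBit (h (.r .inp))) (c := .act fun h i =>
    if i = .r .inp then { pop := true }
    else if i = .r .X then { pb := h (.r .inp) }
    else if i = .r .N2 then { pf := some .mark } else {}) l.length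
    (fun i => (({inp := bs (l.drop i) ++ rest, X := bs (l.take i), N1 := n1, N2 := num i} :
      Rg α).st : Store (Reg τ) (Sy α))) 1
    (by
      intro i hi
      simp only [Store.heads, Rg.st]
      rw [List.drop_eq_getElem_cons hi]; rfl)
    (by
      intro i hi
      rw [List.drop_eq_getElem_cons hi, List.take_succ_eq_append_getElem hi]
      generalize l[i] = x
      generalize l.drop (i + 1) = l1
      generalize l.take i = t
      refine Runs.act' _ fun z => ?_
      rcases z with z | z | z <;> [cases z; skip; skip] <;>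
        simp [Act.app, Rg.st, Store.heads, num_cons])
    (by simpa [Store.heads, Rg.st] using h0)
  simp only [List.drop_zero, List.take_zero, List.drop_length, List.take_length, bs_nil,
    List.nil_append] at key
  exact key.mono (by omega)

/-- The bits among the symbols of a word. -/
def bitsOf : List Sym → List Bool
  | [] => []
  | .bit b :: l => b :: bitsOf l
  | .sep :: l => bitsOf l

/-- The number of separators in a word. -/
def sepsOf : List Sym → ℕ
  | [] => 0
  | .bit _ :: l => sepsOf l
  | .sep :: l => sepsOf l + 1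

theorem bitsOf_append (l m : List Sym) : bitsOf (l ++ m) = bitsOf l ++ bitsOf m := by
  induction l with
  | nil => rfl
  | cons a l ih => cases a <;> simp [bitsOf, ih]

theorem sepsOf_append (l m : List Sym) : sepsOf (l ++ m) = sepsOf l + sepsOf m := by
  induction l with
  | nil => simp [sepsOf]
  | cons a l ih => cases a <;> simp [sepsOf, ih] ; omega

theorem bitsOf_map_bit (l : List Bool) : bitsOf (l.map Sym.bit) = l := by
  induction l with
  | nil => rfl
  | cons a l ih => simp [bitsOf, ih]

theorem sepsOf_map_bit (l : List Bool) : sepsOf (l.map Sym.bit) = 0 := by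
  induction l with
  | nil => rfl
  | cons a l ih => simp [sepsOf, ih]

/-- The other rows. -/
theorem run_readR2 (w : List Sym) (x n2 : List (Sy α)) :
    Runs readR2 (({inp := w.map Sym.toSy, X := x, N1 := num 0, N2 := n2} : Rg α).st :
      Store (Reg τ) (Sy α))
      ({X := x ++ bs (bitsOf w), N1 := num (sepsOf w), N2 := n2} : Rg α).st
      (2 * w.length + 1) := by
  have key := Runs.loopN (p := fun h => (h (.r .inp)).isSome) (c := .act fun h i =>
    if i = .r .inp then { pop := true }
    else if i = .r .X then { pb := if isMark (h (.r .inp)) then none else h (.r .inp) }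
    else if i = .r .N1 then
      { pf := if isMark (h (.r .inp)) then some .mark else none } else {}) w.length
    (fun i => (Rg.st {
      inp := (w.drop i).map Sym.toSy
      X := x ++ bs (bitsOf (w.take i))
      N1 := num (sepsOf (w.take i))
      N2 := n2 } : Store (Reg τ) (Sy α))) 1
    (by
      intro i hi
      simp only [Store.heads, Rg.st]
      rw [List.drop_eq_getElem_cons hi]; rfl)
    (by
      intro i hi
      rw [List.drop_eq_getElem_cons hi, List.take_succ_eq_append_getElem hi, bitsOf_append,
        sepsOf_append]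
      generalize w[i] = y
      generalize w.drop (i + 1) = l1
      generalize w.take i = t
      refine Runs.act' _ fun z => ?_
      cases y <;> rcases z with z | z | z <;> [cases z; skip; skip; cases z; skip; skip] <;>
        simp [Act.app, Rg.st, Store.heads, num_cons, Sym.toSy, isMark, bitsOf, sepsOf])
    (by simp [Store.heads, Rg.st])
  simp only [List.drop_zero, List.take_zero, List.drop_length, List.take_length, List.map_nil,
    bitsOf, sepsOf, bs_nil, List.append_nil] at key
  exact key.mono (by omega)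

/-- Shorthand: the run of a command changes one register. -/
theorem stz {a : Reg τ} {s s' : Rg α} (h : s.st (τ := τ) a = [])
    (e : (s.st : Store (Reg τ) (Sy α)).set a (num 0) = s'.st) :
    Runs (zeroC a) (s.st : Store (Reg τ) (Sy α)) s'.st 1 := (run_zeroC h).cast e le_rfl

theorem sta {k N m : ℕ} {d a : Reg τ} {s s' : Rg α} (hda : d ≠ a)
    (h : s.st (τ := τ) d = num N) (h' : s.st (τ := τ) a = num m)
    (e : (s.st : Store (Reg τ) (Sy α)).set a (num (m + k * N)) = s'.st) :
    Runs (addC k d a) (s.st : Store (Reg τ) (Sy α)) s'.st (N * (k + 3) + 2) :=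
  (run_addC hda h h').cast e le_rfl

theorem stm {N m : ℕ} {d a : Reg τ} {s s' : Rg α} (hda : d ≠ a)
    (h : s.st (τ := τ) d = num N) (h' : s.st (τ := τ) a = num m)
    (e : (s.st : Store (Reg τ) (Sy α)).set a (num (m - N)) = s'.st) :
    Runs (monC d a) (s.st : Store (Reg τ) (Sy α)) s'.st (4 * N + 2) :=
  (run_monC hda h h').cast e le_rfl

theorem stc {N : ℕ} {a : Reg τ} {s s' : Rg α}
    (h : s.st (τ := τ) a = num N)
    (e : (s.st : Store (Reg τ) (Sy α)).set a [] = s'.st) :
    Runs (clr a) (s.st : Store (Reg τ) (Sy α)) s'.st (2 * N + 3) :=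
  run_clr.cast e (by rw [h]; simp [num]; omega)

theorem stp {N : ℕ} {a : Reg τ} {s s' : Rg α}
    (h : s.st (τ := τ) a = num N)
    (e : (s.st : Store (Reg τ) (Sy α)).set a (num (N + 1)) = s'.st) :
    Runs (pushF a .mark) (s.st : Store (Reg τ) (Sy α)) s'.st 1 :=
  (run_pushF _).cast (by rw [h, num_cons]; exact e) le_rfl

theorem std {N : ℕ} {a b : Reg τ} {s s' : Rg α} (hab : a ≠ b)
    (h : s.st (τ := τ) a = num N) (h' : s.st (τ := τ) b = [])
    (e : (s.st : Store (Reg τ) (Sy α)).set a (num (2 * N)) = s'.st) :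
    Runs (dblC a b) (s.st : Store (Reg τ) (Sy α)) s'.st (10 * N + 20) :=
  (run_dblC hab h h').cast e le_rfl

theorem run_readR (l : List Bool) (w : List Sym) :
    Runs readR ((Rg.st { inp := (l.map Sym.bit ++ Sym.sep :: w).map Sym.toSy } :
      Store (Reg τ) (Sy α)))
      (Rg.st { X := bs (l ++ bitsOf w), N1 := num (sepsOf w + 1), N2 := num l.length })
      (2 * l.length + 2 * w.length + 10) := by
  have h1 := run_readR1 (τ := τ) l ((Sym.sep :: w).map (Sym.toSy (α := α))) rfl (num 0)
  have h2 := run_readR2 (τ := τ) (Sym.sep :: w) (bs l : List (Sy α)) (num l.length)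
  have e : (bs l ++ (Sym.sep :: w).map (Sym.toSy (α := α))) =
      (l.map Sym.bit ++ Sym.sep :: w).map Sym.toSy := by
    rw [List.map_append, map_toSy_bit]
  rw [e] at h1
  set x : List (Sy α) := (l.map Sym.bit ++ Sym.sep :: w).map Sym.toSy
  have z1 := stz (τ := τ) (a := .r .N1) (s := { inp := x }) rfl (set_N1 _ _)
  have z2 := stz (τ := τ) (a := .r .N2) (s := { inp := x, N1 := num 0 }) rfl (set_N2 _ _)
  refine Runs.cast (run_sq_cons z1 (run_sq_cons z2 (run_sq_cons h1
    (run_sq_cons h2 run_sq_nil)))) ?_ ?_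
  · simp [bitsOf, sepsOf]
  · simp only [List.length_cons]
    omega

theorem run_sizeR1 (x : List (Sy α)) (r c : ℕ) :
    Runs sizeR1 (Rg.st { X := x, N1 := num r, N2 := num c } : Store (Reg τ) (Sy α))
      (Rg.st { X := x, N1 := num r, N2 := num c, N4 := num (max r c) })
      (30 * (r + c) + 30) := by
  have h1 := stz (τ := τ) (a := .r .N5) (s := { X := x, N1 := num r, N2 := num c })
    rfl (set_N5 _ _)
  have h2 := sta (τ := τ) (k := 1) (N := r) (m := 0) (d := .r .N1) (a := .r .N5)
    (s := { X := x, N1 := num r, N2 := num c, N5 := num 0 })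
    (by simp) rfl rfl (set_N5 _ _)
  have h3 := stm (τ := τ) (N := c) (m := 0 + 1 * r) (d := .r .N2) (a := .r .N5)
    (s := { X := x, N1 := num r, N2 := num c, N5 := num (0 + 1 * r) })
    (by simp) rfl rfl (set_N5 _ _)
  have h4 := stz (τ := τ) (a := .r .N4)
    (s := { X := x, N1 := num r, N2 := num c, N5 := num (0 + 1 * r - c) })
    rfl (set_N4 _ _)
  have h5 := sta (τ := τ) (k := 1) (N := c) (m := 0) (d := .r .N2) (a := .r .N4)
    (s := { X := x, N1 := num r, N2 := num c, N4 := num 0, N5 := num (0 + 1 * r - c) })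
    (by simp) rfl rfl (set_N4 _ _)
  have h6 := sta (τ := τ) (k := 1) (N := 0 + 1 * r - c) (m := 0 + 1 * c)
    (d := .r .N5) (a := .r .N4)
    (s := { X := x, N1 := num r, N2 := num c, N4 := num (0 + 1 * c),
            N5 := num (0 + 1 * r - c) })
    (by simp) rfl rfl (set_N4 _ _)
  have h7 := stc (τ := τ) (N := 0 + 1 * r - c) (a := .r .N5)
    (s := { X := x, N1 := num r, N2 := num c, N4 := num (0 + 1 * c + 1 * (0 + 1 * r - c)),
            N5 := num (0 + 1 * r - c) })
    rfl (set_N5 _ _)
  refine Runs.cast (run_sq_cons h1 (run_sq_cons h2 (run_sq_cons h3 (run_sq_cons h4 (run_sq_cons h5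
    (run_sq_cons h6 (run_sq_cons h7 run_sq_nil))))))) ?_ ?_
  · have : 0 + 1 * c + 1 * (0 + 1 * r - c) = max r c := by omega
    rw [this]
  · omega

theorem run_sizeR2l (x a b : List (Sy α)) (n L : ℕ)
    (h1 : ∀ i < L, 2 ^ (i + 1) < n) (h2 : n ≤ 2 ^ (L + 1)) :
    Runs (.loop (fun h => isMark (h (.r .N4))) (sq [
      monC (.r .N3) (.r .N4), dblC (.r .N3) (.r .A3), pushF (.r .K) .mark]))
      (Rg.st { X := x, N1 := a, N2 := b, N3 := num 2, N4 := num (n - 2), K := num 0 } :
        Store (Reg τ) (Sy α))
      (Rg.st { X := x, N1 := a, N2 := b, N3 := num (2 ^ (L + 1)), N4 := num (n - 2 ^ (L + 1)),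
               K := num L })
      (L * (14 * n + 25) + 1) := by
  have key := Runs.loopN (c := sq [
      monC (.r .N3) (.r .N4), dblC (.r .N3) (.r .A3), pushF (.r .K) .mark])
    (p := fun h => isMark (h (.r .N4))) L
    (fun i => (Rg.st { X := x, N1 := a, N2 := b, N3 := num (2 ^ (i + 1)),
                       N4 := num (n - 2 ^ (i + 1)), K := num i } : Store (Reg τ) (Sy α)))
    (14 * n + 24)
    (by
      intro i hi
      obtain ⟨j, hj⟩ : ∃ j, n - 2 ^ (i + 1) = j + 1 := ⟨n - 2 ^ (i + 1) - 1, by
        have := h1 i hi; omega⟩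
      simp [Store.heads, Rg.st, hj, num, List.replicate_succ, isMark])
    (by
      intro i hi
      have h3 := h1 i hi
      have a1 := stm (τ := τ) (N := 2 ^ (i + 1)) (m := n - 2 ^ (i + 1))
        (d := .r .N3) (a := .r .N4)
        (s := { X := x, N1 := a, N2 := b, N3 := num (2 ^ (i + 1)),
                N4 := num (n - 2 ^ (i + 1)), K := num i })
        (by simp) rfl rfl (set_N4 _ _)
      have a2 := std (τ := τ) (N := 2 ^ (i + 1)) (a := .r .N3) (b := .r .A3)
        (s := { X := x, N1 := a, N2 := b, N3 := num (2 ^ (i + 1)),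
                N4 := num (n - 2 ^ (i + 1) - 2 ^ (i + 1)), K := num i })
        (by simp) rfl rfl (set_N3 _ _)
      have a3 := stp (τ := τ) (N := i) (a := .r .K)
        (s := { X := x, N1 := a, N2 := b, N3 := num (2 * 2 ^ (i + 1)),
                N4 := num (n - 2 ^ (i + 1) - 2 ^ (i + 1)), K := num i })
        rfl (set_K _ _)
      refine Runs.cast (run_sq_cons a1 (run_sq_cons a2 (run_sq_cons a3 run_sq_nil))) ?_ ?_
      · have e1 : n - 2 ^ (i + 1) - 2 ^ (i + 1) = n - 2 ^ (i + 1 + 1) := by
          rw [pow_succ 2 (i + 1)]; omega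
        have e2 : 2 * 2 ^ (i + 1) = 2 ^ (i + 1 + 1) := by ring
        simp only [e1, e2]
      · omega)
    (by
      have : n - 2 ^ (L + 1) = 0 := by omega
      simp [Store.heads, Rg.st, this, num, isMark])
  simpa using key

theorem run_sizeR2 (x a b : List (Sy α)) (n L : ℕ) (hn : 1 ≤ n)
    (h1 : ∀ i < L, 2 ^ (i + 1) < n) (h2 : n ≤ 2 ^ (L + 1)) (h3 : L ≤ n) :
    Runs sizeR2 (Rg.st { X := x, N1 := a, N2 := b, N4 := num n } : Store (Reg τ) (Sy α))
      (Rg.st { X := x, N1 := a, N2 := b, N3 := num (2 ^ (L + 1)), K := num L })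
      (80 * n ^ 2 + 40) := by
  have hL : L * (14 * n + 25) ≤ n * (14 * n + 25) := Nat.mul_le_mul_right _ h3
  have hnn : n ≤ n ^ 2 := by nlinarith
  have a1 := stz (τ := τ) (a := .r .K)
    (s := { X := x, N1 := a, N2 := b, N4 := num n }) rfl (set_K _ _)
  have a2 := stz (τ := τ) (a := .r .N3)
    (s := { X := x, N1 := a, N2 := b, N4 := num n, K := num 0 }) rfl (set_N3 _ _)
  have a3 := stp (τ := τ) (N := 0) (a := .r .N3)
    (s := { X := x, N1 := a, N2 := b, N3 := num 0, N4 := num n, K := num 0 }) rfl (set_N3 _ _)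
  have a4 := stp (τ := τ) (N := 1) (a := .r .N3)
    (s := { X := x, N1 := a, N2 := b, N3 := num 1, N4 := num n, K := num 0 }) rfl (set_N3 _ _)
  have a5 := stm (τ := τ) (N := 2) (m := n) (d := .r .N3) (a := .r .N4)
    (s := { X := x, N1 := a, N2 := b, N3 := num 2, N4 := num n, K := num 0 })
    (by simp) rfl rfl (set_N4 _ _)
  have a6 := run_sizeR2l (τ := τ) x a b n L h1 h2
  have e0 : n - 2 ^ (L + 1) = 0 := by omega
  rw [e0] at a6
  have a7 := stc (τ := τ) (N := 0) (a := .r .N4)
    (s := { X := x, N1 := a, N2 := b, N3 := num (2 ^ (L + 1)), N4 := num 0, K := num L })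
    rfl (set_N4 _ _)
  refine Runs.cast (run_sq_cons a1 (run_sq_cons a2 (run_sq_cons a3 (run_sq_cons a4 (run_sq_cons a5
    (run_sq_cons a6 (run_sq_cons a7 run_sq_nil))))))) rfl ?_
  nlinarith

/-- The counting-down loop by a fixed number. -/
theorem run_sizeR3 (g L : ℕ) (x a b c : List (Sy α)) :
    Runs (sizeR3 g) (Rg.st { X := x, N1 := a, N2 := b, N3 := c, K := num L } :
      Store (Reg τ) (Sy α))
      (Rg.st { out := num (min g L), X := x, N1 := a, N2 := b, N3 := c, K := num (L - g) })
      (10 * g + 10) := by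
  have key := run_sq_replicate (c := .ite (fun h => isMark (h (.r .K)))
    (sq [popF (.r .K), pushF (.r .out) .mark]) (sq [])) g
    (fun i => (Rg.st { out := num (min i L), X := x, N1 := a, N2 := b, N3 := c,
                       K := num (L - i) } : Store (Reg τ) (Sy α))) 4
    (by
      intro i hi
      by_cases h : i < L
      · obtain ⟨j, hj⟩ : ∃ j, L - i = j + 1 := ⟨L - i - 1, by omega⟩
        have e1 : min i L = i := by omega
        have e2 : min (i + 1) L = i + 1 := by omega
        have e3 : (num (L - i) : List (Sy α)).tail = num (L - (i + 1)) := by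
          have : L - (i + 1) = j := by omega
          simp [this, hj, num, List.replicate_succ]
        have b1 : Runs (popF (.r .K)) (Rg.st {
            out := num (min i L), X := x, N1 := a, N2 := b, N3 := c, K := num (L - i) } :
            Store (Reg τ) (Sy α)) (Rg.st {
            out := num i, X := x, N1 := a, N2 := b, N3 := c, K := num (L - (i + 1)) }) 1 := by
          refine run_popF.cast ?_ le_rfl
          rw [set_K, e1, ← e3]
          rfl
        have b2 := stp (τ := τ) (N := i) (a := .r .out)
          (s := { out := num i, X := x, N1 := a, N2 := b, N3 := c, K := num (L - (i + 1)) })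
          rfl (set_out _ _)
        refine Runs.iteT (T := 3) ?_ (Runs.cast (run_sq_cons b1 (run_sq_cons b2 run_sq_nil))
          ?_ (by norm_num))
        · simp [Store.heads, Rg.st, hj, num, List.replicate_succ, isMark]
        · rw [e2]
      · refine Runs.iteF (T := 3) ?_ (Runs.cast run_sq_nil ?_ (by norm_num))
        · have : L - i = 0 := by omega
          simp [Store.heads, Rg.st, this, num, isMark]
        · have e1 : min i L = min (i + 1) L := by omega
          have e2 : L - i = L - (i + 1) := by omega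
          rw [e1, e2])
  have e0 : min 0 L = 0 := by omega
  simp only [Nat.sub_zero, e0] at key
  have b0 := stz (τ := τ) (a := .r .out)
    (s := { X := x, N1 := a, N2 := b, N3 := c, K := num L }) rfl (set_out _ _)
  refine Runs.cast (run_sq_cons b0 (run_sq_cons key run_sq_nil)) rfl ?_
  omega

end

end Vale.Agent.P338.RC
end

section

/-! Rectangular matrices: remaining sizes and padding. -/

namespace Vale.Agent.P338.RC
open Vale.Agent.P338 Reg R

section
variable {τ α : Type} [DecidableEq τ]

theorem run_sizeR4 (c0 L : ℕ) (o x a b c : List (Sy α)) :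
    Runs (sizeR4 c0) (Rg.st { out := o, X := x, N1 := a, N2 := b, N3 := c, K := num L } :
      Store (Reg τ) (Sy α))
      (Rg.st {
        out := o, X := x, N1 := a, N2 := b, N3 := c, N4 := num (2 ^ (L + 1))
        N5 := num (2 ^ (L + 1)), K := num L, A2 := num (c0 * 4 ^ (L + 1)) })
      ((c0 + 60) * 4 ^ (L + 1)) := by
  have h1 := stz (τ := τ) (a := .r .N4)
    (s := { out := o, X := x, N1 := a, N2 := b, N3 := c, K := num L }) rfl (set_N4 _ _)
  have h2 := stp (τ := τ) (N := 0) (a := .r .N4)
    (s := { out := o, X := x, N1 := a, N2 := b, N3 := c, N4 := num 0, K := num L })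
    rfl (set_N4 _ _)
  have h3 := stp (τ := τ) (N := 1) (a := .r .N4)
    (s := { out := o, X := x, N1 := a, N2 := b, N3 := c, N4 := num 1, K := num L })
    rfl (set_N4 _ _)
  have h4 := Runs.forN (c := .r .K) (body := dblC (.r .N4) (.r .A3)) L
    (fun i => (Rg.st { out := o, X := x, N1 := a, N2 := b, N3 := c, N4 := num (2 ^ (i + 1))
                       K := num L } : Store (Reg τ) (Sy α))) (10 * 2 ^ L + 20)
    (by intro i; rfl)
    (by
      intro i hi y
      rw [set_K, set_K]
      refine (std (N := 2 ^ (i + 1)) (by simp) rfl rfl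
        ((set_N4 _ _).trans ?_)).mono ?_
      · have e : 2 * 2 ^ (i + 1) = 2 ^ (i + 1 + 1) := by ring
        simp only [e]
      · have : 2 ^ (i + 1) ≤ 2 ^ L := Nat.pow_le_pow_right (by norm_num) hi
        omega)
  have h5 := stz (τ := τ) (a := .r .N5)
    (s := { out := o, X := x, N1 := a, N2 := b, N3 := c, N4 := num (2 ^ (L + 1)), K := num L })
    rfl (set_N5 _ _)
  have h6 := sta (τ := τ) (k := 1) (N := 2 ^ (L + 1)) (m := 0) (d := .r .N4) (a := .r .N5)
    (s := { out := o, X := x, N1 := a, N2 := b, N3 := c, N4 := num (2 ^ (L + 1)), N5 := num 0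
            K := num L })
    (by simp) rfl rfl (set_N5 _ _)
  have e0 : 0 + 1 * 2 ^ (L + 1) = 2 ^ (L + 1) := by omega
  have h7 := stz (τ := τ) (a := .r .A2)
    (s := { out := o, X := x, N1 := a, N2 := b, N3 := c, N4 := num (2 ^ (L + 1))
            N5 := num (0 + 1 * 2 ^ (L + 1)), K := num L })
    rfl (set_A2 _ _)
  have h8 := Runs.forN (c := .r .N4) (body := addC c0 (.r .N5) (.r .A2)) (2 ^ (L + 1))
    (fun i => (Rg.st { out := o, X := x, N1 := a, N2 := b, N3 := c, N4 := num (2 ^ (L + 1))
                       N5 := num (2 ^ (L + 1)), K := num L, A2 := num (i * (c0 * 2 ^ (L + 1))) } :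
      Store (Reg τ) (Sy α))) (2 ^ (L + 1) * (c0 + 3) + 2)
    (by intro i; rfl)
    (by
      intro i hi y
      rw [set_N4, set_N4]
      refine (sta (k := c0) (N := 2 ^ (L + 1)) (m := i * (c0 * 2 ^ (L + 1))) (by simp) rfl rfl
        ((set_A2 _ _).trans ?_))
      have e : i * (c0 * 2 ^ (L + 1)) + c0 * 2 ^ (L + 1) = (i + 1) * (c0 * 2 ^ (L + 1)) := by ring
      simp only [e])
  rw [Nat.zero_mul, ← e0] at h8
  simp only [e0] at h8 h7 h6
  refine Runs.cast (run_sq_cons h1 (run_sq_cons h2 (run_sq_cons h3 (run_sq_cons h4 (run_sq_cons h5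
    (run_sq_cons h6 (run_sq_cons h7 (run_sq_cons h8 run_sq_nil)))))))) ?_ ?_
  · have e : 2 ^ (L + 1) * (c0 * 2 ^ (L + 1)) = c0 * 4 ^ (L + 1) := by
      rw [show (4 : ℕ) = 2 * 2 by norm_num, mul_pow]; ring
    simp only [e]
  · have hL : L < 2 ^ L := Nat.lt_two_pow_self
    have hP : 1 ≤ 2 ^ L := Nat.one_le_two_pow
    have e : (4 : ℕ) ^ (L + 1) = 2 ^ (L + 1) * 2 ^ (L + 1) := by
      rw [show (4 : ℕ) = 2 * 2 by norm_num, mul_pow]
    rw [e, pow_succ]
    generalize 2 ^ L = Q at *
    have h9 : L * (10 * Q + 20 + 2) ≤ Q * (10 * Q + 20 + 2) := Nat.mul_le_mul_right _ hL.le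
    nlinarith

theorem run_sizeR5 (r c t : ℕ) (o x n3 n4 n5 k : List (Sy α)) :
    Runs sizeR5 (Rg.st {
        out := o, X := x, N1 := num r, N2 := num c, N3 := n3, N4 := n4
        N5 := n5, K := k, A2 := num t } : Store (Reg τ) (Sy α))
      (Rg.st {
        out := o, X := x, N1 := num r, N2 := num c, N3 := n3, N4 := n4
        N5 := n5, K := k, M1 := num (max (r ^ 2 + (c - r)) t) })
      (20 * (r ^ 2 + c + t) + 30) := by
  have h1 := stz (τ := τ) (a := .r .M1)
    (s := { out := o, X := x, N1 := num r, N2 := num c, N3 := n3, N4 := n4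
            N5 := n5, K := k, A2 := num t }) rfl (set_M1 _ _)
  have h2 := sta (τ := τ) (k := 1) (N := c) (m := 0) (d := .r .N2) (a := .r .M1)
    (s := { out := o, X := x, N1 := num r, N2 := num c, N3 := n3, N4 := n4
            N5 := n5, K := k, M1 := num 0, A2 := num t })
    (by simp) rfl rfl (set_M1 _ _)
  have h3 := stm (τ := τ) (N := r) (m := 0 + 1 * c) (d := .r .N1) (a := .r .M1)
    (s := { out := o, X := x, N1 := num r, N2 := num c, N3 := n3, N4 := n4
            N5 := n5, K := k, M1 := num (0 + 1 * c), A2 := num t })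
    (by simp) rfl rfl (set_M1 _ _)
  have h4 := stz (τ := τ) (a := .r .A1)
    (s := { out := o, X := x, N1 := num r, N2 := num c, N3 := n3, N4 := n4
            N5 := n5, K := k, M1 := num (0 + 1 * c - r), A2 := num t }) rfl (set_A1 _ _)
  have h5 := sta (τ := τ) (k := 1) (N := r) (m := 0) (d := .r .N1) (a := .r .A1)
    (s := { out := o, X := x, N1 := num r, N2 := num c, N3 := n3, N4 := n4
            N5 := n5, K := k, M1 := num (0 + 1 * c - r), A1 := num 0, A2 := num t })
    (by simp) rfl rfl (set_A1 _ _)
  have h6 := Runs.forN (c := .r .N1) (body := addC 1 (.r .A1) (.r .M1)) r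
    (fun i => (Rg.st { out := o, X := x, N1 := num r, N2 := num c, N3 := n3, N4 := n4
                       N5 := n5, K := k, M1 := num (0 + 1 * c - r + i * r)
                       A1 := num (0 + 1 * r), A2 := num t } :
      Store (Reg τ) (Sy α))) (r * (1 + 3) + 2)
    (by intro i; rfl)
    (by
      intro i hi y
      rw [set_N1, set_N1]
      refine (sta (k := 1) (N := 0 + 1 * r) (m := 0 + 1 * c - r + i * r) (by simp) rfl rfl
        ((set_M1 _ _).trans ?_)).mono (by omega)
      have e : 0 + 1 * c - r + i * r + 1 * (0 + 1 * r) = 0 + 1 * c - r + (i + 1) * r := by ring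
      simp only [e])
  rw [Nat.zero_mul, Nat.add_zero] at h6
  have h7 := stc (τ := τ) (N := 0 + 1 * r) (a := .r .A1)
    (s := { out := o, X := x, N1 := num r, N2 := num c, N3 := n3, N4 := n4
            N5 := n5, K := k, M1 := num (0 + 1 * c - r + r * r)
            A1 := num (0 + 1 * r), A2 := num t })
    rfl (set_A1 _ _)
  have h8 := stm (τ := τ) (N := 0 + 1 * c - r + r * r) (m := t) (d := .r .M1) (a := .r .A2)
    (s := { out := o, X := x, N1 := num r, N2 := num c, N3 := n3, N4 := n4
            N5 := n5, K := k, M1 := num (0 + 1 * c - r + r * r), A2 := num t })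
    (by simp) rfl rfl (set_A2 _ _)
  have h9 := sta (τ := τ) (k := 1) (N := t - (0 + 1 * c - r + r * r))
    (m := 0 + 1 * c - r + r * r) (d := .r .A2) (a := .r .M1)
    (s := { out := o, X := x, N1 := num r, N2 := num c, N3 := n3, N4 := n4
            N5 := n5, K := k, M1 := num (0 + 1 * c - r + r * r)
            A2 := num (t - (0 + 1 * c - r + r * r)) })
    (by simp) rfl rfl (set_M1 _ _)
  have h10 := stc (τ := τ) (N := t - (0 + 1 * c - r + r * r)) (a := .r .A2)
    (s := { out := o, X := x, N1 := num r, N2 := num c, N3 := n3, N4 := n4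
            N5 := n5, K := k
            M1 := num (0 + 1 * c - r + r * r + 1 * (t - (0 + 1 * c - r + r * r)))
            A2 := num (t - (0 + 1 * c - r + r * r)) })
    rfl (set_A2 _ _)
  refine Runs.cast (run_sq_cons h1 (run_sq_cons h2 (run_sq_cons h3 (run_sq_cons h4 (run_sq_cons h5
    (run_sq_cons h6 (run_sq_cons h7 (run_sq_cons h8 (run_sq_cons h9 (run_sq_cons h10
      run_sq_nil)))))))))) ?_ ?_
  · have e : 0 + 1 * c - r + r * r + 1 * (t - (0 + 1 * c - r + r * r)) =
        max (r ^ 2 + (c - r)) t := by
      rw [pow_two]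
      omega
    rw [e]
  · have e1 : 0 + 1 * c - r ≤ c := by omega
    have e2 : t - (0 + 1 * c - r + r * r) ≤ t := by omega
    have e3 : r ≤ r ^ 2 := by nlinarith
    nlinarith

theorem run_padR1 (r c p : ℕ) (row : ℕ → List (Sy α)) (hrow : ∀ i < r, (row i).length = c)
    (o n3 n4 n5 k m a2 : List (Sy α)) :
    Runs (forN (.r .N1) (.seq (moveN (.r .N2) (.r .X) (.r .D))
        (fillN 1 (.r .A1) (.r .D) (.bit false))))
      (Rg.st {
        out := o, X := fm r row, N1 := num r, N2 := num c, N3 := n3, N4 := n4
        N5 := n5, K := k, M1 := m, A1 := num p, A2 := a2 } : Store (Reg τ) (Sy α))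
      (Rg.st {
        out := o, D := fm r fun i => row i ++ List.replicate p (.bit false)
        N1 := num r, N2 := num c, N3 := n3, N4 := n4
        N5 := n5, K := k, M1 := m, A1 := num p, A2 := a2 })
      (r * ((3 * c + 2) + (p * 4 + 2) + 2) + 2) := by
  have key := Runs.forN (c := .r .N1) (body := .seq (moveN (.r .N2) (.r .X) (.r .D))
        (fillN 1 (.r .A1) (.r .D) (.bit false))) r
    (fun i => (Rg.st {
        out := o, D := fm i fun i => row i ++ List.replicate p (.bit false)
        X := fm (r - i) fun j => row (i + j), N1 := num r, N2 := num c, N3 := n3, N4 := n4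
        N5 := n5, K := k, M1 := m, A1 := num p, A2 := a2 } : Store (Reg τ) (Sy α)))
    ((3 * c + 2) + (p * 4 + 2))
    (by intro i; rfl)
    (by
      intro i hi y
      rw [set_N1, set_N1]
      refine Runs.cast (Runs.seq (run_moveN (N := c) (l := row i)
        (rest := fm (r - (i + 1)) fun j => row (i + 1 + j)) (by simp) (by simp) (by simp) rfl ?_
        (hrow i hi)) (run_fillN (by simp) rfl)) ?_ (by omega)
      · exact fm_split_first r i hi row
      · simp only [set_X, set_D, Rg.st, Nat.one_mul, fm_succ, List.append_assoc])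
  simp only [Nat.sub_zero, Nat.zero_add, Nat.sub_self, fm_zero] at key
  exact key

theorem run_padR2 (q p : ℕ) (o D n1 n2 n4 n5 k m a1 : List (Sy α)) :
    Runs (forN (.r .A2) (fillN 1 (.r .N3) (.r .D) (.bit false)))
      (Rg.st {
        out := o, D := D, N1 := n1, N2 := n2, N3 := num q, N4 := n4
        N5 := n5, K := k, M1 := m, A1 := a1, A2 := num p } : Store (Reg τ) (Sy α))
      (Rg.st {
        out := o, D := D ++ List.replicate (p * q) (.bit false)
        N1 := n1, N2 := n2, N3 := num q, N4 := n4
        N5 := n5, K := k, M1 := m, A1 := a1, A2 := num p })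
      (p * ((q * 4 + 2) + 2) + 2) := by
  have key := Runs.forN (c := .r .A2) (body := fillN 1 (.r .N3) (.r .D) (.bit false)) p
    (fun i => (Rg.st {
        out := o, D := D ++ List.replicate (i * q) (.bit false)
        N1 := n1, N2 := n2, N3 := num q, N4 := n4
        N5 := n5, K := k, M1 := m, A1 := a1, A2 := num p } : Store (Reg τ) (Sy α))) (q * 4 + 2)
    (by intro i; rfl)
    (by
      intro i hi x
      rw [set_A2, set_A2]
      refine Runs.cast (run_fillN (by simp) rfl) ?_ (by omega)
      simp only [set_D, Rg.st, Nat.zero_mul, Nat.zero_add, List.append_assoc,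
        ← List.replicate_add, Nat.succ_mul])
  simp only [Nat.zero_mul, List.replicate_zero, List.append_nil] at key
  exact key

theorem sts {k N m : ℕ} {d a : Reg τ} {s s' : Rg α} (hda : d ≠ a)
    (h : s.st (τ := τ) d = num N) (h' : s.st (τ := τ) a = num m) (hm : k * N ≤ m)
    (e : (s.st : Store (Reg τ) (Sy α)).set a (num (m - k * N)) = s'.st) :
    Runs (subC k d a) (s.st : Store (Reg τ) (Sy α)) s'.st (N * (k + 3) + 2) :=
  (run_subC hda h h' hm).cast e le_rfl

theorem run_padR (r c q : ℕ) (row : ℕ → List (Sy α)) (hrow : ∀ i < r, (row i).length = c)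
    (hr : r ≤ q) (hc : c ≤ q)
    (o n4 n5 k m : List (Sy α)) :
    Runs padR
      (Rg.st {
        out := o, X := fm r row, N1 := num r, N2 := num c, N3 := num q, N4 := n4
        N5 := n5, K := k, M1 := m } : Store (Reg τ) (Sy α))
      (Rg.st {
        out := o
        D := (fm r fun i => row i ++ List.replicate (q - c) (Sy.bit false)) ++
          List.replicate ((q - r) * q) (Sy.bit false)
        N1 := num r, N2 := num c, N3 := num (q - r), N4 := n4
        N5 := n5, K := k, M1 := m })
      (100 * q ^ 2 + 100) := by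
  have a1 := stz (τ := τ) (a := .r .A1)
    (s := {
      out := o, X := fm r row, N1 := num r, N2 := num c, N3 := num q, N4 := n4
      N5 := n5, K := k, M1 := m }) rfl (set_A1 _ _)
  have a2 := sta (τ := τ) (k := 1) (N := q) (m := 0) (d := .r .N3) (a := .r .A1)
    (s := {
      out := o, X := fm r row, N1 := num r, N2 := num c, N3 := num q, N4 := n4
      N5 := n5, K := k, M1 := m, A1 := num 0 })
    (by simp) rfl rfl (set_A1 _ _)
  have a3 := sts (τ := τ) (k := 1) (N := c) (m := 0 + 1 * q) (d := .r .N2) (a := .r .A1)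
    (s := {
      out := o, X := fm r row, N1 := num r, N2 := num c, N3 := num q, N4 := n4
      N5 := n5, K := k, M1 := m, A1 := num (0 + 1 * q) })
    (by simp) rfl rfl (by omega) (set_A1 _ _)
  have a4 := stz (τ := τ) (a := .r .A2)
    (s := {
      out := o, X := fm r row, N1 := num r, N2 := num c, N3 := num q, N4 := n4
      N5 := n5, K := k, M1 := m, A1 := num (0 + 1 * q - 1 * c) }) rfl (set_A2 _ _)
  have a5 := sta (τ := τ) (k := 1) (N := q) (m := 0) (d := .r .N3) (a := .r .A2)
    (s := {
      out := o, X := fm r row, N1 := num r, N2 := num c, N3 := num q, N4 := n4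
      N5 := n5, K := k, M1 := m, A1 := num (0 + 1 * q - 1 * c), A2 := num 0 })
    (by simp) rfl rfl (set_A2 _ _)
  have a6 := sts (τ := τ) (k := 1) (N := r) (m := 0 + 1 * q) (d := .r .N1) (a := .r .A2)
    (s := {
      out := o, X := fm r row, N1 := num r, N2 := num c, N3 := num q, N4 := n4
      N5 := n5, K := k, M1 := m, A1 := num (0 + 1 * q - 1 * c), A2 := num (0 + 1 * q) })
    (by simp) rfl rfl (by omega) (set_A2 _ _)
  have e1 : 0 + 1 * q - 1 * c = q - c := by omega
  have e2 : 0 + 1 * q - 1 * r = q - r := by omega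
  simp only [e1, e2] at a3 a4 a5 a6
  have a7 := run_padR1 (τ := τ) r c (q - c) row hrow o (num q) n4 n5 k m (num (q - r))
  have a8 := run_padR2 (τ := τ) q (q - r) o
    (fm r fun i => row i ++ List.replicate (q - c) (Sy.bit false)) (num r) (num c) n4 n5 k m
    (num (q - c))
  set D : List (Sy α) := (fm r fun i => row i ++ List.replicate (q - c) (Sy.bit false)) ++
          List.replicate ((q - r) * q) (Sy.bit false) with hD
  have a9 := stc (τ := τ) (N := q - c) (a := .r .A1)
    (s := {
      out := o, D := D, N1 := num r, N2 := num c, N3 := num q, N4 := n4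
      N5 := n5, K := k, M1 := m, A1 := num (q - c), A2 := num (q - r) }) rfl (set_A1 _ _)
  have a10 := stc (τ := τ) (N := q) (a := .r .N3)
    (s := {
      out := o, D := D, N1 := num r, N2 := num c, N3 := num q, N4 := n4
      N5 := n5, K := k, M1 := m, A2 := num (q - r) }) rfl (set_N3 _ _)
  have a11 := stz (τ := τ) (a := .r .N3)
    (s := {
      out := o, D := D, N1 := num r, N2 := num c, N4 := n4
      N5 := n5, K := k, M1 := m, A2 := num (q - r) }) rfl (set_N3 _ _)
  have a12 := sta (τ := τ) (k := 1) (N := q - r) (m := 0) (d := .r .A2) (a := .r .N3)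
    (s := {
      out := o, D := D, N1 := num r, N2 := num c, N3 := num 0, N4 := n4
      N5 := n5, K := k, M1 := m, A2 := num (q - r) })
    (by simp) rfl rfl (set_N3 _ _)
  have a13 := stc (τ := τ) (N := q - r) (a := .r .A2)
    (s := {
      out := o, D := D, N1 := num r, N2 := num c, N3 := num (0 + 1 * (q - r)), N4 := n4
      N5 := n5, K := k, M1 := m, A2 := num (q - r) }) rfl (set_A2 _ _)
  refine Runs.cast (run_sq_cons a1 (run_sq_cons a2 (run_sq_cons a3 (run_sq_cons a4 (run_sq_cons a5
    (run_sq_cons a6 (run_sq_cons a7 (run_sq_cons a8 (run_sq_cons a9 (run_sq_cons a10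
      (run_sq_cons a11 (run_sq_cons a12 (run_sq_cons a13 run_sq_nil))))))))))))) ?_ ?_
  · have e : 0 + 1 * (q - r) = q - r := by omega
    rw [e]
  · obtain ⟨u, rfl⟩ := Nat.exists_eq_add_of_le hr
    have e3 : r + u - r = u := by omega
    have e4 : r + u - c ≤ r + u := by omega
    rw [e3]
    have e5 : r * (3 * c + 2 + ((r + u - c) * 4 + 2) + 2) ≤
      r * (3 * (r + u) + 2 + ((r + u) * 4 + 2) + 2) := by gcongr
    nlinarith

end

end Vale.Agent.P338.RC
end

section

/-! Rectangular matrices: the two redistributions around the core program. -/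

namespace Vale.Agent.P338.RC
open Vale.Agent.P338 Reg R

section pure

/-- Stage `t` of the first redistribution: the last `t` index bits moved to the front. -/
def p1st {β : Type} (n : ℕ) (E : ℕ → List β) (t : ℕ) : List β :=
  fm (2 ^ t) fun u => fm (2 ^ (n - t)) fun v => E (v * 2 ^ t + u)

/-- The entries seen in stage `t`. -/
def p1ent {β : Type} (n : ℕ) (E : ℕ → List β) (t b x : ℕ) : List β :=
  E ((x % 2 ^ (n - t - 1) * 2 + b) * 2 ^ t + x / 2 ^ (n - t - 1))

theorem p1st_eq {β : Type} (n : ℕ) (E : ℕ → List β) {t : ℕ} (ht : t < n) :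
    p1st n E t = fm (2 ^ (n - 1)) fun x => fm 2 fun b => p1ent n E t b x := by
  have e : 2 ^ (n - t) = 2 ^ (n - t - 1) * 2 := by
    rw [← pow_succ]; congr 1; omega
  have e2 : 2 ^ t * 2 ^ (n - t - 1) = 2 ^ (n - 1) := by
    rw [← pow_add]; congr 1; omega
  have h1 := fm_fm (2 ^ t) (2 ^ (n - t - 1)) Nat.one_le_two_pow (fun u v => fm 2 fun b =>
    E ((v * 2 + b) * 2 ^ t + u))
  rw [e2] at h1
  unfold p1st p1ent
  rw [← h1]
  refine fm_congr fun u _ => ?_
  rw [e, fm_mul]

theorem p1st_succ {β : Type} (n : ℕ) (E : ℕ → List β) {t : ℕ} (ht : t < n) :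
    p1st n E (t + 1) = fm 2 fun b => fm (2 ^ (n - 1)) fun x => p1ent n E t b x := by
  have e2 : 2 ^ t * 2 ^ (n - t - 1) = 2 ^ (n - 1) := by
    rw [← pow_add]; congr 1; omega
  unfold p1st p1ent
  rw [pow_succ', fm_mul]
  refine fm_congr fun b _ => ?_
  have h1 := fm_fm (2 ^ t) (2 ^ (n - t - 1)) Nat.one_le_two_pow (fun u v =>
    E ((v * 2 + b) * 2 ^ t + u))
  rw [e2] at h1
  rw [← h1]
  refine fm_congr fun u _ => ?_
  rw [show n - (t + 1) = n - t - 1 by omega]
  refine fm_congr fun v _ => ?_
  congr 1
  ring

/-- Stage `t` of the second redistribution. -/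
def p2st {β : Type} (A k : ℕ) (E : ℕ → ℕ → List β) (t : ℕ) : List β :=
  fm A fun a => fm (2 ^ (k - t)) fun v => fm (2 ^ t) fun u => E a (u * 2 ^ (k - t) + v)

/-- The entries seen in stage `t`. -/
def p2ent {β : Type} (k : ℕ) (E : ℕ → ℕ → List β) (t a b w : ℕ) : List β :=
  E a (w % 2 ^ t * 2 ^ (k - t) + (b * 2 ^ (k - t - 1) + w / 2 ^ t))

theorem p2st_eq {β : Type} (A k : ℕ) (E : ℕ → ℕ → List β) {t : ℕ} (ht : t < k) :
    p2st A k E t = fm A fun a => fm 2 fun b => fm (2 ^ (k - 1)) fun w => p2ent k E t a b w := by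
  have e : 2 ^ (k - t) = 2 * 2 ^ (k - t - 1) := by
    rw [← pow_succ']; congr 1; omega
  have e2 : 2 ^ (k - t - 1) * 2 ^ t = 2 ^ (k - 1) := by
    rw [← pow_add]; congr 1; omega
  unfold p2st p2ent
  refine fm_congr fun a _ => ?_
  rw [e, fm_mul]
  refine fm_congr fun b _ => ?_
  have h1 := fm_fm (2 ^ (k - t - 1)) (2 ^ t) Nat.one_le_two_pow (fun v u =>
    E a (u * (2 * 2 ^ (k - t - 1)) + (b * 2 ^ (k - t - 1) + v)))
  rw [e2] at h1
  rw [← h1]

theorem p2st_succ {β : Type} (A k : ℕ) (E : ℕ → ℕ → List β) {t : ℕ} (ht : t < k) :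
    p2st A k E (t + 1) = fm A fun a => fm (2 ^ (k - 1)) fun w => fm 2 fun b =>
      p2ent k E t a b w := by
  have e : 2 ^ (k - t) = 2 * 2 ^ (k - t - 1) := by
    rw [← pow_succ']; congr 1; omega
  have e2 : 2 ^ (k - t - 1) * 2 ^ t = 2 ^ (k - 1) := by
    rw [← pow_add]; congr 1; omega
  unfold p2st p2ent
  refine fm_congr fun a _ => ?_
  have h1 := fm_fm (2 ^ (k - t - 1)) (2 ^ t) Nat.one_le_two_pow (fun v u => fm 2 fun b =>
    E a (u * 2 ^ (k - t) + (b * 2 ^ (k - t - 1) + v)))
  rw [e2] at h1
  rw [← h1, show k - (t + 1) = k - t - 1 by omega]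
  refine fm_congr fun v _ => ?_
  rw [pow_succ, fm_mul]
  refine fm_congr fun u _ => fm_congr fun b _ => ?_
  congr 1
  rw [e]
  ring

end pure

section
variable {τ α : Type} [DecidableEq τ]

/-- Doubling `q1` as often as `out` says. -/
theorem run_dblout (g q : ℕ) (D n1 n2 n3 n4 n5 k m : List (Sy α)) :
    Runs (forN (.r .out) (dblC (.r .q1) (.r .A3)))
      (Rg.st {
        out := num g, D := D, N1 := n1, N2 := n2, N3 := n3, N4 := n4
        N5 := n5, K := k, M1 := m, q1 := num q } : Store (Reg τ) (Sy α))
      (Rg.st {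
        out := num g, D := D, N1 := n1, N2 := n2, N3 := n3, N4 := n4
        N5 := n5, K := k, M1 := m, q1 := num (2 ^ g * q) })
      (g * (10 * (2 ^ g * q) + 22) + 2) := by
  have key := Runs.forN (c := .r .out) (body := dblC (.r .q1) (.r .A3)) g
    (fun i => (Rg.st {
        out := num g, D := D, N1 := n1, N2 := n2, N3 := n3, N4 := n4
        N5 := n5, K := k, M1 := m, q1 := num (2 ^ i * q) } : Store (Reg τ) (Sy α)))
    (10 * (2 ^ g * q) + 20)
    (by intro i; rfl)
    (by
      intro i hi y
      rw [set_out, set_out]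
      refine (std (N := 2 ^ i * q) (by simp) rfl rfl ((set_q1 _ _).trans ?_)).mono ?_
      · have e : 2 * (2 ^ i * q) = 2 ^ (i + 1) * q := by ring
        simp only [e]
      · have : 2 ^ i * q ≤ 2 ^ g * q :=
          Nat.mul_le_mul_right _ (Nat.pow_le_pow_right (by norm_num) hi.le)
        omega)
  simp only [pow_zero, Nat.one_mul] at key
  exact key

/-- Doubling `q1` as often as `K` says. -/
theorem run_dblK (L : ℕ) (o D n1 n2 n3 n4 n5 m : List (Sy α)) :
    Runs (forN (.r .K) (dblC (.r .q1) (.r .A3)))
      (Rg.st {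
        out := o, D := D, N1 := n1, N2 := n2, N3 := n3, N4 := n4
        N5 := n5, K := num L, M1 := m, q1 := num 1 } : Store (Reg τ) (Sy α))
      (Rg.st {
        out := o, D := D, N1 := n1, N2 := n2, N3 := n3, N4 := n4
        N5 := n5, K := num L, M1 := m, q1 := num (2 ^ L) })
      (L * (10 * 2 ^ L + 22) + 2) := by
  have key := Runs.forN (c := .r .K) (body := dblC (.r .q1) (.r .A3)) L
    (fun i => (Rg.st {
        out := o, D := D, N1 := n1, N2 := n2, N3 := n3, N4 := n4
        N5 := n5, K := num L, M1 := m, q1 := num (2 ^ i) } : Store (Reg τ) (Sy α)))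
    (10 * 2 ^ L + 20)
    (by intro i; rfl)
    (by
      intro i hi y
      rw [set_K, set_K]
      refine (std (N := 2 ^ i) (by simp) rfl rfl ((set_q1 _ _).trans ?_)).mono ?_
      · have e : 2 * 2 ^ i = 2 ^ (i + 1) := by ring
        simp only [e]
      · have : 2 ^ i ≤ 2 ^ L := Nat.pow_le_pow_right (by norm_num) hi.le
        omega)
  simp only [pow_zero] at key
  exact key

theorem run_peelR1 : ∃ C : ℕ, ∀ (g L : ℕ) (E : ℕ → List (Sy α))
    (n1 n2 n3 n5 m : List (Sy α)), (∀ i, (E i).length = 2 ^ (L + 1)) →
    Runs peelR1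
      (Rg.st {
        out := num g, D := p1st (L + 1 + g + g) E 0, N1 := n1, N2 := n2, N3 := n3
        N4 := num (2 ^ (L + 1))
        N5 := n5, K := num L, M1 := m } : Store (Reg τ) (Sy α))
      (Rg.st {
        out := num g, D := p1st (L + 1 + g + g) E g, N1 := n1, N2 := n2, N3 := n3
        N4 := num (2 ^ (L + 1))
        N5 := n5, K := num L, M1 := m })
      (C * ((g + 1) * 4 ^ (L + 1 + g))) := by
  obtain ⟨C1, hC1⟩ := run_dilv (τ := τ) (α := α) (g := r q1) (by simp)
  refine ⟨C1 + 1000, fun g L E n1 n2 n3 n5 m hE => ?_⟩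
  set Dt := p1st (L + 1 + g + g) E with hDt
  have a1 := stz (τ := τ) (a := .r .q1)
    (s := {
        out := num g, D := Dt 0, N1 := n1, N2 := n2, N3 := n3
        N4 := num (2 ^ (L + 1))
        N5 := n5, K := num L, M1 := m }) rfl (set_q1 _ _)
  have a2 := stp (τ := τ) (N := 0) (a := .r .q1)
    (s := {
        out := num g, D := Dt 0, N1 := n1, N2 := n2, N3 := n3
        N4 := num (2 ^ (L + 1))
        N5 := n5, K := num L, M1 := m, q1 := num 0 }) rfl (set_q1 _ _)
  have a3 := run_dblK (τ := τ) L (num g) (Dt 0) n1 n2 n3 (num (2 ^ (L + 1))) n5 m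
  have a4 := run_dblout (τ := τ) g (2 ^ L) (Dt 0) n1 n2 n3 (num (2 ^ (L + 1))) n5 (num L) m
  have a5 := run_dblout (τ := τ) g (2 ^ g * 2 ^ L) (Dt 0) n1 n2 n3 (num (2 ^ (L + 1))) n5
    (num L) m
  set q : ℕ := 2 ^ g * (2 ^ g * 2 ^ L) with hq
  have hq' : q = 2 ^ (L + 1 + g + g - 1) := by
    rw [hq, ← pow_add, ← pow_add]; congr 1; omega
  have a6 := stz (τ := τ) (a := .r .A1)
    (s := {
        out := num g, D := Dt 0, N1 := n1, N2 := n2, N3 := n3
        N4 := num (2 ^ (L + 1))
        N5 := n5, K := num L, M1 := m, q1 := num q }) rfl (set_A1 _ _)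
  have a7 := sta (τ := τ) (k := 1) (N := 2 ^ (L + 1)) (m := 0) (d := .r .N4) (a := .r .A1)
    (s := {
        out := num g, D := Dt 0, N1 := n1, N2 := n2, N3 := n3
        N4 := num (2 ^ (L + 1))
        N5 := n5, K := num L, M1 := m, A1 := num 0, q1 := num q })
    (by simp) rfl rfl (set_A1 _ _)
  have e0 : 0 + 1 * 2 ^ (L + 1) = 2 ^ (L + 1) := by omega
  rw [e0] at a7
  have key := Runs.forN (c := .r .out) (body := dilv (.r .q1)) g
    (fun i => (Rg.st {
        out := num g, D := Dt i, N1 := n1, N2 := n2, N3 := n3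
        N4 := num (2 ^ (L + 1))
        N5 := n5, K := num L, M1 := m, A1 := num (2 ^ (L + 1)), q1 := num q } :
          Store (Reg τ) (Sy α)))
    (C1 * (1 * (q * 2 ^ (L + 1))))
    (by intro i; rfl)
    (by
      intro i hi y
      rw [set_out, set_out]
      have h := hC1 (Rg.st {
        out := y, D := Dt i, N1 := n1, N2 := n2, N3 := n3
        N4 := num (2 ^ (L + 1))
        N5 := n5, K := num L, M1 := m, A1 := num (2 ^ (L + 1)), q1 := num q }) 1 q (2 ^ (L + 1))
        (fun _ b v => p1ent (L + 1 + g + g) E i b v) le_rfl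
        (by rw [hq']; exact Nat.one_le_two_pow) Nat.one_le_two_pow (fun _ b v => hE _)
        (by
          rw [fm_one, hq']
          exact p1st_eq _ E (by omega)) rfl rfl rfl rfl
      refine h.cast ?_ le_rfl
      rw [set_D, fm_one]
      have e := p1st_succ (L + 1 + g + g) E (t := i) (by omega)
      rw [← hq'] at e
      rw [← e])
  have a8 := stc (τ := τ) (N := q) (a := .r .q1)
    (s := {
        out := num g, D := Dt g, N1 := n1, N2 := n2, N3 := n3
        N4 := num (2 ^ (L + 1))
        N5 := n5, K := num L, M1 := m, A1 := num (2 ^ (L + 1)), q1 := num q })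
    rfl (set_q1 _ _)
  have a9 := stc (τ := τ) (N := 2 ^ (L + 1)) (a := .r .A1)
    (s := {
        out := num g, D := Dt g, N1 := n1, N2 := n2, N3 := n3
        N4 := num (2 ^ (L + 1))
        N5 := n5, K := num L, M1 := m, A1 := num (2 ^ (L + 1)) })
    rfl (set_A1 _ _)
  refine Runs.cast (run_sq_cons a1 (run_sq_cons a2 (run_sq_cons a3 (run_sq_cons a4 (run_sq_cons a5
    (run_sq_cons a6 (run_sq_cons a7 (run_sq_cons key (run_sq_cons a8 (run_sq_cons a9
      run_sq_nil)))))))))) rfl ?_
  have e4 : (4 : ℕ) ^ (L + 1 + g) = 2 * (q * 2 ^ (L + 1)) := by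
    rw [show (4 : ℕ) = 2 * 2 by norm_num, mul_pow, hq, pow_add 2 (L + 1) g, pow_succ 2 L]; ring
  have hL : L < 2 ^ L := Nat.lt_two_pow_self
  have hg1 : 1 ≤ 2 ^ g := Nat.one_le_two_pow
  have e5 : 2 ^ (L + 1) = 2 * 2 ^ L := by rw [pow_succ]; ring
  have e6 : 2 ^ g * 2 ^ L ≤ q := by rw [hq]; exact Nat.le_mul_of_pos_left _ hg1
  have e7 : 2 ^ L ≤ 2 ^ g * 2 ^ L := Nat.le_mul_of_pos_left _ hg1
  rw [e4, e5]
  generalize 2 ^ L = Q at *
  generalize 2 ^ g * Q = P at *
  have e8 : 2 ^ g * P = q := hq.symm
  rw [e8] at *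
  clear_value q
  have f1 : L * (10 * Q + 22) ≤ 32 * (q * Q) := by nlinarith
  have f2 : g * (10 * P + 22) ≤ 32 * (g * (q * Q)) := by
    have : 10 * P + 22 ≤ 32 * (q * Q) := by nlinarith
    calc g * (10 * P + 22) ≤ g * (32 * (q * Q)) := Nat.mul_le_mul_left _ this
      _ = _ := by ring
  have f3 : g * (10 * q + 22) ≤ 32 * (g * (q * Q)) := by
    have : 10 * q + 22 ≤ 32 * (q * Q) := by nlinarith
    calc g * (10 * q + 22) ≤ g * (32 * (q * Q)) := Nat.mul_le_mul_left _ this
      _ = _ := by ring
  have f4 : q ≤ q * Q := Nat.le_mul_of_pos_right _ (by omega)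
  have f5 : Q ≤ q * Q := Nat.le_mul_of_pos_left _ (by omega)
  have f6 : 1 ≤ q * Q := by omega
  have f7 : g ≤ g * (q * Q) := Nat.le_mul_of_pos_right _ f6
  have f8 : g * (C1 * (1 * (q * (2 * Q))) + 2) = 2 * (C1 * (g * (q * Q))) + 2 * g := by ring
  have f9 : (C1 + 1000) * ((g + 1) * (2 * (q * (2 * Q)))) =
    4 * (C1 * (g * (q * Q))) + 4 * (C1 * (q * Q)) + 4000 * (g * (q * Q)) + 4000 * (q * Q) := by
    ring
  rw [f8, f9]
  omega

end

end Vale.Agent.P338.RC
end

section

/-! Rectangular matrices: the chunks and the end of the program. -/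

namespace Vale.Agent.P338.RC
open Vale.Agent.P338 Reg R

section
variable {τ α : Type} [DecidableEq τ]

/-- Moving `Q * Q` symbols. -/
theorem run_moveQQ (Q : ℕ) (l rest o n1 n2 n3 k m : List (Sy α)) (hl : l.length = Q * Q) :
    Runs (forN (.r .N4) (moveN (.r .N5) (.r .inp) (.r .D)))
      (Rg.st {
        inp := l ++ rest, out := o, N1 := n1, N2 := n2, N3 := n3, N4 := num Q
        N5 := num Q, K := k, M1 := m } : Store (Reg τ) (Sy α))
      (Rg.st {
        inp := rest, out := o, D := l, N1 := n1, N2 := n2, N3 := n3, N4 := num Q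
        N5 := num Q, K := k, M1 := m })
      (Q * (3 * Q + 4) + 2) := by
  have key := Runs.forN (c := .r .N4) (body := moveN (.r .N5) (.r .inp) (.r .D)) Q
    (fun i => (Rg.st {
        inp := l.drop (i * Q) ++ rest, out := o, D := l.take (i * Q)
        N1 := n1, N2 := n2, N3 := n3, N4 := num Q
        N5 := num Q, K := k, M1 := m } : Store (Reg τ) (Sy α))) (3 * Q + 2)
    (by intro i; rfl)
    (by
      intro i hi y
      rw [set_N4, set_N4]
      have hlen : i * Q + Q ≤ l.length := by
        rw [hl]
        calc i * Q + Q = (i + 1) * Q := by ring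
          _ ≤ Q * Q := Nat.mul_le_mul_right _ hi
      have e1 : (i + 1) * Q = i * Q + Q := by ring
      refine (run_moveN (c := Reg.r .N5) (a := Reg.r .inp) (b := Reg.r .D) (N := Q)
        (l := (l.drop (i * Q)).take Q)
        (rest := l.drop ((i + 1) * Q) ++ rest) (by simp) (by simp) (by simp) rfl ?_ ?_).cast ?_
        le_rfl
      · change l.drop (i * Q) ++ rest = _
        rw [e1, ← List.append_assoc, ← List.drop_drop, List.take_append_drop]
      · rw [List.length_take, List.length_drop]
        omega
      · rw [set_inp, set_D]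
        have e2 : l.take (i * Q) ++ (l.drop (i * Q)).take Q = l.take ((i + 1) * Q) := by
          rw [e1, List.take_add]
        simp only [Rg.st, e2])
  have e1 : l.drop (Q * Q) = [] := by rw [← hl]; simp
  have e2 : l.take (Q * Q) = l := by rw [← hl]; simp
  simp only [Nat.zero_mul, List.drop_zero, List.take_zero, e1, e2, List.nil_append] at key
  exact key

theorem run_chunksR (core : Cmd (Reg τ) (Sy α)) (c0 : ℕ) (F : ℕ → ℕ → ℕ)
    (hcore : CoreSpec core c0 F) : ∃ C : ℕ, ∀ (L N M : ℕ) (f : ℕ → ℕ → ℕ → Bool)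
    (o n1 n2 n3 : List (Sy α)), c0 * 4 ^ (L + 1) ≤ M →
    Runs (chunksR core)
      (Rg.st {
        out := o
        D := fm N fun a => bs (fm (2 ^ (L + 1)) fun x => fm (2 ^ (L + 1)) fun y => [f a x y])
        N1 := n1, N2 := n2, N3 := n3, N4 := num (2 ^ (L + 1))
        N5 := num (2 ^ (L + 1)), K := num L, M1 := num M } : Store (Reg τ) (Sy α))
      (Rg.st {
        out := o
        D := fm N fun a => bs (fm (2 ^ (L + 1)) fun y => fm (2 ^ (L + 1)) fun x => [f a x y])
        N1 := n1, N2 := n2, N3 := n3, N4 := num (2 ^ (L + 1))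
        N5 := num (2 ^ (L + 1)), K := num L, M1 := num M })
      (C * (N * (F (L + 1) M + 4 ^ (L + 1)) + 1)) := by
  obtain ⟨C0, hC⟩ := hcore
  refine ⟨C0 + 50, fun L N M f o n1 n2 n3 hM => ?_⟩
  set Q := 2 ^ (L + 1) with hQ
  have h4 : (4 : ℕ) ^ (L + 1) = Q * Q := by
    rw [show (4 : ℕ) = 2 * 2 by norm_num, mul_pow]
  have hQ1 : 1 ≤ Q := Nat.one_le_two_pow
  set G : ℕ → List (Sy α) := fun a => bs (fm Q fun x => fm Q fun y => [f a x y]) with hG
  set H : ℕ → List (Sy α) := fun a => bs (fm Q fun y => fm Q fun x => [f a x y]) with hH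
  have hGl : ∀ a, (G a).length = Q * Q := fun a => by
    rw [hG]
    simp only [bs_length]
    exact fm_length fun i _ => by
      rw [fm_length (c := 1) (fun _ _ => rfl), Nat.mul_one]
  have hHl : ∀ a, (H a).length = Q * Q := fun a => by
    rw [hH]
    simp only [bs_length]
    exact fm_length fun i _ => by
      rw [fm_length (c := 1) (fun _ _ => rfl), Nat.mul_one]
  have hGN : (fm N G).length = N * (Q * Q) := fm_length fun i _ => hGl i
  have hHN : (fm N H).length = N * (Q * Q) := fm_length fun i _ => hHl i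
  have b1 : Runs (mvAll (.r .D) (.r .inp)) (Rg.st {
        out := o, D := fm N G
        N1 := n1, N2 := n2, N3 := n3, N4 := num Q
        N5 := num Q, K := num L, M1 := num M } : Store (Reg τ) (Sy α)) (Rg.st {
        inp := fm N G, out := o
        N1 := n1, N2 := n2, N3 := n3, N4 := num Q
        N5 := num Q, K := num L, M1 := num M }) (2 * (N * (Q * Q)) + 1) := by
    refine (run_mvAll (by simp)).cast ?_ (by simp only [Rg.st, hGN]; exact le_rfl)
    rw [set_D, set_inp]
    rfl
  have b2 : Runs (pushB (.r .inp) Sy.mark) (Rg.st {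
        inp := fm N G, out := o
        N1 := n1, N2 := n2, N3 := n3, N4 := num Q
        N5 := num Q, K := num L, M1 := num M } : Store (Reg τ) (Sy α)) (Rg.st {
        inp := fm N G ++ [Sy.mark], out := o
        N1 := n1, N2 := n2, N3 := n3, N4 := num Q
        N5 := num Q, K := num L, M1 := num M }) 1 :=
    (run_pushB _).cast (set_inp _ _) le_rfl
  have key := Runs.loopN (c := sq [
      forN (.r .N4) (moveN (.r .N5) (.r .inp) (.r .D)), core, mvAll (.r .D) (.r .inp)])
    (p := fun h => isBit (h (.r .inp))) N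
    (fun i => (Rg.st {
        inp := ft i N G ++ [Sy.mark] ++ fm i H, out := o
        N1 := n1, N2 := n2, N3 := n3, N4 := num Q
        N5 := num Q, K := num L, M1 := num M } : Store (Reg τ) (Sy α)))
    ((Q * (3 * Q + 4) + 2) + (C0 * F (L + 1) M + ((2 * (Q * Q) + 1) + 1)))
    (by
      intro i hi
      simp only [Store.heads, Rg.st, ft_step hi]
      have := hGl i
      rw [hG] at this ⊢
      simp only [bs_length] at this ⊢
      cases hfi : (fm Q fun x => fm Q fun y => [f i x y]) with
      | nil => rw [hfi] at this; simp at this; omega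
      | cons x l => simp [isBit])
    (by
      intro i hi
      have c1 := run_moveQQ (τ := τ) Q (G i) (ft (i + 1) N G ++ [Sy.mark] ++ fm i H) o n1 n2 n3
        (num L) (num M) (hGl i)
      have c2 := hC (Rg.st {
        inp := ft (i + 1) N G ++ [Sy.mark] ++ fm i H, out := o, D := G i
        N1 := n1, N2 := n2, N3 := n3, N4 := num Q
        N5 := num Q, K := num L, M1 := num M }) (L + 1) M (f i) (by omega) hM rfl rfl rfl
        (by intro x hx; cases x <;> first | rfl | (exact absurd (by simp) hx))
        (fun _ => rfl) (fun _ => rfl)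
      rw [set_D] at c2
      have c3 := run_mvAll (a := .r .D) (b := .r .inp) (by simp) (s := (Rg.st {
        inp := ft (i + 1) N G ++ [Sy.mark] ++ fm i H, out := o, D := H i
        N1 := n1, N2 := n2, N3 := n3, N4 := num Q
        N5 := num Q, K := num L, M1 := num M } : Store (Reg τ) (Sy α)))
      rw [set_D, set_inp] at c3
      have c4 : (Rg.st {
        inp := ft (i + 1) N G ++ [Sy.mark] ++ fm i H, out := o, D := H i
        N1 := n1, N2 := n2, N3 := n3, N4 := num Q
        N5 := num Q, K := num L, M1 := num M } : Store (Reg τ) (Sy α)) (.r .D) = H i := rfl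
      rw [c4, hHl] at c3
      have e : ft i N G ++ [Sy.mark] ++ fm i H = G i ++ (ft (i + 1) N G ++ [Sy.mark] ++ fm i H) := by
        rw [ft_step hi]; simp only [List.append_assoc]
      rw [e]
      refine Runs.cast (run_sq_cons c1 (run_sq_cons c2
        (run_sq_cons c3 run_sq_nil))) ?_ le_rfl
      simp only [Rg.st, fm_succ, List.append_assoc])
    (by simp [Store.heads, Rg.st, ft_self, isBit])
  simp only [ft_zero, ft_self, fm_zero, List.append_nil, List.nil_append] at key
  have b3 : Runs (popF (.r .inp)) (Rg.st {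
        inp := [Sy.mark] ++ fm N H, out := o
        N1 := n1, N2 := n2, N3 := n3, N4 := num Q
        N5 := num Q, K := num L, M1 := num M } : Store (Reg τ) (Sy α)) (Rg.st {
        inp := fm N H, out := o
        N1 := n1, N2 := n2, N3 := n3, N4 := num Q
        N5 := num Q, K := num L, M1 := num M }) 1 :=
    run_popF.cast (set_inp _ _) le_rfl
  have b4 : Runs (mvAll (.r .inp) (.r .D)) (Rg.st {
        inp := fm N H, out := o
        N1 := n1, N2 := n2, N3 := n3, N4 := num Q
        N5 := num Q, K := num L, M1 := num M } : Store (Reg τ) (Sy α)) (Rg.st {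
        out := o, D := fm N H
        N1 := n1, N2 := n2, N3 := n3, N4 := num Q
        N5 := num Q, K := num L, M1 := num M }) (2 * (N * (Q * Q)) + 1) := by
    refine (run_mvAll (by simp)).cast ?_ (by simp only [Rg.st, hHN]; exact le_rfl)
    rw [set_inp, set_D]
    rfl
  refine Runs.cast (run_sq_cons b1 (run_sq_cons b2 (run_sq_cons key (run_sq_cons b3
    (run_sq_cons b4 run_sq_nil))))) rfl ?_
  rw [h4]
  generalize F (L + 1) M = X
  have f1 : N ≤ N * (Q * Q) := Nat.le_mul_of_pos_right _ (Nat.mul_pos hQ1 hQ1)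
  have f2 : N * Q ≤ N * (Q * Q) := Nat.mul_le_mul_left _ (Nat.le_mul_of_pos_right _ hQ1)
  have f3 : N * (Q * (3 * Q + 4) + 2 + (C0 * X + (2 * (Q * Q) + 1 + 1)) + 1) =
    5 * (N * (Q * Q)) + 4 * (N * Q) + 5 * N + C0 * (N * X) := by ring
  have f4 : (C0 + 50) * (N * (X + Q * Q) + 1) =
    C0 * (N * X) + C0 * (N * (Q * Q)) + C0 + 50 * (N * X) + 50 * (N * (Q * Q)) + 50 := by ring
  rw [f3, f4]
  have f5 : 0 ≤ C0 * (N * (Q * Q)) := Nat.zero_le _
  omega

theorem run_peelR2 : ∃ C : ℕ, ∀ (g L : ℕ) (E : ℕ → ℕ → List (Sy α))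
    (n1 n2 n3 n5 m : List (Sy α)), (∀ a i, (E a i).length = 2 ^ (L + 1)) →
    Runs peelR2
      (Rg.st {
        out := num g, D := p2st (2 ^ g) (L + 1 + g) E 0, N1 := n1, N2 := n2, N3 := n3
        N4 := num (2 ^ (L + 1))
        N5 := n5, K := num L, M1 := m } : Store (Reg τ) (Sy α))
      (Rg.st {
        D := p2st (2 ^ g) (L + 1 + g) E g, N1 := n1, N2 := n2, N3 := n3
        N4 := num (2 ^ (L + 1))
        N5 := n5, K := num L, M1 := m, A1 := num (2 ^ (L + 1)), q1 := num (2 ^ g * 2 ^ L) })
      (C * ((g + 1) * 4 ^ (L + 1 + g))) := by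
  obtain ⟨C1, hC1⟩ := run_ilv (τ := τ) (α := α) (g := r q1) (by simp)
  refine ⟨C1 + 1000, fun g L E n1 n2 n3 n5 m hE => ?_⟩
  set Dt := p2st (2 ^ g) (L + 1 + g) E with hDt
  have a1 := stz (τ := τ) (a := .r .q1)
    (s := {
        out := num g, D := Dt 0, N1 := n1, N2 := n2, N3 := n3
        N4 := num (2 ^ (L + 1))
        N5 := n5, K := num L, M1 := m }) rfl (set_q1 _ _)
  have a2 := stp (τ := τ) (N := 0) (a := .r .q1)
    (s := {
        out := num g, D := Dt 0, N1 := n1, N2 := n2, N3 := n3
        N4 := num (2 ^ (L + 1))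
        N5 := n5, K := num L, M1 := m, q1 := num 0 }) rfl (set_q1 _ _)
  have a3 := run_dblK (τ := τ) L (num g) (Dt 0) n1 n2 n3 (num (2 ^ (L + 1))) n5 m
  have a4 := run_dblout (τ := τ) g (2 ^ L) (Dt 0) n1 n2 n3 (num (2 ^ (L + 1))) n5 (num L) m
  set q : ℕ := 2 ^ g * 2 ^ L with hq
  have hq' : q = 2 ^ (L + 1 + g - 1) := by
    rw [hq, ← pow_add]; congr 1; omega
  have a6 := stz (τ := τ) (a := .r .A1)
    (s := {
        out := num g, D := Dt 0, N1 := n1, N2 := n2, N3 := n3
        N4 := num (2 ^ (L + 1))
        N5 := n5, K := num L, M1 := m, q1 := num q }) rfl (set_A1 _ _)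
  have a7 := sta (τ := τ) (k := 1) (N := 2 ^ (L + 1)) (m := 0) (d := .r .N4) (a := .r .A1)
    (s := {
        out := num g, D := Dt 0, N1 := n1, N2 := n2, N3 := n3
        N4 := num (2 ^ (L + 1))
        N5 := n5, K := num L, M1 := m, A1 := num 0, q1 := num q })
    (by simp) rfl rfl (set_A1 _ _)
  have e0 : 0 + 1 * 2 ^ (L + 1) = 2 ^ (L + 1) := by omega
  rw [e0] at a7
  have key := Runs.forN (c := .r .out) (body := ilv (.r .q1)) g
    (fun i => (Rg.st {
        out := num g, D := Dt i, N1 := n1, N2 := n2, N3 := n3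
        N4 := num (2 ^ (L + 1))
        N5 := n5, K := num L, M1 := m, A1 := num (2 ^ (L + 1)), q1 := num q } :
          Store (Reg τ) (Sy α)))
    (C1 * (2 ^ g * (q * 2 ^ (L + 1))))
    (by intro i; rfl)
    (by
      intro i hi y
      rw [set_out, set_out]
      have h := hC1 (Rg.st {
        out := y, D := Dt i, N1 := n1, N2 := n2, N3 := n3
        N4 := num (2 ^ (L + 1))
        N5 := n5, K := num L, M1 := m, A1 := num (2 ^ (L + 1)), q1 := num q }) (2 ^ g) q
        (2 ^ (L + 1))
        (fun a b w => p2ent (L + 1 + g) E i a b w) Nat.one_le_two_pow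
        (by rw [hq']; exact Nat.one_le_two_pow) Nat.one_le_two_pow (fun _ b v => hE _ _)
        (by
          rw [hq']
          exact p2st_eq _ _ E (by omega)) rfl rfl rfl rfl
      refine h.cast ?_ le_rfl
      rw [set_D]
      have e := p2st_succ (2 ^ g) (L + 1 + g) E (t := i) (by omega)
      rw [← hq'] at e
      rw [← e])
  have a8 : Runs (clr (.r .out)) (Rg.st {
        out := num g, D := Dt g, N1 := n1, N2 := n2, N3 := n3
        N4 := num (2 ^ (L + 1))
        N5 := n5, K := num L, M1 := m, A1 := num (2 ^ (L + 1)), q1 := num q } :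
          Store (Reg τ) (Sy α)) (Rg.st {
        D := Dt g, N1 := n1, N2 := n2, N3 := n3
        N4 := num (2 ^ (L + 1))
        N5 := n5, K := num L, M1 := m, A1 := num (2 ^ (L + 1)), q1 := num q })
        (2 * g + 3) := stc (N := g) rfl (set_out _ _)
  refine Runs.cast (run_sq_cons a1 (run_sq_cons a2 (run_sq_cons a3 (run_sq_cons a4
    (run_sq_cons a6 (run_sq_cons a7 (run_sq_cons key (run_sq_cons a8
      run_sq_nil)))))))) rfl ?_
  have e4 : (4 : ℕ) ^ (L + 1 + g) = 2 * (2 ^ g * (q * 2 ^ (L + 1))) := by
    rw [show (4 : ℕ) = 2 * 2 by norm_num, mul_pow, hq, pow_add 2 (L + 1) g, pow_succ 2 L]; ring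
  have hL : L < 2 ^ L := Nat.lt_two_pow_self
  have hg1 : 1 ≤ 2 ^ g := Nat.one_le_two_pow
  have e5 : 2 ^ (L + 1) = 2 * 2 ^ L := by rw [pow_succ]; ring
  have e7 : 2 ^ L ≤ 2 ^ g * 2 ^ L := Nat.le_mul_of_pos_left _ hg1
  rw [e4, e5]
  generalize 2 ^ L = Q at *
  clear_value q
  rw [← hq] at *
  have f0 : q * Q ≤ 2 ^ g * (q * Q) := Nat.le_mul_of_pos_left _ hg1
  have f1 : L * (10 * Q + 22) ≤ 32 * (q * Q) := by nlinarith
  have f3 : g * (10 * q + 22) ≤ 32 * (g * (q * Q)) := by
    have : 10 * q + 22 ≤ 32 * (q * Q) := by nlinarith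
    calc g * (10 * q + 22) ≤ g * (32 * (q * Q)) := Nat.mul_le_mul_left _ this
      _ = _ := by ring
  have f4 : q ≤ q * Q := Nat.le_mul_of_pos_right _ (by omega)
  have f5 : Q ≤ q * Q := Nat.le_mul_of_pos_left _ (by omega)
  have f6 : 1 ≤ q * Q := by omega
  have f7 : g ≤ g * (q * Q) := Nat.le_mul_of_pos_right _ f6
  have f10 : g * (q * Q) ≤ g * (2 ^ g * (q * Q)) := Nat.mul_le_mul_left _ f0
  have f8 : g * (C1 * (2 ^ g * (q * (2 * Q))) + 2) =
    2 * (C1 * (g * (2 ^ g * (q * Q)))) + 2 * g := by ring
  have f9 : (C1 + 1000) * ((g + 1) * (2 * (2 ^ g * (q * (2 * Q))))) =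
    4 * (C1 * (g * (2 ^ g * (q * Q)))) + 4 * (C1 * (2 ^ g * (q * Q))) +
      4000 * (g * (2 ^ g * (q * Q))) + 4000 * (2 ^ g * (q * Q)) := by
    ring
  rw [f8, f9]
  omega

theorem run_cutR (r c q p : ℕ) (hc : c ≤ q) (f g : ℕ → List (Sy α))
    (hf : ∀ i < c, (f i).length = r) (hg : ∀ i < c, (g i).length = p)
    (n4 n5 k m a1 q1 : List (Sy α)) :
    Runs cutR
      (Rg.st {
        D := fm q fun i => f i ++ g i, N1 := num r, N2 := num c, N3 := num p
        N4 := n4, N5 := n5, K := k, M1 := m, A1 := a1, q1 := q1 } : Store (Reg τ) (Sy α))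
      (Rg.st {
        out := fm c f, D := fm (q - c) fun j => f (c + j) ++ g (c + j)
        N1 := num r, N2 := num c, N3 := num p
        N4 := n4, N5 := n5, K := k, M1 := m, A1 := a1, q1 := q1 })
      (c * ((3 * r + 2) + (p * 4 + 2) + 2) + 2) := by
  have key := Runs.forN (c := .r .N2) (body := .seq (moveN (.r .N1) (.r .D) (.r .out))
      (dropN 1 (.r .N3) (.r .D))) c
    (fun i => (Rg.st {
        out := fm i f, D := fm (q - i) fun j => f (i + j) ++ g (i + j)
        N1 := num r, N2 := num c, N3 := num p
        N4 := n4, N5 := n5, K := k, M1 := m, A1 := a1, q1 := q1 } : Store (Reg τ) (Sy α)))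
    ((3 * r + 2) + (p * 4 + 2))
    (by intro i; rfl)
    (by
      intro i hi x
      rw [set_N2, set_N2]
      refine Runs.cast (Runs.seq (run_moveN (c := Reg.r .N1) (a := Reg.r .D) (b := Reg.r .out)
        (N := r) (l := f i)
        (rest := g i ++ fm (q - (i + 1)) fun j => f (i + 1 + j) ++ g (i + 1 + j)) (by simp)
        (by simp) (by simp) rfl ?_ (hf i hi)) (run_dropN (N := p) (by simp) rfl)) ?_ (by omega)
      · have := fm_split_first q i (by omega) (fun i => f i ++ g i)
        simp only [List.append_assoc] at this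
        exact this
      · have : (g i ++ fm (q - (i + 1)) fun j => f (i + 1 + j) ++ g (i + 1 + j)).drop (1 * p) =
            fm (q - (i + 1)) fun j => f (i + 1 + j) ++ g (i + 1 + j) := by
          rw [Nat.one_mul]
          exact List.drop_left' (hg i hi)
        simp only [set_D, set_out, Rg.st, this, fm_succ])
  simp only [Nat.sub_zero, Nat.zero_add, fm_zero] at key
  exact key

end

end Vale.Agent.P338.RC
end

section

/-! Rectangular matrices: correctness and cost of the whole program. -/

namespace Vale.Agent.P338.RC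
open Vale.Agent.P338 Reg R

section pure
variable {α : Type}

/-- Blocks of `2^κ` bits of a row, numbered by row and leading column bits. -/
def E1 (f : ℕ → ℕ → Bool) (g κ : ℕ) (i : ℕ) : List (Sy α) :=
  bs (fm (2 ^ κ) fun y => [f (i / 2 ^ g) (i % 2 ^ g * 2 ^ κ + y)])

/-- Blocks of `2^κ` bits of a column. -/
def E2 (f : ℕ → ℕ → Bool) (κ : ℕ) (a i : ℕ) : List (Sy α) :=
  bs (fm (2 ^ κ) fun x => [f (i / 2 ^ κ * 2 ^ κ + x) (a * 2 ^ κ + i % 2 ^ κ)])

theorem div_mod_add {a b u : ℕ} (hu : u < b) : (a * b + u) / b = a ∧ (a * b + u) % b = u := by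
  constructor
  · rw [Nat.add_comm, Nat.add_mul_div_right _ _ (by omega), Nat.div_eq_of_lt hu, Nat.zero_add]
  · rw [Nat.add_comm, Nat.add_mul_mod_self_right, Nat.mod_eq_of_lt hu]

theorem lay0 (f : ℕ → ℕ → Bool) (g κ : ℕ) :
    (bs (fm (2 ^ (κ + g)) fun x => fm (2 ^ (κ + g)) fun y => [f x y]) : List (Sy α)) =
      p1st (κ + g + g) (E1 f g κ) 0 := by
  unfold p1st E1
  rw [pow_zero, fm_one, Nat.sub_zero, pow_add 2 (κ + g) g, fm_mul, bs_fm]
  refine fm_congr fun x _ => ?_
  have e : 2 ^ (κ + g) = 2 ^ g * 2 ^ κ := by rw [pow_add]; ring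
  rw [e, fm_mul, bs_fm]
  refine fm_congr fun y1 hy1 => ?_
  simp only [Nat.mul_one, Nat.add_zero]
  obtain ⟨h1, h2⟩ := div_mod_add (a := x) hy1
  rw [h1, h2]

theorem lay1 (f : ℕ → ℕ → Bool) (g κ : ℕ) :
    p1st (κ + g + g) (E1 (α := α) f g κ) g = fm (2 ^ g * 2 ^ g) fun a =>
      bs (fm (2 ^ κ) fun x => fm (2 ^ κ) fun y =>
        [f (a % 2 ^ g * 2 ^ κ + x) (a / 2 ^ g * 2 ^ κ + y)]) := by
  have h1 := fm_fm (2 ^ g) (2 ^ g) Nat.one_le_two_pow (fun y1 x1 =>
    (bs (fm (2 ^ κ) fun x => fm (2 ^ κ) fun y =>
        [f (x1 * 2 ^ κ + x) (y1 * 2 ^ κ + y)]) : List (Sy α)))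
  rw [← h1]
  unfold p1st E1
  refine fm_congr fun y1 hy1 => ?_
  have e : 2 ^ (κ + g + g - g) = 2 ^ g * 2 ^ κ := by
    rw [Nat.add_sub_cancel, pow_add]; ring
  rw [e, fm_mul]
  refine fm_congr fun x1 _ => ?_
  rw [bs_fm]
  refine fm_congr fun x _ => ?_
  obtain ⟨h1, h2⟩ := div_mod_add (a := x1 * 2 ^ κ + x) hy1
  rw [h1, h2]

theorem lay2 (f : ℕ → ℕ → Bool) (g κ : ℕ) :
    (fm (2 ^ g * 2 ^ g) fun a =>
      (bs (fm (2 ^ κ) fun y => fm (2 ^ κ) fun x =>
        [f (a % 2 ^ g * 2 ^ κ + x) (a / 2 ^ g * 2 ^ κ + y)]) : List (Sy α))) =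
    p2st (2 ^ g) (κ + g) (E2 f κ) 0 := by
  have h1 := fm_fm (2 ^ g) (2 ^ g) Nat.one_le_two_pow (fun y1 x1 =>
    (bs (fm (2 ^ κ) fun y => fm (2 ^ κ) fun x =>
        [f (x1 * 2 ^ κ + x) (y1 * 2 ^ κ + y)]) : List (Sy α)))
  rw [← h1]
  unfold p2st E2
  refine fm_congr fun y1 _ => ?_
  simp only [pow_zero, fm_one, Nat.sub_zero, Nat.zero_mul, Nat.zero_add]
  have e : 2 ^ (κ + g) = 2 ^ g * 2 ^ κ := by rw [pow_add]; ring
  rw [e, fm_mul]
  refine fm_congr fun x1 _ => ?_
  rw [bs_fm]
  refine fm_congr fun y hy => ?_
  obtain ⟨h1, h2⟩ := div_mod_add (a := x1) hy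
  rw [h1, h2]

theorem lay3 (f : ℕ → ℕ → Bool) (g κ : ℕ) :
    p2st (2 ^ g) (κ + g) (E2 (α := α) f κ) g =
      fm (2 ^ (κ + g)) fun y => bs (fm (2 ^ (κ + g)) fun x => [f x y]) := by
  have e : 2 ^ (κ + g) = 2 ^ g * 2 ^ κ := by rw [pow_add]; ring
  unfold p2st E2
  rw [e, fm_mul]
  refine fm_congr fun y1 _ => ?_
  rw [Nat.add_sub_cancel]
  refine fm_congr fun y hy => ?_
  rw [fm_mul, bs_fm]
  refine fm_congr fun x1 _ => ?_
  obtain ⟨h1, h2⟩ := div_mod_add (a := x1) hy
  rw [h1, h2]

/-- The matrix, extended by zeros. -/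
def extR {r c : ℕ} (M : Matrix (Fin r) (Fin c) Bool) (x y : ℕ) : Bool :=
  if h : x < r ∧ y < c then M ⟨x, h.1⟩ ⟨y, h.2⟩ else false

theorem rowMajor_tr_eq {r c : ℕ} (M : Matrix (Fin r) (Fin c) Bool) :
    rowMajor M.transpose = fm c fun y => fm r fun x => [extR M x y] := by
  unfold rowMajor
  apply ofFn_flatten_eq_fm
  intro i
  apply ofFn_eq_fm
  intro j
  simp [extR, Matrix.transpose_apply]

theorem rectInput_eq {r c : ℕ} (M : Matrix (Fin r) (Fin c) Bool) :
    rectInput M = fm r fun x => (fm c fun y => [Sym.bit (extR M x y)]) ++ [Sym.sep] := by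
  unfold rectInput
  apply ofFn_flatten_eq_fm
  intro i
  congr 1
  apply ofFn_eq_fm
  intro j
  simp [extR]

theorem map_fm {β γ : Type} (h : β → γ) (n : ℕ) (f : ℕ → List β) :
    (fm n f).map h = fm n fun i => (f i).map h := by
  induction n with
  | zero => rfl
  | succ n ih => rw [fm_succ, fm_succ, List.map_append, ih]

theorem bitsOf_fm (n : ℕ) (f : ℕ → List Sym) : bitsOf (fm n f) = fm n fun i => bitsOf (f i) := by
  induction n with
  | zero => rfl
  | succ n ih => rw [fm_succ, fm_succ, bitsOf_append, ih]

/-- The input, with the first row separated. -/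
theorem rectInput_split {r c : ℕ} (hr : 1 ≤ r) (M : Matrix (Fin r) (Fin c) Bool) :
    ∃ (l : List Bool) (w : List Sym), rectInput M = l.map Sym.bit ++ Sym.sep :: w ∧
      l.length = c ∧ sepsOf w + 1 = r ∧ w.length = (r - 1) * (c + 1) ∧
      l ++ bitsOf w = fm r fun x => fm c fun y => [extR M x y] := by
  obtain ⟨r, rfl⟩ : ∃ r0, r = r0 + 1 := ⟨r - 1, by omega⟩
  refine ⟨fm c fun y => [extR M 0 y],
    fm r fun x => (fm c fun y => [Sym.bit (extR M (x + 1) y)]) ++ [Sym.sep], ?_, ?_, ?_, ?_, ?_⟩
  · rw [rectInput_eq, fm_succ', map_fm]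
    simp
  · rw [fm_length (c := 1) (fun _ _ => rfl), Nat.mul_one]
  · have : ∀ n, sepsOf (fm n fun x =>
        (fm c fun y => [Sym.bit (extR M (x + 1) y)]) ++ [Sym.sep]) = n := by
      intro n
      induction n with
      | zero => rfl
      | succ n ih =>
        rw [fm_succ, sepsOf_append, ih, sepsOf_append]
        have e : (fm c fun y => [Sym.bit (extR M (n + 1) y)]) =
            (fm c fun y => [extR M (n + 1) y]).map Sym.bit := by rw [map_fm]; rfl
        rw [e, sepsOf_map_bit]
        simp [sepsOf]
    rw [this r]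
  · rw [Nat.add_sub_cancel]
    refine fm_length fun i _ => ?_
    rw [List.length_append, fm_length (c := 1) (fun _ _ => rfl), Nat.mul_one]
    rfl
  · rw [fm_succ', bitsOf_fm]
    congr 1
    refine fm_congr fun i _ => ?_
    rw [bitsOf_append]
    have e : (fm c fun y => [Sym.bit (extR M (i + 1) y)]) =
        (fm c fun y => [extR M (i + 1) y]).map Sym.bit := by rw [map_fm]; rfl
    rw [e, bitsOf_map_bit]
    simp [bitsOf]

theorem extR_row {r c q : ℕ} (hq : c ≤ q) (M : Matrix (Fin r) (Fin c) Bool) (x : ℕ) :
    fm q (fun y => [extR M x y]) = fm c (fun y => [extR M x y]) ++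
      List.replicate (q - c) false := by
  obtain ⟨p, rfl⟩ := Nat.exists_eq_add_of_le hq
  rw [fm_add, Nat.add_sub_cancel_left]
  congr 1
  apply fm_const_singleton
  intro i _
  simp [extR]

theorem extR_all {r c q : ℕ} (hr : r ≤ q) (hc : c ≤ q) (M : Matrix (Fin r) (Fin c) Bool) :
    (fm q fun x => fm q fun y => [extR M x y]) =
      (fm r fun x => fm c (fun y => [extR M x y]) ++ List.replicate (q - c) false) ++
        List.replicate ((q - r) * q) false := by
  obtain ⟨p, rfl⟩ := Nat.exists_eq_add_of_le hr
  rw [fm_add, Nat.add_sub_cancel_left]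
  congr 1
  · exact fm_congr fun i _ => extR_row hc M i
  · rw [← fm_const_replicate]
    exact fm_congr fun i _ => by
      apply fm_const_singleton
      intro j _
      simp [extR]

end pure

end Vale.Agent.P338.RC
end
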