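import Vale.Agent.P338.Bdl.B9
import Vale.Agent.P338.Bdl.B2
import Vale.Agent.P338.Bdl.B3
import Vale.Agent.P338.Bdl.B1

set_option linter.all false

section

/-! The core program: transposition of a bit matrix whose side is a power of two. -/

namespace Vale.Agent.P338
open Reg R

/-! ### Regrouping of concatenations -/

section data
variable {β : Type}

/-- Regrouping of a double concatenation. -/
theorem fm_pair (A k : ℕ) (G : ℕ → ℕ → List β) :
    (fm A fun a => fm k fun u => G a u) = fm (A * k) fun x => G (x / k) (x % k) := by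
  rw [fm_mul]
  refine fm_congr fun a _ => fm_congr fun u hu => ?_
  have h1 : (a * k + u) / k = a := by
    rw [Nat.add_comm, Nat.add_mul_div_right _ _ (by omega), Nat.div_eq_of_lt hu, Nat.zero_add]
  have h2 : (a * k + u) % k = u := by
    rw [Nat.add_comm, Nat.add_mul_mod_self_right, Nat.mod_eq_of_lt hu]
  rw [h1, h2]

/-- All entries of `A` square matrices of side `q * q`, row by row. -/
def dataE (A q : ℕ) (g : ℕ → ℕ → ℕ → List β) : List β :=
  fm A fun a => fm (q * q) fun x => fm (q * q) fun y => g a x y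

/-- The entries after two block transpositions. -/
def dataM (A q : ℕ) (g : ℕ → ℕ → ℕ → List β) : List β :=
  fm A fun a => fm q fun y1 => fm q fun x1 => fm q fun x0 => fm q fun y0 =>
    g a (x1 * q + x0) (y1 * q + y0)

/-- The index function of the smaller matrices. -/
def lower {γ : Type} (q : ℕ) (g : ℕ → ℕ → ℕ → γ) : ℕ → ℕ → ℕ → γ :=
  fun z x y => g (z / (q * q)) (z % (q * q) % q * q + x) (z % (q * q) / q * q + y)

theorem dataE_eq (A q : ℕ) (g : ℕ → ℕ → ℕ → List β) :
    dataE A q g = fm (A * q) fun z => fm q fun i => fm q fun j =>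
      fm q fun y0 => g (z / q) (z % q * q + i) (j * q + y0) := by
  rw [← fm_pair A q fun a x1 => fm q fun i => fm q fun j =>
      fm q fun y0 => g a (x1 * q + i) (j * q + y0)]
  unfold dataE
  refine fm_congr fun a _ => ?_
  rw [fm_mul]
  refine fm_congr fun x1 _ => fm_congr fun x0 _ => ?_
  rw [fm_mul]

theorem data_mid (A q : ℕ) (g : ℕ → ℕ → ℕ → List β) :
    (fm (A * q) fun z => fm q fun j => fm q fun i =>
      fm q fun y0 => g (z / q) (z % q * q + i) (j * q + y0)) =
    fm A fun a => fm q fun i => fm q fun j =>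
      fm q fun x0 => fm q fun y0 => g a (i * q + x0) (j * q + y0) := by
  rw [← fm_pair A q fun a x1 => fm q fun j => fm q fun i =>
      fm q fun y0 => g a (x1 * q + i) (j * q + y0)]

theorem dataM_eq (A q : ℕ) (g : ℕ → ℕ → ℕ → List β) :
    dataM A q g = fm (A * (q * q)) fun z => fm q fun x => fm q fun y => lower q g z x y := by
  rw [fm_mul]
  unfold dataM
  refine fm_congr fun a _ => ?_
  rw [fm_mul]
  refine fm_congr fun y1 hy => fm_congr fun x1 hx => ?_
  have hlt : y1 * q + x1 < q * q := by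
    have : (y1 + 1) * q ≤ q * q := Nat.mul_le_mul_right _ hy
    rw [Nat.succ_mul] at this
    omega
  have h1 : (a * (q * q) + (y1 * q + x1)) / (q * q) = a := by
    rw [Nat.add_comm, Nat.add_mul_div_right _ _ (by omega), Nat.div_eq_of_lt hlt, Nat.zero_add]
  have h2 : (a * (q * q) + (y1 * q + x1)) % (q * q) = y1 * q + x1 := by
    rw [Nat.add_comm, Nat.add_mul_mod_self_right, Nat.mod_eq_of_lt hlt]
  have h3 : (y1 * q + x1) / q = y1 := by
    rw [Nat.add_comm, Nat.add_mul_div_right _ _ (by omega), Nat.div_eq_of_lt hx, Nat.zero_add]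
  have h4 : (y1 * q + x1) % q = x1 := by
    rw [Nat.add_comm, Nat.add_mul_mod_self_right, Nat.mod_eq_of_lt hx]
  refine fm_congr fun x0 _ => fm_congr fun y0 _ => ?_
  simp only [lower, h1, h2, h3, h4]

/-- transposed smaller matrices, regrouped for the last block transposition -/
theorem dataN_eq (A q : ℕ) (g : ℕ → ℕ → ℕ → List β) :
    (fm (A * (q * q)) fun z => fm q fun y => fm q fun x => lower q g z x y) =
    fm (A * q) fun z => fm q fun i => fm q fun j =>
      fm q fun x0 => g (z / q) (i * q + x0) (z % q * q + j) := by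
  rw [fm_mul, ← fm_pair A q fun a y1 => fm q fun i => fm q fun j =>
      fm q fun x0 => g a (i * q + x0) (y1 * q + j)]
  refine fm_congr fun a _ => ?_
  rw [fm_mul]
  refine fm_congr fun y1 hy => fm_congr fun x1 hx => ?_
  have hlt : y1 * q + x1 < q * q := by
    have : (y1 + 1) * q ≤ q * q := Nat.mul_le_mul_right _ hy
    rw [Nat.succ_mul] at this
    omega
  have h1 : (a * (q * q) + (y1 * q + x1)) / (q * q) = a := by
    rw [Nat.add_comm, Nat.add_mul_div_right _ _ (by omega), Nat.div_eq_of_lt hlt, Nat.zero_add]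
  have h2 : (a * (q * q) + (y1 * q + x1)) % (q * q) = y1 * q + x1 := by
    rw [Nat.add_comm, Nat.add_mul_mod_self_right, Nat.mod_eq_of_lt hlt]
  have h3 : (y1 * q + x1) / q = y1 := by
    rw [Nat.add_comm, Nat.add_mul_div_right _ _ (by omega), Nat.div_eq_of_lt hx, Nat.zero_add]
  have h4 : (y1 * q + x1) % q = x1 := by
    rw [Nat.add_comm, Nat.add_mul_mod_self_right, Nat.mod_eq_of_lt hx]
  refine fm_congr fun x0 _ => fm_congr fun y0 _ => ?_
  simp only [lower, h1, h2, h3, h4]

theorem data_last (A q : ℕ) (g : ℕ → ℕ → ℕ → List β) :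
    (fm (A * q) fun z => fm q fun j => fm q fun i =>
      fm q fun x0 => g (z / q) (i * q + x0) (z % q * q + j)) =
    fm A fun a => fm (q * q) fun y => fm (q * q) fun x => g a x y := by
  rw [← fm_pair A q fun a y1 => fm q fun j => fm q fun i =>
      fm q fun x0 => g a (i * q + x0) (y1 * q + j)]
  refine fm_congr fun a _ => ?_
  rw [fm_mul]
  refine fm_congr fun y1 _ => fm_congr fun j _ => ?_
  rw [fm_mul]

/-- The index function after moving the top bits in front. -/
def split2 {γ : Type} (Q : ℕ) (f : ℕ → ℕ → ℕ → γ) : ℕ → ℕ → ℕ → γ :=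
  fun z x y => f (z / 4) (z % 4 % 2 * Q + x) (z % 4 / 2 * Q + y)

theorem odd_start (A Q : ℕ) (f : ℕ → ℕ → ℕ → List β) :
    (fm A fun a => fm (2 * Q) fun x => fm (2 * Q) fun y => f a x y) =
    fm A fun a => fm (2 * Q) fun v => fm 2 fun b => fm Q fun y => f a v (b * Q + y) := by
  refine fm_congr fun a _ => fm_congr fun x _ => ?_
  rw [fm_mul]

theorem odd_down (A Q : ℕ) (f : ℕ → ℕ → ℕ → List β) :
    (fm A fun a => fm 2 fun b => fm (2 * Q) fun v => fm Q fun y => f a v (b * Q + y)) =
    fm (A * 4) fun z => fm Q fun x => fm Q fun y => split2 Q f z x y := by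
  rw [fm_mul A 4]
  refine fm_congr fun a _ => ?_
  rw [show 4 = 2 * 2 from rfl, fm_mul 2 2]
  refine fm_congr fun b hb => ?_
  rw [fm_mul]
  refine fm_congr fun c hc => ?_
  have h1 : (a * (2 * 2) + (b * 2 + c)) / 4 = a := by omega
  have h2 : (a * (2 * 2) + (b * 2 + c)) % 4 % 2 = c := by omega
  have h3 : (a * (2 * 2) + (b * 2 + c)) % 4 / 2 = b := by omega
  simp only [split2, h1, h2, h3]

theorem odd_up (A Q : ℕ) (f : ℕ → ℕ → ℕ → List β) :
    (fm (A * 4) fun z => fm Q fun y => fm Q fun x => split2 Q f z x y) =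
    fm (A * 2) fun w => fm 2 fun c => fm Q fun y =>
      fm Q fun x => f (w / 2) (c * Q + x) (w % 2 * Q + y) := by
  rw [fm_mul A 4, fm_mul A 2]
  refine fm_congr fun a _ => ?_
  rw [show 4 = 2 * 2 from rfl, fm_mul 2 2]
  refine fm_congr fun b hb => fm_congr fun c hc => ?_
  have h1 : (a * (2 * 2) + (b * 2 + c)) / 4 = a := by omega
  have h2 : (a * (2 * 2) + (b * 2 + c)) % 4 % 2 = c := by omega
  have h3 : (a * (2 * 2) + (b * 2 + c)) % 4 / 2 = b := by omega
  have h4 : (a * 2 + b) / 2 = a := by omega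
  have h5 : (a * 2 + b) % 2 = b := by omega
  simp only [split2, h1, h2, h3, h4, h5]

theorem odd_end (A Q : ℕ) (f : ℕ → ℕ → ℕ → List β) :
    (fm (A * 2) fun w => fm Q fun y => fm 2 fun c =>
      fm Q fun x => f (w / 2) (c * Q + x) (w % 2 * Q + y)) =
    fm A fun a => fm (2 * Q) fun y => fm (2 * Q) fun x => f a x y := by
  rw [fm_mul A 2]
  refine fm_congr fun a _ => ?_
  rw [fm_mul 2 Q]
  refine fm_congr fun b hb => fm_congr fun y _ => ?_
  have h4 : (a * 2 + b) / 2 = a := by omega
  have h5 : (a * 2 + b) % 2 = b := by omega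
  rw [fm_mul 2 Q]
  simp only [h4, h5]

end data

section
variable {τ α : Type} [DecidableEq τ]

theorem setSh (s : Store (Reg τ) (Sy α)) {a c : Reg τ} (h : a ≠ c)
    (u v w : List (Sy α)) : ((s.set a u).set c v).set a w = (s.set a w).set c v := by
  apply Store.ext'
  intro i
  simp only [Store.set]
  split_ifs <;> simp_all

theorem Clean.set {s : Store (Reg τ) (Sy α)} (h : Clean s) {x : R}
    (hx : x ∉ [B, C, G, P, X, Y, RW, H, H2, H3, CY, FL, A1, A2, A3, nA, ST])
    (v : List (Sy α)) : Clean (s.set (r x) v) := by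
  obtain ⟨h1, h2, h3⟩ := h
  refine ⟨fun y hy => ?_, fun i => ?_, fun i => ?_⟩
  · rw [Store.set_ne _ _ (by intro h; cases h; exact hx hy), h1 y hy]
  · rw [Store.set_ne _ _ (by simp), h2]
  · rw [Store.set_ne _ _ (by simp), h3]

/-! ### Powers and squares in counters -/

theorem run_mkQ {s : Store (Reg τ) (Sy α)} {h W : ℕ} (hnh : s (r nh) = num h)
    (hq1 : s (r q1) = []) (hq2 : s (r q2) = []) (hA3 : s (r A3) = []) (hW : 4 ^ h ≤ W) :
    Runs mkQ s ((s.set (r q1) (num (2 ^ h))).set (r q2) (num (2 ^ h))) (60 * W) := by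
  have z1 := run_zeroC (c := (r q1 : Reg τ)) (s := s) hq1
  have z2 := run_pushF (b := (r q1 : Reg τ)) (s := s.set (r q1) (num 0)) (.mark : Sy α)
  rw [Store.set_same, Store.set_set] at z2
  have e2 : (Sy.mark :: num 0 : List (Sy α)) = num (2 ^ 0) := by simp [num]
  rw [e2] at z2
  have z3 := Runs.forN (c := (r nh : Reg τ)) (body := dblC (r q1) (r A3)) h
    (fun i => s.set (r q1) (num (2 ^ i))) (10 * 2 ^ h + 20)
    (by intro i; rw [Store.set_ne _ _ (by simp), hnh])
    (by
      intro i hi x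
      refine (run_dblC (a := r q1) (b := r A3) (by simp) (N := 2 ^ i) ?_ ?_).cast ?_ ?_
      · rw [Store.set_ne _ _ (by simp), Store.set_same]
      · rw [Store.set_ne _ _ (by simp), Store.set_ne _ _ (by simp), hA3]
      · rw [setSh _ (by simp), pow_succ, Nat.mul_comm]
      · have : 2 ^ i ≤ 2 ^ h := Nat.pow_le_pow_right (by norm_num) hi.le
        omega)
  have z4 := run_zeroC (c := (r q2 : Reg τ)) (s := s.set (r q1) (num (2 ^ h)))
    (by rw [Store.set_ne _ _ (by simp), hq2])
  have z5 := run_addC (k := 1) (d := (r q1 : Reg τ)) (c := r q2) (by simp)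
    (s := (s.set (r q1) (num (2 ^ h))).set (r q2) (num 0)) (N := 2 ^ h) (m := 0)
    (by rw [Store.set_ne _ _ (by simp), Store.set_same]) (by rw [Store.set_same])
  have key := run_sq_cons z1 (run_sq_cons z2 (run_sq_cons z3 (run_sq_cons z4
    (run_sq_cons z5 run_sq_nil))))
  refine Runs.cast key ?_ ?_
  · rw [Store.set_set, Nat.one_mul, Nat.zero_add]
  · have h1 : 2 ^ h * 2 ^ h = 4 ^ h := by rw [← Nat.mul_pow]
    have h2 : h ≤ 2 ^ h := Nat.lt_two_pow_self.le
    have h3 : 1 ≤ 2 ^ h := Nat.one_le_two_pow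
    have h4 : h * 2 ^ h ≤ 4 ^ h := by rw [← h1]; exact Nat.mul_le_mul_right _ h2
    have h5 : 2 ^ h ≤ 4 ^ h := by rw [← h1]; exact Nat.le_mul_of_pos_left _ h3
    have h6 : h * (10 * 2 ^ h + 20 + 2) = 10 * (h * 2 ^ h) + 22 * h := by ring
    rw [h6]
    omega

theorem run_mkSq {c : Reg τ} (hc1 : c ≠ r q1) (hc2 : c ≠ r q2) {s : Store (Reg τ) (Sy α)}
    {q W : ℕ} (hq1 : s (r q1) = num q) (hq2 : s (r q2) = num q) (hc : s c = []) (hq : 1 ≤ q)
    (hW : q * q ≤ W) : Runs (mkSq c) s (s.set c (num (q * q))) (20 * W) := by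
  have z1 := run_zeroC (c := c) (s := s) hc
  have z2 := Runs.forN (c := (r q1 : Reg τ)) (body := addC 1 (r q2) c) q
    (fun i => s.set c (num (i * q))) (4 * q + 2)
    (by intro i; rw [Store.set_ne _ _ hc1.symm, hq1])
    (by
      intro i hi x
      refine (run_addC (k := 1) (d := (r q2 : Reg τ)) (c := c) hc2.symm (N := q) (m := i * q)
        ?_ ?_).cast ?_ (by omega)
      · rw [Store.set_ne _ _ (by simp), Store.set_ne _ _ hc2.symm, hq2]
      · rw [Store.set_ne _ _ hc1, Store.set_same]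
      · rw [setSh _ hc1, Nat.one_mul, Nat.succ_mul])
  simp only [Nat.zero_mul] at z2
  have key := run_sq_cons z1 (run_sq_cons z2 run_sq_nil)
  refine Runs.cast key rfl ?_
  have h1 : q ≤ q * q := Nat.le_mul_of_pos_left _ hq
  have h2 : q * (4 * q + 2 + 2) = 4 * (q * q) + 4 * q := by ring
  rw [h2]
  omega

@[simp] theorem num_length_bd581 (n : ℕ) : (num n : List (Sy α)).length = n + 1 := by simp [num]

/-! ### The two block transpositions -/

theorem run_swap1 (mulP : Cmd (Reg τ) (Sy α)) (T : ℕ → ℕ) (C1 : ℕ) (hm : MulSpec mulP T C1) :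
    ∃ C0 : ℕ, ∀ (s : Store (Reg τ) (Sy α)) (A h M : ℕ) (ent : ℕ → ℕ → ℕ → List Bool),
    1 ≤ A → 1 ≤ h → 16 * (A * (2 ^ h * (2 ^ h * 2 ^ h))) ≤ M →
    (∀ a i j, (ent a i j).length = 2 ^ h) →
    s (r D) = bs (fm A fun a => fm (2 ^ h) fun i => fm (2 ^ h) fun j => ent a i j) →
    s (r q1) = num (2 ^ h) → s (r q2) = num (2 ^ h) → s (r nE) = [] →
    s (r ne) = [] → s (r nh) = num h → s (r M1) = num M → Clean s →
    Runs (swap1 mulP) s
      (s.set (r D) (bs (fm A fun a => fm (2 ^ h) fun j => fm (2 ^ h) fun i => ent a i j)))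
      (C0 * (min (T M) (M * h) + M)) := by
  obtain ⟨C2, hC2⟩ := run_swapP mulP T C1 hm
  refine ⟨1 + (1 + (1 + (6 + (C2 + (6 + (6 + 1)))))), ?_⟩
  intro s A h M ent hA hh hM hent hD hq1 hq2 hnE hne hnh hM1 hcl
  obtain ⟨W, hWdef⟩ : ∃ W, W = min (T M) (M * h) + M := ⟨_, rfl⟩
  rw [← hWdef]
  have hq0 : 1 ≤ 2 ^ h := Nat.one_le_two_pow
  have hqM : 2 ^ h + 2 ≤ M := by
    have h1 : 2 ^ h ≤ A * (2 ^ h * (2 ^ h * 2 ^ h)) := by
      calc 2 ^ h = 1 * (2 ^ h * (1 * 1)) := by ring
        _ ≤ A * (2 ^ h * (2 ^ h * 2 ^ h)) :=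
          Nat.mul_le_mul hA (Nat.mul_le_mul le_rfl (Nat.mul_le_mul hq0 hq0))
    omega
  have hW1 : 1 ≤ W := by omega
  have z1 := (run_zeroC (c := (r ne : Reg τ)) (s := s) hne).mono
    (show 1 ≤ 1 * W by omega)
  have z2 := (run_pushF (b := (r ne : Reg τ)) (s := s.set (r ne) (num 0)) (.mark : Sy α)).mono
    (show 1 ≤ 1 * W by omega)
  rw [Store.set_same, Store.set_set] at z2
  have e2 : (Sy.mark :: num 0 : List (Sy α)) = num 1 := by simp [num]
  rw [e2] at z2
  have z3 := (run_zeroC (c := (r nE : Reg τ)) (s := s.set (r ne) (num 1))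
    (by rw [Store.set_ne _ _ (by simp), hnE])).mono (show 1 ≤ 1 * W by omega)
  have z4 := (run_addC (k := 1) (d := (r q1 : Reg τ)) (c := r nE) (by simp)
    (s := (s.set (r ne) (num 1)).set (r nE) (num 0)) (N := 2 ^ h) (m := 0)
    (by rw [Store.set_ne _ _ (by simp), Store.set_ne _ _ (by simp), hq1])
    (by rw [Store.set_same])).mono (show _ ≤ 6 * W by omega)
  rw [Store.set_set, Nat.one_mul, Nat.zero_add] at z4
  have z5 := hC2 ((s.set (r ne) (num 1)).set (r nE) (num (2 ^ h))) A h 1 M ent hA hh le_rfl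
    (by rw [Nat.mul_one]; exact hM) (by intro a i j; rw [hent, Nat.mul_one]) (by simp [hD])
    (by simp [hq1]) (by simp [hq2]) (by simp) (by simp) (by simp [hnh]) (by simp [hM1])
    ((hcl.set (by simp) _).set (by simp) _)
  rw [← hWdef] at z5
  obtain ⟨d, hd⟩ : ∃ d : List (Sy α), d = bs (fm A fun a => fm (2 ^ h) fun j =>
    fm (2 ^ h) fun i => ent a i j) := ⟨_, rfl⟩
  rw [← hd] at z5 ⊢
  have z6 := (run_clr (a := (r ne : Reg τ))
    (s := ((s.set (r ne) (num 1)).set (r nE) (num (2 ^ h))).set (r D) d)).mono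
    (show _ ≤ 6 * W by simp; omega)
  have z7 := (run_clr (a := (r nE : Reg τ))
    (s := (((s.set (r ne) (num 1)).set (r nE) (num (2 ^ h))).set (r D) d).set (r ne) [])).mono
    (show _ ≤ 6 * W by simp; omega)
  have key := sqW_cons z1 (sqW_cons z2 (sqW_cons z3 (sqW_cons z4 (sqW_cons z5
    (sqW_cons z6 (sqW_cons z7 (sqW_nil hW1)))))))
  refine Runs.cast key ?_ le_rfl
  apply Store.ext'
  intro i
  simp only [Store.set]
  clear hm hC2 hA hh hM hcl hq0 hqM hW1 z1 z2 z3 z4 z5 z6 z7 key
  split_ifs <;> simp_all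

theorem run_swap2 (mulP : Cmd (Reg τ) (Sy α)) (T : ℕ → ℕ) (C1 : ℕ) (hm : MulSpec mulP T C1) :
    ∃ C0 : ℕ, ∀ (s : Store (Reg τ) (Sy α)) (A h M : ℕ) (ent : ℕ → ℕ → ℕ → List Bool),
    1 ≤ A → 1 ≤ h → 16 * (A * (2 ^ h * (2 ^ h * (2 ^ h * 2 ^ h)))) ≤ M →
    (∀ a i j, (ent a i j).length = 2 ^ h * 2 ^ h) →
    s (r D) = bs (fm A fun a => fm (2 ^ h) fun i => fm (2 ^ h) fun j => ent a i j) →
    s (r q1) = num (2 ^ h) → s (r q2) = num (2 ^ h) → s (r nE) = [] →
    s (r ne) = [] → s (r nh) = num h → s (r M1) = num M → Clean s →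
    Runs (swap2 mulP) s
      (s.set (r D) (bs (fm A fun a => fm (2 ^ h) fun j => fm (2 ^ h) fun i => ent a i j)))
      (C0 * (min (T M) (M * h) + M)) := by
  obtain ⟨C2, hC2⟩ := run_swapP mulP T C1 hm
  refine ⟨1 + (6 + (20 + (C2 + (6 + (6 + 1))))), ?_⟩
  intro s A h M ent hA hh hM hent hD hq1 hq2 hnE hne hnh hM1 hcl
  obtain ⟨W, hWdef⟩ : ∃ W, W = min (T M) (M * h) + M := ⟨_, rfl⟩
  rw [← hWdef]
  have hq0 : 1 ≤ 2 ^ h := Nat.one_le_two_pow
  have hqM : 2 ^ h * 2 ^ h + 2 ≤ M := by
    have h1 : 2 ^ h * 2 ^ h ≤ A * (2 ^ h * (2 ^ h * (2 ^ h * 2 ^ h))) := by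
      calc 2 ^ h * 2 ^ h = 1 * (1 * (1 * (2 ^ h * 2 ^ h))) := by ring
        _ ≤ A * (2 ^ h * (2 ^ h * (2 ^ h * 2 ^ h))) :=
          Nat.mul_le_mul hA (Nat.mul_le_mul hq0 (Nat.mul_le_mul hq0 le_rfl))
    have h2 : 1 ≤ 2 ^ h * 2 ^ h := Nat.mul_pos hq0 hq0
    omega
  have hqq : 2 ^ h ≤ 2 ^ h * 2 ^ h := Nat.le_mul_of_pos_left _ hq0
  have hW1 : 1 ≤ W := by omega
  have z1 := (run_zeroC (c := (r ne : Reg τ)) (s := s) hne).mono
    (show 1 ≤ 1 * W by omega)
  have z2 := (run_addC (k := 1) (d := (r q1 : Reg τ)) (c := r ne) (by simp)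
    (s := s.set (r ne) (num 0)) (N := 2 ^ h) (m := 0)
    (by rw [Store.set_ne _ _ (by simp), hq1])
    (by rw [Store.set_same])).mono (show _ ≤ 6 * W by omega)
  rw [Store.set_set, Nat.one_mul, Nat.zero_add] at z2
  have z3 := run_mkSq (c := (r nE : Reg τ)) (by simp) (by simp)
    (s := s.set (r ne) (num (2 ^ h))) (q := 2 ^ h) (W := W) (by simp [hq1]) (by simp [hq2])
    (by simp [hnE]) hq0 (by omega)
  have z5 := hC2 ((s.set (r ne) (num (2 ^ h))).set (r nE) (num (2 ^ h * 2 ^ h))) A h (2 ^ h) M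
    ent hA hh hq0 hM (by intro a i j; rw [hent]) (by simp [hD])
    (by simp [hq1]) (by simp [hq2]) (by simp) (by simp) (by simp [hnh]) (by simp [hM1])
    ((hcl.set (by simp) _).set (by simp) _)
  rw [← hWdef] at z5
  obtain ⟨d, hd⟩ : ∃ d : List (Sy α), d = bs (fm A fun a => fm (2 ^ h) fun j =>
    fm (2 ^ h) fun i => ent a i j) := ⟨_, rfl⟩
  rw [← hd] at z5 ⊢
  have z6 := (run_clr (a := (r ne : Reg τ))
    (s := ((s.set (r ne) (num (2 ^ h))).set (r nE) (num (2 ^ h * 2 ^ h))).set (r D) d)).mono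
    (show _ ≤ 6 * W by simp; omega)
  have z7 := (run_clr (a := (r nE : Reg τ))
    (s := (((s.set (r ne) (num (2 ^ h))).set (r nE) (num (2 ^ h * 2 ^ h))).set (r D) d).set
      (r ne) [])).mono (show _ ≤ 6 * W by simp; omega)
  have key := sqW_cons z1 (sqW_cons z2 (sqW_cons z3 (sqW_cons z5
    (sqW_cons z6 (sqW_cons z7 (sqW_nil hW1))))))
  refine Runs.cast key ?_ le_rfl
  apply Store.ext'
  intro i
  simp only [Store.set]
  clear hm hC2 hA hh hM hcl hq0 hqM hqq hW1 z1 z2 z3 z5 z6 z7 key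
  split_ifs <;> simp_all

/-! ### Halving the size -/

/-- content of the parity register after `i` rounds -/
def odS (k i : ℕ) : List (Sy α) := if i = 0 then [.bit false] else [.bit (decide (1 ≤ k - 2 * i))]

theorem run_halve {s : Store (Reg τ) (Sy α)} {k W : ℕ} (hk : 2 ≤ k) (hK : s (r K) = num (k - 1))
    (hnh : s (r nh) = []) (hOD : s (r OD) = []) (hW : k ≤ W) :
    Runs halve s (((s.set (r nh) (num (k / 2))).set (r OD) [Sy.bit (decide (k % 2 = 1))]).set
      (r K) []) (20 * W) := by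
  have z1 := run_zeroC (c := (r nh : Reg τ)) (s := s) hnh
  have z2 := run_pushB (b := (r OD : Reg τ)) (s := s.set (r nh) (num 0)) (Sy.bit false : Sy α)
  have z3 := Runs.loopN (p := fun h : Reg τ → Option (Sy α) => isMark (h (.r .K)))
    (c := sq [
    popF (.r .K), pushF (.r .nh) Sy.mark, popF (.r .OD),
    .ite (fun h => isMark (h (.r .K)))
      (sq [popF (.r .K), pushB (.r .OD) (Sy.bit true)])
      (sq [pushB (.r .OD) (Sy.bit false)])]) (k / 2)
    (fun i => ((s.set (r nh) (num i)).set (r OD) (odS k i)).set (r K) (num (k - 1 - 2 * i))) 10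
    (by
      intro i hi
      obtain ⟨m, hm⟩ : ∃ m, k - 1 - 2 * i = m + 1 := ⟨k - 1 - 2 * i - 1, by omega⟩
      simp [Store.heads, hm, num, List.replicate_succ, isMark])
    (by
      intro i hi
      obtain ⟨m, hm⟩ : ∃ m, k - 1 - 2 * i = m + 1 := ⟨k - 1 - 2 * i - 1, by omega⟩
      have b1 := run_popF (a := (r K : Reg τ))
        (s := ((s.set (r nh) (num i)).set (r OD) (odS k i)).set (r K) (num (k - 1 - 2 * i)))
      have e1 : (num (k - 1 - 2 * i) : List (Sy α)).tail = num m := by
        rw [hm]; simp [num, List.replicate_succ]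
      rw [Store.set_same, Store.set_set, e1] at b1
      have b2 := run_pushF (b := (r nh : Reg τ))
        (s := ((s.set (r nh) (num i)).set (r OD) (odS k i)).set (r K) (num m)) (Sy.mark : Sy α)
      have e2 : Sy.mark :: (((s.set (r nh) (num i)).set (r OD) (odS k i)).set (r K)
          (num m)) (r nh) = num (i + 1) := by
        simp [num, List.replicate_succ]
      rw [e2] at b2
      have b3 := run_popF (a := (r OD : Reg τ))
        (s := (((s.set (r nh) (num i)).set (r OD) (odS k i)).set (r K) (num m)).set (r nh)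
          (num (i + 1)))
      have e3 : ((((s.set (r nh) (num i)).set (r OD) (odS k i)).set (r K) (num m)).set (r nh)
          (num (i + 1)) (r OD)).tail = [] := by
        rw [Store.set_ne _ _ (by simp), Store.set_ne _ _ (by simp), Store.set_same]
        unfold odS
        split_ifs <;> rfl
      rw [e3] at b3
      rcases Nat.eq_zero_or_pos m with h0 | h0
      · -- one mark only
        have b4 := run_pushB (b := (r OD : Reg τ))
          (s := ((((s.set (r nh) (num i)).set (r OD) (odS k i)).set (r K) (num m)).set (r nh)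
          (num (i + 1))).set (r OD) []) (Sy.bit false : Sy α)
        have b5 := Runs.iteF (p := fun h : Reg τ → Option (Sy α) => isMark (h (.r .K)))
          (c := sq [popF (.r .K), pushB (.r .OD) (Sy.bit true)])
          (by simp [Store.heads, h0, num, isMark]) (run_sq_cons b4 run_sq_nil)
        have key := run_sq_cons b1 (run_sq_cons b2 (run_sq_cons b3 (run_sq_cons b5 run_sq_nil)))
        refine Runs.cast key ?_ (by omega)
        have e4 : (odS k (i + 1) : List (Sy α)) = [Sy.bit false] := by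
          simp only [odS, Nat.succ_ne_zero, if_false]
          rw [decide_eq_false (by omega)]
        have e5 : k - 1 - 2 * (i + 1) = m := by omega
        rw [e4, e5]
        apply Store.ext'
        intro x
        simp only [Store.set]
        clear hk hW z1 z2 hi b1 b2 b3 b4 b5 key
        split_ifs <;> simp_all
      · obtain ⟨m', hm'⟩ : ∃ m', m = m' + 1 := ⟨m - 1, by omega⟩
        have b4 := run_popF (a := (r K : Reg τ))
          (s := ((((s.set (r nh) (num i)).set (r OD) (odS k i)).set (r K) (num m)).set (r nh)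
          (num (i + 1))).set (r OD) [])
        have e4' : (((((s.set (r nh) (num i)).set (r OD) (odS k i)).set (r K) (num m)).set (r nh)
          (num (i + 1))).set (r OD) [] (r K)).tail = num m' := by
          rw [Store.set_ne _ _ (by simp), Store.set_ne _ _ (by simp), Store.set_same, hm']
          simp [num, List.replicate_succ]
        rw [e4'] at b4
        have b4' := run_pushB (b := (r OD : Reg τ))
          (s := (((((s.set (r nh) (num i)).set (r OD) (odS k i)).set (r K) (num m)).set (r nh)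
          (num (i + 1))).set (r OD) []).set (r K) (num m')) (Sy.bit true : Sy α)
        have b5 := Runs.iteT (p := fun h : Reg τ → Option (Sy α) => isMark (h (.r .K)))
          (d := sq [pushB (.r .OD) (Sy.bit false)])
          (by simp [Store.heads, hm', num, List.replicate_succ, isMark])
          (run_sq_cons b4 (run_sq_cons b4' run_sq_nil))
        have key := run_sq_cons b1 (run_sq_cons b2 (run_sq_cons b3 (run_sq_cons b5 run_sq_nil)))
        refine Runs.cast key ?_ (by omega)
        have e4 : (odS k (i + 1) : List (Sy α)) = [Sy.bit true] := by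
          simp only [odS, Nat.succ_ne_zero, if_false]
          rw [decide_eq_true (by omega)]
        have e5 : k - 1 - 2 * (i + 1) = m' := by omega
        rw [e4, e5]
        apply Store.ext'
        intro x
        simp only [Store.set]
        clear hk hW z1 z2 hi b1 b2 b3 b4 b4' b5 key
        split_ifs <;> simp_all)
    (by
      have : k - 1 - 2 * (k / 2) = 0 := by omega
      simp [Store.heads, this, num, isMark])
  have e0 : ((s.set (r nh) (num 0)).set (r OD) (odS k 0)).set (r K) (num (k - 1 - 2 * 0)) =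
      (s.set (r nh) (num 0)).set (r OD) ((s.set (r nh) (num 0)) (r OD) ++ [Sy.bit false]) := by
    rw [Store.set_ne _ _ (by simp), hOD]
    apply Store.ext'
    intro x
    simp only [Store.set, odS]
    clear hk hW z1 z2 z3
    split_ifs <;> simp_all
  simp only [e0] at z3
  have z4 := run_clr (a := (r K : Reg τ))
    (s := ((s.set (r nh) (num (k / 2))).set (r OD) (odS k (k / 2))).set (r K)
      (num (k - 1 - 2 * (k / 2))))
  have key := run_sq_cons z1 (run_sq_cons z2 (run_sq_cons z3 (run_sq_cons z4 run_sq_nil)))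
  refine Runs.cast key ?_ ?_
  · have e1 : (odS k (k / 2) : List (Sy α)) = [Sy.bit (decide (k % 2 = 1))] := by
      have h1 : k / 2 ≠ 0 := by omega
      simp only [odS, h1, if_false]
      congr 2
      rw [decide_eq_decide]
      omega
    rw [e1, Store.set_set]
  · rw [Store.set_same, num_length_bd581]
    omega

/-! ### The base case -/

theorem run_midP : ∃ C0 : ℕ, ∀ (s : Store (Reg τ) (Sy α)) (A W : ℕ) (f : ℕ → ℕ → ℕ → Bool),
    1 ≤ A → A * 4 ≤ W →
    s (r D) = bs (fm A fun a => fm 2 fun x => fm 2 fun y => [f a x y]) →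
    s (r q3) = [] → s (r A1) = [] → s (r X) = [] → s (r C) = [] →
    Runs midP s (s.set (r D) (bs (fm A fun a => fm 2 fun y => fm 2 fun x => [f a x y])))
      (C0 * W) := by
  obtain ⟨C1, hC1⟩ := run_ilv (τ := τ) (α := α) (g := r q3) (by simp)
  refine ⟨C1 + 20, ?_⟩
  intro s A W f hA hW hD hq3 hA1 hX hC
  have z1 := run_zeroC (c := (r A1 : Reg τ)) (s := s) hA1
  have z2 := run_pushF (b := (r A1 : Reg τ)) (s := s.set (r A1) (num 0)) (.mark : Sy α)
  rw [Store.set_same, Store.set_set] at z2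
  have e2 : (Sy.mark :: num 0 : List (Sy α)) = num 1 := by simp [num]
  rw [e2] at z2
  have z3 := run_zeroC (c := (r q3 : Reg τ)) (s := s.set (r A1) (num 1))
    (by rw [Store.set_ne _ _ (by simp), hq3])
  have z4 := run_pushF (b := (r q3 : Reg τ)) (s := (s.set (r A1) (num 1)).set (r q3) (num 0))
    (.mark : Sy α)
  rw [Store.set_same, Store.set_set, e2] at z4
  have z5 := run_pushF (b := (r q3 : Reg τ)) (s := (s.set (r A1) (num 1)).set (r q3) (num 1))
    (.mark : Sy α)
  have e3 : (Sy.mark :: num 1 : List (Sy α)) = num 2 := by simp [num]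
  rw [Store.set_same, Store.set_set, e3] at z5
  have z6 := hC1 ((s.set (r A1) (num 1)).set (r q3) (num 2)) A 2 1
    (fun a x y => bs [f a x y]) hA (by norm_num) le_rfl (by simp)
    (by
      rw [Store.set_ne _ _ (by simp), Store.set_ne _ _ (by simp), hD, bs_fm]
      refine fm_congr fun a _ => ?_
      rw [bs_fm]
      refine fm_congr fun x _ => ?_
      rw [bs_fm])
    (by simp) (by simp) (by simp [hX]) (by simp [hC])
  have e6 : (fm A fun a => fm 2 fun v => fm 2 fun b => (bs [f a b v] : List (Sy α))) =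
      bs (fm A fun a => fm 2 fun y => fm 2 fun x => [f a x y]) := by
    rw [bs_fm]
    refine fm_congr fun a _ => ?_
    rw [bs_fm]
    refine fm_congr fun x _ => ?_
    rw [bs_fm]
  rw [e6] at z6
  obtain ⟨d, hd⟩ : ∃ d : List (Sy α), d = bs (fm A fun a => fm 2 fun y => fm 2 fun x =>
    [f a x y]) := ⟨_, rfl⟩
  rw [← hd] at z6 ⊢
  have z7 := run_clr (a := (r A1 : Reg τ))
    (s := ((s.set (r A1) (num 1)).set (r q3) (num 2)).set (r D) d)
  have z8 := run_clr (a := (r q3 : Reg τ))
    (s := (((s.set (r A1) (num 1)).set (r q3) (num 2)).set (r D) d).set (r A1) [])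
  have key := run_sq_cons z1 (run_sq_cons z2 (run_sq_cons z3 (run_sq_cons z4 (run_sq_cons z5
    (run_sq_cons z6 (run_sq_cons z7 (run_sq_cons z8 run_sq_nil)))))))
  refine Runs.cast key ?_ ?_
  · apply Store.ext'
    intro i
    simp only [Store.set]
    clear hC1 hA hW z1 z2 z3 z4 z5 z6 z7 z8 key
    split_ifs <;> simp_all
  · have h1 : C1 * (A * (2 * 1)) ≤ C1 * W := Nat.mul_le_mul_left _ (by omega)
    simp only [Store.set_ne _ _ (show (r q3 : Reg τ) ≠ r A1 by simp),
      Store.set_ne _ _ (show (r A1 : Reg τ) ≠ r D by simp),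
      Store.set_ne _ _ (show (r A1 : Reg τ) ≠ r q3 by simp),
      Store.set_ne _ _ (show (r q3 : Reg τ) ≠ r D by simp), Store.set_same, num_length_bd581]
    rw [Nat.add_mul]
    omega

/-! ### One level -/

theorem run_swap12 (mulP : Cmd (Reg τ) (Sy α)) (T : ℕ → ℕ) (C1 : ℕ) (hm : MulSpec mulP T C1) :
    ∃ C0 : ℕ, ∀ (s : Store (Reg τ) (Sy α)) (A h M : ℕ) (g : ℕ → ℕ → ℕ → Bool),
    1 ≤ A → 1 ≤ h → 16 * (A * (2 ^ h * (2 ^ h * (2 ^ h * 2 ^ h)))) ≤ M →
    s (r D) = bs (dataE A (2 ^ h) fun a x y => [g a x y]) →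
    s (r q1) = num (2 ^ h) → s (r q2) = num (2 ^ h) → s (r nE) = [] →
    s (r ne) = [] → s (r nh) = num h → s (r M1) = num M → Clean s →
    ∃ d1, Runs (swap1 mulP) s (s.set (r D) d1) (C0 * (min (T M) (M * h) + M)) ∧
      Runs (swap2 mulP) (s.set (r D) d1)
        (s.set (r D) (bs (fm (A * (2 ^ h * 2 ^ h)) fun z => fm (2 ^ h) fun x => fm (2 ^ h) fun y =>
          [lower (2 ^ h) g z x y]))) (C0 * (min (T M) (M * h) + M)) := by
  obtain ⟨c1, hc1⟩ := run_swap1 mulP T C1 hm
  obtain ⟨c2, hc2⟩ := run_swap2 mulP T C1 hm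
  refine ⟨c1 + c2, ?_⟩
  intro s A h M g hA hh hM hD hq1 hq2 hnE hne hnh hM1 hcl
  have hq0 : 1 ≤ 2 ^ h := Nat.one_le_two_pow
  have z1 := hc1 s (A * 2 ^ h) h M (fun z i j => fm (2 ^ h) fun y0 =>
      [g (z / 2 ^ h) (z % 2 ^ h * 2 ^ h + i) (j * 2 ^ h + y0)]) (Nat.mul_pos hA hq0) hh
    (by
      have : A * 2 ^ h * (2 ^ h * (2 ^ h * 2 ^ h)) = A * (2 ^ h * (2 ^ h * (2 ^ h * 2 ^ h))) := by
        ring
      rw [this]; exact hM)
    (by intro a i j; rw [fm_length (c := 1) (by simp), Nat.mul_one])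
    (by rw [hD, dataE_eq]) hq1 hq2 hnE hne hnh hM1 hcl
  rw [data_mid A (2 ^ h) (fun a x y => [g a x y])] at z1
  obtain ⟨d1, hd1⟩ : ∃ d : List (Sy α), d = bs (fm A fun a => fm (2 ^ h) fun i =>
    fm (2 ^ h) fun j => fm (2 ^ h) fun x0 => fm (2 ^ h) fun y0 =>
      [g a (i * 2 ^ h + x0) (j * 2 ^ h + y0)]) := ⟨_, rfl⟩
  rw [← hd1] at z1
  have z2 := hc2 (s.set (r D) d1) A h M (fun a i j => fm (2 ^ h) fun x0 => fm (2 ^ h) fun y0 =>
      [g a (i * 2 ^ h + x0) (j * 2 ^ h + y0)]) hA hh hM
    (by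
      intro a i j
      rw [fm_length (c := 2 ^ h)]
      intro x0 _
      rw [fm_length (c := 1) (by simp), Nat.mul_one])
    (by rw [Store.set_same, hd1]) (by simp [hq1]) (by simp [hq2]) (by simp [hnE])
    (by simp [hne]) (by simp [hnh]) (by simp [hM1]) (hcl.set (by simp) _)
  rw [Store.set_set] at z2
  have e := dataM_eq A (2 ^ h) (fun a x y => [g a x y])
  have e' : (fun z x y => [lower (2 ^ h) g z x y]) =
      lower (2 ^ h) (fun a x y => [g a x y]) := rfl
  refine ⟨d1, z1.mono (Nat.mul_le_mul_right _ (by omega)), ?_⟩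
  have e2 : (fm (A * (2 ^ h * 2 ^ h)) fun z => fm (2 ^ h) fun x => fm (2 ^ h) fun y =>
          [lower (2 ^ h) g z x y]) = fm A fun a => fm (2 ^ h) fun j => fm (2 ^ h) fun i =>
          fm (2 ^ h) fun x0 => fm (2 ^ h) fun y0 =>
      [g a (i * 2 ^ h + x0) (j * 2 ^ h + y0)] := e.symm
  rw [e2]
  exact z2.mono (Nat.mul_le_mul_right _ (by omega))

theorem run_oddDown : ∃ C0 : ℕ, ∀ (s : Store (Reg τ) (Sy α)) (A q W : ℕ)
    (f : ℕ → ℕ → ℕ → Bool), 1 ≤ A → 1 ≤ q → A * (4 * (q * q * (q * q))) ≤ W →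
    s (r D) = bs (fm A fun a => fm (2 * (q * q)) fun x => fm (2 * (q * q)) fun y => [f a x y]) →
    s (r q1) = num q → s (r q2) = num q → s (r q3) = [] → s (r A1) = [] → s (r X) = [] →
    s (r C) = [] →
    Runs (sq [mkSq (.r .A1), zeroC (.r .q3), addC 2 (.r .A1) (.r .q3), dilv (.r .q3),
      clr (.r .q3), clr (.r .A1)]) s
      (s.set (r D) (bs (dataE (A * 4) q fun a x y => [split2 (q * q) f a x y]))) (C0 * W) := by
  obtain ⟨C1, hC1⟩ := run_dilv (τ := τ) (α := α) (g := r q3) (by simp)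
  refine ⟨20 + (1 + (10 + (C1 + (10 + (10 + 1))))), ?_⟩
  intro s A q W f hA hq hW hD hq1 hq2 hq3 hA1 hX hC
  have hQ1 : 1 ≤ q * q := Nat.mul_pos hq hq
  have hQQ : q * q ≤ q * q * (q * q) := Nat.le_mul_of_pos_left _ hQ1
  have hAQ : q * q * (q * q) ≤ A * (q * q * (q * q)) := Nat.le_mul_of_pos_left _ hA
  have hW' : 4 * (A * (q * q * (q * q))) ≤ W := by
    have : A * (4 * (q * q * (q * q))) = 4 * (A * (q * q * (q * q))) := by ring
    omega
  have hW1 : 1 ≤ W := by omega
  have z1 := run_mkSq (c := (r A1 : Reg τ)) (by simp) (by simp) (s := s) (q := q) (W := W)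
    hq1 hq2 hA1 hq (by omega)
  have z2 := (run_zeroC (c := (r q3 : Reg τ)) (s := s.set (r A1) (num (q * q)))
    (by rw [Store.set_ne _ _ (by simp), hq3])).mono (show 1 ≤ 1 * W by omega)
  have z3 := (run_addC (k := 2) (d := (r A1 : Reg τ)) (c := r q3) (by simp)
    (s := (s.set (r A1) (num (q * q))).set (r q3) (num 0)) (N := q * q) (m := 0)
    (by rw [Store.set_ne _ _ (by simp), Store.set_same])
    (by rw [Store.set_same])).mono (show _ ≤ 10 * W by omega)
  rw [Store.set_set, Nat.zero_add] at z3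
  have z4 := (hC1 ((s.set (r A1) (num (q * q))).set (r q3) (num (2 * (q * q)))) A (2 * (q * q))
    (q * q) (fun a b v => fm (q * q) fun y => [.bit (f a v (b * (q * q) + y))]) hA (by omega) hQ1
    (by intro a b v; rw [fm_length (c := 1) (by simp), Nat.mul_one])
    (by
      rw [Store.set_ne _ _ (by simp), Store.set_ne _ _ (by simp), hD]
      simp only [bs_fm, bs_cons, bs_nil]
      exact odd_start A (q * q) (fun a x y => [Sy.bit (f a x y)]))
    (by simp) (by simp) (by simp [hX]) (by simp [hC])).mono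
    (show C1 * (A * (2 * (q * q) * (q * q))) ≤ C1 * W from Nat.mul_le_mul_left _ (by
      have : A * (2 * (q * q) * (q * q)) = 2 * (A * (q * q * (q * q))) := by ring
      omega))
  rw [odd_down A (q * q) (fun a x y => [Sy.bit (f a x y)])] at z4
  have e4 : (fm (A * 4) fun z => fm (q * q) fun x => fm (q * q) fun y =>
      split2 (q * q) (fun a x y => [(Sy.bit (f a x y) : Sy α)]) z x y) =
      bs (dataE (A * 4) q fun a x y => [split2 (q * q) f a x y]) := by
    unfold dataE
    simp only [bs_fm, bs_cons, bs_nil]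
    rfl
  rw [e4] at z4
  obtain ⟨d, hd⟩ : ∃ d : List (Sy α), d = bs (dataE (A * 4) q fun a x y =>
    [split2 (q * q) f a x y]) := ⟨_, rfl⟩
  rw [← hd] at z4 ⊢
  have z5 := (run_clr (a := (r q3 : Reg τ))
    (s := ((s.set (r A1) (num (q * q))).set (r q3) (num (2 * (q * q)))).set (r D) d)).mono
    (show _ ≤ 10 * W by simp; omega)
  have z6 := (run_clr (a := (r A1 : Reg τ))
    (s := (((s.set (r A1) (num (q * q))).set (r q3) (num (2 * (q * q)))).set (r D) d).set
      (r q3) [])).mono (show _ ≤ 10 * W by simp; omega)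
  have key := sqW_cons z1 (sqW_cons z2 (sqW_cons z3 (sqW_cons z4 (sqW_cons z5
    (sqW_cons z6 (sqW_nil hW1))))))
  refine Runs.cast key ?_ le_rfl
  apply Store.ext'
  intro i
  simp only [Store.set]
  clear hC1 hA hq hW hQ1 hQQ hAQ hW' hW1 z1 z2 z3 z4 z5 z6 key
  split_ifs <;> simp_all

theorem run_oddUp : ∃ C0 : ℕ, ∀ (s : Store (Reg τ) (Sy α)) (A q W : ℕ)
    (f : ℕ → ℕ → ℕ → Bool), 1 ≤ A → 1 ≤ q → A * (4 * (q * q * (q * q))) ≤ W →
    s (r D) = bs (fm (A * 4) fun z => fm (q * q) fun y => fm (q * q) fun x =>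
      [split2 (q * q) f z x y]) →
    s (r q1) = num q → s (r q2) = num q → s (r q3) = [] → s (r A1) = [] → s (r X) = [] →
    s (r C) = [] →
    Runs (sq [pushF (.r .K) .mark, mkSq (.r .A1), zeroC (.r .q3), addC 1 (.r .A1) (.r .q3),
      ilv (.r .q3), clr (.r .q3), clr (.r .A1)]) s
      ((s.set (r D) (bs (fm A fun a => fm (2 * (q * q)) fun y => fm (2 * (q * q)) fun x =>
        [f a x y]))).set (r K) (.mark :: s (r K))) (C0 * W) := by
  obtain ⟨C1, hC1⟩ := run_ilv (τ := τ) (α := α) (g := r q3) (by simp)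
  refine ⟨1 + (20 + (1 + (10 + (C1 + (10 + (10 + 1)))))), ?_⟩
  intro s A q W f hA hq hW hD hq1 hq2 hq3 hA1 hX hC
  have hQ1 : 1 ≤ q * q := Nat.mul_pos hq hq
  have hQQ : q * q ≤ q * q * (q * q) := Nat.le_mul_of_pos_left _ hQ1
  have hAQ : q * q * (q * q) ≤ A * (q * q * (q * q)) := Nat.le_mul_of_pos_left _ hA
  have hW' : 4 * (A * (q * q * (q * q))) ≤ W := by
    have : A * (4 * (q * q * (q * q))) = 4 * (A * (q * q * (q * q))) := by ring
    omega
  have hW1 : 1 ≤ W := by omega
  obtain ⟨s0, hs0⟩ : ∃ s0, s0 = s.set (r K) (.mark :: s (r K)) := ⟨_, rfl⟩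
  have z0 := (run_pushF (b := (r K : Reg τ)) (s := s) (.mark : Sy α)).mono
    (show 1 ≤ 1 * W by omega)
  rw [← hs0] at z0
  have z1 := run_mkSq (c := (r A1 : Reg τ)) (by simp) (by simp) (s := s0) (q := q) (W := W)
    (by simp [hs0, hq1]) (by simp [hs0, hq2]) (by simp [hs0, hA1]) hq (by omega)
  have z2 := (run_zeroC (c := (r q3 : Reg τ)) (s := s0.set (r A1) (num (q * q)))
    (by rw [Store.set_ne _ _ (by simp)]; simp [hs0, hq3])).mono (show 1 ≤ 1 * W by omega)
  have z3 := (run_addC (k := 1) (d := (r A1 : Reg τ)) (c := r q3) (by simp)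
    (s := (s0.set (r A1) (num (q * q))).set (r q3) (num 0)) (N := q * q) (m := 0)
    (by rw [Store.set_ne _ _ (by simp), Store.set_same])
    (by rw [Store.set_same])).mono (show _ ≤ 10 * W by omega)
  rw [Store.set_set, Nat.zero_add, Nat.one_mul] at z3
  have z4 := (hC1 ((s0.set (r A1) (num (q * q))).set (r q3) (num (q * q))) (A * 2) (q * q)
    (q * q) (fun w c y => fm (q * q) fun x => [.bit (f (w / 2) (c * (q * q) + x)
      (w % 2 * (q * q) + y))]) (by omega) hQ1 hQ1
    (by intro a b v; rw [fm_length (c := 1) (by simp), Nat.mul_one])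
    (by
      rw [Store.set_ne _ _ (by simp), Store.set_ne _ _ (by simp), hs0,
        Store.set_ne _ _ (by simp), hD]
      simp only [bs_fm, bs_cons, bs_nil]
      exact odd_up A (q * q) (fun a x y => [Sy.bit (f a x y)]))
    (by simp) (by simp) (by simp [hs0, hX]) (by simp [hs0, hC])).mono
    (show C1 * (A * 2 * (q * q * (q * q))) ≤ C1 * W from Nat.mul_le_mul_left _ (by
      have : A * 2 * (q * q * (q * q)) = 2 * (A * (q * q * (q * q))) := by ring
      omega))
  rw [odd_end A (q * q) (fun a x y => [Sy.bit (f a x y)])] at z4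
  have e4 : (fm A fun a => fm (2 * (q * q)) fun y => fm (2 * (q * q)) fun x =>
      ([(Sy.bit (f a x y) : Sy α)])) =
      bs (fm A fun a => fm (2 * (q * q)) fun y => fm (2 * (q * q)) fun x => [f a x y]) := by
    simp only [bs_fm, bs_cons, bs_nil]
  rw [e4] at z4
  obtain ⟨d, hd⟩ : ∃ d : List (Sy α), d = bs (fm A fun a => fm (2 * (q * q)) fun y =>
    fm (2 * (q * q)) fun x => [f a x y]) := ⟨_, rfl⟩
  rw [← hd] at z4 ⊢
  have z5 := (run_clr (a := (r q3 : Reg τ))
    (s := ((s0.set (r A1) (num (q * q))).set (r q3) (num (q * q))).set (r D) d)).mono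
    (show _ ≤ 10 * W by simp; omega)
  have z6 := (run_clr (a := (r A1 : Reg τ))
    (s := (((s0.set (r A1) (num (q * q))).set (r q3) (num (q * q))).set (r D) d).set
      (r q3) [])).mono (show _ ≤ 10 * W by simp; omega)
  have key := sqW_cons z0 (sqW_cons z1 (sqW_cons z2 (sqW_cons z3 (sqW_cons z4 (sqW_cons z5
    (sqW_cons z6 (sqW_nil hW1)))))))
  refine Runs.cast key ?_ le_rfl
  subst hs0
  apply Store.ext'
  intro i
  simp only [Store.set]
  clear hC1 hA hq hW hQ1 hQQ hAQ hW' hW1 z0 z1 z2 z3 z4 z5 z6 key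
  split_ifs <;> simp_all

/-- number of matrices on the next level -/
def nextA (A k : ℕ) : ℕ := (if k % 2 = 1 then A * 4 else A) * (2 ^ (k / 2) * 2 ^ (k / 2))

/-- index function on the next level -/
def nextF (k : ℕ) (f : ℕ → ℕ → ℕ → Bool) : ℕ → ℕ → ℕ → Bool :=
  lower (2 ^ (k / 2)) (if k % 2 = 1 then split2 (2 ^ (k / 2) * 2 ^ (k / 2)) f else f)

theorem pow_even {k : ℕ} (hk : ¬ k % 2 = 1) : 2 ^ k = 2 ^ (k / 2) * 2 ^ (k / 2) := by
  rw [← pow_add]; congr 1; omega

theorem pow_odd {k : ℕ} (hk : k % 2 = 1) : 2 ^ k = 2 * (2 ^ (k / 2) * 2 ^ (k / 2)) := by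
  rw [← pow_add, ← pow_succ']; congr 1; omega

theorem four_pow_eq (k : ℕ) : 4 ^ k = 2 ^ k * 2 ^ k := by
  rw [← Nat.mul_pow]

theorem nextA_mul (A k : ℕ) : nextA A k * 4 ^ (k / 2) = A * 4 ^ k := by
  unfold nextA
  rw [four_pow_eq k, four_pow_eq (k / 2)]
  by_cases hk : k % 2 = 1
  · rw [if_pos hk, pow_odd hk]; ring
  · rw [if_neg hk, pow_even hk]; ring

theorem nextA_pos {A k : ℕ} (hA : 1 ≤ A) : 1 ≤ nextA A k := by
  unfold nextA
  have h1 : 1 ≤ 2 ^ (k / 2) := Nat.one_le_two_pow
  split_ifs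
  · exact Nat.mul_pos (by omega) (Nat.mul_pos h1 h1)
  · exact Nat.mul_pos (by omega) (Nat.mul_pos h1 h1)

theorem run_downBody (mulP : Cmd (Reg τ) (Sy α)) (T : ℕ → ℕ) (C1 : ℕ) (hm : MulSpec mulP T C1) :
    ∃ C0 : ℕ, ∀ (s : Store (Reg τ) (Sy α)) (A k M : ℕ) (f : ℕ → ℕ → ℕ → Bool)
      (lv : List (Sy α)), 1 ≤ A → 2 ≤ k → 16 * (A * 4 ^ k) ≤ M →
    s (r D) = bs (fm A fun a => fm (2 ^ k) fun x => fm (2 ^ k) fun y => [f a x y]) →
    s (r K) = num (k - 1) → s (r M1) = num M → s (r LV) = lv →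
    (∀ x ∈ [q1, q2, q3, nE, ne, nh, OD], s (r x) = []) → Clean s →
    Runs (downBody mulP) s
      (((s.set (r D) (bs (fm (nextA A k) fun z => fm (2 ^ (k / 2)) fun x => fm (2 ^ (k / 2)) fun y =>
        [nextF k f z x y]))).set (r LV) (.bit (decide (k % 2 = 1)) :: lv)).set (r K)
        (num (k / 2 - 1)))
      (C0 * (min (T M) (M * (k / 2)) + M)) := by
  obtain ⟨cs, hcs⟩ := run_swap12 mulP T C1 hm
  obtain ⟨co, hco⟩ := run_oddDown (τ := τ) (α := α)
  refine ⟨20 + (60 + ((co + 1 + 1) + (cs + (cs + (1 + (1 + (10 + (1 + (10 + (10 + (10 + 1))))))))))),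
    ?_⟩
  intro s A k M f lv hA hk hM hD hK hM1 hLV hemp hcl
  obtain ⟨W, hWdef⟩ : ∃ W, W = min (T M) (M * (k / 2)) + M := ⟨_, rfl⟩
  rw [← hWdef]
  have hMW : M ≤ W := by omega
  obtain ⟨h, hh⟩ : ∃ h, h = k / 2 := ⟨_, rfl⟩
  have hh1 : 1 ≤ h := by omega
  have h4h : 4 ^ h ≤ 4 ^ k := Nat.pow_le_pow_right (by norm_num) (by omega)
  have h4A : 4 ^ k ≤ A * 4 ^ k := Nat.le_mul_of_pos_left _ hA
  have hk4 : k ≤ 4 ^ k := (Nat.lt_pow_self (by norm_num)).le
  have h2h : 2 ^ h ≤ 4 ^ h := Nat.pow_le_pow_left (by norm_num) h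
  have hq0 : 1 ≤ 2 ^ h := Nat.one_le_two_pow
  have hW1 : 1 ≤ W := by omega
  have eq1 : s (r q1) = [] := hemp q1 (by simp)
  have eq2 : s (r q2) = [] := hemp q2 (by simp)
  have eq3 : s (r q3) = [] := hemp q3 (by simp)
  have enE : s (r nE) = [] := hemp nE (by simp)
  have ene : s (r ne) = [] := hemp ne (by simp)
  have enh : s (r nh) = [] := hemp nh (by simp)
  have eOD : s (r OD) = [] := hemp OD (by simp)
  have eA3 : s (r A3) = [] := hcl.1 A3 (by simp)
  have eA1 : s (r A1) = [] := hcl.1 A1 (by simp)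
  have eX : s (r X) = [] := hcl.1 X (by simp)
  have eC : s (r C) = [] := hcl.1 C (by simp)
  have z1 := run_halve hk hK enh eOD (show k ≤ W by omega)
  obtain ⟨od, hod⟩ : ∃ od : Sy α, od = .bit (decide (k % 2 = 1)) := ⟨_, rfl⟩
  rw [← hh, ← hod] at z1
  obtain ⟨s1, hs1⟩ : ∃ s1, s1 = ((s.set (r nh) (num h)).set (r OD) [od]).set (r K) [] := ⟨_, rfl⟩
  rw [← hs1] at z1
  have z2 := run_mkQ (s := s1) (h := h) (W := W) (by simp [hs1]) (by simp [hs1, eq1])
    (by simp [hs1, eq2]) (by simp [hs1, eA3]) (by omega)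
  obtain ⟨s2, hs2⟩ : ∃ s2, s2 = (s1.set (r q1) (num (2 ^ h))).set (r q2) (num (2 ^ h)) := ⟨_, rfl⟩
  rw [← hs2] at z2
  have hcl2 : Clean s2 := by
    rw [hs2, hs1]
    exact ((((hcl.set (by simp) _).set (by simp) _).set (by simp) _).set (by simp) _).set
      (by simp) _
  -- the odd case
  obtain ⟨A2, g, hA2, hA2k, z3, hnA, hnF⟩ : ∃ (A2 : ℕ) (g : ℕ → ℕ → ℕ → Bool), 1 ≤ A2 ∧
      A2 * (2 ^ h * (2 ^ h * (2 ^ h * 2 ^ h))) = A * 4 ^ k ∧
      Runs (.ite (fun h => isOne (h (.r .OD)))
        (sq [mkSq (.r .A1), zeroC (.r .q3), addC 2 (.r .A1) (.r .q3), dilv (.r .q3),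
          clr (.r .q3), clr (.r .A1)])
        (sq [])) s2 (s2.set (r D) (bs (dataE A2 (2 ^ h) fun a x y => [g a x y])))
        ((co + 1 + 1) * W) ∧ nextA A k = A2 * (2 ^ h * 2 ^ h) ∧ nextF k f = lower (2 ^ h) g := by
    by_cases hodd : k % 2 = 1
    · refine ⟨A * 4, split2 (2 ^ h * 2 ^ h) f, by omega, ?_, ?_, ?_, ?_⟩
      · rw [four_pow_eq, pow_odd hodd, ← hh]; ring
      · have := hco s2 A (2 ^ h) W f hA hq0 (by
            have e : A * (4 * (2 ^ h * 2 ^ h * (2 ^ h * 2 ^ h))) = A * 4 ^ k := by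
              rw [four_pow_eq k, pow_odd hodd, ← hh]; ring
            omega)
          (by
            rw [hs2, hs1]
            simp only [Store.set_ne _ _ (show (r D : Reg τ) ≠ r q2 by simp),
              Store.set_ne _ _ (show (r D : Reg τ) ≠ r q1 by simp),
              Store.set_ne _ _ (show (r D : Reg τ) ≠ r K by simp),
              Store.set_ne _ _ (show (r D : Reg τ) ≠ r OD by simp),
              Store.set_ne _ _ (show (r D : Reg τ) ≠ r nh by simp)]
            rw [hD, pow_odd hodd, ← hh])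
          (by simp [hs2]) (by simp [hs2]) (by simp [hs2, hs1, eq3]) (by simp [hs2, hs1, eA1])
          (by simp [hs2, hs1, eX]) (by simp [hs2, hs1, eC])
        refine (iteW_T hW1 ?_ this).mono (Nat.mul_le_mul_right _ (by omega))
        simp [Store.heads, hs2, hs1, hod, hodd, isOne_bit]
      · simp only [nextA, if_pos hodd, ← hh]
      · simp only [nextF, if_pos hodd, ← hh]
    · refine ⟨A, f, hA, ?_, ?_, ?_, ?_⟩
      · rw [four_pow_eq, pow_even hodd, ← hh]; ring
      · have e : s2.set (r D) (bs (dataE A (2 ^ h) fun a x y => [f a x y])) = s2 := by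
          apply Store.set_eq_self
          rw [hs2, hs1]
          simp only [Store.set_ne _ _ (show (r D : Reg τ) ≠ r q2 by simp),
              Store.set_ne _ _ (show (r D : Reg τ) ≠ r q1 by simp),
              Store.set_ne _ _ (show (r D : Reg τ) ≠ r K by simp),
              Store.set_ne _ _ (show (r D : Reg τ) ≠ r OD by simp),
              Store.set_ne _ _ (show (r D : Reg τ) ≠ r nh by simp)]
          rw [hD, pow_even hodd, ← hh, dataE]
        rw [e]
        refine (iteW_F hW1 ?_ (sqW_nil hW1)).mono (Nat.mul_le_mul_right _ (by omega))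
        simp [Store.heads, hs2, hs1, hod, hodd, isOne_bit]
      · simp only [nextA, if_neg hodd, ← hh]
      · simp only [nextF, if_neg hodd, ← hh]
  obtain ⟨d0, hd0⟩ : ∃ d : List (Sy α), d = bs (dataE A2 (2 ^ h) fun a x y => [g a x y]) :=
    ⟨_, rfl⟩
  rw [← hd0] at z3
  obtain ⟨d1, z4, z5⟩ := hcs (s2.set (r D) d0) A2 h M g hA2 hh1 (by rw [hA2k]; exact hM)
    (by rw [Store.set_same, hd0]) (by simp [hs2]) (by simp [hs2]) (by simp [hs2, hs1, enE])
    (by simp [hs2, hs1, ene]) (by simp [hs2, hs1]) (by simp [hs2, hs1, hM1])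
    (hcl2.set (by simp) _)
  rw [Store.set_set] at z4 z5
  rw [hh, ← hWdef] at z4 z5
  rw [← hh] at z5
  rw [hnA, hnF, ← hh]
  obtain ⟨d2, hd2⟩ : ∃ d : List (Sy α), d = bs (fm (A2 * (2 ^ h * 2 ^ h)) fun z =>
    fm (2 ^ h) fun x => fm (2 ^ h) fun y => [lower (2 ^ h) g z x y]) := ⟨_, rfl⟩
  rw [← hd2] at z5 ⊢
  rw [Store.set_set] at z5
  have z6 := (run_mvF (a := (r OD : Reg τ)) (b := r LV) (by simp) (s := s2.set (r D) d2)
    (x := od) (l := []) (by simp [hs2, hs1])).mono (show 1 ≤ 1 * W by omega)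
  have e6 : (((s2.set (r D) d2).set (r OD) []).set (r LV) (od :: (s2.set (r D) d2) (r LV))) =
      ((s2.set (r D) d2).set (r OD) []).set (r LV) (od :: lv) := by
    congr 2
    simp [hs2, hs1, hLV]
  rw [e6] at z6
  obtain ⟨s6, hs6⟩ : ∃ s6, s6 = ((s2.set (r D) d2).set (r OD) []).set (r LV) (od :: lv) :=
    ⟨_, rfl⟩
  rw [← hs6] at z6
  have z7 := (run_zeroC (c := (r K : Reg τ)) (s := s6) (by simp [hs6, hs2, hs1])).mono
    (show 1 ≤ 1 * W by omega)
  have z8 := (run_addC (k := 1) (d := (r nh : Reg τ)) (c := r K) (by simp)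
    (s := s6.set (r K) (num 0)) (N := h) (m := 0) (by simp [hs6, hs2, hs1]) (by simp)).mono
    (show _ ≤ 10 * W by omega)
  rw [Store.set_set, Nat.zero_add, Nat.one_mul] at z8
  have z9 := (run_popF (a := (r K : Reg τ)) (s := s6.set (r K) (num h))).mono
    (show 1 ≤ 1 * W by omega)
  have e9 : (num h : List (Sy α)).tail = num (h - 1) := by
    obtain ⟨m, hm⟩ : ∃ m, h = m + 1 := ⟨h - 1, by omega⟩
    rw [hm]; simp [num, List.replicate_succ]
  rw [Store.set_same, Store.set_set, e9] at z9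
  obtain ⟨s9, hs9⟩ : ∃ s9, s9 = s6.set (r K) (num (h - 1)) := ⟨_, rfl⟩
  rw [← hs9] at z9
  have z10 := (run_clr (a := (r nh : Reg τ)) (s := s9)).mono
    (show _ ≤ 10 * W by simp [hs9, hs6, hs2, hs1]; omega)
  have z11 := (run_clr (a := (r q1 : Reg τ)) (s := s9.set (r nh) [])).mono
    (show _ ≤ 10 * W by simp [hs9, hs6, hs2]; omega)
  have z12 := (run_clr (a := (r q2 : Reg τ)) (s := (s9.set (r nh) []).set (r q1) [])).mono
    (show _ ≤ 10 * W by simp [hs9, hs6, hs2]; omega)
  have key := sqW_cons z1 (sqW_cons z2 (sqW_cons z3 (sqW_cons z4 (sqW_cons z5 (sqW_cons z6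
    (sqW_cons z7 (sqW_cons z8 (sqW_cons z9 (sqW_cons z10 (sqW_cons z11 (sqW_cons z12
    (sqW_nil hW1))))))))))))
  refine Runs.cast key ?_ le_rfl
  clear key z1 z2 z3 z4 z5 z6 z7 z8 z9 z10 z11 z12 hd0 hd2 hnF hnA hcs hco
  subst hs9 hs6 hs2 hs1 hod
  clear hD
  apply Store.ext'
  intro i
  simp only [Store.set]
  clear hm hA hk hM hcl hMW hh1 h4h h4A hk4 h2h hq0 hW1 hA2 hcl2
  split_ifs <;> simp_all

end

end Vale.Agent.P338
end

section

/-! One level up of the core program. -/

namespace Vale.Agent.P338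
open Reg R

section
variable {τ α : Type} [DecidableEq τ]

theorem run_upSwap (mulP : Cmd (Reg τ) (Sy α)) (T : ℕ → ℕ) (C1 : ℕ) (hm : MulSpec mulP T C1) :
    ∃ C0 : ℕ, ∀ (s : Store (Reg τ) (Sy α)) (A h M : ℕ) (g : ℕ → ℕ → ℕ → Bool),
    1 ≤ A → 1 ≤ h → 16 * (A * (2 ^ h * (2 ^ h * (2 ^ h * 2 ^ h)))) ≤ M →
    s (r D) = bs (fm (A * (2 ^ h * 2 ^ h)) fun z => fm (2 ^ h) fun y => fm (2 ^ h) fun x =>
      [lower (2 ^ h) g z x y]) →
    s (r q1) = num (2 ^ h) → s (r q2) = num (2 ^ h) → s (r nE) = [] →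
    s (r ne) = [] → s (r nh) = num h → s (r M1) = num M → Clean s →
    Runs (swap1 mulP) s (s.set (r D) (bs (fm A fun a => fm (2 ^ h * 2 ^ h) fun y =>
      fm (2 ^ h * 2 ^ h) fun x => [g a x y]))) (C0 * (min (T M) (M * h) + M)) := by
  obtain ⟨c1, hc1⟩ := run_swap1 mulP T C1 hm
  refine ⟨c1, ?_⟩
  intro s A h M g hA hh hM hD hq1 hq2 hnE hne hnh hM1 hcl
  have hq0 : 1 ≤ 2 ^ h := Nat.one_le_two_pow
  have z1 := hc1 s (A * 2 ^ h) h M (fun z i j => fm (2 ^ h) fun x0 =>
      [g (z / 2 ^ h) (i * 2 ^ h + x0) (z % 2 ^ h * 2 ^ h + j)]) (Nat.mul_pos hA hq0) hh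
    (by
      have : A * 2 ^ h * (2 ^ h * (2 ^ h * 2 ^ h)) = A * (2 ^ h * (2 ^ h * (2 ^ h * 2 ^ h))) := by
        ring
      rw [this]; exact hM)
    (by intro a i j; rw [fm_length (c := 1) (by simp), Nat.mul_one])
    (by rw [hD]; exact congrArg bs (dataN_eq A (2 ^ h) fun a x y => [g a x y]))
    hq1 hq2 hnE hne hnh hM1 hcl
  rw [data_last A (2 ^ h) fun a x y => [g a x y]] at z1
  exact z1

/-- The parameters of the next level, and the optional last step of the way up. -/
theorem up_params : ∃ co : ℕ, ∀ (A k h M W : ℕ) (f : ℕ → ℕ → ℕ → Bool) (od : Sy α), 1 ≤ A → 2 ≤ k →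
    h = k / 2 → od = .bit (decide (k % 2 = 1)) → 16 * (A * 4 ^ k) ≤ M → M ≤ W →
    ∃ (A2 : ℕ) (g : ℕ → ℕ → ℕ → Bool), 1 ≤ A2 ∧
      A2 * (2 ^ h * (2 ^ h * (2 ^ h * 2 ^ h))) = A * 4 ^ k ∧
      nextA A k = A2 * (2 ^ h * 2 ^ h) ∧ nextF k f = lower (2 ^ h) g ∧
      ∀ s7 : Store (Reg τ) (Sy α), s7 (r D) = bs (fm A2 fun a => fm (2 ^ h * 2 ^ h) fun y =>
          fm (2 ^ h * 2 ^ h) fun x => [g a x y]) → s7 (r q1) = num (2 ^ h) →
        s7 (r q2) = num (2 ^ h) → s7 (r q3) = [] → s7 (r A1) = [] → s7 (r X) = [] →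
        s7 (r C) = [] → s7 (r OD) = [od] → s7 (r K) = num (2 * h - 1) →
        Runs (.ite (fun h => isOne (h (.r .OD)))
          (sq [pushF (.r .K) .mark, mkSq (.r .A1), zeroC (.r .q3), addC 1 (.r .A1) (.r .q3),
            ilv (.r .q3), clr (.r .q3), clr (.r .A1)])
          (sq [])) s7 ((s7.set (r D) (bs (fm A fun a => fm (2 ^ k) fun y => fm (2 ^ k) fun x =>
            [f a x y]))).set (r K) (num (k - 1))) (co * W) := by
  obtain ⟨co, hco⟩ := run_oddUp (τ := τ) (α := α)
  refine ⟨co + 1 + 1, ?_⟩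
  intro A k h M W f od hA hk hh hod hM hMW
  have h4A : 4 ^ k ≤ A * 4 ^ k := Nat.le_mul_of_pos_left _ hA
  have hk4 : k ≤ 4 ^ k := (Nat.lt_pow_self (by norm_num)).le
  have hq0 : 1 ≤ 2 ^ h := Nat.one_le_two_pow
  have hW1 : 1 ≤ W := by omega
  by_cases hodd : k % 2 = 1
  · refine ⟨A * 4, split2 (2 ^ h * 2 ^ h) f, by omega, ?_, ?_, ?_, ?_⟩
    · rw [four_pow_eq, pow_odd hodd, ← hh]; ring
    · simp only [nextA, if_pos hodd, ← hh]
    · simp only [nextF, if_pos hodd, ← hh]
    · intro s7 hD7 h71 h72 h73 h7A h7X h7C h7O h7K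
      have := hco s7 A (2 ^ h) W f hA hq0 (by
          have e : A * (4 * (2 ^ h * 2 ^ h * (2 ^ h * 2 ^ h))) = A * 4 ^ k := by
            rw [four_pow_eq k, pow_odd hodd, ← hh]; ring
          omega) hD7 h71 h72 h73 h7A h7X h7C
      have e5 : (Sy.mark :: num (2 * h - 1) : List (Sy α)) = num (k - 1) := by
        have e6 : k - 1 = (2 * h - 1) + 1 := by omega
        rw [e6]; simp [num, List.replicate_succ]
      rw [h7K, e5, hh, ← pow_odd hodd] at this
      refine (iteW_T hW1 ?_ this).mono (Nat.mul_le_mul_right _ (by omega))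
      simp [Store.heads, h7O, hod, hodd, isOne_bit]
  · refine ⟨A, f, hA, ?_, ?_, ?_, ?_⟩
    · rw [four_pow_eq, pow_even hodd, ← hh]; ring
    · simp only [nextA, if_neg hodd, ← hh]
    · simp only [nextF, if_neg hodd, ← hh]
    · intro s7 hD7 h71 h72 h73 h7A h7X h7C h7O h7K
      have e : (s7.set (r D) (bs (fm A fun a => fm (2 ^ k) fun y => fm (2 ^ k) fun x =>
          [f a x y]))).set (r K) (num (k - 1)) = s7 := by
        have e7 : k - 1 = 2 * h - 1 := by omega
        have e8 : s7.set (r D) (bs (fm A fun a => fm (2 ^ k) fun y => fm (2 ^ k) fun x =>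
            [f a x y])) = s7 := Store.set_eq_self _ (by rw [hD7, pow_even hodd, ← hh])
        rw [e7, e8]
        exact Store.set_eq_self _ h7K
      rw [e]
      refine (iteW_F hW1 ?_ (sqW_nil hW1)).mono (Nat.mul_le_mul_right _ (by omega))
      simp [Store.heads, h7O, hod, hodd, isOne_bit]

theorem up_store (s : Store (Reg τ) (Sy α)) (a b d1 d2 lv od kk k' : List (Sy α))
    (h1 : s (r nh) = []) (h2 : s (r q1) = []) (h3 : s (r q2) = []) (h4 : s (r OD) = []) :
    (((((((((((((s.set (r nh) a).set (r q1) b).set (r q2) b).set (r D) d1).set (r LV) lv).set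
      (r OD) od).set (r K) kk).set (r D) d2).set (r K) k').set (r OD) []).set (r nh) []).set
      (r q1) []).set (r q2) []) = ((s.set (r D) d2).set (r LV) lv).set (r K) k' := by
  apply Store.ext'
  intro i
  simp only [Store.set]
  split_ifs <;> simp_all

theorem run_upBody (mulP : Cmd (Reg τ) (Sy α)) (T : ℕ → ℕ) (C1 : ℕ) (hm : MulSpec mulP T C1) :
    ∃ C0 : ℕ, ∀ (s : Store (Reg τ) (Sy α)) (A k M : ℕ) (f : ℕ → ℕ → ℕ → Bool)
      (lv : List (Sy α)), 1 ≤ A → 2 ≤ k → 16 * (A * 4 ^ k) ≤ M →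
    s (r D) = bs (fm (nextA A k) fun z => fm (2 ^ (k / 2)) fun y => fm (2 ^ (k / 2)) fun x =>
      [nextF k f z x y]) →
    s (r K) = num (k / 2 - 1) → s (r M1) = num M →
    s (r LV) = .bit (decide (k % 2 = 1)) :: lv →
    (∀ x ∈ [q1, q2, q3, nE, ne, nh, OD], s (r x) = []) → Clean s →
    Runs (upBody mulP) s
      (((s.set (r D) (bs (fm A fun a => fm (2 ^ k) fun y => fm (2 ^ k) fun x =>
        [f a x y]))).set (r LV) lv).set (r K) (num (k - 1)))
      (C0 * (min (T M) (M * (k / 2)) + M)) := by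
  obtain ⟨cs, hcs⟩ := run_upSwap mulP T C1 hm
  obtain ⟨co, hco⟩ := up_params (τ := τ) (α := α)
  refine ⟨1 + (10 + (1 + (60 + (cs + (1 + (40 + (1 + (co + (10 + (10 + (10 + (10 +
    1)))))))))))), ?_⟩
  intro s A k M f lv hA hk hM hD hK hM1 hLV hemp hcl
  obtain ⟨W, hWdef⟩ : ∃ W, W = min (T M) (M * (k / 2)) + M := ⟨_, rfl⟩
  rw [← hWdef]
  have hMW : M ≤ W := by omega
  obtain ⟨h, hh⟩ : ∃ h, h = k / 2 := ⟨_, rfl⟩
  have hh1 : 1 ≤ h := by omega
  have h4h : 4 ^ h ≤ 4 ^ k := Nat.pow_le_pow_right (by norm_num) (by omega)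
  have h4A : 4 ^ k ≤ A * 4 ^ k := Nat.le_mul_of_pos_left _ hA
  have hk4 : k ≤ 4 ^ k := (Nat.lt_pow_self (by norm_num)).le
  have h2h : 2 ^ h ≤ 4 ^ h := Nat.pow_le_pow_left (by norm_num) h
  have hq0 : 1 ≤ 2 ^ h := Nat.one_le_two_pow
  have hW1 : 1 ≤ W := by omega
  have eq1 : s (r q1) = [] := hemp q1 (by simp)
  have eq2 : s (r q2) = [] := hemp q2 (by simp)
  have eq3 : s (r q3) = [] := hemp q3 (by simp)
  have enE : s (r nE) = [] := hemp nE (by simp)
  have ene : s (r ne) = [] := hemp ne (by simp)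
  have enh : s (r nh) = [] := hemp nh (by simp)
  have eOD : s (r OD) = [] := hemp OD (by simp)
  have eA3 : s (r A3) = [] := hcl.1 A3 (by simp)
  have eA1 : s (r A1) = [] := hcl.1 A1 (by simp)
  have eX : s (r X) = [] := hcl.1 X (by simp)
  have eC : s (r C) = [] := hcl.1 C (by simp)
  obtain ⟨od, hod⟩ : ∃ od : Sy α, od = .bit (decide (k % 2 = 1)) := ⟨_, rfl⟩
  rw [← hod] at hLV
  rw [← hh] at hK hD
  -- nh := h
  have z1 := (run_zeroC (c := (r nh : Reg τ)) (s := s) enh).mono (show 1 ≤ 1 * W by omega)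
  have z2 := (run_addC (k := 1) (d := (r K : Reg τ)) (c := r nh) (by simp)
    (s := s.set (r nh) (num 0)) (N := h - 1) (m := 0) (by simp [hK]) (by simp)).mono
    (show _ ≤ 10 * W by omega)
  rw [Store.set_set, Nat.zero_add, Nat.one_mul] at z2
  have z3 := (run_pushF (b := (r nh : Reg τ)) (s := s.set (r nh) (num (h - 1)))
    (.mark : Sy α)).mono (show 1 ≤ 1 * W by omega)
  have e3 : (Sy.mark :: num (h - 1) : List (Sy α)) = num h := by
    obtain ⟨m, hm⟩ : ∃ m, h = m + 1 := ⟨h - 1, by omega⟩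
    rw [hm]; simp [num, List.replicate_succ]
  rw [Store.set_same, Store.set_set, e3] at z3
  obtain ⟨s1, hs1⟩ : ∃ s1, s1 = s.set (r nh) (num h) := ⟨_, rfl⟩
  rw [← hs1] at z3
  have z4 := run_mkQ (s := s1) (h := h) (W := W) (by simp [hs1]) (by simp [hs1, eq1])
    (by simp [hs1, eq2]) (by simp [hs1, eA3]) (by omega)
  obtain ⟨s2, hs2⟩ : ∃ s2, s2 = (s1.set (r q1) (num (2 ^ h))).set (r q2) (num (2 ^ h)) := ⟨_, rfl⟩
  rw [← hs2] at z4
  have hcl2 : Clean s2 := by
    rw [hs2, hs1]
    exact ((hcl.set (by simp) _).set (by simp) _).set (by simp) _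
  obtain ⟨A2, g, hA2, hA2k, hnA, hnF, hend⟩ := hco A k h M W f od hA hk hh hod hM hMW
  rw [hnA, hnF] at hD
  have z5 := hcs s2 A2 h M g hA2 hh1 (by rw [hA2k]; exact hM)
    (by rw [← hD, hs2, hs1]; simp) (by simp [hs2]) (by simp [hs2]) (by simp [hs2, hs1, enE])
    (by simp [hs2, hs1, ene]) (by simp [hs2, hs1]) (by simp [hs2, hs1, hM1]) hcl2
  rw [hh, ← hWdef] at z5
  rw [← hh] at z5
  obtain ⟨d1, hd1⟩ : ∃ d : List (Sy α), d = bs (fm A2 fun a => fm (2 ^ h * 2 ^ h) fun y =>
      fm (2 ^ h * 2 ^ h) fun x => [g a x y]) := ⟨_, rfl⟩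
  rw [← hd1] at z5 hend
  obtain ⟨s3, hs3⟩ : ∃ s3, s3 = s2.set (r D) d1 := ⟨_, rfl⟩
  rw [← hs3] at z5
  have z6 := (run_mvF (a := (r LV : Reg τ)) (b := r OD) (by simp) (s := s3)
    (x := od) (l := lv) (by simp [hs3, hs2, hs1, hLV])).mono (show 1 ≤ 1 * W by omega)
  have e6 : s3 (r OD) = [] := by simp [hs3, hs2, hs1, eOD]
  rw [e6] at z6
  obtain ⟨s4, hs4⟩ : ∃ s4, s4 = (s3.set (r LV) lv).set (r OD) [od] := ⟨_, rfl⟩
  rw [← hs4] at z6
  have z7 := (run_dblC (a := (r K : Reg τ)) (b := r A3) (by simp) (s := s4) (N := h - 1)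
    (by simp [hs4, hs3, hs2, hs1, hK]) (by simp [hs4, hs3, hs2, hs1, eA3])).mono
    (show _ ≤ 40 * W by omega)
  have z8 := (run_pushF (b := (r K : Reg τ)) (s := s4.set (r K) (num (2 * (h - 1))))
    (.mark : Sy α)).mono (show 1 ≤ 1 * W by omega)
  have e8 : (Sy.mark :: num (2 * (h - 1)) : List (Sy α)) = num (2 * h - 1) := by
    have e6 : 2 * h - 1 = 2 * (h - 1) + 1 := by omega
    rw [e6]; simp [num, List.replicate_succ]
  rw [Store.set_same, Store.set_set, e8] at z8
  obtain ⟨s5, hs5⟩ : ∃ s5, s5 = s4.set (r K) (num (2 * h - 1)) := ⟨_, rfl⟩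
  rw [← hs5] at z8
  obtain ⟨d2, hd2⟩ : ∃ d : List (Sy α), d = bs (fm A fun a => fm (2 ^ k) fun y =>
      fm (2 ^ k) fun x => [f a x y]) := ⟨_, rfl⟩
  rw [← hd2] at hend ⊢
  have z9 := hend s5 (by simp [hs5, hs4, hs3]) (by simp [hs5, hs4, hs3, hs2])
    (by simp [hs5, hs4, hs3, hs2]) (by simp [hs5, hs4, hs3, hs2, hs1, eq3])
    (by simp [hs5, hs4, hs3, hs2, hs1, eA1]) (by simp [hs5, hs4, hs3, hs2, hs1, eX])
    (by simp [hs5, hs4, hs3, hs2, hs1, eC]) (by simp [hs5, hs4]) (by simp [hs5])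
  obtain ⟨s6, hs6⟩ : ∃ s6, s6 = (s5.set (r D) d2).set (r K) (num (k - 1)) := ⟨_, rfl⟩
  rw [← hs6] at z9
  have z10 := (run_clr (a := (r OD : Reg τ)) (s := s6)).mono
    (show _ ≤ 10 * W by simp [hs6, hs5, hs4]; omega)
  have z11 := (run_clr (a := (r nh : Reg τ)) (s := s6.set (r OD) [])).mono
    (show _ ≤ 10 * W by simp [hs6, hs5, hs4, hs3, hs2, hs1]; omega)
  have z12 := (run_clr (a := (r q1 : Reg τ)) (s := (s6.set (r OD) []).set (r nh) [])).mono
    (show _ ≤ 10 * W by simp [hs6, hs5, hs4, hs3, hs2, hs1]; omega)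
  have z13 := (run_clr (a := (r q2 : Reg τ))
    (s := ((s6.set (r OD) []).set (r nh) []).set (r q1) [])).mono
    (show _ ≤ 10 * W by simp [hs6, hs5, hs4, hs3, hs2, hs1]; omega)
  have key := sqW_cons z1 (sqW_cons z2 (sqW_cons z3 (sqW_cons z4 (sqW_cons z5 (sqW_cons z6
    (sqW_cons z7 (sqW_cons z8 (sqW_cons z9 (sqW_cons z10 (sqW_cons z11 (sqW_cons z12
    (sqW_cons z13 (sqW_nil hW1)))))))))))))
  refine Runs.cast key ?_ le_rfl
  rw [hs6, hs5, hs4, hs3, hs2, hs1]
  exact up_store s _ _ _ _ _ _ _ _ enh eq1 eq2 eOD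

end

end Vale.Agent.P338
end

section

/-! From a correct program with a cost bound to a Turing machine with a time bound. -/

namespace Vale.Agent.P338
open Reg R

instance : Finite R := by
  have e : Function.Injective (fun x : R => (x.ctorIdx : ℕ)) := by
    intro x y h
    cases x <;> cases y <;> first | rfl | (exact absurd h (by decide))
  have hb : ∀ x : R, x.ctorIdx < 100 := by
    intro x; cases x <;> decide
  exact Finite.of_injective (fun x : R => (⟨x.ctorIdx, hb x⟩ : Fin 100)) (by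
    intro x y h
    apply e
    simpa using h)

instance {τ : Type} [Finite τ] : Finite (Reg τ) := by
  have e : Function.Injective (fun x : Reg τ => match x with
    | .r x => (Sum.inl x : R ⊕ (τ ⊕ τ))
    | .tl i => .inr (.inl i)
    | .tr i => .inr (.inr i)) := by
    intro x y h
    cases x <;> cases y <;> simp_all
  exact Finite.of_injective _ e

/-- The running time on an input is at most any number of steps after which the machine halts. -/
theorem Machine.time_le {M : Machine} {w : List Sym} {t : ℕ} {o : List Bool}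
    (h : M.HaltsWith w t o) : M.time w ≤ t := by
  obtain ⟨c, h1, h2, _⟩ := h
  exact Nat.sInf_le ⟨c, h1, h2⟩


theorem rowMajor_length {r c : ℕ} (M : Matrix (Fin r) (Fin c) Bool) :
    (rowMajor M).length = r * c := by
  simp [rowMajor, List.length_flatten, List.map_ofFn, Function.comp_def]

/-- A program that computes `outp x` from `inw x` at cost at most a constant times `G x`, for all
`x` in some family, gives a machine that does so in time at most a constant times
`G x + |inw x| + 1`. -/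
theorem exists_machine {τ α : Type} [DecidableEq τ] [Finite τ] [Finite α]
    (prog : Cmd (Reg τ) (Sy α)) {I : Type} (inw : I → List Sym) (outp : I → List Bool)
    (G : I → ℕ)
    (h : ∃ C0 : ℕ, ∀ x : I, ∃ s' : Store (Reg τ) (Sy α), s' (r out) = bs (outp x) ∧
      Runs prog (Store.set (fun _ => []) (r inp) ((inw x).map Sym.toSy)) s' (C0 * G x)) :
    ∃ (B : Machine) (C : ℕ), ∀ x : I, ∃ t ≤ C * (G x + (inw x).length + 1),
      B.HaltsWith (inw x) t (outp x) ∧ B.time (inw x) ≤ t := by
  obtain ⟨C0, h⟩ := h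
  obtain ⟨B, C, hB⟩ := compile prog (r inp) (r out)
  refine ⟨B, C * (C0 + 1), fun x => ?_⟩
  obtain ⟨s', h1, h2⟩ := h x
  obtain ⟨t, ht, h3⟩ := hB (inw x) s' _ (outp x) h2 h1
  refine ⟨t, ht.trans ?_, h3, Machine.time_le h3⟩
  rw [mul_assoc]
  apply Nat.mul_le_mul_left
  have : (C0 + 1) * (G x + (inw x).length + 1) =
      C0 * G x + C0 * ((inw x).length + 1) + (G x + (inw x).length + 1) := by ring
  rw [this]
  omega

/-- A program that transposes square matrices at cost at most a constant times `G n` gives a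
machine that transposes in time at most a constant times `G n + n²`. -/
theorem exists_transposer {τ α : Type} [DecidableEq τ] [Finite τ] [Finite α]
    (prog : Cmd (Reg τ) (Sy α)) (G : ℕ → ℕ)
    (h : ∃ C0 : ℕ, ∀ n : ℕ, 1 ≤ n → ∀ M : Matrix (Fin n) (Fin n) Bool,
      ∃ s' : Store (Reg τ) (Sy α), s' (r out) = bs (rowMajor M.transpose) ∧
      Runs prog (Store.set (fun _ => []) (r inp) (bs (rowMajor M))) s' (C0 * G n)) :
    ∃ B : Machine, B.Transposes ∧ ∃ C : ℕ, ∀ n : ℕ, 1 ≤ n →
      B.transTime n ≤ C * (G n + n ^ 2) := by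
  obtain ⟨C0, h⟩ := h
  obtain ⟨B, C, hB⟩ := compile_bits prog (r inp) (r out)
  have key : ∀ n : ℕ, 1 ≤ n → ∀ M : Matrix (Fin n) (Fin n) Bool,
      ∃ t ≤ C * (C0 + 2) * (G n + n ^ 2),
        B.HaltsWith ((rowMajor M).map .bit) t (rowMajor M.transpose) := by
    intro n hn M
    obtain ⟨s', h1, h2⟩ := h n hn M
    obtain ⟨t, ht, h3⟩ := hB (rowMajor M) s' _ (rowMajor M.transpose) h2 h1
    refine ⟨t, ht.trans ?_, h3⟩
    rw [rowMajor_length, mul_assoc]
    apply Nat.mul_le_mul_left
    have hn2 : 1 ≤ n ^ 2 := Nat.one_le_pow _ _ (by omega)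
    calc C0 * G n + n * n + 1 ≤ C0 * G n + n ^ 2 + n ^ 2 := by rw [← pow_two]; omega
      _ ≤ C0 * (G n + n ^ 2) + 2 * (G n + n ^ 2) := by
          have : C0 * G n ≤ C0 * (G n + n ^ 2) := Nat.mul_le_mul_left _ (by omega)
          omega
      _ = (C0 + 2) * (G n + n ^ 2) := by ring
  refine ⟨B, ?_, C * (C0 + 2), fun n hn => ?_⟩
  · intro n hn M
    obtain ⟨t, _, ht⟩ := key n hn M
    exact ⟨t, ht⟩
  · rw [Machine.transTime]
    apply Finset.sup_le
    intro M _
    obtain ⟨t, ht, h3⟩ := key n hn M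
    exact (Machine.time_le h3).trans ht

theorem min_mul_le (a T m : ℕ) (ha : 1 ≤ a) : min T (a * m) ≤ a * min T m := by
  rcases le_total T m with h | h
  · rw [min_eq_left h]
    calc min T (a * m) ≤ T := min_le_left _ _
      _ ≤ a * T := Nat.le_mul_of_pos_left _ ha
  · rw [min_eq_right h]; exact min_le_right _ _

/-- Comparison of the cost of the core with `costBound`. -/
theorem core_cost_le (T n m : ℕ) (hm : 1 ≤ m) :
    (∑ i ∈ Finset.range (Nat.log 2 (max 1 (Nat.clog 2 n))),
        min T (m * n ^ 2 * (max 1 (Nat.clog 2 n) / 2 ^ (i + 1)))) +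
      m * n ^ 2 * (Nat.log 2 (max 1 (Nat.clog 2 n)) + 1) + n ^ 2 ≤ 2 * m * costBound T n := by
  have hn4 : n ^ 2 ≤ 4 ^ Nat.clog 2 n := by
    calc n ^ 2 ≤ (2 ^ Nat.clog 2 n) ^ 2 :=
          Nat.pow_le_pow_left (Nat.le_pow_clog (by norm_num) n) 2
      _ = 4 ^ Nat.clog 2 n := by rw [← pow_mul, mul_comm, pow_mul]; norm_num
  have hlog : Nat.log 2 (max 1 (Nat.clog 2 n)) = Nat.log 2 (Nat.clog 2 n) := by
    rcases Nat.eq_zero_or_pos (Nat.clog 2 n) with h | h
    · rw [h]; simp
    · rw [max_eq_right h]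
  rw [hlog]
  set k := Nat.clog 2 n with hk
  set l := Nat.log 2 k with hl
  have h1 : (∑ i ∈ Finset.range l, min T (m * n ^ 2 * (max 1 k / 2 ^ (i + 1)))) ≤
      m * ∑ i ∈ Finset.range (l + 1), min T (4 ^ k * (k / 2 ^ i + 1)) := by
    rw [Finset.mul_sum]
    rw [Finset.sum_range_succ]
    refine le_trans (Finset.sum_le_sum fun i hi => ?_) (Nat.le_add_right _ _)
    refine le_trans ?_ (min_mul_le m T _ hm)
    apply min_le_min_left
    rw [mul_assoc]
    apply Nat.mul_le_mul_left
    apply Nat.mul_le_mul hn4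
    have h2 : max 1 k ≤ k + 1 := by omega
    calc max 1 k / 2 ^ (i + 1) ≤ (k + 1) / 2 ^ (i + 1) := Nat.div_le_div_right h2
      _ ≤ k / 2 ^ (i + 1) + 1 := by
          rw [Nat.div_le_iff_le_mul_add_pred (by positivity)]
          have h3 := Nat.div_add_mod k (2 ^ (i + 1))
          have h4 := Nat.mod_lt k (show 0 < 2 ^ (i + 1) by positivity)
          have h5 : 1 ≤ 2 ^ (i + 1) := Nat.one_le_two_pow
          rw [Nat.mul_add]
          omega
      _ ≤ k / 2 ^ i + 1 := by
          have : k / 2 ^ (i + 1) ≤ k / 2 ^ i :=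
            Nat.div_le_div_left (Nat.pow_le_pow_right (by norm_num) (by omega)) (by positivity)
          omega
  have h2 : m * n ^ 2 * (l + 1) ≤ m * (4 ^ k * (l + 1)) := by
    rw [mul_assoc]
    exact Nat.mul_le_mul_left _ (Nat.mul_le_mul_right _ hn4)
  have h3 : n ^ 2 ≤ m * (4 ^ k * (l + 1)) := by
    calc n ^ 2 ≤ 4 ^ k := hn4
      _ ≤ 4 ^ k * (l + 1) := Nat.le_mul_of_pos_right _ (by omega)
      _ ≤ m * (4 ^ k * (l + 1)) := Nat.le_mul_of_pos_left _ hm
  have h4 : costBound T n = (∑ i ∈ Finset.range (l + 1), min T (4 ^ k * (k / 2 ^ i + 1))) +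
      4 ^ k * (l + 1) := rfl
  rw [h4]
  calc _ ≤ m * (∑ i ∈ Finset.range (l + 1), min T (4 ^ k * (k / 2 ^ i + 1))) +
        m * (4 ^ k * (l + 1)) + m * (4 ^ k * (l + 1)) := by omega
    _ ≤ _ := by
        have : 2 * m * ((∑ i ∈ Finset.range (l + 1), min T (4 ^ k * (k / 2 ^ i + 1))) +
          4 ^ k * (l + 1)) = m * (∑ i ∈ Finset.range (l + 1), min T (4 ^ k * (k / 2 ^ i + 1))) +
          m * (∑ i ∈ Finset.range (l + 1), min T (4 ^ k * (k / 2 ^ i + 1))) +
          (m * (4 ^ k * (l + 1)) + m * (4 ^ k * (l + 1))) := by ring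
        rw [this]
        omega

/-- The cost function of the first core. -/
def coreCost (T : ℕ → ℕ) (k M : ℕ) : ℕ :=
  (∑ i ∈ Finset.range (Nat.log 2 k), min (T M) (M * (k / 2 ^ (i + 1)))) +
    M * (Nat.log 2 k + 1)

/-- From the program to the machine, with the explicit time bound. -/
theorem exists_transposer_of_core {τ α : Type} [DecidableEq τ] [Finite τ] [Finite α]
    (prog : Cmd (Reg τ) (Sy α)) (T : ℕ → ℕ) (m : ℕ) (hm : 1 ≤ m)
    (h : ∃ C0 : ℕ, ∀ n : ℕ, 1 ≤ n → ∀ M : Matrix (Fin n) (Fin n) Bool,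
      ∃ s' : Store (Reg τ) (Sy α), s' (r out) = bs (rowMajor M.transpose) ∧
      Runs prog (Store.set (fun _ => []) (r inp) (bs (rowMajor M))) s'
        (C0 * (coreCost T (max 1 (Nat.clog 2 n)) (m * n ^ 2) + n ^ 2))) :
    ∃ B : Machine, B.Transposes ∧ ∃ C : ℕ, ∀ n : ℕ, 1 ≤ n →
      B.transTime n ≤ C * costBound (T (m * n ^ 2)) n := by
  obtain ⟨B, hB, C, hC⟩ := exists_transposer prog
    (fun n => coreCost T (max 1 (Nat.clog 2 n)) (m * n ^ 2) + n ^ 2) h
  refine ⟨B, hB, C * (4 * m), fun n hn => (hC n hn).trans ?_⟩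
  rw [mul_assoc]
  apply Nat.mul_le_mul_left
  have h1 := core_cost_le (T (m * n ^ 2)) n m hm
  have h2 : coreCost T (max 1 (Nat.clog 2 n)) (m * n ^ 2) + n ^ 2 ≤
      2 * m * costBound (T (m * n ^ 2)) n := h1
  have h3 : 4 * m * costBound (T (m * n ^ 2)) n = 2 * m * costBound (T (m * n ^ 2)) n +
      2 * m * costBound (T (m * n ^ 2)) n := by ring
  omega

/-- If every transposing machine needs time `c n² log n`, and there is a transposing machine whose
time is bounded by `costBound (f (m n²)) n`, then `f (m n²) ≥ c' n² log n`. -/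
theorem lower_bound_of_transposer (T : ℕ → ℕ) (m : ℕ)
    (hyp : ∀ B : Machine, B.Transposes → ∃ c : ℝ, 0 < c ∧ ∃ N : ℕ, ∀ n : ℕ, N ≤ n →
      c * ((n : ℝ) ^ 2 * Real.log n) ≤ B.transTime n)
    (h : ∃ B : Machine, B.Transposes ∧ ∃ C : ℕ, ∀ n : ℕ, 1 ≤ n →
      B.transTime n ≤ C * costBound (T (m * n ^ 2)) n) :
    ∃ c : ℝ, 0 < c ∧ ∃ N : ℕ, ∀ n : ℕ, N ≤ n →
      c * ((n : ℝ) ^ 2 * Real.log n) ≤ T (m * n ^ 2) := by
  obtain ⟨B, hB, C, hC⟩ := h
  obtain ⟨c, hc, N, hN⟩ := hyp B hB
  exact lower_of_costBound (fun n => T (m * n ^ 2)) B.transTime C hC c hc N hN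

/-- From the bound at the numbers `m n²` to a bound at the largest of these numbers below `n`. -/
theorem sqrt_lower_bound (T : ℕ → ℕ) (m : ℕ) (hm : 1 ≤ m)
    (h : ∃ c : ℝ, 0 < c ∧ ∃ N : ℕ, ∀ n : ℕ, N ≤ n →
      c * ((n : ℝ) ^ 2 * Real.log n) ≤ T (m * n ^ 2)) :
    ∃ c : ℝ, 0 < c ∧ ∃ N : ℕ, ∀ n : ℕ, N ≤ n →
      m * Nat.sqrt (n / m) ^ 2 ≤ n ∧
        c * ((n : ℝ) * Real.log n) ≤ T (m * Nat.sqrt (n / m) ^ 2) := by
  obtain ⟨c, hc, N, hN⟩ := h
  refine ⟨c / (16 * m), by positivity, max (m * (N + 2) ^ 2) (16 * m ^ 2), fun n hn => ?_⟩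
  have hn1 : m * (N + 2) ^ 2 ≤ n := le_trans (le_max_left _ _) hn
  have hn2 : 16 * m ^ 2 ≤ n := le_trans (le_max_right _ _) hn
  set s := Nat.sqrt (n / m) with hs
  have hs1 : s * s ≤ n / m := Nat.sqrt_le _
  have hs2 : n / m < (s + 1) * (s + 1) := Nat.lt_succ_sqrt _
  have hsN : N + 2 ≤ s := by
    rw [hs, Nat.le_sqrt]
    rw [Nat.le_div_iff_mul_le hm]
    calc (N + 2) * (N + 2) * m = m * (N + 2) ^ 2 := by ring
      _ ≤ n := hn1
  refine ⟨?_, ?_⟩
  · calc m * s ^ 2 = s * s * m := by ring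
      _ ≤ n / m * m := Nat.mul_le_mul_right _ hs1
      _ ≤ n := Nat.div_mul_le_self _ _
  · refine le_trans ?_ (hN s (by omega))
    -- n < m (s+1)^2 ≤ 4 m s^2
    have h1 : n ≤ 4 * m * s ^ 2 := by
      have h3 : n < m * ((s + 1) * (s + 1)) := by
        rw [Nat.div_lt_iff_lt_mul hm] at hs2
        rw [mul_comm]; exact hs2
      have h4 : (s + 1) * (s + 1) ≤ 4 * s ^ 2 := by
        have : s + 1 ≤ 2 * s := by omega
        calc (s + 1) * (s + 1) ≤ (2 * s) * (2 * s) := Nat.mul_le_mul this this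
          _ = 4 * s ^ 2 := by ring
      calc n ≤ m * ((s + 1) * (s + 1)) := h3.le
        _ ≤ m * (4 * s ^ 2) := Nat.mul_le_mul_left _ h4
        _ = 4 * m * s ^ 2 := by ring
    have h1R : (n : ℝ) ≤ 4 * m * (s : ℝ) ^ 2 := by exact_mod_cast h1
    have hn0 : (0 : ℝ) < n := by
      have : 0 < n := lt_of_lt_of_le (by positivity) hn2
      exact_mod_cast this
    have hm0 : (0 : ℝ) < m := by exact_mod_cast hm
    have hs0 : (0 : ℝ) < s := by
      have : 0 < s := by omega
      exact_mod_cast this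
    -- log n ≤ 4 log s
    have hlog : Real.log n ≤ 4 * Real.log s := by
      have h5 : n ≤ s ^ 4 := by
        -- n ≤ 4 m s^2 and 4 m ≤ s^2
        have h6 : 4 * m ≤ s ^ 2 := by
          -- 16 m^2 ≤ n ≤ 4 m s^2
          have h7 : 4 * m * (4 * m) ≤ 4 * m * s ^ 2 := by
            calc 4 * m * (4 * m) = 16 * m ^ 2 := by ring
              _ ≤ n := hn2
              _ ≤ 4 * m * s ^ 2 := h1
          exact Nat.le_of_mul_le_mul_left h7 (by positivity)
        calc n ≤ 4 * m * s ^ 2 := h1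
          _ ≤ s ^ 2 * s ^ 2 := Nat.mul_le_mul_right _ h6
          _ = s ^ 4 := by ring
      have h5R : (n : ℝ) ≤ (s : ℝ) ^ 4 := by exact_mod_cast h5
      have := Real.log_le_log hn0 h5R
      rwa [Real.log_pow] at this
    have hlogs : 0 ≤ Real.log s := Real.log_nonneg (by
      have : 1 ≤ s := by omega
      exact_mod_cast this)
    calc c / (16 * m) * ((n : ℝ) * Real.log n)
        ≤ c / (16 * m) * ((4 * m * (s : ℝ) ^ 2) * (4 * Real.log s)) := by
          apply mul_le_mul_of_nonneg_left _ (by positivity)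
          apply mul_le_mul h1R hlog _ (by positivity)
          apply Real.log_natCast_nonneg
      _ = c * ((s : ℝ) ^ 2 * Real.log s) := by field_simp; ring

/-- From the bound at the numbers `64 n²` to a bound at some number in every short interval. -/
theorem window_lower_bound (T : ℕ → ℕ)
    (h : ∃ c : ℝ, 0 < c ∧ ∃ N : ℕ, ∀ n : ℕ, N ≤ n →
      c * ((n : ℝ) ^ 2 * Real.log n) ≤ T (64 * n ^ 2)) :
    ∃ c : ℝ, 0 < c ∧ ∃ N : ℕ, ∀ n : ℕ, N ≤ n →
      ∃ l, l ≤ n ∧ (n : ℝ) ≤ l + 17 * Real.sqrt n ∧ c * ((n : ℝ) * Real.log n) ≤ T l := by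
  obtain ⟨c, hc, N, hN⟩ := sqrt_lower_bound T 64 (by norm_num) h
  refine ⟨c, hc, max N (64 ^ 2), fun n hn => ?_⟩
  obtain ⟨h1, h2⟩ := hN n (le_trans (le_max_left _ _) hn)
  have hn2 : 64 ^ 2 ≤ n := le_trans (le_max_right _ _) hn
  refine ⟨_, h1, ?_, h2⟩
  set s := Nat.sqrt (n / 64) with hs
  have hs2 : n / 64 < (s + 1) * (s + 1) := Nat.lt_succ_sqrt _
  have h3 : n < 64 * ((s + 1) * (s + 1)) := by
    rw [Nat.div_lt_iff_lt_mul (by norm_num)] at hs2
    rw [mul_comm]; exact hs2
  have h3R : (n : ℝ) ≤ 64 * (((s : ℝ) + 1) * (s + 1)) := by exact_mod_cast h3.le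
  have h1R : 64 * (s : ℝ) ^ 2 ≤ n := by exact_mod_cast h1
  have hsq : Real.sqrt n * Real.sqrt n = n := Real.mul_self_sqrt (Nat.cast_nonneg _)
  have h8 : 8 * (s : ℝ) ≤ Real.sqrt n := by
    apply Real.le_sqrt_of_sq_le
    nlinarith
  have h64 : (64 : ℝ) ≤ Real.sqrt n := by
    apply Real.le_sqrt_of_sq_le
    exact_mod_cast hn2
  push_cast
  nlinarith

end Vale.Agent.P338
end

section

/-! The recursion of the core program. -/

namespace Vale.Agent.P338
open Reg R

theorem coreCost_step (T : ℕ → ℕ) (k M : ℕ) (hk : 2 ≤ k) :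
    coreCost T k M = (min (T M) (M * (k / 2)) + M) + coreCost T (k / 2) M := by
  have hl : Nat.log 2 k = Nat.log 2 (k / 2) + 1 := by
    rw [Nat.log_of_one_lt_of_le (by norm_num) hk]
  unfold coreCost
  rw [hl, Finset.sum_range_succ']
  have : ∀ i, k / 2 ^ (i + 1 + 1) = k / 2 / 2 ^ (i + 1) := by
    intro i
    rw [pow_succ' 2 (i + 1), Nat.div_div_eq_div_mul]
  simp only [this, zero_add, pow_one]
  ring

theorem core_cost_arith {C0 c W Y : ℕ} (h : c + 1 ≤ C0) (hW : 1 ≤ W) :
    c * W + C0 * Y + 1 ≤ C0 * (W + Y) := by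
  have h1 : (c + 1) * W ≤ C0 * W := Nat.mul_le_mul_right _ h
  rw [Nat.add_mul, Nat.one_mul] at h1
  rw [Nat.mul_add]
  omega

section
variable {τ α : Type} [DecidableEq τ]

theorem clean_set3 {s : Store (Reg τ) (Sy α)} (hcl : Clean s) (a b c : List (Sy α)) :
    Clean (((s.set (r D) a).set (r LV) b).set (r K) c) := by
  have h1 := hcl.set (x := D) (by simp) a
  have h2 := h1.set (x := LV) (by simp) b
  exact h2.set (x := K) (by simp) c

theorem emp_set3 {s : Store (Reg τ) (Sy α)}
    (hemp : ∀ x ∈ [q1, q2, q3, nE, ne, nh, OD], s (r x) = []) (a b c : List (Sy α)) :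
    ∀ x ∈ [q1, q2, q3, nE, ne, nh, OD],
      (((s.set (r D) a).set (r LV) b).set (r K) c) (r x) = [] := by
  intro x hx
  have := hemp x hx
  simp only [List.mem_cons, List.not_mem_nil, or_false] at hx
  rcases hx with rfl | rfl | rfl | rfl | rfl | rfl | rfl <;> simpa using this

theorem st3 (s : Store (Reg τ) (Sy α)) (a a' b c : List (Sy α)) :
    (((s.set (r D) a).set (r LV) b).set (r K) c) =
      ((((s.set (r D) a').set (r LV) b).set (r K) c)).set (r D) a := by
  apply Store.ext'
  intro i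
  simp only [Store.set]
  split_ifs <;> simp_all

theorem st4 (s : Store (Reg τ) (Sy α)) (a b c d lv kk : List (Sy α)) (hLV : s (r LV) = lv)
    (hK : s (r K) = kk) :
    ((((((s.set (r D) a).set (r LV) b).set (r K) c).set (r D) d).set (r LV) lv).set (r K) kk) =
      s.set (r D) d := by
  subst hLV hK
  apply Store.ext'
  intro i
  simp only [Store.set]
  split_ifs <;> simp_all

theorem st5 (s : Store (Reg τ) (Sy α)) (a c : List (Sy α)) (x : Sy α) (b : List (Sy α)) :
    (((((s.set (r D) a).set (r LV) (x :: b)).set (r K) c).heads) (r LV)).isSome = true := by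
  simp [Store.heads]

theorem core_induction (mulP : Cmd (Reg τ) (Sy α)) (T : ℕ → ℕ) (C1 : ℕ)
    (hm : MulSpec mulP T C1) :
    ∃ C0 : ℕ, ∀ (k : ℕ) (s : Store (Reg τ) (Sy α)) (A M : ℕ) (f : ℕ → ℕ → ℕ → Bool)
      (lv : List (Sy α)), 1 ≤ k → 1 ≤ A → 16 * (A * 4 ^ k) ≤ M →
    s (r D) = bs (fm A fun a => fm (2 ^ k) fun x => fm (2 ^ k) fun y => [f a x y]) →
    s (r K) = num (k - 1) → s (r M1) = num M → s (r LV) = lv →
    (∀ x ∈ [q1, q2, q3, nE, ne, nh, OD], s (r x) = []) → Clean s →
    ∃ s1 s2 : Store (Reg τ) (Sy α),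
      Runs (.loop (fun h => isMark (h (.r .K))) (downBody mulP)) s s1 (C0 * coreCost T k M) ∧
      Runs midP s1 s2 (C0 * M) ∧
      ∀ (U : ℕ) (s5 : Store (Reg τ) (Sy α)),
        Runs (.loop (fun h => (h (.r .LV)).isSome) (upBody mulP))
          (s.set (r D) (bs (fm A fun a => fm (2 ^ k) fun y => fm (2 ^ k) fun x => [f a x y])))
          s5 U →
        Runs (.loop (fun h => (h (.r .LV)).isSome) (upBody mulP)) s2 s5
          (U + C0 * coreCost T k M) := by
  obtain ⟨cd, hcd⟩ := run_downBody mulP T C1 hm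
  obtain ⟨cu, hcu⟩ := run_upBody mulP T C1 hm
  obtain ⟨cm, hcm⟩ := run_midP (τ := τ) (α := α)
  refine ⟨cd + cu + cm + 1, ?_⟩
  obtain ⟨C0, hC0⟩ : ∃ C0, C0 = cd + cu + cm + 1 := ⟨_, rfl⟩
  rw [← hC0]
  intro k
  induction k using Nat.strong_induction_on with
  | _ k ih =>
  intro s A M f lv hk hA hM hD hK hM1 hLV hemp hcl
  have hM1' : 1 ≤ M := by
    have : 1 ≤ A * 4 ^ k := Nat.mul_pos hA (by positivity)
    omega
  by_cases hk1 : k = 1
  · subst hk1
    have hcost : coreCost T 1 M = M := by simp [coreCost]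
    rw [hcost]
    have h1C : 1 ≤ C0 := by omega
    have hCM : 1 ≤ C0 * M := Nat.mul_pos h1C hM1'
    have m1 := hcm s A M f hA (by omega) (by simpa using hD) (hemp q3 (by simp))
      (hcl.1 A1 (by simp)) (hcl.1 X (by simp)) (hcl.1 C (by simp))
    refine ⟨s, _, (Runs.loopF ?_).mono hCM, m1.mono (Nat.mul_le_mul_right _ (by omega)), ?_⟩
    · simp [Store.heads, hK, num, isMark]
    · intro U s5 hU
      refine Runs.mono ?_ (Nat.le_add_right U _)
      simpa using hU
  · have hk2 : 2 ≤ k := by omega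
    have hstep := coreCost_step T k M hk2
    have d1 := hcd s A k M f lv hA hk2 hM hD hK hM1 hLV hemp hcl
    have u1 := hcu ((((s.set (r D) (bs (fm (nextA A k) fun z =>
      fm (2 ^ (k / 2)) fun y => fm (2 ^ (k / 2)) fun x =>
        [nextF k f z x y]))).set (r LV) (.bit (decide (k % 2 = 1)) :: lv)).set (r K)
        (num (k / 2 - 1)))) A k M f lv hA hk2
        hM (by simp) (by simp) (by simp [hM1]) (by simp) (emp_set3 hemp _ _ _)
        (clean_set3 hcl _ _ _)
    obtain ⟨W, hW⟩ : ∃ W, W = min (T M) (M * (k / 2)) + M := ⟨_, rfl⟩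
    rw [← hW] at hstep d1 u1
    have hW1 : 1 ≤ W := by omega
    obtain ⟨s1, s2, i1, i2, i3⟩ := ih (k / 2) (by omega) (((s.set (r D)
      (bs (fm (nextA A k) fun z => fm (2 ^ (k / 2)) fun x => fm (2 ^ (k / 2)) fun y =>
        [nextF k f z x y]))).set (r LV) (.bit (decide (k % 2 = 1)) :: lv)).set (r K)
        (num (k / 2 - 1))) (nextA A k) M (nextF k f)
      (.bit (decide (k % 2 = 1)) :: lv) (by omega) (nextA_pos hA)
      (by rw [nextA_mul]; exact hM) (by simp) (by simp) (by simp [hM1]) (by simp)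
      (emp_set3 hemp _ _ _) (clean_set3 hcl _ _ _)
    refine ⟨s1, s2, ?_, i2, ?_⟩
    · have hp : isMark (s.heads (r K)) = true := by
        obtain ⟨m, hm⟩ : ∃ m, k - 1 = m + 1 := ⟨k - 2, by omega⟩
        simp [Store.heads, hK, hm, num, List.replicate_succ, isMark]
      refine (Runs.loopT hp d1 i1).mono ?_
      rw [hstep]
      exact core_cost_arith (by omega) hW1
    · intro U s5 hU
      rw [st4 s _ _ _ _ _ _ hLV hK] at u1
      have l1 := Runs.loopT (p := fun h : Reg τ → Option (Sy α) => (h (.r .LV)).isSome)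
        (st5 s _ _ _ _) u1 hU
      rw [st3 s _ (bs (fm (nextA A k) fun z =>
          fm (2 ^ (k / 2)) fun x => fm (2 ^ (k / 2)) fun y =>
          [nextF k f z x y]))] at l1
      refine (i3 _ _ l1).mono ?_
      rw [hstep]
      have := core_cost_arith (C0 := C0) (c := cu) (W := W) (Y := coreCost T (k / 2) M)
        (by omega) hW1
      omega

theorem run_coreP (mulP : Cmd (Reg τ) (Sy α)) (T : ℕ → ℕ) (C1 : ℕ)
    (hm : MulSpec mulP T C1) :
    ∃ C0 : ℕ, ∀ (k : ℕ) (s : Store (Reg τ) (Sy α)) (M : ℕ) (f : ℕ → ℕ → Bool),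
      1 ≤ k → 16 * 4 ^ k ≤ M →
    s (r D) = bs (fm (2 ^ k) fun x => fm (2 ^ k) fun y => [f x y]) →
    s (r K) = num (k - 1) → s (r M1) = num M → s (r LV) = [] →
    (∀ x ∈ [q1, q2, q3, nE, ne, nh, OD], s (r x) = []) → Clean s →
    Runs (coreP mulP) s
      (s.set (r D) (bs (fm (2 ^ k) fun y => fm (2 ^ k) fun x => [f x y])))
      (C0 * coreCost T k M) := by
  obtain ⟨c, hc⟩ := core_induction mulP T C1 hm
  refine ⟨c + (c + (1 + c + 1)), ?_⟩
  intro k s M f hk hM hD hK hM1 hLV hemp hcl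
  obtain ⟨s1, s2, h1, h2, h3⟩ := hc k s 1 M (fun _ => f) [] hk le_rfl
    (by rw [one_mul]; exact hM) (by rw [fm_one]; exact hD) hK hM1 hLV hemp hcl
  rw [fm_one] at h3
  have hM1' : 1 ≤ M := by
    have : 1 ≤ 4 ^ k := Nat.one_le_pow _ _ (by norm_num)
    omega
  obtain ⟨W, hWd⟩ : ∃ W, W = coreCost T k M := ⟨_, rfl⟩
  have hMW : M ≤ W := by
    rw [hWd]
    unfold coreCost
    refine le_trans ?_ (Nat.le_add_left _ _)
    exact Nat.le_mul_of_pos_right _ (by omega)
  rw [← hWd] at h1 h3 ⊢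
  have h4 := h3 1 _ (Runs.loopF (by simp [Store.heads, hLV]))
  unfold coreP
  refine sqW_cons h1 (sqW_cons (h2.mono (Nat.mul_le_mul_left _ hMW))
    (sqW_cons (h4.mono ?_) (sqW_nil (by omega))))
  rw [Nat.add_mul, Nat.one_mul]
  omega

/-- The core program meets its specification. -/
theorem coreP_spec (mulP : Cmd (Reg τ) (Sy α)) (T : ℕ → ℕ) (C1 : ℕ)
    (hm : MulSpec mulP T C1) : CoreSpec (coreP mulP) 16 (coreCost T) := by
  obtain ⟨c, hc⟩ := run_coreP mulP T C1 hm
  refine ⟨c, ?_⟩
  intro s k M f hk hM hD hK hM1 hemp htl htr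
  refine hc k s M f hk hM hD hK hM1 (hemp LV (by simp)) ?_ ⟨?_, htl, htr⟩
  · intro x hx
    apply hemp x
    simp only [List.mem_cons, List.not_mem_nil, or_false] at hx
    rcases hx with rfl | rfl | rfl | rfl | rfl | rfl | rfl <;> simp
  · intro x hx
    apply hemp x
    simp only [List.mem_cons, List.not_mem_nil, or_false] at hx
    rcases hx with rfl | rfl | rfl | rfl | rfl | rfl | rfl | rfl | rfl | rfl | rfl | rfl | rfl |
      rfl | rfl | rfl | rfl <;> simp

end

end Vale.Agent.P338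
end

section

/-! Facts on a machine needed for its simulation: the sequence of configurations, determinism,
running times, and the representation of a tape by two lists. -/

namespace Vale.Agent.P338

namespace Machine
variable (A : Machine)

/-- The configuration after `i` steps (the machine stays where it is when it has halted). -/
def cf (c : A.Cfg) : ℕ → A.Cfg
  | 0 => c
  | i + 1 => (A.next (cf c i)).getD (cf c i)

variable {A}

theorem steps_cf {t : ℕ} {c c' : A.Cfg} (h : A.Steps t c c') :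
    A.cf c t = c' ∧ ∀ i < t, (A.next (A.cf c i)).isSome = true := by
  induction h with
  | refl c => exact ⟨rfl, fun i hi => by omega⟩
  | tail h1 h2 ih =>
    refine ⟨?_, fun i hi => ?_⟩
    · simp only [cf, ih.1, h2, Option.getD_some]
    · rcases Nat.lt_succ_iff_lt_or_eq.1 hi with h | h
      · exact ih.2 i h
      · subst h; rw [ih.1, h2]; rfl

theorem haltsIn_unique {w : List Sym} {t t' : ℕ} (h : A.HaltsIn w t) (h' : A.HaltsIn w t') :
    t = t' := by
  obtain ⟨c, h1, h2⟩ := h
  obtain ⟨c', h1', h2'⟩ := h'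
  have e := steps_cf h1
  have e' := steps_cf h1'
  rcases lt_trichotomy t t' with hl | hl | hl
  · have := e'.2 t hl
    rw [e.1, h2] at this
    simp at this
  · exact hl
  · have := e.2 t' hl
    rw [e'.1, h2'] at this
    simp at this

theorem time_eq {w : List Sym} {t : ℕ} (h : A.HaltsIn w t) : A.time w = t := by
  have hm : A.time w ∈ {t | A.HaltsIn w t} := Nat.sInf_mem ⟨t, h⟩
  exact haltsIn_unique hm h

theorem HaltsWith.haltsIn {w : List Sym} {t : ℕ} {o : List Bool} (h : A.HaltsWith w t o) :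
    A.HaltsIn w t := by
  obtain ⟨c, h1, h2, _⟩ := h
  exact ⟨c, h1, h2⟩

theorem time_le_mulTime {n : ℕ} (x y : Fin n → Bool) :
    A.time (mulInput x y) ≤ A.mulTime n := by
  have := Finset.le_sup (f := fun p : (Fin n → Bool) × (Fin n → Bool) =>
    A.time (mulInput p.1 p.2)) (Finset.mem_univ (x, y))
  exact this

end Machine

section tapes
variable {X : Type}

/-- Effect of writing and moving on a tape given by the cells left of the head (nearest first) and
the cells from the head on. -/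
def updT (a : Cell X × Dir) (lr : List (Cell X) × List (Cell X)) : List (Cell X) × List (Cell X) :=
  match a.2 with
  | .stay => (lr.1, a.1 :: lr.2.tail)
  | .right => (a.1 :: lr.1, lr.2.tail)
  | .left => match lr.1 with
    | [] => ([], a.1 :: lr.2.tail)
    | y :: l => (l, y :: a.1 :: lr.2.tail)

/-- The two lists represent the tape with head position `h`. -/
def RepT (lr : List (Cell X) × List (Cell X)) (h : ℕ) (cont : ℕ → Cell X) : Prop :=
  lr.1 = ((List.range h).map cont).reverse ∧ ∀ k, (lr.2[k]?).getD .blank = cont (h + k)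

theorem RepT.upd {lr : List (Cell X) × List (Cell X)} {h : ℕ} {cont : ℕ → Cell X}
    (H : RepT lr h cont) (a : Cell X × Dir) :
    RepT (updT a lr) (a.2.move h) (fun p => if p = h then a.1 else cont p) := by
  obtain ⟨l, r⟩ := lr
  obtain ⟨b, d⟩ := a
  obtain ⟨h1, h2⟩ := H
  simp only at h1 h2
  have hmap : ∀ m ≤ h, (List.range m).map (fun p => if p = h then b else cont p) =
      (List.range m).map cont := by
    intro m hm
    apply List.map_congr_left
    intro p hp
    rw [List.mem_range] at hp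
    rw [if_neg (by omega)]
  have htail : ∀ k, (r.tail[k]?).getD .blank = cont (h + (k + 1)) := by
    intro k
    rw [← h2 (k + 1)]
    cases r <;> simp
  cases d with
  | stay =>
    refine ⟨?_, ?_⟩
    · simp only [updT, Dir.mv_left, Dir.mv_stay, Dir.mv_right, hmap h le_rfl, h1]
    · intro k
      cases k with
      | zero => simp [updT, Dir.mv_left, Dir.mv_stay, Dir.mv_right]
      | succ k =>
        change (r.tail[k]?).getD .blank = if h + (k + 1) = h then b else cont (h + (k + 1))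
        rw [htail, if_neg (by omega)]
  | right =>
    refine ⟨?_, ?_⟩
    · simp only [updT, Dir.mv_left, Dir.mv_stay, Dir.mv_right, List.range_succ, List.map_append, List.reverse_append,
        hmap h le_rfl, h1]
      simp
    · intro k
      change (r.tail[k]?).getD .blank = if h + 1 + k = h then b else cont (h + 1 + k)
      rw [htail, if_neg (by omega)]
      congr 1; omega
  | left =>
    cases h with
    | zero =>
      have hl : l = [] := by simpa using h1
      subst hl
      refine ⟨by simp [updT, Dir.mv_left, Dir.mv_stay, Dir.mv_right], ?_⟩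
      intro k
      cases k with
      | zero => simp [updT, Dir.mv_left, Dir.mv_stay, Dir.mv_right]
      | succ k =>
        change (r.tail[k]?).getD .blank = if 0 + (k + 1) = 0 then b else cont (0 + (k + 1))
        rw [htail, if_neg (by omega)]
    | succ m =>
      have hl : l = cont m :: ((List.range m).map cont).reverse := by
        rw [h1, List.range_succ]; simp
      subst hl
      refine ⟨?_, ?_⟩
      · simp only [updT, Dir.mv_left, Dir.mv_stay, Dir.mv_right, Nat.add_sub_cancel]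
        rw [hmap m (by omega)]
      · intro k
        rcases k with _ | _ | k
        · simp [updT, Dir.mv_left, Dir.mv_stay, Dir.mv_right]
        · simp [updT, Dir.mv_left, Dir.mv_stay, Dir.mv_right]
        · change (r.tail[k]?).getD .blank =
            if m + (k + 1 + 1) = m + 1 then b else cont (m + (k + 1 + 1))
          rw [htail, if_neg (by omega)]
          congr 1; omega

theorem updT_length (a : Cell X × Dir) (lr : List (Cell X) × List (Cell X)) :
    (updT a lr).1.length + (updT a lr).2.length ≤ lr.1.length + lr.2.length + 1 := by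
  obtain ⟨l, r⟩ := lr
  obtain ⟨b, d⟩ := a
  cases d with
  | stay => cases r <;> simp [updT]
  | right => cases r <;> simp [updT]; omega
  | left => cases l <;> cases r <;> simp [updT]; omega

end tapes

/-- The two lists for every tape, after `i` steps from the start on input `w`. -/
noncomputable def lrSeq (A : Machine) (w : List Sym) : ℕ → A.Tape → List (Cell A.Ext) × List (Cell A.Ext)
  | 0 => fun i => ([], open Classical in if i = A.inTape then w.map .sym else [])
  | j + 1 => fun i =>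
    match A.step (A.cf (A.init w) j).state
      (fun k => (A.cf (A.init w) j).cont k ((A.cf (A.init w) j).head k)) with
    | some a => updT (a.2 i) (lrSeq A w j i)
    | none => lrSeq A w j i

theorem lrSeq_rep (A : Machine) (w : List Sym) (j : ℕ) (i : A.Tape) :
    RepT (lrSeq A w j i) ((A.cf (A.init w) j).head i) ((A.cf (A.init w) j).cont i) := by
  induction j with
  | zero =>
    refine ⟨by simp [lrSeq, Machine.cf, Machine.init], ?_⟩
    intro k
    simp only [lrSeq, Machine.cf, Machine.init, Nat.zero_add]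
    split_ifs with h
    · cases hw : w[k]? with
      | none => rw [tapeOf_none hw]; simp [hw]
      | some a => rw [tapeOf_some hw]; simp [hw]
    · simp
  | succ j ih =>
    cases hs : A.step (A.cf (A.init w) j).state
      (fun k => (A.cf (A.init w) j).cont k ((A.cf (A.init w) j).head k)) with
    | none =>
      simp only [lrSeq, hs, Machine.cf, Machine.next, Option.map_none, Option.getD_none]
      exact ih
    | some a =>
      simp only [lrSeq, hs, Machine.cf, Machine.next, Option.map_some, Option.getD_some]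
      exact ih.upd (a.2 i)

theorem lrSeq_length (A : Machine) (w : List Sym) (j : ℕ) (i : A.Tape) :
    (lrSeq A w j i).1.length + (lrSeq A w j i).2.length ≤ w.length + j := by
  induction j with
  | zero =>
    simp only [lrSeq]
    split_ifs <;> simp
  | succ j ih =>
    simp only [lrSeq]
    split
    · exact (updT_length _ _).trans (by omega)
    · omega

/-- The input word of the machine for two strings with least significant bit first, padded to
length `n`. -/
theorem mulInput_eq {n : ℕ} (x y : List Bool) :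
    mulInput (fun i : Fin n => x.getD (n - 1 - i) false) (fun i : Fin n => y.getD (n - 1 - i) false) =
      ((List.range n).map fun i => Sym.bit (x.getD i false)).reverse ++ [Sym.sep] ++
        ((List.range n).map fun i => Sym.bit (y.getD i false)).reverse := by
  have key : ∀ x : List Bool, (List.ofFn fun i : Fin n => x.getD (n - 1 - i) false).map Sym.bit =
      ((List.range n).map fun i => Sym.bit (x.getD i false)).reverse := by
    intro x
    apply List.ext_getElem
    · simp
    · intro i h1 h2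
      simp
  simp only [mulInput, key]

theorem ofLsb_getD (n : ℕ) (x : List Bool) (hx : x.length ≤ n) :
    ofLsb ((List.range n).map fun i => x.getD i false) = ofLsb x := by
  induction n generalizing x with
  | zero =>
    have : x = [] := List.eq_nil_of_length_eq_zero (by omega)
    subst this; rfl
  | succ n ih =>
    rw [List.range_succ_eq_map]
    cases x with
    | nil =>
      simp only [List.map_cons, List.map_map, ofLsb]
      have := ih [] (by simp)
      simp only [ofLsb] at this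
      simp only [Function.comp_def, List.getD_nil, List.map_const', List.length_range] at this ⊢
      simp [this]
    | cons b x =>
      simp only [List.map_cons, List.map_map, ofLsb]
      have := ih x (by simpa using hx)
      simp only [Function.comp_def, List.getD_cons_succ, List.getD_cons_zero] at this ⊢
      rw [this]

theorem val_append (x : List Bool) (b : Bool) : val (x ++ [b]) = 2 * val x + b.toNat := by
  simp [val]

theorem val_reverse (x : List Bool) : val x.reverse = ofLsb x := by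
  induction x with
  | nil => rfl
  | cons b x ih => rw [List.reverse_cons, val_append, ih, ofLsb]; ring

theorem bin_reverse (k z : ℕ) : (bin k z).reverse = lsb k z := by
  apply List.ext_getElem
  · simp [bin, lsb]
  · intro i h1 h2
    simp only [bin, lsb, List.getElem_reverse, List.getElem_ofFn, List.getElem_map,
      List.getElem_range, List.length_ofFn]
    congr 1
    simp only [bin, List.length_reverse, List.length_ofFn] at h1
    omega

theorem val_padded (n : ℕ) (x : List Bool) (hx : x.length ≤ n) :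
    val (List.ofFn fun i : Fin n => x.getD (n - 1 - i) false) = ofLsb x := by
  have : (List.ofFn fun i : Fin n => x.getD (n - 1 - i) false) =
      ((List.range n).map fun i => x.getD i false).reverse := by
    apply List.ext_getElem
    · simp
    · intro i h1 h2
      simp
  rw [this, val_reverse, ofLsb_getD n x hx]

end Vale.Agent.P338
end

section

/-! The clocked simulation of a machine: program text over private registers, and the correctness of
its parts. -/

namespace Vale.Agent.P338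

/-- Further register symbols used by the simulation of `A`: a tape cell, or a state of `A` together
with pending head movements. -/
inductive SExt (A : Machine) where
  | cell (c : Cell A.Ext)
  | st (q : A.State) (d : A.Tape → Dir)

instance {X : Type} [Finite X] : Finite (Cell X) := by
  have : Function.Injective (fun c : Cell X => (match c with
    | .blank => Sum.inl none
    | .sym (.bit b) => Sum.inl (some (some b))
    | .sym .sep => Sum.inl (some none)
    | .ext x => Sum.inr x : Option (Option Bool) ⊕ X)) := by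
    rintro (_ | ⟨_ | _⟩ | _) (_ | ⟨_ | _⟩ | _) h <;> simp_all
  exact Finite.of_injective _ this

instance : Finite Dir := by
  have : Function.Injective (fun d : Dir => (match d with
    | .left => 0 | .stay => 1 | .right => 2 : Fin 3)) := by
    rintro (_ | _ | _) (_ | _ | _) h <;> simp_all
  exact Finite.of_injective _ this

instance (A : Machine) : Finite (SExt A) := by
  have := A.finTape
  have := A.finExt
  have := A.finState
  have : Function.Injective (fun c : SExt A => (match c with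
    | .cell c => Sum.inl c
    | .st q d => Sum.inr (q, d) : Cell A.Ext ⊕ (A.State × (A.Tape → Dir)))) := by
    rintro (_ | _) (_ | _) h <;> simp_all
  exact Finite.of_injective _ this

/-- Private registers of the simulation: left and right parts of the tapes, state, factors, product,
length counter, and further ones. -/
inductive SReg (τ ε : Type) where
  | tl (i : τ)
  | tr (i : τ)
  | st | x | y | z | u
  | o (e : ε)
  deriving DecidableEq

namespace Sim
variable (A : Machine) (ε : Type)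

/-- The cell in front of a register. -/
def rd {A : Machine} : Option (Sy (SExt A)) → Cell A.Ext
  | some (.ext (.cell c)) => c
  | _ => .blank

/-- A cell as a register symbol. -/
def cl {A : Machine} (c : Cell A.Ext) : Sy (SExt A) := .ext (.cell c)

/-- The list of cells as a list of register symbols. -/
def cls {A : Machine} (l : List (Cell A.Ext)) : List (Sy (SExt A)) := l.map cl

/-- The store with the given contents. -/
def mk {A : Machine} {ε : Type} (t : A.Tape → List (Cell A.Ext) × List (Cell A.Ext))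
    (st : List (Sy (SExt A))) (x y z : List Bool) (u : List (Sy (SExt A)))
    (w : ε → List (Sy (SExt A))) : Store (SReg A.Tape ε) (Sy (SExt A))
  | .tl i => cls (t i).1
  | .tr i => cls (t i).2
  | .st => st
  | .x => bs x
  | .y => bs y
  | .z => bs z
  | .u => u
  | .o e => w e

open Classical in
/-- Load a bit of the first factor. -/
noncomputable def loadX : Cmd (SReg A.Tape ε) (Sy (SExt A)) := .act fun h r =>
  match r with
  | .x => { pop := true }
  | .tr i => { pf := if i = A.inTape then some (cl (.sym (.bit (isOne (h .x))))) else none }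
  | _ => {}

open Classical in
/-- Load a bit of the second factor. -/
noncomputable def loadY : Cmd (SReg A.Tape ε) (Sy (SExt A)) := .act fun h r =>
  match r with
  | .y => { pop := true }
  | .tr i => { pf := if i = A.inTape then some (cl (.sym (.bit (isOne (h .y))))) else none }
  | _ => {}

open Classical in
/-- Load the separator. -/
noncomputable def loadS : Cmd (SReg A.Tape ε) (Sy (SExt A)) := .act fun _ r =>
  match r with
  | .tr i => { pf := if i = A.inTape then some (cl (.sym .sep)) else none }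
  | _ => {}

/-- Set the start state. -/
def loadQ : Cmd (SReg A.Tape ε) (Sy (SExt A)) := .act fun _ r =>
  match r with
  | .st => { pf := some (.ext (.st A.start fun _ => .stay)) }
  | _ => {}

/-- The next step of the machine, from the front symbols. -/
def nxt {A : Machine} {ε : Type} (h : SReg A.Tape ε → Option (Sy (SExt A))) :
    Option (A.State × (A.Tape → Cell A.Ext × Dir)) :=
  match h .st with
  | some (.ext (.st q _)) => A.step q fun i => rd (h (.tr i))
  | _ => none

/-- First half of a step: write symbols, new state, advance the clock. -/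
def wr (cu : (SReg A.Tape ε → Option (Sy (SExt A))) → Act (Sy (SExt A)))
    (co : (SReg A.Tape ε → Option (Sy (SExt A))) → ε → Act (Sy (SExt A))) :
    Cmd (SReg A.Tape ε) (Sy (SExt A)) := .act fun h r =>
  match r with
  | .u => cu h
  | .o e => co h e
  | .st => match nxt h with
    | some a => { pop := true, pf := some (.ext (.st a.1 fun i => (a.2 i).2)) }
    | none => {}
  | .tr i => match nxt h with
    | some a => { pop := true, pf := some (cl (a.2 i).1) }
    | none => {}
  | _ => {}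

/-- The pending movement of a head. -/
def pend {A : Machine} {ε : Type} (h : SReg A.Tape ε → Option (Sy (SExt A))) (i : A.Tape) : Dir :=
  match h .st with
  | some (.ext (.st _ d)) => d i
  | _ => .stay

/-- The state without pending movements. -/
def base {A : Machine} {ε : Type} (h : SReg A.Tape ε → Option (Sy (SExt A))) : Option (Sy (SExt A)) :=
  match h .st with
  | some (.ext (.st q _)) => some (.ext (.st q fun _ => .stay))
  | _ => none

/-- Second half of a step: move the heads. -/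
def mv : Cmd (SReg A.Tape ε) (Sy (SExt A)) := .act fun h r =>
  match r with
  | .st => { pop := true, pf := base h }
  | .tl i => match pend h i with
    | .stay => {}
    | .left => { pop := true }
    | .right => { pf := h (.tr i) }
  | .tr i => match pend h i with
    | .stay => {}
    | .left => { pf := h (.tl i) }
    | .right => { pop := true }
  | _ => {}

/-- One step of rewinding the output tape. -/
noncomputable def rew1 : Cmd (SReg A.Tape ε) (Sy (SExt A)) := .act fun h r =>
  open Classical in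
  match r with
  | .tl i => if i = A.outTape then { pop := true } else {}
  | .tr i => if i = A.outTape then { pf := h (.tl i) } else {}
  | _ => {}

/-- Rewind the output tape. -/
noncomputable def rew : Cmd (SReg A.Tape ε) (Sy (SExt A)) :=
  .loop (fun h => (h (.tl A.outTape)).isSome) (rew1 A ε)

/-- The bit in a cell. -/
def cellBit {A : Machine} : Option (Sy (SExt A)) → Option Bool
  | some (.ext (.cell (.sym (.bit b)))) => some b
  | _ => none

/-- Take one bit from the output tape. -/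
noncomputable def take1 : Cmd (SReg A.Tape ε) (Sy (SExt A)) := .act fun h r =>
  open Classical in
  match r with
  | .tr i => if i = A.outTape then { pop := true } else {}
  | .z => { pf := (cellBit (h (.tr A.outTape))).map .bit }
  | _ => {}

/-- Take the bits from the output tape. -/
noncomputable def takeAll : Cmd (SReg A.Tape ε) (Sy (SExt A)) :=
  .loop (fun h => (cellBit (h (.tr A.outTape))).isSome) (take1 A ε)

/-- Remove one symbol from every tape register. -/
def clr1 : Cmd (SReg A.Tape ε) (Sy (SExt A)) := .act fun _ r =>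
  match r with
  | .tl _ => { pop := true }
  | .tr _ => { pop := true }
  | _ => {}

open Classical in
/-- Clear the tape registers. -/
noncomputable def clrAll : Cmd (SReg A.Tape ε) (Sy (SExt A)) :=
  .loop (fun h => decide (∃ i, (h (.tl i)).isSome ∨ (h (.tr i)).isSome)) (clr1 A ε)

/-- Clear the state register. -/
def clrQ : Cmd (SReg A.Tape ε) (Sy (SExt A)) := .act fun _ r =>
  match r with
  | .st => { pop := true }
  | _ => {}

end Sim

/-- Restore a partially rotated counter. -/
def restore {ι α : Type} [DecidableEq ι] (c : ι) : Cmd ι (Sy α) :=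
  .seq (.loop (fun h => isMark (h c)) (mvB c c)) (mvB c c)

theorem run_restore {ι α : Type} [DecidableEq ι] {c : ι} {s : Store ι (Sy α)} (a b : ℕ)
    (hs : s c = List.replicate a Sy.mark ++ [Sy.sent] ++ List.replicate b Sy.mark) :
    Runs (restore c) s (s.set c (num (a + b))) (2 * a + 2) := by
  induction a generalizing s b with
  | zero =>
    have h1 : Runs (.loop (fun h => isMark (h c)) (mvB c c)) s s 1 := by
      apply Runs.loopF
      simp [Store.heads, hs, isMark]
    have h2 : Runs (mvB c c) s (s.set c (num (0 + b))) 1 := by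
      have := run_rot (a := c) (s := s) (x := Sy.sent) (l := List.replicate b Sy.mark) (by simp [hs])
      rwa [show List.replicate b (Sy.mark : Sy α) ++ [Sy.sent] = num (0 + b) by simp [num]] at this
    exact (h1.seq h2).mono (by omega)
  | succ a ih =>
    have h1 : Runs (mvB c c) s (s.set c (List.replicate a Sy.mark ++ [Sy.sent] ++
        List.replicate (b + 1) Sy.mark)) 1 := by
      have := run_rot (a := c) (s := s) (x := Sy.mark)
        (l := List.replicate a Sy.mark ++ [Sy.sent] ++ List.replicate b Sy.mark)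
        (by rw [hs]; simp [List.replicate_succ])
      rwa [show List.replicate a (Sy.mark : Sy α) ++ [Sy.sent] ++ List.replicate b Sy.mark ++ [Sy.mark] =
        List.replicate a Sy.mark ++ [Sy.sent] ++ List.replicate (b + 1) Sy.mark by
          rw [List.append_assoc, ← List.replicate_succ']] at this
    obtain ⟨t, ht, h2⟩ := ih (s := s.set c (List.replicate a Sy.mark ++ [Sy.sent] ++
        List.replicate (b + 1) Sy.mark)) (b + 1) (by simp)
    obtain ⟨t1, ht1, h1⟩ := h1
    rw [show a + (b + 1) = a + 1 + b by omega, Store.set_set] at h2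
    cases h2 with
    | seq h3 h4 =>
      rename_i s2 t3 t4
      refine ⟨(t1 + t3 + 1) + t4, by omega, ?_⟩
      refine .seq (.loopT ?_ h1 h3) h4
      simp [Store.heads, hs, isMark, List.replicate_succ]

end Vale.Agent.P338
end
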