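import Vale.Agent.P338.Bdl.B3
import Vale.Agent.P338.Bdl.B2
import Vale.Agent.P338.Bdl.B1

set_option linter.all false

section

/-! The program for rectangular matrices around an abstract core. -/

namespace Vale.Agent.P338
open Reg R RC

section
variable {τ α : Type} [DecidableEq τ]

/-- The exponent of the size of the square matrix to which an `r × c` matrix is padded. -/
def kR (r c : ℕ) : ℕ := max 1 (Nat.clog 2 (max r c))

/-- The number of index bits that are peeled off. -/
def gR (g r c : ℕ) : ℕ := min g (kR r c - 1)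

/-- The length of the multiplications used for an `r × c` matrix. -/
def mR (g c0 r c : ℕ) : ℕ := max (r ^ 2 + (c - r)) (c0 * 4 ^ (kR r c - gR g r c))

theorem run_frontR (g c0 : ℕ) {r' c' : ℕ} (hr : 1 ≤ r') (hc : 1 ≤ c')
    (M : Matrix (Fin r') (Fin c') Bool) (n L g' κ t m : ℕ) (hn : n = max r' c')
    (h1 : ∀ i < L, 2 ^ (i + 1) < n) (h2 : n ≤ 2 ^ (L + 1)) (h4 : L ≤ n)
    (hg : g' = min g L) (hκ : κ = L - g) (ht : t = c0 * 4 ^ (κ + 1))
    (hm : m = max (r' ^ 2 + (c' - r')) t) :
    Runs (frontR g c0)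
      (Rg.st { inp := (rectInput M).map Sym.toSy } : Store (Reg τ) (Sy α))
      (Rg.st {
        out := num g', X := fm r' fun x => bs (fm c' fun y => [extR M x y])
        N1 := num r', N2 := num c', N3 := num (2 ^ (L + 1))
        N4 := num (2 ^ (κ + 1)), N5 := num (2 ^ (κ + 1)), K := num κ, M1 := num m })
      (10 * g + (1000 + c0) * n ^ 2 + (c0 + 100) * 4 ^ (κ + 1) + 20 * t) := by
  obtain ⟨l, w, hw, hl, hs, hwl, hdata⟩ := rectInput_split hr M
  have a1 := run_readR (τ := τ) (α := α) l w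
  rw [← hw, hdata, hs, hl, bs_fm] at a1
  have a2 := run_sizeR1 (τ := τ) (α := α) (fm r' fun x => bs (fm c' fun y => [extR M x y])) r' c'
  rw [← hn] at a2
  have a3 := run_sizeR2 (τ := τ) (α := α) (fm r' fun x => bs (fm c' fun y => [extR M x y]))
    (num r') (num c') n L (by omega) h1 h2 h4
  have a4 := run_sizeR3 (τ := τ) (α := α) g L (fm r' fun x => bs (fm c' fun y => [extR M x y]))
    (num r') (num c') (num (2 ^ (L + 1)))
  rw [← hg, ← hκ] at a4
  have a5 := run_sizeR4 (τ := τ) (α := α) c0 κ (num g')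
    (fm r' fun x => bs (fm c' fun y => [extR M x y])) (num r') (num c')
    (num (2 ^ (L + 1)))
  rw [← ht] at a5
  have a6 := run_sizeR5 (τ := τ) (α := α) r' c' t (num g')
    (fm r' fun x => bs (fm c' fun y => [extR M x y]))
    (num (2 ^ (L + 1))) (num (2 ^ (κ + 1))) (num (2 ^ (κ + 1))) (num κ)
  rw [← hm] at a6
  refine (run_sq_cons a1 (run_sq_cons a2 (run_sq_cons a3 (run_sq_cons a4 (run_sq_cons a5
    (run_sq_cons a6 run_sq_nil)))))).mono ?_
  have hwl' : w.length ≤ n * (n + 1) := by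
    rw [hwl]
    exact Nat.mul_le_mul (by omega) (by omega)
  have hn1 : 1 ≤ n := by omega
  have hnn : n ≤ n ^ 2 := by nlinarith
  have hn2 : n * (n + 1) = n ^ 2 + n := by ring
  have hr2 : r' ^ 2 ≤ n ^ 2 := Nat.pow_le_pow_left (by omega) 2
  have e1 : (1000 + c0) * n ^ 2 = 1000 * n ^ 2 + c0 * n ^ 2 := by ring
  have e2 : (c0 + 100) * 4 ^ (κ + 1) = (c0 + 60) * 4 ^ (κ + 1) + 40 * 4 ^ (κ + 1) := by ring
  rw [e1, e2]
  omega

theorem run_midR (core : Cmd (Reg τ) (Sy α)) (c0 : ℕ) (F : ℕ → ℕ → ℕ)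
    (hcore : CoreSpec core c0 F) : ∃ C : ℕ, ∀ (g κ m : ℕ) (f : ℕ → ℕ → Bool)
    (n1 n2 n3 : List (Sy α)), c0 * 4 ^ (κ + 1) ≤ m →
    Runs (midR core)
      (Rg.st {
        out := num g
        D := bs (fm (2 ^ (κ + 1 + g)) fun x => fm (2 ^ (κ + 1 + g)) fun y => [f x y])
        N1 := n1, N2 := n2, N3 := n3, N4 := num (2 ^ (κ + 1))
        N5 := num (2 ^ (κ + 1)), K := num κ, M1 := num m } : Store (Reg τ) (Sy α))
      (Rg.st {
        D := fm (2 ^ (κ + 1 + g)) fun y => bs (fm (2 ^ (κ + 1 + g)) fun x => [f x y])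
        N1 := n1, N2 := n2, N3 := n3, N4 := num (2 ^ (κ + 1))
        N5 := num (2 ^ (κ + 1)), K := num κ, M1 := num m
        A1 := num (2 ^ (κ + 1)), q1 := num (2 ^ g * 2 ^ κ) })
      (C * ((g + 1) * 4 ^ (κ + 1 + g) + 4 ^ g * F (κ + 1) m)) := by
  obtain ⟨C1, hC1⟩ := run_peelR1 (τ := τ) (α := α)
  obtain ⟨C2, hC2⟩ := run_chunksR core c0 F hcore
  obtain ⟨C3, hC3⟩ := run_peelR2 (τ := τ) (α := α)
  refine ⟨C1 + 2 * C2 + C3 + 1, fun g κ m f n1 n2 n3 hm => ?_⟩
  have a8 := hC1 g κ (E1 f g (κ + 1)) n1 n2 n3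
    (num (2 ^ (κ + 1))) (num m) (fun i => by
      unfold E1
      rw [bs_length, fm_length (c := 1) (fun _ _ => rfl), Nat.mul_one])
  rw [lay1, ← lay0] at a8
  have a9 := hC2 κ (2 ^ g * 2 ^ g) m
    (fun a x y => f (a % 2 ^ g * 2 ^ (κ + 1) + x) (a / 2 ^ g * 2 ^ (κ + 1) + y))
    (num g) n1 n2 n3 hm
  rw [lay2] at a9
  have a10 := hC3 g κ (E2 f (κ + 1)) n1 n2 n3
    (num (2 ^ (κ + 1))) (num m) (fun a i => by
      unfold E2
      rw [bs_length, fm_length (c := 1) (fun _ _ => rfl), Nat.mul_one])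
  rw [lay3] at a10
  refine (run_sq_cons a8 (run_sq_cons a9 (run_sq_cons a10 run_sq_nil))).mono ?_
  have e1 : 2 ^ g * 2 ^ g = 4 ^ g := by rw [← mul_pow]; norm_num
  have e2 : (4 : ℕ) ^ (κ + 1 + g) = 4 ^ g * 4 ^ (κ + 1) := by rw [pow_add]; ring
  rw [e1, e2]
  have h1 : 1 ≤ 4 ^ g := Nat.one_le_pow _ _ (by norm_num)
  have h2 : 1 ≤ 4 ^ (κ + 1) := Nat.one_le_pow _ _ (by norm_num)
  have h3 : 1 ≤ 4 ^ g * 4 ^ (κ + 1) := Nat.mul_pos h1 h2
  generalize F (κ + 1) m = X
  generalize (4 : ℕ) ^ g = P at *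
  generalize (4 : ℕ) ^ (κ + 1) = Q at *
  have h4 : C2 * (P * (X + Q) + 1) ≤ 2 * (C2 * (P * Q)) + C2 * (P * X) := by
    calc C2 * (P * (X + Q) + 1) ≤ C2 * (P * (X + Q) + P * Q) := by gcongr
      _ = _ := by ring
  have h5 : (C1 + 2 * C2 + C3 + 1) * ((g + 1) * (P * Q) + P * X) =
      C1 * ((g + 1) * (P * Q)) + 2 * (C2 * (g * (P * Q))) + 2 * (C2 * (P * Q)) +
      C3 * ((g + 1) * (P * Q)) + g * (P * Q) + P * Q + C1 * (P * X) + 2 * (C2 * (P * X)) +
      C3 * (P * X) + P * X := by ring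
  rw [h5]
  omega

/-- The sum of the costs of the parts. -/
theorem rect_arith (g c0 C2 r' c' n L g' κ t X : ℕ) (hr : 1 ≤ r') (hc : 1 ≤ c')
    (hn : n = max r' c') (h3 : 2 ^ (L + 1) ≤ 2 * n)
    (hg'' : g' = min g L) (hκg : κ + 1 + g' = L + 1) (ht : t = c0 * 4 ^ (κ + 1)) :
    (10 * g + (1000 + c0) * n ^ 2 + (c0 + 100) * 4 ^ (κ + 1) + 20 * t) +
    ((100 * (2 ^ (L + 1)) ^ 2 + 100) + (
    (C2 * ((g' + 1) * 4 ^ (κ + 1 + g') + 4 ^ g' * X)) +
    ((c' * (3 * r' + 2 + ((2 ^ (L + 1) - r') * 4 + 2) + 2) + 2) + 1))) ≤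
    (10000 * (g + 1) + 1000 * c0 + 8 * C2 * (g + 4 ^ g + 1)) * (X + n ^ 2) := by
  have hn1 : 1 ≤ n := by omega
  have hnn : n ≤ n ^ 2 := by nlinarith
  have e4 : (4 : ℕ) ^ (L + 1) = (2 ^ (L + 1)) ^ 2 := by
    rw [← pow_mul, mul_comm, pow_mul]; norm_num
  have h5 : (2 ^ (L + 1)) ^ 2 ≤ 4 * n ^ 2 := by
    calc (2 ^ (L + 1)) ^ 2 ≤ (2 * n) ^ 2 := Nat.pow_le_pow_left h3 2
      _ = 4 * n ^ 2 := by ring
  have h6 : (4 : ℕ) ^ (κ + 1) ≤ 4 * n ^ 2 := by
    calc (4 : ℕ) ^ (κ + 1) ≤ 4 ^ (L + 1) := Nat.pow_le_pow_right (by norm_num) (by omega)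
      _ ≤ _ := by rw [e4]; exact h5
  have h7 : t ≤ 4 * (c0 * n ^ 2) := by
    calc t = c0 * 4 ^ (κ + 1) := ht
      _ ≤ c0 * (4 * n ^ 2) := Nat.mul_le_mul_left _ h6
      _ = _ := by ring
  have h8 : (c0 + 100) * 4 ^ (κ + 1) ≤ 4 * (c0 * n ^ 2) + 400 * n ^ 2 := by
    calc (c0 + 100) * 4 ^ (κ + 1) ≤ (c0 + 100) * (4 * n ^ 2) := Nat.mul_le_mul_left _ h6
      _ = _ := by ring
  have h9 : (4 : ℕ) ^ (κ + 1 + g') ≤ 4 * n ^ 2 := by rw [hκg, e4]; exact h5
  have hgg : g' + 1 ≤ g + 1 := by omega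
  have h12 : 4 ^ g' ≤ 4 ^ g := Nat.pow_le_pow_right (by norm_num) (by omega)
  have h10 : C2 * ((g' + 1) * 4 ^ (κ + 1 + g') + 4 ^ g' * X) ≤
      4 * (C2 * ((g + 1) * n ^ 2)) + C2 * (4 ^ g * X) := by
    calc C2 * ((g' + 1) * 4 ^ (κ + 1 + g') + 4 ^ g' * X) ≤
          C2 * ((g + 1) * (4 * n ^ 2) + 4 ^ g * X) := by
          apply Nat.mul_le_mul_left
          exact Nat.add_le_add (Nat.mul_le_mul hgg h9) (Nat.mul_le_mul_right _ h12)
      _ = _ := by ring
  have h13 : c' * (3 * r' + 2 + ((2 ^ (L + 1) - r') * 4 + 2) + 2) ≤ 17 * n ^ 2 := by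
    calc c' * (3 * r' + 2 + ((2 ^ (L + 1) - r') * 4 + 2) + 2) ≤
          n * (3 * n + 2 + (2 * n * 4 + 2) + 2) := by
          apply Nat.mul_le_mul (by omega)
          omega
      _ = 11 * n ^ 2 + 6 * n := by ring
      _ ≤ _ := by omega
  have h16 : g ≤ g * n ^ 2 := Nat.le_mul_of_pos_right _ (by positivity)
  have e16 : (1000 + c0) * n ^ 2 = 1000 * n ^ 2 + c0 * n ^ 2 := by ring
  have e17 : (10000 * (g + 1) + 1000 * c0 + 8 * C2 * (g + 4 ^ g + 1)) * (X + n ^ 2) =
      10000 * (g * n ^ 2) + 10000 * n ^ 2 + 1000 * (c0 * n ^ 2) + 8 * (C2 * ((g + 1) * n ^ 2)) +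
      8 * (C2 * (4 ^ g * X)) +
      (8 * C2 * (4 ^ g * n ^ 2) +
        10000 * (g + 1) * X + 1000 * c0 * X + 8 * C2 * (g + 1) * X) := by ring
  rw [e17, e16]
  generalize C2 * (4 ^ g * X) = Y1 at *
  generalize C2 * ((g + 1) * n ^ 2) = Y2 at *
  omega

/-- The matrix is padded to a `2^k × 2^k` matrix, `k = kR r c`, cut into `4^g'` submatrices,
`g' = gR g r c`, which the core transposes using multiplications of length `mR g c0 r c`. -/
theorem run_rectP (g c0 : ℕ) (core : Cmd (Reg τ) (Sy α)) (F : ℕ → ℕ → ℕ)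
    (hcore : CoreSpec core c0 F) :
    ∃ C : ℕ, ∀ r' c' : ℕ, 1 ≤ r' → 1 ≤ c' → ∀ M : Matrix (Fin r') (Fin c') Bool,
    ∃ s' : Store (Reg τ) (Sy α), s' (r out) = bs (rowMajor M.transpose) ∧
    Runs (rectP g c0 core)
      (Store.set (fun _ => []) (r inp) ((rectInput M).map Sym.toSy)) s'
      (C * (F (kR r' c' - gR g r' c') (mR g c0 r' c') + (max r' c') ^ 2)) := by
  obtain ⟨C2, hC2⟩ := run_midR core c0 F hcore
  refine ⟨10000 * (g + 1) + 1000 * c0 + 8 * C2 * (g + 4 ^ g + 1), fun r' c' hr hc M => ?_⟩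
  obtain ⟨n, hn⟩ : ∃ n, n = max r' c' := ⟨_, rfl⟩
  have hn1 : 1 ≤ n := by omega
  obtain ⟨L, hL⟩ : ∃ L, kR r' c' = L + 1 := ⟨kR r' c' - 1, by unfold kR; omega⟩
  have hL' : max 1 (Nat.clog 2 n) = L + 1 := by rw [hn]; exact hL
  have h1 : ∀ i < L, 2 ^ (i + 1) < n := by
    intro i hi
    apply (Nat.lt_clog_iff_pow_lt (by norm_num)).1
    omega
  have h2 : n ≤ 2 ^ (L + 1) := by
    refine (Nat.le_pow_clog (b := 2) (by norm_num) n).trans ?_
    exact Nat.pow_le_pow_right (by norm_num) (by omega)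
  have h3 : 2 ^ (L + 1) ≤ 2 * n := by
    rcases Nat.eq_zero_or_pos L with h | h
    · subst h; omega
    · have := h1 (L - 1) (by omega)
      rw [Nat.sub_add_cancel h] at this
      rw [pow_succ]; omega
  have h4 : L ≤ n := by
    have : L < 2 ^ L := Nat.lt_two_pow_self
    rw [pow_succ] at h3
    omega
  obtain ⟨g', hg'⟩ : ∃ g', g' = min g L := ⟨_, rfl⟩
  obtain ⟨κ, hκ⟩ : ∃ κ, κ = L - g := ⟨_, rfl⟩
  have hκg : κ + 1 + g' = L + 1 := by omega
  have hgR : gR g r' c' = g' := by unfold gR; rw [hL]; omega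
  have hkk : kR r' c' - gR g r' c' = κ + 1 := by omega
  obtain ⟨t, ht⟩ : ∃ t, t = c0 * 4 ^ (κ + 1) := ⟨_, rfl⟩
  obtain ⟨m, hm⟩ : ∃ m, m = max (r' ^ 2 + (c' - r')) t := ⟨_, rfl⟩
  have hmR : mR g c0 r' c' = m := by
    unfold mR; rw [hkk, hm, ht]
  have a1 := run_frontR (τ := τ) (α := α) g c0 hr hc M n L g' κ t m hn h1 h2 h4 hg' hκ ht hm
  have a7 := run_padR (τ := τ) (α := α) r' c' (2 ^ (L + 1))
    (fun x => bs (fm c' fun y => [extR M x y]))
    (by
      intro i _
      rw [bs_length, fm_length (c := 1) (fun _ _ => rfl), Nat.mul_one])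
    (by omega) (by omega)
    (num g') (num (2 ^ (κ + 1))) (num (2 ^ (κ + 1))) (num κ) (num m)
  have e7 : (fm r' fun i => (bs (fm c' fun y => [extR M i y]) : List (Sy α)) ++
      List.replicate (2 ^ (L + 1) - c') (Sy.bit false)) ++
      List.replicate ((2 ^ (L + 1) - r') * 2 ^ (L + 1)) (Sy.bit false) =
      bs (fm (2 ^ (κ + 1 + g')) fun x => fm (2 ^ (κ + 1 + g')) fun y => [extR M x y]) := by
    rw [hκg, extR_all (q := 2 ^ (L + 1)) (by omega) (by omega) M, bs_append, bs_fm,
      bs_replicate]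
    congr 1
    exact fm_congr fun i _ => by rw [bs_append, bs_replicate]
  rw [e7] at a7
  have a8 := hC2 g' κ m (extR M) (num r') (num c') (num (2 ^ (L + 1) - r'))
    (by rw [hm, ← ht]; exact le_max_right _ _)
  have e11 : (fm (2 ^ (κ + 1 + g')) fun y => (bs (fm (2 ^ (κ + 1 + g')) fun x => [extR M x y]) :
      List (Sy α))) = fm (2 ^ (L + 1)) fun y => bs (fm r' fun x => [extR M x y]) ++
        bs (fm (2 ^ (L + 1) - r') fun x => [extR M (r' + x) y]) := by
    rw [hκg]
    refine fm_congr fun y _ => ?_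
    rw [← bs_append]
    congr 1
    have := fm_add r' (2 ^ (L + 1) - r') (fun x => [extR M x y])
    rwa [Nat.add_sub_cancel' (by omega)] at this
  rw [e11] at a8
  have a11 := run_cutR (τ := τ) (α := α) r' c' (2 ^ (L + 1)) (2 ^ (L + 1) - r') (by omega)
    (fun y => bs (fm r' fun x => [extR M x y]))
    (fun y => bs (fm (2 ^ (L + 1) - r') fun x => [extR M (r' + x) y]))
    (fun y _ => by rw [bs_length, fm_length (c := 1) (fun _ _ => rfl), Nat.mul_one])
    (fun y _ => by rw [bs_length, fm_length (c := 1) (fun _ _ => rfl), Nat.mul_one])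
    (num (2 ^ (κ + 1))) (num (2 ^ (κ + 1))) (num κ) (num m) (num (2 ^ (κ + 1)))
    (num (2 ^ g' * 2 ^ κ))
  have e0 : (Store.set (fun _ => []) (r inp) ((rectInput M).map Sym.toSy) :
      Store (Reg τ) (Sy α)) = Rg.st { inp := (rectInput M).map Sym.toSy } := by
    have := set_inp (τ := τ) ({} : Rg α) ((rectInput M).map Sym.toSy)
    rw [← this]
    congr 1
    funext z; rcases z with z | z | z <;> [cases z; skip; skip] <;> rfl
  rw [e0, hkk, hmR, ← hn]
  refine ⟨_, ?_, (run_sq_cons a1 (run_sq_cons a7 (run_sq_cons a8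
      (run_sq_cons a11 run_sq_nil)))).mono ?_⟩
  · rw [rowMajor_tr_eq, bs_fm]
    rfl
  · exact rect_arith g c0 C2 r' c' n L g' κ t (F (κ + 1) m) hr hc hn h3 hg' hκg ht

/-- When the multiplication length is exactly `r^2 + (c - r)`. -/
theorem mR_eq {g c0 r c : ℕ} (h1 : 1 ≤ r) (h2 : r ≤ c) (h3 : c ≤ 3 * r) (hg : 36 * c0 ≤ 4 ^ g)
    (hk : g < kR r c) : mR g c0 r c = r ^ 2 + (c - r) := by
  unfold mR gR
  have e : kR r c - min g (kR r c - 1) = kR r c - g := by omega
  rw [e]
  apply max_eq_left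
  have h4 : 4 ^ (kR r c) ≤ 4 * (3 * r) ^ 2 := by
    have e1 : max r c = c := by omega
    have h5 : 2 ^ kR r c ≤ 2 * c := by
      unfold kR
      rw [e1]
      rcases Nat.eq_zero_or_pos (Nat.clog 2 c) with h | h
      · rw [h]; simp; omega
      · rw [max_eq_right h]
        have h6 : 2 ^ (Nat.clog 2 c - 1) < c :=
          (Nat.lt_clog_iff_pow_lt (by norm_num)).1 (by omega)
        have h7 : 2 ^ Nat.clog 2 c = 2 * 2 ^ (Nat.clog 2 c - 1) := by
          rw [← pow_succ']; congr 1; omega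
        omega
    calc 4 ^ (kR r c) = (2 ^ kR r c) ^ 2 := by rw [← pow_mul, mul_comm, pow_mul]; norm_num
      _ ≤ (2 * c) ^ 2 := Nat.pow_le_pow_left h5 2
      _ ≤ (2 * (3 * r)) ^ 2 := Nat.pow_le_pow_left (by omega) 2
      _ = _ := by ring
  have h6 : 4 ^ (kR r c) = 4 ^ (kR r c - g) * 4 ^ g := by
    rw [← pow_add]; congr 1; omega
  have h7 : c0 * 4 ^ (kR r c - g) * 36 ≤ 36 * r ^ 2 := by
    calc c0 * 4 ^ (kR r c - g) * 36 = 4 ^ (kR r c - g) * (36 * c0) := by ring
      _ ≤ 4 ^ (kR r c - g) * 4 ^ g := Nat.mul_le_mul_left _ hg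
      _ = 4 ^ (kR r c) := h6.symm
      _ ≤ _ := h4
      _ = 36 * r ^ 2 := by ring
  omega

end

end Vale.Agent.P338
end

section

/-! Pure specification of the transposition of a `q × q` matrix with the help of the field with
`p = q + 1` elements.  All bit strings are least significant bit first.  The data are `q` rows of
`b` segments of `q` entries of `b` bits. -/

namespace Vale.Agent.P338

/-- First data integer; `h` is the inverse of the primitive root. -/
def fdata1 (q b l p h : ℕ) (ent : ℕ → ℕ → ℕ → List Bool) : List Bool :=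
  fm q fun i => fm b fun c => fm q fun j =>
    lsb l ((h ^ (i * (i + 1) / 2) * ofLsb (ent i c ((j + (q - i)) % q))) % p)

/-- The kernel; `z` is the primitive root. -/
def fkern (q b l p z : ℕ) : List Bool :=
  fm (2 * q) fun d => lsb l (z ^ (d * (d - 1) / 2) % p) ++ zeros ((b * q - 1) * l)

/-- The slot of the product belonging to row `k`, segment `c`, column `j`. -/
def fslot (q b l : ℕ) (P : List Bool) (k c j : ℕ) : List Bool :=
  (P.drop ((((q + k) * b + c) * q + j) * l)).take l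

/-- Second data integer. -/
def fdata2 (q b l p z h : ℕ) (P : List Bool) : List Bool :=
  fm q fun k => fm b fun c => fm q fun j =>
    lsb l ((h ^ (k ^ 2) * z ^ (k * j) * ofLsb (fslot q b l P k c j)) % p)

/-- The result. -/
def fdata3 (q b l p h : ℕ) (P : List Bool) : List Bool :=
  fm q fun k => fm b fun c =>
    (fm q fun j =>
      lsb b (((p - 1) * h ^ (k * (k - 1) / 2) * ofLsb (fslot q b l P k c j)) % p)).rotate (k * b)

/-- `p` is an odd prime, `q = p - 1`, `z` a primitive root modulo `p` with inverse `h`. -/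
structure Root (p q z h : ℕ) : Prop where
  prime : p.Prime
  three : 3 ≤ p
  hq : q + 1 = p
  zlt : z < p
  hlt : h < p
  zh : z * h % p = 1
  order : ∀ e, 0 < e → e < q → z ^ e % p ≠ 1
  pow : z ^ q % p = 1

end Vale.Agent.P338
end

section

/-! Cost bounds as multiples of a weight `W`, and facts on lists used by the large programs. -/

namespace Vale.Agent.P338
open Reg R

section
variable {ι α : Type} {W : ℕ}

theorem sqW_nil {s : Store ι (Sy α)} (hW : 1 ≤ W) : Runs (sq []) s s (1 * W) :=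
  run_sq_nil.mono (by omega)

theorem sqW_cons {c : Cmd ι (Sy α)} {l : List (Cmd ι (Sy α))} {s s1 s2 : Store ι (Sy α)}
    {a b : ℕ} (h1 : Runs c s s1 (a * W)) (h2 : Runs (sq l) s1 s2 (b * W)) :
    Runs (sq (c :: l)) s s2 ((a + b) * W) := by
  rw [Nat.add_mul]; exact run_sq_cons h1 h2

theorem iteW_T {c d : Cmd ι (Sy α)} {s s' : Store ι (Sy α)} {a : ℕ}
    {p : (ι → Option (Sy α)) → Bool} (hW : 1 ≤ W)
    (hp : p s.heads = true) (h : Runs c s s' (a * W)) : Runs (.ite p c d) s s' ((a + 1) * W) :=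
  (Runs.iteT hp h).mono (by rw [Nat.add_mul]; omega)

theorem iteW_F {c d : Cmd ι (Sy α)} {s s' : Store ι (Sy α)} {a : ℕ}
    {p : (ι → Option (Sy α)) → Bool} (hW : 1 ≤ W)
    (hp : p s.heads = false) (h : Runs d s s' (a * W)) : Runs (.ite p c d) s s' ((a + 1) * W) :=
  (Runs.iteF hp h).mono (by rw [Nat.add_mul]; omega)

end

namespace CW

@[simp] theorem lsb_length (k z : ℕ) : (lsb k z).length = k := by simp [lsb]

@[simp] theorem mulLsb_length (M : ℕ) (x y : List Bool) : (mulLsb M x y).length = 2 * M := by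
  simp [mulLsb]

@[simp] theorem rr_length (m : ℕ) (x : List Bool) : (rr m x).length = x.length := by simp [rr]

@[simp] theorem enc_length (x : List Bool) : (enc x).length = 2 * x.length := by
  simp [enc]; omega

theorem addc_len (x y : List Bool) (c : Bool) (h : x.length = y.length) :
    (addc x y c).1.length = x.length := by
  induction x generalizing y c with
  | nil => rw [addc_nil]
  | cons a x ih =>
    cases y with
    | nil => simp at h
    | cons b y => rw [addc_cons]; simp [ih y _ (by simpa using h)]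

theorem fold4_length {m : ℕ} {V : List Bool} (h : V.length = 4 * m) : (fold4 m V).length = m := by
  have h0 : (V.take m).length = m := by simp; omega
  have h1 : ((V.drop m).take m).length = m := by simp; omega
  have h2 : ((V.drop (2 * m)).take m).length = m := by simp; omega
  have h3 : ((V.drop (3 * m)).take m).length = m := by simp; omega
  have e0 : (addc (zeros m) (V.take m) false).1.length = m := by
    rw [addc_len _ _ _ (by simp [h0])]; simp
  have e1 : (addc (addc (zeros m) (V.take m) false).1 ((V.drop m).take m)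
      (addc (zeros m) (V.take m) false).2).1.length = m := by
    rw [addc_len _ _ _ (by rw [e0, h1]), e0]
  have e2 := addc_len (addc (addc (zeros m) (V.take m) false).1 ((V.drop m).take m)
      (addc (zeros m) (V.take m) false).2).1 ((V.drop (2 * m)).take m)
      (addc (addc (zeros m) (V.take m) false).1 ((V.drop m).take m)
      (addc (zeros m) (V.take m) false).2).2 (by rw [e1, h2])
  rw [e1] at e2
  unfold fold4
  simp only
  rw [addc_len _ _ _ (by rw [e2, h3]), e2]

theorem slotOf_length {A q e a k j : ℕ} {P : List Bool} (ha : a < A) (hk : k < q) (hj : j < q)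
    (hP : A * (2 * q * (q * (8 * (q * e)))) ≤ P.length) :
    (slotOf q e P a k j).length = 8 * (q * e) := by
  unfold slotOf
  rw [List.length_take, List.length_drop]
  have h1 : (2 * a + 1) * q + k + 1 ≤ A * (2 * q) := by
    have : (2 * a + 1) * q + k + 1 ≤ (2 * a + 1) * q + q := by omega
    have h2 : (2 * a + 1) * q + q = (a + 1) * (2 * q) := by ring
    have h3 : (a + 1) * (2 * q) ≤ A * (2 * q) := Nat.mul_le_mul_right _ ha
    omega
  have h2 : ((2 * a + 1) * q + k) * q + j + 1 ≤ A * (2 * q) * q := by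
    have h3 : ((2 * a + 1) * q + k + 1) * q ≤ A * (2 * q) * q := Nat.mul_le_mul_right _ h1
    have h4 : ((2 * a + 1) * q + k + 1) * q = ((2 * a + 1) * q + k) * q + q := by ring
    omega
  have h3 : (((2 * a + 1) * q + k) * q + j + 1) * (8 * (q * e)) ≤ A * (2 * q) * q * (8 * (q * e)) :=
    Nat.mul_le_mul_right _ h2
  have h4 : A * (2 * q) * q * (8 * (q * e)) = A * (2 * q * (q * (8 * (q * e)))) := by ring
  have h5 : (((2 * a + 1) * q + k) * q + j + 1) * (8 * (q * e)) =
    (((2 * a + 1) * q + k) * q + j) * (8 * (q * e)) + 8 * (q * e) := by ring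
  omega

theorem data1_length {A q e : ℕ} {ent : ℕ → ℕ → ℕ → List Bool} (hq : 1 ≤ q)
    (h : ∀ a < A, ∀ i < q, ∀ j < q, (ent a i j).length = q * e) :
    (data1 A q e ent).length = 16 * (A * (q * (q * (q * e)))) := by
  unfold data1
  rw [fm_length (c := 16 * (q * (q * (q * e))))]
  · ring
  · intro a ha
    rw [List.length_append, fm_length (c := q * (8 * (q * e))), zeros_length]
    · ring
    · intro i hi
      rw [fm_length]
      intro j hj
      rw [List.length_append, rr_length, enc_length, zeros_length,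
        h a ha i hi _ (Nat.mod_lt _ hq)]
      ring

theorem data2_length {A q e : ℕ} {P : List Bool}
    (hP : A * (2 * q * (q * (8 * (q * e)))) ≤ P.length) :
    (data2 A q e P).length = 16 * (A * (q * (q * (q * e)))) := by
  unfold data2
  rw [fm_length (c := 16 * (q * (q * (q * e))))]
  · ring
  · intro a ha
    rw [List.length_append, fm_length (c := q * (8 * (q * e))), zeros_length]
    · ring
    · intro i hi
      rw [fm_length]
      intro j hj
      rw [List.length_append, rr_length, zeros_length, fold4_length]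
      · ring
      · rw [slotOf_length ha hi hj hP]; ring

theorem kern_length {q e : ℕ} (hq : 1 ≤ q) (he : 1 ≤ e) :
    (kern q e).length = 16 * (q * (q * (q * e))) := by
  unfold kern
  rw [fm_length (c := 8 * (q * (q * e)))]
  · ring
  · intro d _
    obtain ⟨p, rfl⟩ : ∃ p, q = p + 1 := ⟨q - 1, by omega⟩
    have h1 : 1 ≤ (p + 1) * e := Nat.mul_pos (by omega) he
    simp only [List.length_append, List.length_rotate, zeros_length, onehot, List.length_cons,
      Nat.add_sub_cancel]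
    have h2 : 2 * ((p + 1) * e) - 1 + 1 = 2 * ((p + 1) * e) := by omega
    rw [h2]; ring

end CW

end Vale.Agent.P338
end

section

/-! Interfaces used in the verification of the second core program. -/

namespace Vale.Agent.P338
open Reg R Ex

section
variable {τ κ α : Type} [DecidableEq τ] [DecidableEq κ]

/-- The registers of the simulation of the second machine are empty. -/
def SmIdle (s : Store (RF τ κ) (Sy α)) : Prop :=
  s (ex sST) = [] ∧ (∀ j : κ, s (.tl (.inr (.inl j))) = []) ∧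
    (∀ j : κ, s (.tr (.inr (.inl j))) = [])

/-- The registers of the simulation of the first machine are empty. -/
def BigIdle (s : Store (RF τ κ) (Sy α)) : Prop :=
  s (r ST) = [] ∧ (∀ i : τ, s (.tl (.inl i)) = []) ∧ (∀ i : τ, s (.tr (.inl i)) = [])

/-- `sm` multiplies two `l`-bit strings at cost `C1 * (t l + l)`. -/
def SmallSpec (sm : Cmd (RF τ κ) (Sy α)) (t : ℕ → ℕ) (C1 : ℕ) : Prop :=
  ∀ (s : Store (RF τ κ) (Sy α)) (l : ℕ) (x y : List Bool), 1 ≤ l →
    x.length = l → y.length = l → s (ex SX) = bs x → s (ex SY) = bs y → s (ex SZ) = [] →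
    s (ex nL) = num l → SmIdle s →
    Runs sm s (((s.set (ex SX) []).set (ex SY) []).set (ex SZ) (bs (mulLsb l x y)))
      (C1 * (t l + l))

/-- `mulP` multiplies two strings of length at most `M` at cost `C1 * (T M + M)`. -/
def BigSpec (mulP : Cmd (RF τ κ) (Sy α)) (T : ℕ → ℕ) (C1 : ℕ) : Prop :=
  ∀ (s : Store (RF τ κ) (Sy α)) (M : ℕ) (x y : List Bool), 1 ≤ M →
    x.length ≤ M → y.length ≤ M → s (r C) = bs x → s (r G) = bs y → s (r P) = [] →
    s (r M1) = num M → BigIdle s →
    Runs mulP s (((s.set (r C) []).set (r G) []).set (r P) (bs (mulLsb M x y)))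
      (C1 * (T M + M))

/-- Everything modular arithmetic with `l`-bit strings modulo `p` needs. -/
structure Ctx (s : Store (RF τ κ) (Sy α)) (l p : ℕ) : Prop where
  l1 : 1 ≤ l
  p3 : 3 ≤ p
  pl : p * p ≤ 2 ^ l
  nL : s (ex nL) = num l
  Pm : s (ex Pm) = bs (lsb l p)
  MU : s (ex MU) = bs (lsb l (2 ^ l / p))
  SX : s (ex SX) = []
  SY : s (ex SY) = []
  SZ : s (ex SZ) = []
  Y : s (r Y) = []
  CY : s (r CY) = []
  idle : SmIdle s

/-- The registers `Ctx` speaks about. -/
def ctxReg : RF τ κ → Bool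
  | .r .Y | .r .CY => true
  | .tl (.inr (.inr .nL)) | .tl (.inr (.inr .Pm)) | .tl (.inr (.inr .MU)) => true
  | .tl (.inr (.inr .SX)) | .tl (.inr (.inr .SY)) | .tl (.inr (.inr .SZ)) => true
  | .tl (.inr (.inr .sST)) => true
  | .tl (.inr (.inl _)) | .tr (.inr (.inl _)) => true
  | _ => false

theorem Ctx.set {s : Store (RF τ κ) (Sy α)} {l p : ℕ} (h : Ctx s l p) {a : RF τ κ}
    (ha : ctxReg a = false) (v : List (Sy α)) : Ctx (s.set a v) l p := by
  have key : ∀ b : RF τ κ, ctxReg b = true → (s.set a v) b = s b := by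
    intro b hb
    rw [Store.set_ne]
    rintro rfl
    rw [ha] at hb; exact absurd hb (by decide)
  refine ⟨h.l1, h.p3, h.pl, ?_, ?_, ?_, ?_, ?_, ?_, ?_, ?_, ?_, fun j => ?_, fun j => ?_⟩
  · rw [key _ rfl]; exact h.nL
  · rw [key _ rfl]; exact h.Pm
  · rw [key _ rfl]; exact h.MU
  · rw [key _ rfl]; exact h.SX
  · rw [key _ rfl]; exact h.SY
  · rw [key _ rfl]; exact h.SZ
  · rw [key _ rfl]; exact h.Y
  · rw [key _ rfl]; exact h.CY
  · rw [key _ rfl]; exact h.idle.1
  · rw [key _ rfl]; exact h.idle.2.1 j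
  · rw [key _ rfl]; exact h.idle.2.2 j

end

end Vale.Agent.P338
end

section

/-! The preparation of the sizes for the second core (task G8). -/

namespace Vale.Agent.P338
open Reg R Ex

/-- `t = log2 k - 1`, `b = 2^t`. -/
def tOf (k : ℕ) : ℕ := Nat.log 2 k - 1
def bOf (k : ℕ) : ℕ := 2 ^ tOf k
def lOf (k : ℕ) : ℕ := 3 * (k + 1)
def m0Of (k : ℕ) : ℕ := 2 ^ (k - tOf k)

section generic
variable {ι α : Type}

/-- Concatenation of lists of commands. -/
theorem Runs.append {l1 l2 : List (Cmd ι (Sy α))} {s s1 s2 : Store ι (Sy α)}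
    {T1 T2 : ℕ} (h1 : Runs (sq l1) s s1 T1) (h2 : Runs (sq l2) s1 s2 T2) :
    Runs (sq (l1 ++ l2)) s s2 (T1 + T2) := by
  induction l1 generalizing s T1 with
  | nil =>
    obtain ⟨t, ht, hr⟩ := h1
    cases hr with
    | act f s =>
      have e : (fun i => ((fun (_ : ι → Option (Sy α)) (_ : ι) => ({} : Act (Sy α))) s.heads i).app
          (s i)) = s := by
        funext i
        simp [Act.app]
      rw [e] at h2
      exact h2.mono (by omega)
  | cons c l ih =>
    obtain ⟨t, ht, hr⟩ := h1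
    cases hr with
    | seq ha hb =>
      have h3 := ih ⟨_, le_rfl, hb⟩
      exact (Runs.seq ⟨_, le_rfl, ha⟩ h3).mono (by omega)

variable [DecidableEq ι]

theorem run_pushMark {c : ι} {s : Store ι (Sy α)} {N : ℕ} (h : s c = num N) :
    Runs (pushF c .mark) s (s.set c (num (N + 1))) 1 := by
  have := run_pushF (b := c) (s := s) (.mark)
  rw [h] at this
  have e : (Sy.mark :: num N : List (Sy α)) = num (N + 1) := by
    simp [num, List.replicate_succ]
  rw [e] at this
  exact this

theorem run_oneC {c : ι} {s : Store ι (Sy α)} (h : s c = []) :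
    Runs (sq [zeroC c, pushF c .mark]) s (s.set c (num 1)) 3 := by
  have h1 := run_zeroC (c := c) (s := s) h
  have h2 := run_pushMark (c := c) (s := s.set c (num 0)) (N := 0) (by simp)
  refine Runs.cast (run_sq_cons h1 (run_sq_cons h2 run_sq_nil)) ?_ le_rfl
  simp

theorem run_copyC {d c : ι} (hdc : d ≠ c) {s : Store ι (Sy α)} {N : ℕ}
    (hd : s d = num N) (hc : s c = []) :
    Runs (sq [zeroC c, addC 1 d c]) s (s.set c (num N)) (4 * N + 4) := by
  have h1 := run_zeroC (c := c) (s := s) hc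
  have h2 := run_addC (k := 1) (d := d) (c := c) hdc (s := s.set c (num 0)) (N := N) (m := 0)
    (by simp [hdc, hd]) (by simp)
  refine Runs.cast (run_sq_cons h1 (run_sq_cons h2 run_sq_nil)) ?_ (by omega)
  simp

end generic

section
variable {τ α : Type} [DecidableEq τ]

theorem run_pow2 {a b c : Reg τ} (hab : a ≠ b) (hac : a ≠ c) (hbc : b ≠ c)
    {s : Store (Reg τ) (Sy α)} {N : ℕ} (hc : s c = num N) (ha : s a = num 1) (hb : s b = []) :
    Runs (forN c (dblC a b)) s (s.set a (num (2 ^ N))) (N * (10 * 2 ^ N + 22) + 2) := by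
  have key := Runs.forN (c := c) (body := dblC a b) N
    (fun i => s.set a (num (2 ^ i))) (10 * 2 ^ N + 20)
    (by intro i; simp [hac.symm, hc])
    (by
      intro i hi x
      have h := run_dblC (a := a) (b := b) hab (s := (s.set a (num (2 ^ i))).set c x)
        (N := 2 ^ i) (by simp [hac]) (by simp [hbc, hab.symm, hb])
      have h2 : 2 ^ i ≤ 2 ^ N := Nat.pow_le_pow_right (by norm_num) (by omega)
      refine Runs.cast h ?_ (by omega)
      rw [← Nat.pow_succ']
      apply Store.ext'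
      intro r
      simp only [Store.set]
      clear hi h h2
      split_ifs <;> simp_all)
  have e0 : s.set a (num (2 ^ 0)) = s := by
    rw [pow_zero]
    exact Store.set_eq_self s ha
  simp only [e0] at key
  exact key.mono (le_of_eq (by ring))

end

section
variable {τ κ α : Type} [DecidableEq τ] [DecidableEq κ]

theorem run_testB {s : Store (RF τ κ) (Sy α)} {k b : ℕ} (hk : s (ex nk) = num k)
    (hb : s (ex nb1) = num b) (hT : s (ex TT) = []) :
    Runs testB s (s.set (ex TT) ((num (k + 1)).drop (4 * b))) (4 * k + 7 * b + 10) := by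
  have h1 := run_zeroC (c := ex TT) (s := s) hT
  have h2 := run_addC (k := 1) (d := ex nk) (c := ex TT) (by simp) (s := s.set (ex TT) (num 0))
    (N := k) (m := 0) (by simp [hk]) (by simp)
  have h3 := run_pushMark (c := ex TT) (s := (s.set (ex TT) (num 0)).set (ex TT) (num (0 + 1 * k)))
    (N := 0 + 1 * k) (by simp)
  have h4 := run_dropN (k := 4) (c := ex nb1) (a := ex TT) (by simp)
    (s := ((s.set (ex TT) (num 0)).set (ex TT) (num (0 + 1 * k))).set (ex TT)
      (num (0 + 1 * k + 1))) (N := b) (by simp [hb])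
  refine Runs.cast (run_sq_cons h1 (run_sq_cons h2 (run_sq_cons h3 (run_sq_cons h4 run_sq_nil))))
    ?_ (by omega)
  simp

theorem log_lt_iff (k i : ℕ) : 4 * 2 ^ i ≤ k ↔ i < tOf k := by
  have e : 4 * 2 ^ i = 2 ^ (i + 2) := by rw [pow_add]; ring
  unfold tOf
  rw [e]
  rcases Nat.eq_zero_or_pos k with h | h
  · subst h
    simp
  · rw [← Nat.le_log_iff_pow_le (by norm_num) (by omega)]
    omega

theorem isMark_drop (k m : ℕ) :
    isMark (((num (k + 1)).drop m : List (Sy α)).head?) = decide (m ≤ k) := by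
  unfold num
  rcases Nat.lt_or_ge k m with h | h
  · rw [decide_eq_false (by omega)]
    obtain ⟨j, rfl⟩ : ∃ j, m = (k + 1) + j := ⟨m - (k + 1), by omega⟩
    rw [← List.drop_drop, List.drop_append_of_le_length (by simp)]
    simp only [List.drop_replicate, Nat.sub_self, List.replicate_zero, List.nil_append]
    rcases j with _ | j
    · simp [isMark]
    · simp [isMark]
  · rw [decide_eq_true h]
    obtain ⟨j, hj⟩ : ∃ j, k + 1 - m = j + 1 := ⟨k - m, by omega⟩
    rw [List.drop_append_of_le_length (by simp; omega), List.drop_replicate, hj]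
    simp [List.replicate_succ, isMark]

/-- the body of the loop in `sizesF` -/
def szBody : Cmd (RF τ κ) (Sy α) := sq [
  clr (ex TT), clr (ex nhb), zeroC (ex nhb), addC 1 (ex nb1) (ex nhb),
  dblC (ex nb1) (.r .A3), pushF (ex nt) .mark, testB]

theorem run_szBody {s : Store (RF τ κ) (Sy α)} {k i : ℕ} (hk : s (ex nk) = num k)
    (hi : 4 * 2 ^ i ≤ k) (hA : s (r A3) = []) (hb : s (ex nb1) = num (2 ^ i))
    (ht : s (ex nt) = num i) (hh : (s (ex nhb)).length ≤ k + 1)
    (hT : (s (ex TT)).length ≤ k + 2) :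
    Runs szBody s ((((s.set (ex nb1) (num (2 ^ (i + 1)))).set (ex nt) (num (i + 1))).set
      (ex nhb) (num (2 ^ i))).set (ex TT) ((num (k + 1)).drop (4 * 2 ^ (i + 1)))) (50 * k + 100) := by
  have h1 := run_clr (a := ex TT) (s := s)
  set s1 := s.set (ex TT) [] with hs1
  have h2 := run_clr (a := ex nhb) (s := s1)
  set s2 := s1.set (ex nhb) [] with hs2
  have h3 := run_copyC (d := ex nb1) (c := ex nhb) (by simp) (s := s2) (N := 2 ^ i)
    (by simp [hs2, hs1, hb]) (by simp [hs2])
  set s3 := s2.set (ex nhb) (num (2 ^ i)) with hs3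
  have h4 := run_dblC (a := ex nb1) (b := r A3) (by simp) (s := s3) (N := 2 ^ i)
    (by simp [hs3, hs2, hs1, hb]) (by simp [hs3, hs2, hs1, hA])
  set s4 := s3.set (ex nb1) (num (2 * 2 ^ i)) with hs4
  have h5 := run_pushMark (c := ex nt) (s := s4) (N := i) (by simp [hs4, hs3, hs2, hs1, ht])
  set s5 := s4.set (ex nt) (num (i + 1)) with hs5
  have h6 := run_testB (s := s5) (k := k) (b := 2 * 2 ^ i)
    (by simp [hs5, hs4, hs3, hs2, hs1, hk]) (by simp [hs5, hs4]) (by simp [hs5, hs4, hs3, hs2, hs1])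
  have hh1 : (s1 (ex nhb)).length ≤ k + 1 := by simpa [hs1] using hh
  have hR := Runs.append (run_sq_cons h1 (run_sq_cons h2 run_sq_nil))
    (Runs.append h3 (run_sq_cons h4 (run_sq_cons h5 (run_sq_cons h6 run_sq_nil))))
  refine Runs.cast hR ?_ (by omega)
  have e : 2 * 2 ^ i = 2 ^ (i + 1) := by rw [pow_succ]; ring
  rw [hs5, hs4, hs3, hs2, hs1, e]
  apply Store.ext'
  intro r
  simp only [Store.set]
  clear hi hh hT h1 h2 h3 h4 h5 h6 hh1 hR
  split_ifs <;> simp_all

theorem tOf_le (k : ℕ) : tOf k ≤ k := by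
  unfold tOf
  have := Nat.log_le_self 2 k
  omega

theorem bOf_le (k : ℕ) (hk : 1 ≤ k) : bOf k ≤ k := by
  unfold bOf
  rcases Nat.eq_zero_or_pos (tOf k) with h | h
  · rw [h, pow_zero]
    exact hk
  · have h1 := (log_lt_iff k (tOf k - 1)).mpr (by omega)
    have e : 2 ^ tOf k = 2 * 2 ^ (tOf k - 1) := by
      rw [← Nat.pow_succ']
      congr 1
      omega
    omega

/-- the middle part of `sizesF` -/
def szMid : List (Cmd (RF τ κ) (Sy α)) := [
  zeroC (ex nb1), pushF (ex nb1) .mark, zeroC (ex nt), zeroC (ex nhb),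
  testB, .loop (fun h => isMark (h (ex TT))) szBody, clr (ex TT)]

theorem run_szMid {s : Store (RF τ κ) (Sy α)} {k : ℕ} (h1k : 1 ≤ k) (hk : s (ex nk) = num k)
    (hA : s (r A3) = []) (hb : s (ex nb1) = []) (ht : s (ex nt) = []) (hh : s (ex nhb) = [])
    (hT : s (ex TT) = []) :
    Runs (sq szMid) s (((s.set (ex nb1) (num (bOf k))).set (ex nt) (num (tOf k))).set
      (ex nhb) (num (bOf k / 2))) (k * (50 * k + 101) + 20 * k + 100) := by
  set S : ℕ → Store (RF τ κ) (Sy α) := fun i =>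
    (((s.set (ex nb1) (num (2 ^ i))).set (ex nt) (num i)).set
      (ex nhb) (num (2 ^ i / 2))).set (ex TT) ((num (k + 1)).drop (4 * 2 ^ i)) with hS
  have hloop := Runs.loopN (p := fun h => isMark (h (ex TT)))
    (c := (szBody : Cmd (RF τ κ) (Sy α))) (tOf k) S (50 * k + 100)
    (by
      intro i hi
      have h1 := (log_lt_iff k i).mpr hi
      simp only [Store.heads, hS, Store.set_same]
      rw [isMark_drop, decide_eq_true h1])
    (by
      intro i hi
      have h1 := (log_lt_iff k i).mpr hi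
      have h := run_szBody (s := S i) (k := k) (i := i) (by simp [hS, hk]) h1
        (by simp [hS, hA]) (by simp [hS]) (by simp [hS])
        (by
          simp only [hS]
          rw [Store.set_ne _ _ (by simp), Store.set_same]
          simp only [num, List.length_append, List.length_replicate, List.length_cons,
            List.length_nil]
          omega)
        (by
          simp only [hS, Store.set_same]
          simp only [num, List.length_drop, List.length_append, List.length_replicate,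
            List.length_cons, List.length_nil]
          omega)
      have e : 2 ^ (i + 1) / 2 = 2 ^ i := by
        rw [pow_succ]
        omega
      refine Runs.cast h ?_ le_rfl
      simp only [hS, e]
      apply Store.ext'
      intro r
      simp only [Store.set]
      clear h1k hi h1 h
      split_ifs <;> simp_all)
    (by
      simp only [Store.heads, hS, Store.set_same]
      rw [isMark_drop]
      have h1 : ¬ 4 * 2 ^ tOf k ≤ k := by
        rw [log_lt_iff]
        omega
      simp [h1])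
  have h1 := run_oneC (c := ex nb1) (s := s) hb
  set s1 := s.set (ex nb1) (num 1) with hs1
  have h2 := run_zeroC (c := ex nt) (s := s1) (by simp [hs1, ht])
  set s2 := s1.set (ex nt) (num 0) with hs2
  have h3 := run_zeroC (c := ex nhb) (s := s2) (by simp [hs2, hs1, hh])
  set s3 := s2.set (ex nhb) (num 0) with hs3
  have h4 := run_testB (s := s3) (k := k) (b := 1) (by simp [hs3, hs2, hs1, hk])
    (by simp [hs3, hs2, hs1]) (by simp [hs3, hs2, hs1, hT])
  have e4 : s3.set (ex TT) ((num (k + 1)).drop (4 * 1)) = S 0 := by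
    simp only [hS, hs3, hs2, hs1]
    simp
  rw [e4] at h4
  have h5 := run_clr (a := ex TT) (s := S (tOf k))
  have hlen : (S (tOf k) (ex TT)).length ≤ k + 2 := by
    simp only [hS, Store.set_same]
    simp only [num, List.length_drop, List.length_append, List.length_replicate,
      List.length_cons, List.length_nil]
    omega
  have hR := Runs.append h1 (run_sq_cons h2 (run_sq_cons h3 (run_sq_cons h4 (run_sq_cons hloop
    (run_sq_cons h5 run_sq_nil)))))
  have ht' : tOf k * (50 * k + 100 + 1) ≤ k * (50 * k + 101) :=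
    Nat.mul_le_mul_right _ (tOf_le k)
  refine Runs.cast hR ?_ (by omega)
  simp only [hS, bOf]
  apply Store.ext'
  intro r
  simp only [Store.set]
  clear h1k hloop h1 h2 h3 h4 h5 hlen hR ht'
  split_ifs <;> simp_all

/-- the last part of `sizesF` -/
def szEnd : List (Cmd (RF τ κ) (Sy α)) := [
  zeroC (ex kt), addC 1 (ex nk) (ex kt), subC 1 (ex nt) (ex kt),
  zeroC (ex m0), pushF (ex m0) .mark, forN (ex kt) (dblC (ex m0) (.r .A3)),
  clr (ex kt)]

theorem run_szEnd {s : Store (RF τ κ) (Sy α)} {k t : ℕ} (htk : t ≤ k) (hk : s (ex nk) = num k)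
    (hA : s (r A3) = []) (ht : s (ex nt) = num t) (hkt : s (ex kt) = []) (hm : s (ex m0) = []) :
    Runs (sq szEnd) s (s.set (ex m0) (num (2 ^ (k - t)))) (k * (10 * 2 ^ k + 22) + 10 * k + 30) := by
  have h1 := run_copyC (d := ex nk) (c := ex kt) (by simp) (s := s) (N := k) hk hkt
  set s1 := s.set (ex kt) (num k) with hs1
  have h2 := run_subC (k := 1) (d := ex nt) (c := ex kt) (by simp) (s := s1) (N := t) (m := k)
    (by simp [hs1, ht]) (by simp [hs1]) (by omega)
  set s2 := s1.set (ex kt) (num (k - 1 * t)) with hs2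
  have h3 := run_oneC (c := ex m0) (s := s2) (by simp [hs2, hs1, hm])
  set s3 := s2.set (ex m0) (num 1) with hs3
  have h4 := run_pow2 (a := ex m0) (b := r A3) (c := ex kt) (by simp) (by simp) (by simp)
    (s := s3) (N := k - 1 * t) (by simp [hs3, hs2]) (by simp [hs3]) (by simp [hs3, hs2, hs1, hA])
  set s4 := s3.set (ex m0) (num (2 ^ (k - 1 * t))) with hs4
  have h5 := run_clr (a := ex kt) (s := s4)
  have hlen : (s4 (ex kt)).length ≤ k + 1 := by
    simp only [hs4, hs3, hs2]
    rw [Store.set_ne _ _ (by simp), Store.set_ne _ _ (by simp), Store.set_same]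
    simp only [num, List.length_append, List.length_replicate, List.length_cons,
      List.length_nil]
    omega
  have hR := Runs.append h1 (Runs.append (run_sq_cons h2 run_sq_nil) (Runs.append h3
    (run_sq_cons h4 (run_sq_cons h5 run_sq_nil))))
  have hp : 2 ^ (k - 1 * t) ≤ 2 ^ k := Nat.pow_le_pow_right (by norm_num) (by omega)
  have hq : (k - 1 * t) * (10 * 2 ^ (k - 1 * t) + 22) ≤ k * (10 * 2 ^ k + 22) :=
    Nat.mul_le_mul (by omega) (by omega)
  refine Runs.cast hR ?_ (by omega)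
  simp only [hs4, hs3, hs2, hs1, Nat.one_mul]
  apply Store.ext'
  intro r
  simp only [Store.set]
  clear htk h1 h2 h3 h4 h5 hlen hR hp hq
  split_ifs <;> simp_all

theorem sizesF_eq : (sizesF : Cmd (RF τ κ) (Sy α)) = sq (
    [zeroC (ex nk), addC 1 (.r .K) (ex nk)] ++ ([pushF (ex nk) .mark] ++
    ([zeroC (ex W2), pushF (ex W2) .mark] ++ ([forN (ex nk) (dblC (ex W2) (.r .A3))] ++
    ([zeroC (ex W3), addC 1 (ex W2) (ex W3)] ++ (szMid ++
    ([zeroC (ex nc), addC 1 (ex nb1) (ex nc)] ++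
    ([zeroC (ex nL), addC 3 (ex nk) (ex nL), pushF (ex nL) .mark, pushF (ex nL) .mark,
      pushF (ex nL) .mark] ++
    ([zeroC (ex nL2), addC 1 (ex nL) (ex nL2)] ++
    ([zeroC (ex nLb), addC 1 (ex nL) (ex nLb)] ++ ([subC 1 (ex nb1) (ex nLb)] ++
    szEnd))))))))))) := rfl

theorem run_sizesF : ∃ C0 : ℕ, ∀ (s : Store (RF τ κ) (Sy α)) (k : ℕ), 1 ≤ k →
    s (r K) = num (k - 1) → (∀ y : Ex, s (ex y) = []) → s (r A3) = [] →
    Runs sizesF s
      (((((((((((s.set (ex nk) (num k)).set (ex W2) (num (2 ^ k))).set (ex W3) (num (2 ^ k))).set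
        (ex nb1) (num (bOf k))).set (ex nc) (num (bOf k))).set (ex nt) (num (tOf k))).set
        (ex nhb) (num (bOf k / 2))).set (ex nL) (num (lOf k))).set (ex nL2) (num (lOf k))).set
        (ex nLb) (num (lOf k - bOf k))).set (ex m0) (num (m0Of k)))
      (C0 * 4 ^ k) := by
  refine ⟨1000, fun s k h1k hK hE hA => ?_⟩
  have hbk := bOf_le k h1k
  -- nk
  have a1 := run_copyC (d := r K) (c := ex nk) (by simp) (s := s) (N := k - 1) hK (hE _)
  have a2 := run_pushMark (c := ex nk) (s := s.set (ex nk) (num (k - 1))) (N := k - 1) (by simp)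
  have e1 : (s.set (ex nk) (num (k - 1))).set (ex nk) (num (k - 1 + 1))
      = s.set (ex nk) (num k) := by
    rw [Store.set_set]
    congr 2
    omega
  rw [e1] at a2
  set s1 := s.set (ex nk) (num k) with hs1
  -- W2
  have a3 := run_oneC (c := ex W2) (s := s1) (by simp [hs1, hE])
  have a4 := run_pow2 (a := ex W2) (b := r A3) (c := ex nk) (by simp) (by simp) (by simp)
    (s := s1.set (ex W2) (num 1)) (N := k) (by simp [hs1]) (by simp) (by simp [hs1, hA])
  rw [Store.set_set] at a4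
  set s2 := s1.set (ex W2) (num (2 ^ k)) with hs2
  -- W3
  have a5 := run_copyC (d := ex W2) (c := ex W3) (by simp) (s := s2) (N := 2 ^ k)
    (by simp [hs2]) (by simp [hs2, hs1, hE])
  set s3 := s2.set (ex W3) (num (2 ^ k)) with hs3
  -- middle
  have a6 := run_szMid (s := s3) (k := k) h1k (by simp [hs3, hs2, hs1])
    (by simp [hs3, hs2, hs1, hA]) (by simp [hs3, hs2, hs1, hE]) (by simp [hs3, hs2, hs1, hE])
    (by simp [hs3, hs2, hs1, hE]) (by simp [hs3, hs2, hs1, hE])
  set s4 := ((s3.set (ex nb1) (num (bOf k))).set (ex nt) (num (tOf k))).set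
      (ex nhb) (num (bOf k / 2)) with hs4
  -- nc
  have a7 := run_copyC (d := ex nb1) (c := ex nc) (by simp) (s := s4) (N := bOf k)
    (by simp [hs4]) (by simp [hs4, hs3, hs2, hs1, hE])
  set s5 := s4.set (ex nc) (num (bOf k)) with hs5
  -- nL
  have a8 := run_zeroC (c := ex nL) (s := s5) (by simp [hs5, hs4, hs3, hs2, hs1, hE])
  have a9 := run_addC (k := 3) (d := ex nk) (c := ex nL) (by simp) (s := s5.set (ex nL) (num 0))
    (N := k) (m := 0) (by simp [hs5, hs4, hs3, hs2, hs1]) (by simp)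
  rw [Store.set_set] at a9
  have a10 := run_pushMark (c := ex nL) (s := s5.set (ex nL) (num (0 + 3 * k)))
    (N := 0 + 3 * k) (by simp)
  rw [Store.set_set] at a10
  have a11 := run_pushMark (c := ex nL) (s := s5.set (ex nL) (num (0 + 3 * k + 1)))
    (N := 0 + 3 * k + 1) (by simp)
  rw [Store.set_set] at a11
  have a12 := run_pushMark (c := ex nL) (s := s5.set (ex nL) (num (0 + 3 * k + 1 + 1)))
    (N := 0 + 3 * k + 1 + 1) (by simp)
  have e2 : 0 + 3 * k + 1 + 1 + 1 = lOf k := by
    unfold lOf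
    omega
  rw [Store.set_set, e2] at a12
  set s6 := s5.set (ex nL) (num (lOf k)) with hs6
  -- nL2
  have a13 := run_copyC (d := ex nL) (c := ex nL2) (by simp) (s := s6) (N := lOf k)
    (by simp [hs6]) (by simp [hs6, hs5, hs4, hs3, hs2, hs1, hE])
  set s7 := s6.set (ex nL2) (num (lOf k)) with hs7
  -- nLb
  have a14 := run_copyC (d := ex nL) (c := ex nLb) (by simp) (s := s7) (N := lOf k)
    (by simp [hs7, hs6]) (by simp [hs7, hs6, hs5, hs4, hs3, hs2, hs1, hE])
  have hlk : 1 * bOf k ≤ lOf k := by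
    unfold lOf
    omega
  have a15 := run_subC (k := 1) (d := ex nb1) (c := ex nLb) (by simp)
    (s := s7.set (ex nLb) (num (lOf k))) (N := bOf k) (m := lOf k)
    (by simp [hs7, hs6, hs5, hs4]) (by simp) hlk
  rw [Store.set_set, Nat.one_mul] at a15
  set s8 := s7.set (ex nLb) (num (lOf k - bOf k)) with hs8
  -- m0
  have a16 := run_szEnd (s := s8) (k := k) (t := tOf k) (tOf_le k)
    (by simp [hs8, hs7, hs6, hs5, hs4, hs3, hs2, hs1])
    (by simp [hs8, hs7, hs6, hs5, hs4, hs3, hs2, hs1, hA])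
    (by simp [hs8, hs7, hs6, hs5, hs4])
    (by simp [hs8, hs7, hs6, hs5, hs4, hs3, hs2, hs1, hE])
    (by simp [hs8, hs7, hs6, hs5, hs4, hs3, hs2, hs1, hE])
  have hR := Runs.append a1 (Runs.append (run_sq_cons a2 run_sq_nil) (Runs.append a3
    (Runs.append (run_sq_cons a4 run_sq_nil) (Runs.append a5 (Runs.append a6 (Runs.append a7
    (Runs.append (run_sq_cons a8 (run_sq_cons a9 (run_sq_cons a10 (run_sq_cons a11
      (run_sq_cons a12 run_sq_nil)))))
    (Runs.append a13 (Runs.append a14 (Runs.append (run_sq_cons a15 run_sq_nil) a16))))))))))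
  rw [sizesF_eq]
  refine Runs.cast hR ?_ ?_
  · have hcomm : s5 = (((s3.set (ex nb1) (num (bOf k))).set (ex nc) (num (bOf k))).set (ex nt)
        (num (tOf k))).set (ex nhb) (num (bOf k / 2)) := by
      rw [hs5, hs4]
      apply Store.ext'
      intro r
      simp only [Store.set]
      clear h1k hbk a1 a2 a3 a4 a5 a6 a7 a8 a9 a10 a11 a12 a13 a14 hlk a15 a16 hR
      split_ifs <;> simp_all
    rw [hs8, hs7, hs6, hcomm]
    rfl
  · have hk2 : k ≤ 2 ^ k := Nat.lt_two_pow_self.le
    have h4 : 4 ^ k = 2 ^ k * 2 ^ k := by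
      rw [← mul_pow]
      norm_num
    have h5 : k * k ≤ 4 ^ k := by
      rw [h4]
      exact Nat.mul_le_mul hk2 hk2
    have h6 : k * 2 ^ k ≤ 4 ^ k := by
      rw [h4]
      exact Nat.mul_le_mul hk2 le_rfl
    have h7 : 1 ≤ 2 ^ k := Nat.one_le_two_pow
    have h8 : 2 ^ k ≤ 4 ^ k := by
      rw [h4]
      exact Nat.le_mul_of_pos_left _ h7
    have h9 : lOf k = 3 * (k + 1) := rfl
    have h10 : k * (10 * 2 ^ k + 22) = 10 * (k * 2 ^ k) + 22 * k := by ring
    have h11 : k * (50 * k + 101) = 50 * (k * k) + 101 * k := by ring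
    rw [h9, h10, h11]
    omega

end

end Vale.Agent.P338
end

section

/-! Correctness and cost of the sieve `primeF` (module G9 of the second core program). -/

namespace Vale.Agent.P338
open Reg R Ex

section
variable {τ κ α : Type} [DecidableEq τ] [DecidableEq κ]

/-- The least prime above `m`. -/
noncomputable def pOf (m : ℕ) : ℕ := sInf {p | p.Prime ∧ m < p}

theorem pOf_spec {m : ℕ} (hm : 1 ≤ m) : (pOf m).Prime ∧ m < pOf m ∧ pOf m ≤ 2 * m := by
  obtain ⟨p, hp, h1, h2⟩ := Nat.exists_prime_lt_and_le_two_mul m (by omega)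
  have hne : {p : ℕ | p.Prime ∧ m < p}.Nonempty := ⟨p, hp, h1⟩
  have h := Nat.sInf_mem hne
  have h3 : pOf m ≤ p := Nat.sInf_le (show p ∈ {p : ℕ | p.Prime ∧ m < p} from ⟨hp, h1⟩)
  exact ⟨h.1, h.2, h3.trans h2⟩

theorem not_prime_of_lt_pOf {m j : ℕ} (h1 : m < j) (h2 : j < pOf m) : ¬ j.Prime := by
  intro hj
  exact absurd (show j ∈ {p : ℕ | p.Prime ∧ m < p} from ⟨hj, h1⟩) (Nat.notMem_of_lt_sInf h2)

/-- The working store of the sieve: ten registers with the given contents. -/
def PS (s : Store (RF τ κ) (Sy α)) (fg hd sk n2v ndv nhv m0v q1v q2v qmv : List (Sy α)) :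
    Store (RF τ κ) (Sy α) := fun i =>
  match i with
  | .tl (.inr (.inr .FG)) => fg
  | .tl (.inr (.inr .HD)) => hd
  | .tl (.inr (.inr .SK)) => sk
  | .tl (.inr (.inr .n2)) => n2v
  | .tl (.inr (.inr .nd)) => ndv
  | .tl (.inr (.inr .nh1)) => nhv
  | .tl (.inr (.inr .m0)) => m0v
  | .r .q1 => q1v
  | .r .q2 => q2v
  | .tl (.inr (.inr .qm)) => qmv
  | i => s i

section PSlemmas
set_option linter.unusedSectionVars false
variable (s : Store (RF τ κ) (Sy α)) (fg hd sk n2v ndv nhv m0v q1v q2v qmv v : List (Sy α))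

@[simp] theorem PS_FG : PS s fg hd sk n2v ndv nhv m0v q1v q2v qmv (ex FG) = fg := rfl
@[simp] theorem PS_HD : PS s fg hd sk n2v ndv nhv m0v q1v q2v qmv (ex HD) = hd := rfl
@[simp] theorem PS_SK : PS s fg hd sk n2v ndv nhv m0v q1v q2v qmv (ex SK) = sk := rfl
@[simp] theorem PS_n2 : PS s fg hd sk n2v ndv nhv m0v q1v q2v qmv (ex n2) = n2v := rfl
@[simp] theorem PS_nd : PS s fg hd sk n2v ndv nhv m0v q1v q2v qmv (ex nd) = ndv := rfl
@[simp] theorem PS_nh1 : PS s fg hd sk n2v ndv nhv m0v q1v q2v qmv (ex nh1) = nhv := rfl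
@[simp] theorem PS_m0 : PS s fg hd sk n2v ndv nhv m0v q1v q2v qmv (ex m0) = m0v := rfl
@[simp] theorem PS_q1 : PS s fg hd sk n2v ndv nhv m0v q1v q2v qmv (r q1) = q1v := rfl
@[simp] theorem PS_q2 : PS s fg hd sk n2v ndv nhv m0v q1v q2v qmv (r q2) = q2v := rfl
@[simp] theorem PS_qm : PS s fg hd sk n2v ndv nhv m0v q1v q2v qmv (ex qm) = qmv := rfl

@[simp] theorem PS_set_FG : (PS s fg hd sk n2v ndv nhv m0v q1v q2v qmv).set (ex FG) v =
    PS s v hd sk n2v ndv nhv m0v q1v q2v qmv := by
  funext i; simp only [Store.set, PS]; split_ifs with h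
  · subst h; rfl
  · split <;> simp_all
@[simp] theorem PS_set_HD : (PS s fg hd sk n2v ndv nhv m0v q1v q2v qmv).set (ex HD) v =
    PS s fg v sk n2v ndv nhv m0v q1v q2v qmv := by
  funext i; simp only [Store.set, PS]; split_ifs with h
  · subst h; rfl
  · split <;> simp_all
@[simp] theorem PS_set_SK : (PS s fg hd sk n2v ndv nhv m0v q1v q2v qmv).set (ex SK) v =
    PS s fg hd v n2v ndv nhv m0v q1v q2v qmv := by
  funext i; simp only [Store.set, PS]; split_ifs with h
  · subst h; rfl
  · split <;> simp_all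
@[simp] theorem PS_set_n2 : (PS s fg hd sk n2v ndv nhv m0v q1v q2v qmv).set (ex n2) v =
    PS s fg hd sk v ndv nhv m0v q1v q2v qmv := by
  funext i; simp only [Store.set, PS]; split_ifs with h
  · subst h; rfl
  · split <;> simp_all
@[simp] theorem PS_set_nd : (PS s fg hd sk n2v ndv nhv m0v q1v q2v qmv).set (ex nd) v =
    PS s fg hd sk n2v v nhv m0v q1v q2v qmv := by
  funext i; simp only [Store.set, PS]; split_ifs with h
  · subst h; rfl
  · split <;> simp_all
@[simp] theorem PS_set_nh1 : (PS s fg hd sk n2v ndv nhv m0v q1v q2v qmv).set (ex nh1) v =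
    PS s fg hd sk n2v ndv v m0v q1v q2v qmv := by
  funext i; simp only [Store.set, PS]; split_ifs with h
  · subst h; rfl
  · split <;> simp_all
@[simp] theorem PS_set_m0 : (PS s fg hd sk n2v ndv nhv m0v q1v q2v qmv).set (ex m0) v =
    PS s fg hd sk n2v ndv nhv v q1v q2v qmv := by
  funext i; simp only [Store.set, PS]; split_ifs with h
  · subst h; rfl
  · split <;> simp_all
@[simp] theorem PS_set_q1 : (PS s fg hd sk n2v ndv nhv m0v q1v q2v qmv).set (r q1) v =
    PS s fg hd sk n2v ndv nhv m0v v q2v qmv := by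
  funext i; simp only [Store.set, PS]; split_ifs with h
  · subst h; rfl
  · split <;> simp_all
@[simp] theorem PS_set_q2 : (PS s fg hd sk n2v ndv nhv m0v q1v q2v qmv).set (r q2) v =
    PS s fg hd sk n2v ndv nhv m0v q1v v qmv := by
  funext i; simp only [Store.set, PS]; split_ifs with h
  · subst h; rfl
  · split <;> simp_all
@[simp] theorem PS_set_qm : (PS s fg hd sk n2v ndv nhv m0v q1v q2v qmv).set (ex qm) v =
    PS s fg hd sk n2v ndv nhv m0v q1v q2v v := by
  funext i; simp only [Store.set, PS]; split_ifs with h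
  · subst h; rfl
  · split <;> simp_all

theorem PS_self : PS s (s (ex FG)) (s (ex HD)) (s (ex SK)) (s (ex n2)) (s (ex nd)) (s (ex nh1))
    (s (ex m0)) (s (r q1)) (s (r q2)) (s (ex qm)) = s := by
  funext i; simp only [PS]; split <;> rfl

end PSlemmas


variable (s : Store (RF τ κ) (Sy α))

/-- One sieve step. -/
theorem run_sieveStep (b h : Bool) (l l' sk n2v ndv nhv m0v q1v q2v qmv : List (Sy α)) :
    Runs sieveStep (PS s (Sy.bit b :: l) (Sy.bit h :: l') sk n2v ndv nhv m0v q1v q2v qmv)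
      (PS s (l ++ [Sy.bit (if h && sk.isEmpty then true else b)]) (l' ++ [Sy.bit h])
        (if h then sk.tail else sk) n2v ndv nhv m0v q1v q2v qmv) 1 := by
  refine Runs.act' _ fun i => ?_
  have e1 : Store.heads (PS s (Sy.bit b :: l) (Sy.bit h :: l') sk n2v ndv nhv m0v q1v q2v qmv)
      (ex HD) = some (Sy.bit h) := rfl
  have e2 : Store.heads (PS s (Sy.bit b :: l) (Sy.bit h :: l') sk n2v ndv nhv m0v q1v q2v qmv)
      (ex FG) = some (Sy.bit b) := rfl
  have e3 : Store.heads (PS s (Sy.bit b :: l) (Sy.bit h :: l') sk n2v ndv nhv m0v q1v q2v qmv)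
      (ex SK) = sk.head? := rfl
  simp only [e1, e2, e3, isOne_bit]
  by_cases hi1 : i = ex FG
  · subst hi1
    cases h <;> cases sk <;> simp [Act.app]
  by_cases hi2 : i = ex HD
  · subst hi2
    simp [Act.app, hi1]
  by_cases hi3 : i = ex SK
  · subst hi3
    cases h <;> cases sk <;> simp [Act.app, hi1, hi2]
  · simp only [hi1, hi2, hi3, if_false, Act.app]
    simp only [Option.toList, List.nil_append, List.append_nil, Bool.false_eq_true, if_false, PS]
    split <;> simp_all

/-- The periodic string with ones at the multiples of `d`, rotated by `j`. -/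
def hdl (d j : ℕ) : List Bool := (List.range d).map fun i => decide ((i + j) % d = 0)

theorem hdl_step (d j : ℕ) (hd : 1 ≤ d) : ∃ l, hdl d j = decide (j % d = 0) :: l ∧
    hdl d (j + 1) = l ++ [decide (j % d = 0)] := by
  obtain ⟨e, rfl⟩ : ∃ e, d = e + 1 := ⟨d - 1, by omega⟩
  refine ⟨(List.range e).map fun i => decide ((i + 1 + j) % (e + 1) = 0), ?_, ?_⟩
  · simp only [hdl, List.range_succ_eq_map, List.map_cons, List.map_map, Nat.zero_add]
    rfl
  · simp only [hdl, List.range_succ, List.map_append, List.map_cons, List.map_nil]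
    congr 1
    · refine List.map_congr_left fun i _ => ?_
      rw [show i + (j + 1) = i + 1 + j by ring]
    · rw [show e + (j + 1) = (e + 1) + j by ring, Nat.add_mod_left]

theorem hdl_zero (d : ℕ) (hd : 1 ≤ d) : hdl d 0 = true :: List.replicate (d - 1) false := by
  obtain ⟨e, rfl⟩ : ∃ e, d = e + 1 := ⟨d - 1, by omega⟩
  simp only [hdl, List.range_succ_eq_map, List.map_cons, List.map_map, Nat.add_zero,
    Nat.zero_mod, decide_true, Nat.add_sub_cancel]
  congr 1
  rw [List.eq_replicate_iff]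
  refine ⟨by simp, ?_⟩
  intro b hb
  simp only [List.mem_map, List.mem_range, Function.comp] at hb
  obtain ⟨i, hi, rfl⟩ := hb
  simp only [decide_eq_false_iff_not]
  rw [Nat.mod_eq_of_lt (by omega)]
  omega

/-- The flags during the pass with divisor `d`. -/
def fgl (n : ℕ) (f g : ℕ → Bool) (j : ℕ) : List Bool :=
  ((List.range (n - j)).map fun i => f (i + j)) ++ (List.range j).map g

theorem fgl_step (n : ℕ) (f g : ℕ → Bool) (j : ℕ) (hj : j < n) : ∃ l, fgl n f g j = f j :: l ∧
    fgl n f g (j + 1) = l ++ [g j] := by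
  obtain ⟨e, he⟩ : ∃ e, n - j = e + 1 := ⟨n - j - 1, by omega⟩
  have he' : n - (j + 1) = e := by omega
  refine ⟨((List.range e).map fun i => f (i + 1 + j)) ++ (List.range j).map g, ?_, ?_⟩
  · simp only [fgl, he, List.range_succ_eq_map, List.map_cons, List.map_map, Nat.zero_add,
      List.cons_append]
    rfl
  · simp only [fgl, he', List.range_succ, List.map_append, List.map_cons, List.map_nil,
      List.append_assoc]
    congr 1
    refine List.map_congr_left fun i _ => ?_
    rw [show i + (j + 1) = i + 1 + j by ring]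

/-- The marks left in `SK` before step `j` of the pass with divisor `d`. -/
def skl (d j : ℕ) : List (Sy α) := List.replicate (if j = 0 then 2 else if j ≤ d then 1 else 0) .mark

/-- One pass. -/
theorem run_pass (f : ℕ → Bool) (n d : ℕ) (hd : 2 ≤ d) (hdn : d < n)
    (ndv nhv m0v q1v q2v qmv : List (Sy α)) :
    Runs (forN (ex n2) sieveStep)
      (PS s (bs ((List.range n).map f)) (bs (hdl d 0)) [.mark, .mark] (num n) ndv nhv m0v q1v
        q2v qmv)
      (PS s (bs ((List.range n).map fun j => f j || (decide (j % d = 0) && decide (d < j))))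
        (bs (hdl d n)) [] (num n) ndv nhv m0v q1v q2v qmv) (n * 3 + 2) := by
  set g : ℕ → Bool := fun j => f j || (decide (j % d = 0) && decide (d < j)) with hg
  have key := Runs.forN (c := ex n2) (body := sieveStep (τ := τ) (κ := κ) (α := α)) n
    (fun j => PS s (bs (fgl n f g j)) (bs (hdl d j)) (skl d j) (num n) ndv nhv m0v q1v q2v qmv) 1
    (by intro i; simp)
    (by
      intro j hj x
      obtain ⟨l, h1, h2⟩ := fgl_step n f g j hj
      obtain ⟨l', h3, h4⟩ := hdl_step d j (by omega)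
      simp only [PS_set_n2, h1, h2, h3, h4, bs_cons, bs_append, bs_nil]
      have := run_sieveStep s (f j) (decide (j % d = 0)) (bs l) (bs l') (skl d j) x ndv nhv m0v
        q1v q2v qmv
      refine Runs.cast this ?_ le_rfl
      congr 1
      · congr 3
        simp only [hg, skl]
        by_cases h0 : j % d = 0
        · by_cases hj0 : j = 0
          · subst hj0; simp
          · by_cases hjd : j ≤ d
            · simp [hj0, hjd, h0]
            · simp [hj0, hjd, h0, not_le.mp hjd]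
        · simp [h0]
      · simp only [skl]
        by_cases h0 : j % d = 0
        · by_cases hj0 : j = 0
          · subst hj0; simp [show (1 : ℕ) ≤ d by omega]
          · have hjd : d ≤ j := Nat.le_of_dvd (by omega) (Nat.dvd_of_mod_eq_zero h0)
            by_cases hjd' : j = d
            · subst hjd'; simp [hj0]
            · simp [hj0, h0, show ¬ j ≤ d by omega, show ¬ j + 1 ≤ d by omega]
        · have hj0 : j ≠ 0 := by rintro rfl; simp at h0
          have hjd : j ≠ d := by rintro rfl; simp at h0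
          by_cases hjd' : j ≤ d
          · simp [hj0, h0, hjd', show j + 1 ≤ d by omega]
          · simp [hj0, h0, hjd', show ¬ j + 1 ≤ d by omega])
  have e0 : fgl n f g 0 = (List.range n).map f := by simp [fgl]
  have e1 : fgl n f g n = (List.range n).map g := by simp [fgl]
  have e2 : (skl d 0 : List (Sy α)) = [.mark, .mark] := by simp [skl, List.replicate_succ]
  have e3 : (skl d n : List (Sy α)) = [] := by
    simp [skl, show n ≠ 0 by omega, show ¬ n ≤ d by omega]
  simp only [e0, e1, e2, e3] at key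
  exact key.mono (by omega)

/-- The flag of `j` after the passes with divisors up to `D`. -/
def cflag (D j : ℕ) : Bool :=
  (List.range (D + 1)).any fun d => decide (2 ≤ d) && decide (j % d = 0) && decide (d < j)

theorem cflag_iff (D j : ℕ) :
    cflag D j = true ↔ ∃ d, (2 ≤ d ∧ d ≤ D) ∧ j % d = 0 ∧ d < j := by
  simp only [cflag, List.any_eq_true, List.mem_range, Bool.and_eq_true, decide_eq_true_eq]
  constructor
  · rintro ⟨d, h1, ⟨h2, h3⟩, h4⟩; exact ⟨d, ⟨h2, by omega⟩, h3, h4⟩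
  · rintro ⟨d, ⟨h2, h1⟩, h3, h4⟩; exact ⟨d, by omega, ⟨h2, h3⟩, h4⟩

theorem cflag_one (j : ℕ) : cflag 1 j = false := by
  rw [Bool.eq_false_iff, Ne, cflag_iff]
  rintro ⟨d, ⟨h1, h2⟩, _⟩
  omega

theorem cflag_succ (D j : ℕ) (hD : 1 ≤ D) : cflag (D + 1) j =
    (cflag D j || (decide (j % (D + 1) = 0) && decide (D + 1 < j))) := by
  rw [Bool.eq_iff_iff]
  simp only [cflag_iff, decide_eq_true_eq, Bool.or_eq_true, Bool.and_eq_true]
  constructor
  · rintro ⟨d, ⟨h1, h2⟩, h3, h4⟩
    by_cases hd : d = D + 1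
    · subst hd; exact Or.inr ⟨h3, h4⟩
    · exact Or.inl ⟨d, ⟨h1, by omega⟩, h3, h4⟩
  · rintro (⟨d, ⟨h1, h2⟩, h3, h4⟩ | ⟨h3, h4⟩)
    · exact ⟨d, ⟨h1, by omega⟩, h3, h4⟩
    · exact ⟨D + 1, ⟨by omega, le_rfl⟩, h3, h4⟩

theorem cflag_eq {D j : ℕ} (h2 : 2 ≤ j) (hj : j ≤ D) : cflag D j = !decide j.Prime := by
  rw [Bool.eq_iff_iff]
  simp only [cflag_iff, Bool.not_eq_true', decide_eq_false_iff_not]
  constructor
  · rintro ⟨d, ⟨h3, h4⟩, h5, h6⟩ hp
    have := (Nat.dvd_prime hp).mp (Nat.dvd_of_mod_eq_zero h5)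
    omega
  · intro hp
    obtain ⟨d, h3, h4, h5⟩ := Nat.exists_dvd_of_not_prime2 h2 hp
    exact ⟨d, ⟨h4, by omega⟩, Nat.mod_eq_zero_of_dvd h3, h5⟩

/-- The body of the main loop of the sieve. -/
theorem run_sieveBody (n D : ℕ) (hD : 1 ≤ D) (hDn : D + 1 < n)
    (ndv m0v q1v q2v qmv : List (Sy α)) :
    Runs (sq [
      pushF (ex HD) (Sy.bit true), fillN 1 (ex nh1) (ex HD) (Sy.bit false),
      pushB (ex SK) Sy.mark, pushB (ex SK) Sy.mark,
      forN (ex n2) sieveStep, clr (ex HD), clr (ex SK), pushF (ex nh1) Sy.mark])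
      (PS s (bs ((List.range n).map (cflag D))) [] [] (num n) ndv (num D) m0v q1v q2v qmv)
      (PS s (bs ((List.range n).map (cflag (D + 1)))) [] [] (num n) ndv (num (D + 1)) m0v q1v
        q2v qmv) (9 * n + 20) := by
  have h1 := run_pushF (b := (ex HD : RF τ κ)) (s := PS s (bs ((List.range n).map (cflag D))) [] []
    (num n) ndv (num D) m0v q1v q2v qmv) (Sy.bit true)
  simp only [PS_HD, PS_set_HD] at h1
  have h2 := run_fillN (k := 1) (c := (ex nh1 : RF τ κ)) (b := ex HD) (x := Sy.bit false) (by simp)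
    (s := PS s (bs ((List.range n).map (cflag D))) [Sy.bit true] []
    (num n) ndv (num D) m0v q1v q2v qmv) (N := D) (by simp)
  simp only [PS_HD, PS_set_HD] at h2
  have h3 := run_pushB (b := (ex SK : RF τ κ)) (s := PS s (bs ((List.range n).map (cflag D)))
    ([Sy.bit true] ++ List.replicate (1 * D) (Sy.bit false)) []
    (num n) ndv (num D) m0v q1v q2v qmv) Sy.mark
  simp only [PS_SK, PS_set_SK] at h3
  have h4 := run_pushB (b := (ex SK : RF τ κ)) (s := PS s (bs ((List.range n).map (cflag D)))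
    ([Sy.bit true] ++ List.replicate (1 * D) (Sy.bit false)) ([] ++ [Sy.mark])
    (num n) ndv (num D) m0v q1v q2v qmv) Sy.mark
  simp only [PS_SK, PS_set_SK] at h4
  have e : ([Sy.bit true] ++ List.replicate (1 * D) (Sy.bit false) : List (Sy α)) =
      bs (hdl (D + 1) 0) := by
    rw [hdl_zero _ (by omega), bs_cons, bs_replicate]
    simp
  rw [e] at h2 h3 h4
  have h5 := run_pass s (cflag D) n (D + 1) (by omega) hDn ndv (num D) m0v q1v q2v qmv
  have e' : (fun j => cflag D j || (decide (j % (D + 1) = 0) && decide (D + 1 < j))) =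
      cflag (D + 1) := by
    funext j; rw [cflag_succ D j hD]
  rw [e'] at h5
  have h6 := run_clr (a := (ex HD : RF τ κ)) (s := PS s (bs ((List.range n).map (cflag (D + 1))))
    (bs (hdl (D + 1) n)) [] (num n) ndv (num D) m0v q1v q2v qmv)
  simp only [PS_HD, PS_set_HD] at h6
  have h7 := run_clr (a := (ex SK : RF τ κ)) (s := PS s (bs ((List.range n).map (cflag (D + 1))))
    [] [] (num n) ndv (num D) m0v q1v q2v qmv)
  simp only [PS_SK, PS_set_SK] at h7
  have h8 := run_pushF (b := (ex nh1 : RF τ κ)) (s := PS s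
    (bs ((List.range n).map (cflag (D + 1)))) [] [] (num n) ndv (num D) m0v q1v q2v qmv) Sy.mark
  simp only [PS_nh1, PS_set_nh1] at h8
  have e8 : (Sy.mark :: num D : List (Sy α)) = num (D + 1) := by
    simp [num, List.replicate_succ]
  rw [e8] at h8
  have h := run_sq_cons h1 (run_sq_cons h2 (run_sq_cons h3 (run_sq_cons h4 (run_sq_cons h5
    (run_sq_cons h6 (run_sq_cons h7 (run_sq_cons h8 run_sq_nil)))))))
  refine h.mono ?_
  simp only [hdl, bs_length, List.length_map, List.length_range, List.length_nil]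
  omega

omit [DecidableEq τ] [DecidableEq κ] in
theorem mark_num (D : ℕ) : (Sy.mark :: num D : List (Sy α)) = num (D + 1) := by
  simp [num, List.replicate_succ]

omit [DecidableEq τ] [DecidableEq κ] in
theorem tail_num {D : ℕ} (hD : 1 ≤ D) : (num D : List (Sy α)).tail = num (D - 1) := by
  obtain ⟨e, rfl⟩ : ∃ e, D = e + 1 := ⟨D - 1, by omega⟩
  simp [num, List.replicate_succ]

omit [DecidableEq τ] [DecidableEq κ] in
theorem num_length (D : ℕ) : (num D : List (Sy α)).length = D + 1 := by simp [num]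

theorem run_sieveF (m : ℕ) (hm : 1 ≤ m) (q1v q2v qmv : List (Sy α)) :
    Runs sieveF (PS s [] [] [] [] [] [] (num m) q1v q2v qmv)
      (PS s (bs ((List.range (2 * m + 1)).map (cflag (2 * m)))) [] [] [] [] [] (num m) q1v q2v
        qmv) (300 * (m * m)) := by
  have h1 := run_fillN (k := 2) (c := (ex m0 : RF τ κ)) (b := ex FG) (x := Sy.bit false) (by simp)
    (s := PS s [] [] [] [] [] [] (num m) q1v q2v qmv) (N := m) (by simp)
  simp only [PS_FG, PS_set_FG, List.nil_append] at h1
  have h2 := run_pushB (b := (ex FG : RF τ κ)) (s := PS s (List.replicate (2 * m) (Sy.bit false))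
    [] [] [] [] [] (num m) q1v q2v qmv) (Sy.bit false)
  have e2 : (List.replicate (2 * m) (Sy.bit false) ++ [Sy.bit false] : List (Sy α)) =
      bs ((List.range (2 * m + 1)).map (cflag 1)) := by
    rw [← List.replicate_succ', ← bs_replicate]
    congr 1
    symm
    rw [List.eq_replicate_iff]
    refine ⟨by simp, ?_⟩
    intro b hb
    simp only [List.mem_map] at hb
    obtain ⟨i, _, rfl⟩ := hb
    exact cflag_one i
  simp only [PS_FG, PS_set_FG, e2] at h2
  set F1 : List (Sy α) := bs ((List.range (2 * m + 1)).map (cflag 1)) with hF1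
  have h3 := run_zeroC (c := (ex n2 : RF τ κ)) (s := PS s F1 [] [] [] [] [] (num m) q1v q2v qmv)
    (by simp)
  simp only [PS_set_n2] at h3
  have h4 := run_addC (k := 2) (d := (ex m0 : RF τ κ)) (c := ex n2) (by simp)
    (s := PS s F1 [] [] (num 0) [] [] (num m) q1v q2v qmv) (N := m) (m := 0) (by simp) (by simp)
  simp only [PS_set_n2, Nat.zero_add] at h4
  have h5 := run_pushF (b := (ex n2 : RF τ κ)) (s := PS s F1 [] [] (num (2 * m)) [] [] (num m)
    q1v q2v qmv) Sy.mark
  simp only [PS_set_n2, PS_n2, mark_num] at h5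
  have h6 := run_zeroC (c := (ex nd : RF τ κ)) (s := PS s F1 [] [] (num (2 * m + 1)) [] []
    (num m) q1v q2v qmv) (by simp)
  simp only [PS_set_nd] at h6
  have h7 := run_addC (k := 2) (d := (ex m0 : RF τ κ)) (c := ex nd) (by simp)
    (s := PS s F1 [] [] (num (2 * m + 1)) (num 0) [] (num m) q1v q2v qmv) (N := m) (m := 0)
    (by simp) (by simp)
  simp only [PS_set_nd, Nat.zero_add] at h7
  have h8 := run_popF (a := (ex nd : RF τ κ)) (s := PS s F1 [] [] (num (2 * m + 1)) (num (2 * m))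
    [] (num m) q1v q2v qmv)
  simp only [PS_set_nd, PS_nd, tail_num (α := α) (show 1 ≤ 2 * m by omega)] at h8
  have h9 := run_zeroC (c := (ex nh1 : RF τ κ)) (s := PS s F1 [] [] (num (2 * m + 1))
    (num (2 * m - 1)) [] (num m) q1v q2v qmv) (by simp)
  simp only [PS_set_nh1] at h9
  have h10 := run_pushF (b := (ex nh1 : RF τ κ)) (s := PS s F1 [] [] (num (2 * m + 1))
    (num (2 * m - 1)) (num 0) (num m) q1v q2v qmv) Sy.mark
  simp only [PS_set_nh1, PS_nh1, mark_num, Nat.zero_add] at h10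
  have h11 := Runs.forN (c := (ex nd : RF τ κ)) (body := sq [
      pushF (ex HD) (Sy.bit true), fillN 1 (ex nh1) (ex HD) (Sy.bit false),
      pushB (ex SK) Sy.mark, pushB (ex SK) Sy.mark,
      forN (ex n2) sieveStep, clr (ex HD), clr (ex SK), pushF (ex nh1) Sy.mark]) (2 * m - 1)
    (fun i => PS s (bs ((List.range (2 * m + 1)).map (cflag (i + 1)))) [] [] (num (2 * m + 1))
      (num (2 * m - 1)) (num (i + 1)) (num m) q1v q2v qmv) (9 * (2 * m + 1) + 20)
    (by intro i; simp)
    (by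
      intro i hi x
      simp only [PS_set_nd]
      exact run_sieveBody s (2 * m + 1) (i + 1) (by omega) (by omega) x (num m) q1v q2v qmv)
  simp only [Nat.zero_add, show 2 * m - 1 + 1 = 2 * m by omega] at h11
  set F2 : List (Sy α) := bs ((List.range (2 * m + 1)).map (cflag (2 * m))) with hF2
  have h12 := run_clr (a := (ex n2 : RF τ κ)) (s := PS s F2 [] [] (num (2 * m + 1))
      (num (2 * m - 1)) (num (2 * m)) (num m) q1v q2v qmv)
  simp only [PS_set_n2, PS_n2, num_length] at h12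
  have h13 := run_clr (a := (ex nd : RF τ κ)) (s := PS s F2 [] [] []
      (num (2 * m - 1)) (num (2 * m)) (num m) q1v q2v qmv)
  simp only [PS_set_nd, PS_nd, num_length] at h13
  have h14 := run_clr (a := (ex nh1 : RF τ κ)) (s := PS s F2 [] [] []
      [] (num (2 * m)) (num m) q1v q2v qmv)
  simp only [PS_set_nh1, PS_nh1, num_length] at h14
  have h := run_sq_cons h1 (run_sq_cons h2 (run_sq_cons h3 (run_sq_cons h4 (run_sq_cons h5
    (run_sq_cons h6 (run_sq_cons h7 (run_sq_cons h8 (run_sq_cons h9 (run_sq_cons h10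
    (run_sq_cons h11 (run_sq_cons h12 (run_sq_cons h13 (run_sq_cons h14 run_sq_nil)))))))))))))
  refine h.mono ?_
  have hm2 : m ≤ m * m := Nat.le_mul_self m
  have hb : (2 * m - 1) * (9 * (2 * m + 1) + 20 + 2) ≤ (2 * m) * (49 * m) :=
    Nat.mul_le_mul (by omega) (by omega)
  have hb' : (2 * m) * (49 * m) = 98 * (m * m) := by ring
  omega

theorem run_primeF : ∃ C0 : ℕ, ∀ (s : Store (RF τ κ) (Sy α)) (m : ℕ), 1 ≤ m →
    s (ex m0) = num m → s (ex FG) = [] → s (ex HD) = [] → s (ex SK) = [] → s (ex n2) = [] →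
    s (ex nd) = [] → s (ex nh1) = [] → s (ex qm) = [] → s (r q1) = [] → s (r q2) = [] →
    Runs primeF s ((((s.set (ex m0) []).set (r q1) (num (pOf m - 1))).set (r q2)
        (num (pOf m - 1))).set (ex qm) (num (pOf m - 2)))
      (C0 * (m * m)) := by
  refine ⟨400, fun s m hm hm0 hFG hHD hSK hn2 hnd hnh1 hqm hq1 hq2 => ?_⟩
  obtain ⟨hp, hmp, hp2⟩ := pOf_spec hm
  set p := pOf m with hpdef
  have hs : PS s [] [] [] [] [] [] (num m) [] [] [] = s := by
    conv_rhs => rw [← PS_self s]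
    rw [hm0, hFG, hHD, hSK, hn2, hnd, hnh1, hqm, hq1, hq2]
  have hend : ((((s.set (ex m0) []).set (r q1) (num (p - 1))).set (r q2)
        (num (p - 1))).set (ex qm) (num (p - 2))) =
      PS s [] [] [] [] [] [] [] (num (p - 1)) (num (p - 1)) (num (p - 2)) := by
    conv_lhs => rw [← hs]
    simp only [PS_set_m0, PS_set_q1, PS_set_q2, PS_set_qm]
  rw [hend]
  have h1 := run_sieveF s m hm [] [] []
  rw [hs] at h1
  set n := 2 * m + 1 with hn
  set L : List Bool := (List.range n).map (cflag (2 * m)) with hL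
  have h2 := run_dropN (k := 1) (c := (ex m0 : RF τ κ)) (a := ex FG) (by simp)
    (s := PS s (bs L) [] [] [] [] [] (num m) [] [] []) (N := m) (by simp)
  simp only [PS_set_FG, PS_FG, Nat.one_mul] at h2
  have h3 := run_popF (a := (ex FG : RF τ κ)) (s := PS s ((bs L).drop m) [] [] [] [] [] (num m)
    [] [] [])
  simp only [PS_set_FG, PS_FG] at h3
  have e3 : ((bs L).drop m).tail = (bs (((List.range (m - 0)).map fun k =>
      cflag (2 * m) (m + 1 + 0 + k))) : List (Sy α)) := by
    rw [List.tail_drop]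
    simp only [bs, ← List.map_drop, hL]
    congr 1
    rw [List.range_eq_range', List.drop_range', List.range_eq_range']
    apply List.ext_getElem
    · simp [hn]; omega
    · intro i h1 h2
      simp
  rw [e3] at h3
  have h4 := run_zeroC (c := (r q1 : RF τ κ)) (s := PS s (bs (((List.range (m - 0)).map fun k =>
      cflag (2 * m) (m + 1 + 0 + k)))) [] [] [] [] [] (num m) [] [] []) (by simp)
  simp only [PS_set_q1] at h4
  have h5 := run_addC (k := 1) (d := (ex m0 : RF τ κ)) (c := r q1) (by simp)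
    (s := PS s (bs (((List.range (m - 0)).map fun k =>
      cflag (2 * m) (m + 1 + 0 + k)))) [] [] [] [] [] (num m) (num 0) [] []) (N := m) (m := 0)
    (by simp) (by simp)
  simp only [PS_set_q1, Nat.zero_add, Nat.one_mul] at h5
  have hcons : ∀ i < p - m, ((List.range (m - i)).map fun k => cflag (2 * m) (m + 1 + i + k)) =
      cflag (2 * m) (m + 1 + i) :: ((List.range (m - (i + 1))).map fun k =>
        cflag (2 * m) (m + 1 + (i + 1) + k)) := by
    intro i hi
    obtain ⟨e, he⟩ : ∃ e, m - i = e + 1 := ⟨m - i - 1, by omega⟩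
    rw [he, show m - (i + 1) = e by omega, List.range_succ_eq_map]
    simp only [List.map_cons, List.map_map, Nat.add_zero]
    congr 1
    refine List.map_congr_left fun k _ => ?_
    simp only [Function.comp, Nat.succ_eq_add_one]
    congr 1
    ring
  have h6 := Runs.loopN (c := sq [popF (ex FG), pushF (r q1) .mark])
    (p := fun h : RF τ κ → Option (Sy α) => isOne (h (ex FG))) (p - m - 1)
    (fun i => PS s (bs (((List.range (m - i)).map fun k =>
      cflag (2 * m) (m + 1 + i + k)))) [] [] [] [] [] (num m) (num (m + i)) [] []) 3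
    (by
      intro i hi
      have e : cflag (2 * m) (m + 1 + i) = true := by
        rw [cflag_eq (by omega) (by omega)]
        simp only [Bool.not_eq_true', decide_eq_false_iff_not]
        exact not_prime_of_lt_pOf (m := m) (by omega) (by omega)
      simp only [Store.heads, PS_FG]
      rw [hcons i (by omega), e]
      rfl)
    (by
      intro i hi
      have a1 := run_popF (a := (ex FG : RF τ κ)) (s := PS s (bs (((List.range (m - i)).map fun k =>
        cflag (2 * m) (m + 1 + i + k)))) [] [] [] [] [] (num m) (num (m + i)) [] [])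
      simp only [PS_set_FG, PS_FG] at a1
      rw [hcons i (by omega)] at a1 ⊢
      simp only [bs_cons, List.tail_cons] at a1 ⊢
      have a2 := run_pushF (b := (r q1 : RF τ κ)) (s := PS s
        (bs ((List.range (m - (i + 1))).map fun k => cflag (2 * m) (m + 1 + (i + 1) + k)))
        [] [] [] [] [] (num m) (num (m + i)) [] []) .mark
      simp only [PS_set_q1, PS_q1, mark_num] at a2
      exact run_sq_cons a1 (run_sq_cons a2 run_sq_nil))
    (by
      have e : cflag (2 * m) (m + 1 + (p - m - 1)) = false := by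
        rw [cflag_eq (by omega) (by omega)]
        simp only [Bool.not_eq_false', decide_eq_true_eq]
        rw [show m + 1 + (p - m - 1) = p by omega]
        exact hp
      simp only [Store.heads, PS_FG]
      rw [hcons (p - m - 1) (by omega), e]
      rfl)
  simp only [Nat.add_zero] at h6
  simp only [Nat.add_zero] at h3 h4 h5
  rw [show m + (p - m - 1) = p - 1 by omega] at h6
  have h7 := run_clr (a := (ex FG : RF τ κ)) (s := PS s
    (bs (((List.range (m - (p - m - 1))).map fun k =>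
      cflag (2 * m) (m + 1 + (p - m - 1) + k)))) [] [] [] [] [] (num m) (num (p - 1)) [] [])
  simp only [PS_set_FG, PS_FG, bs_length, List.length_map, List.length_range] at h7
  have h8 := run_clr (a := (ex m0 : RF τ κ)) (s := PS s [] [] [] [] [] [] (num m) (num (p - 1))
    [] [])
  simp only [PS_set_m0, PS_m0, num_length] at h8
  have h9 := run_zeroC (c := (r q2 : RF τ κ)) (s := PS s [] [] [] [] [] [] [] (num (p - 1)) [] [])
    (by simp)
  simp only [PS_set_q2] at h9
  have h10 := run_addC (k := 1) (d := (r q1 : RF τ κ)) (c := r q2) (by simp)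
    (s := PS s [] [] [] [] [] [] [] (num (p - 1)) (num 0) []) (N := p - 1) (m := 0)
    (by simp) (by simp)
  simp only [PS_set_q2, Nat.zero_add, Nat.one_mul] at h10
  have h11 := run_zeroC (c := (ex qm : RF τ κ)) (s := PS s [] [] [] [] [] [] [] (num (p - 1))
    (num (p - 1)) []) (by simp)
  simp only [PS_set_qm] at h11
  have h12 := run_addC (k := 1) (d := (r q1 : RF τ κ)) (c := ex qm) (by simp)
    (s := PS s [] [] [] [] [] [] [] (num (p - 1)) (num (p - 1)) (num 0)) (N := p - 1) (m := 0)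
    (by simp) (by simp)
  simp only [PS_set_qm, Nat.zero_add, Nat.one_mul] at h12
  have h13 := run_popF (a := (ex qm : RF τ κ)) (s := PS s [] [] [] [] [] [] [] (num (p - 1))
    (num (p - 1)) (num (p - 1)))
  simp only [PS_set_qm, PS_qm, tail_num (α := α) (show 1 ≤ p - 1 by omega)] at h13
  rw [show p - 1 - 1 = p - 2 by omega] at h13
  have h := run_sq_cons h1 (run_sq_cons h2 (run_sq_cons h3 (run_sq_cons h4 (run_sq_cons h5
    (run_sq_cons h6 (run_sq_cons h7 (run_sq_cons h8 (run_sq_cons h9 (run_sq_cons h10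
    (run_sq_cons h11 (run_sq_cons h12 (run_sq_cons h13 run_sq_nil))))))))))))
  refine h.mono ?_
  have hm2 : m ≤ m * m := Nat.le_mul_self m
  omega

end

end Vale.Agent.P338
end

section

/-! Arithmetic of the sizes used by the second core program. -/

namespace Vale.Agent.P338.CF

section sizes
variable {k : ℕ}

theorem tOf_lt (hk : 1 ≤ k) : tOf k + 1 ≤ k := by
  unfold tOf
  have h1 : Nat.log 2 k < k := Nat.log_lt_self 2 (by omega)
  omega

theorem tOf_le_log : tOf k ≤ Nat.log 2 k := by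
  unfold tOf; omega

theorem one_le_bOf : 1 ≤ bOf k := Nat.one_le_two_pow

theorem bOf_le (hk : 1 ≤ k) : bOf k ≤ k := by
  unfold bOf
  calc 2 ^ tOf k ≤ 2 ^ Nat.log 2 k := Nat.pow_le_pow_right (by norm_num) tOf_le_log
    _ ≤ k := Nat.pow_log_le_self 2 (by omega)

theorem succ_le_bOf (hk : 1 ≤ k) : k + 1 ≤ 4 * bOf k := by
  unfold bOf tOf
  have h1 : k < 2 ^ (Nat.log 2 k + 1) := Nat.lt_pow_succ_log_self (by norm_num) k
  rcases Nat.eq_zero_or_pos (Nat.log 2 k) with h | h
  · rw [h] at h1 ⊢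
    norm_num at h1 ⊢
    omega
  · obtain ⟨j, hj⟩ : ∃ j, Nat.log 2 k = j + 1 := ⟨Nat.log 2 k - 1, by omega⟩
    rw [hj] at h1 ⊢
    rw [Nat.add_sub_cancel]
    rw [pow_succ, pow_succ] at h1
    omega

theorem bOf_mul_m0Of (hk : 1 ≤ k) : bOf k * m0Of k = 2 ^ k := by
  unfold bOf m0Of
  rw [← pow_add]
  congr 1
  have := tOf_lt hk
  omega

theorem two_le_m0Of (hk : 1 ≤ k) : 2 ≤ m0Of k := by
  unfold m0Of
  have := tOf_lt hk
  calc 2 = 2 ^ 1 := rfl
    _ ≤ _ := Nat.pow_le_pow_right (by norm_num) (by omega)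

theorem two_pow_bOf_le (hk : 1 ≤ k) : 2 ^ bOf k ≤ m0Of k := by
  unfold m0Of
  apply Nat.pow_le_pow_right (by norm_num)
  unfold bOf tOf
  rcases Nat.eq_zero_or_pos (Nat.log 2 k) with h | h
  · rw [h]
    norm_num
    omega
  · obtain ⟨j, hj⟩ : ∃ j, Nat.log 2 k = j + 1 := ⟨Nat.log 2 k - 1, by omega⟩
    have h2 : 2 ^ Nat.log 2 k ≤ k := Nat.pow_log_le_self 2 (by omega)
    rw [hj] at h2 ⊢
    rw [Nat.add_sub_cancel]
    rw [pow_succ] at h2
    have h3 : j < 2 ^ j := Nat.lt_two_pow_self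
    omega

/-- The sizes of the second core program: `m = m0Of k`, `p = pOf m`, `q = p - 1`. -/
structure Sizes (k m p q b l : ℕ) : Prop where
  k1 : 1 ≤ k
  prime : p.Prime
  hq : q + 1 = p
  m2 : 2 ≤ m
  mq : m ≤ q
  q2m : q + 1 ≤ 2 * m
  b1 : 1 ≤ b
  bk : b ≤ k
  kb : k + 1 ≤ 4 * b
  bm : b * m = 2 ^ k
  bp : 2 ^ b ≤ m
  hl : l = 3 * (k + 1)

theorem sizes_of (hk : 1 ≤ k) :
    Sizes k (m0Of k) (pOf (m0Of k)) (pOf (m0Of k) - 1) (bOf k) (lOf k) := by
  have h1 := two_le_m0Of hk
  obtain ⟨p1, p2, p3⟩ := pOf_spec (m := m0Of k) (by omega)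
  exact ⟨hk, p1, by omega, h1, by omega, by omega, one_le_bOf, bOf_le hk, succ_le_bOf hk,
    bOf_mul_m0Of hk, two_pow_bOf_le hk, rfl⟩

namespace Sizes
variable {m p q b l : ℕ} (h : Sizes k m p q b l)
include h

theorem w_le : 2 ^ k ≤ b * q := by
  rw [← h.bm]; exact Nat.mul_le_mul_left _ h.mq

theorem bq_le : b * q ≤ 2 * 2 ^ k := by
  rw [← h.bm]
  calc b * q ≤ b * (2 * m) := Nat.mul_le_mul_left _ (by have := h.q2m; omega)
    _ = 2 * (b * m) := by ring

theorem bq_sq : (b * q) * (b * q) ≤ 4 * 4 ^ k := by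
  calc (b * q) * (b * q) ≤ (2 * 2 ^ k) * (2 * 2 ^ k) := Nat.mul_le_mul h.bq_le h.bq_le
    _ = 4 * (2 ^ k * 2 ^ k) := by ring
    _ = 4 * 4 ^ k := by rw [← Nat.mul_pow]

theorem mm : b * b * (m * m) = 4 ^ k := by
  have : b * b * (m * m) = (b * m) * (b * m) := by ring
  rw [this, h.bm, ← Nat.mul_pow]

theorem mm_le : m * m ≤ 4 ^ k := by
  rw [← h.mm]
  exact Nat.le_mul_of_pos_left _ (Nat.mul_pos h.b1 h.b1)

omit h in
theorem two_pow_le : 2 ^ k ≤ 4 ^ k := Nat.pow_le_pow_left (by norm_num) k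

omit h in
theorem k_le : k + 1 ≤ 2 ^ k := Nat.lt_two_pow_self

theorem p_le : p ≤ 2 ^ (k + 1) := by
  have h1 := h.q2m
  have h2 := h.hq
  have h3 : m ≤ 2 ^ k := by rw [← h.bm]; exact Nat.le_mul_of_pos_left _ h.b1
  rw [pow_succ]
  omega

theorem p3 : 3 ≤ p := by
  have := h.m2; have := h.mq; have := h.hq
  omega

theorem p_cube : p ^ 3 ≤ 2 ^ l := by
  rw [h.hl, mul_comm 3, pow_mul]
  exact Nat.pow_le_pow_left h.p_le 3

theorem p_sq : p * p ≤ 2 ^ l := by
  refine le_trans ?_ h.p_cube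
  have : p ^ 3 = p * p * p := by ring
  rw [this]
  exact Nat.le_mul_of_pos_right _ (by have := h.p3; omega)

theorem p_two : 2 * (q + 1) ≤ 2 ^ l := by
  rw [h.hq]
  refine le_trans ?_ h.p_sq
  exact Nat.mul_le_mul_right _ (by have := h.p3; omega)

theorem l1 : 1 ≤ l := by rw [h.hl]; omega

theorem b_le_l : b ≤ l := by have := h.bk; rw [h.hl]; omega

theorem l_le_b : l ≤ 12 * b := by have := h.kb; rw [h.hl]; omega

theorem bp' : 2 ^ b ≤ p := by have := h.bp; have := h.mq; have := h.hq; omega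

theorem ql : q * l ≤ 24 * 4 ^ k := by
  calc q * l ≤ q * (12 * b) := Nat.mul_le_mul_left _ h.l_le_b
    _ = 12 * (b * q) := by ring
    _ ≤ 12 * (2 * 2 ^ k) := Nat.mul_le_mul_left _ h.bq_le
    _ = 24 * 2 ^ k := by ring
    _ ≤ _ := Nat.mul_le_mul_left _ two_pow_le

theorem ll : l * l ≤ 9 * 4 ^ k := by
  rw [h.hl]
  calc 3 * (k + 1) * (3 * (k + 1)) = 9 * ((k + 1) * (k + 1)) := by ring
    _ ≤ 9 * (2 ^ k * 2 ^ k) := Nat.mul_le_mul_left _ (Nat.mul_le_mul k_le k_le)
    _ = 9 * 4 ^ k := by rw [← Nat.mul_pow]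

theorem l_le : l ≤ 3 * 4 ^ k := by
  rw [h.hl]
  exact Nat.mul_le_mul_left _ (k_le.trans two_pow_le)

theorem one_le_div : 1 ≤ 4 ^ k / k := by
  rw [Nat.le_div_iff_mul_le (by have := h.k1; omega), one_mul]
  have := k_le (k := k)
  have := two_pow_le (k := k)
  omega

theorem div_aux {x : ℕ} (hx : x * k ≤ 4 * 4 ^ k) : x ≤ 8 * (4 ^ k / k) := by
  have hk := h.k1
  have h1 : x ≤ 4 * 4 ^ k / k := (Nat.le_div_iff_mul_le (by omega)).2 hx
  have h2 := Nat.div_add_mod (4 ^ k) k
  have h3 := Nat.mod_lt (4 ^ k) (show 0 < k by omega)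
  have h4 := h.one_le_div
  have h5 : 4 * 4 ^ k / k ≤ 4 * (4 ^ k / k) + 4 := by
    rw [Nat.div_le_iff_le_mul_add_pred (by omega)]
    have h6 : k * (4 * (4 ^ k / k) + 4) = 4 * (k * (4 ^ k / k)) + 4 * k := by ring
    rw [h6]
    omega
  omega

theorem mmb : m * m * b ≤ 8 * (4 ^ k / k) := by
  apply h.div_aux
  calc m * m * b * k ≤ m * m * b * (4 * b) := Nat.mul_le_mul_left _ (by have := h.kb; omega)
    _ = 4 * (b * b * (m * m)) := by ring
    _ = 4 * 4 ^ k := by rw [h.mm]

/-- The cost of the arithmetic of one pass. -/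
theorem pass_cost (t : ℕ) : q * (b * q) * (t + l) ≤ 32 * (4 ^ k / k * t) + 48 * 4 ^ k := by
  have h1 : q ≤ 2 * m := by have := h.q2m; omega
  have h2 : q * (b * q) ≤ 4 * (m * m * b) := by
    calc q * (b * q) ≤ (2 * m) * (b * (2 * m)) :=
          Nat.mul_le_mul h1 (Nat.mul_le_mul_left _ h1)
      _ = _ := by ring
  have h3 : q * (b * q) * l ≤ 48 * 4 ^ k := by
    calc q * (b * q) * l ≤ 4 * (m * m * b) * (12 * b) := Nat.mul_le_mul h2 h.l_le_b
      _ = 48 * (b * b * (m * m)) := by ring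
      _ = _ := by rw [h.mm]
  calc q * (b * q) * (t + l) = q * (b * q) * t + q * (b * q) * l := by ring
    _ ≤ 4 * (8 * (4 ^ k / k)) * t + 48 * 4 ^ k :=
        Nat.add_le_add (Nat.mul_le_mul_right _ (h2.trans (Nat.mul_le_mul_left _ h.mmb))) h3
    _ = _ := by ring

theorem root_cost (t : ℕ) : p * p * (t + l) ≤ 64 * (4 ^ k / k * t) + 96 * 4 ^ k := by
  have h1 : p ≤ 2 * q := by have := h.hq; have := h.m2; have := h.mq; omega
  have h2 : p ≤ 2 * m := by have := h.hq; have := h.q2m; omega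
  have h3 : p * p ≤ 4 * (m * m * b) := by
    calc p * p ≤ (2 * m) * (2 * m) := Nat.mul_le_mul h2 h2
      _ = 4 * (m * m) * 1 := by ring
      _ ≤ 4 * (m * m) * b := Nat.mul_le_mul_left _ h.b1
      _ = _ := by ring
  have h4 : p * p * l ≤ 96 * 4 ^ k := by
    calc p * p * l ≤ 4 * (m * m * b) * (12 * b) := Nat.mul_le_mul h3 h.l_le_b
      _ = 48 * (b * b * (m * m)) := by ring
      _ ≤ _ := by rw [h.mm]; omega
  calc p * p * (t + l) = p * p * t + p * p * l := by ring
    _ ≤ 4 * (8 * (4 ^ k / k)) * t + 96 * 4 ^ k :=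
        Nat.add_le_add (Nat.mul_le_mul_right _ (h3.trans (Nat.mul_le_mul_left _ h.mmb))) h4
    _ ≤ _ := by
        have : 4 * (8 * (4 ^ k / k)) * t = 32 * (4 ^ k / k * t) := by ring
        rw [this]; omega

/-- The length of the integers to be multiplied. -/
theorem data_le : 2 * q * (b * q * l) ≤ 192 * 4 ^ k := by
  calc 2 * q * (b * q * l) ≤ 2 * q * (b * q * (12 * b)) :=
        Nat.mul_le_mul_left _ (Nat.mul_le_mul_left _ h.l_le_b)
    _ = 24 * ((b * q) * (b * q)) := by ring
    _ ≤ 24 * (4 * 4 ^ k) := Nat.mul_le_mul_left _ h.bq_sq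
    _ ≤ _ := by omega

theorem q_le : q ≤ 2 * 4 ^ k := by
  have h1 := h.bq_le
  have h2 := two_pow_le (k := k)
  have h3 : q ≤ b * q := Nat.le_mul_of_pos_left _ h.b1
  omega

theorem bbq_le : b * (b * q) ≤ 2 * 4 ^ k := by
  have h3 : b ≤ 2 ^ k := by have := h.bk; have := k_le (k := k); omega
  calc b * (b * q) ≤ 2 ^ k * (2 * 2 ^ k) := Nat.mul_le_mul h3 h.bq_le
    _ = 2 * (2 ^ k * 2 ^ k) := by ring
    _ = _ := by rw [← Nat.mul_pow]

end Sizes

end sizes

end Vale.Agent.P338.CF
end
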