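import Vale.Agent.P338.Bdl.B4
import Vale.Agent.P338.Bdl.B2

set_option linter.all false

section

/-! Counters, padding, cutting and sorting of the second core program. -/

namespace Vale.Agent.P338
open Reg R Ex

section
variable {ι α : Type} [DecidableEq ι]

/-- Add a product to a counter. -/
theorem run_mulC {g d c : ι} (hgd : g ≠ d) (hgc : g ≠ c) (hdc : d ≠ c) {s : Store ι (Sy α)}
    {N M m : ℕ} (hg : s g = num N) (hd : s d = num M) (hc : s c = num m) :
    Runs (forN g (addC 1 d c)) s (s.set c (num (m + N * M))) (N * (M * 4 + 4) + 2) := by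
  have key := Runs.forN (c := g) (body := addC (α := α) 1 d c) N
    (fun i => s.set c (num (m + i * M))) (M * 4 + 2)
    (by intro i; simp [hgc, hg])
    (by
      intro i _ x
      have := run_addC (k := 1) (d := d) (c := c) hdc
        (s := (s.set c (num (m + i * M))).set g x) (N := M) (m := m + i * M)
        (by simp [hgd.symm, hdc, hd]) (by simp [hgc.symm])
      refine Runs.cast this ?_ (by omega)
      have e : m + i * M + 1 * M = m + (i + 1) * M := by ring
      rw [e]
      apply Store.ext'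
      intro r
      simp only [Store.set]
      clear this
      split_ifs <;> simp_all)
  simp only [Nat.zero_mul, Nat.add_zero] at key
  rw [← hc, Store.set_self] at key
  exact key.mono (le_of_eq (by ring))

end

section
variable {τ κ α : Type} [DecidableEq τ] [DecidableEq κ]

omit [DecidableEq τ] [DecidableEq κ] in
theorem num_mark (n : ℕ) : (Sy.mark :: num n : List (Sy α)) = num (n + 1) := by
  simp [num, List.replicate_succ]

theorem run_cntF : ∃ C0 : ℕ, ∀ (s : Store (RF τ κ) (Sy α)) (q b w : ℕ), 1 ≤ q → 1 ≤ b →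
    w ≤ b * q → s (r q1) = num q → s (ex nc) = num b → s (ex nhb) = num (b / 2) →
    s (ex W2) = num w → s (r A3) = [] → s (ex WD) = [] → s (ex NU) = [] → s (ex NS) = [] →
    Runs cntF s ((((s.set (r A3) (num (b * q - 1))).set (ex WD) (num (b * q - w))).set (ex NS)
        (num (b / 2 * q))).set (ex NU) (num (b * (b / 2 * q))))
      (C0 * (b * (b * q))) := by
  refine ⟨100, fun s q b w hq hb hw hq1 hnc hnhb hW2 hA3 hWD hNU hNS => ?_⟩
  have hbq : 1 ≤ b * q := Nat.mul_pos hb hq
  obtain ⟨n, hn⟩ : ∃ n, b * q = n + 1 := ⟨b * q - 1, by omega⟩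
  have r1 := run_zeroC (c := r A3) (s := s) hA3
  have r2 := run_mulC (g := ex nc) (d := r q1) (c := r A3) (by simp) (by simp) (by simp)
    (s := s.set (r A3) (num 0)) (N := b) (M := q) (m := 0)
    (by simp [hnc]) (by simp [hq1]) (by simp)
  have r3 := run_popF (a := r A3) (s := s.set (r A3) (num (b * q)))
  have r4 := run_zeroC (c := ex WD) (s := s.set (r A3) (num (b * q - 1))) (by simp [hWD])
  have r5 := run_addC (k := 1) (d := r A3) (c := ex WD) (by simp)
    (s := (s.set (r A3) (num (b * q - 1))).set (ex WD) (num 0)) (N := b * q - 1) (m := 0)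
    (by simp) (by simp)
  have r6 := run_pushF (b := ex WD)
    (s := (s.set (r A3) (num (b * q - 1))).set (ex WD) (num (b * q - 1))) (.mark)
  have r7 := run_subC (k := 1) (d := ex W2) (c := ex WD) (by simp)
    (s := (s.set (r A3) (num (b * q - 1))).set (ex WD) (num (b * q))) (N := w) (m := b * q)
    (by simp [hW2]) (by simp) (by omega)
  have r8 := run_zeroC (c := ex NS)
    (s := (s.set (r A3) (num (b * q - 1))).set (ex WD) (num (b * q - w))) (by simp [hNS])
  have r9 := run_mulC (g := ex nhb) (d := r q1) (c := ex NS) (by simp) (by simp) (by simp)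
    (s := ((s.set (r A3) (num (b * q - 1))).set (ex WD) (num (b * q - w))).set (ex NS) (num 0))
    (N := b / 2) (M := q) (m := 0) (by simp [hnhb]) (by simp [hq1]) (by simp)
  have r10 := run_zeroC (c := ex NU)
    (s := ((s.set (r A3) (num (b * q - 1))).set (ex WD) (num (b * q - w))).set (ex NS)
      (num (b / 2 * q))) (by simp [hNU])
  have r11 := run_mulC (g := ex nc) (d := ex NS) (c := ex NU) (by simp) (by simp) (by simp)
    (s := (((s.set (r A3) (num (b * q - 1))).set (ex WD) (num (b * q - w))).set (ex NS)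
      (num (b / 2 * q))).set (ex NU) (num 0))
    (N := b) (M := b / 2 * q) (m := 0) (by simp [hnc]) (by simp) (by simp)
  refine Runs.cast (run_sq_cons r1 (run_sq_cons (Runs.cast r2 ?_ le_rfl) (run_sq_cons
    (Runs.cast r3 ?_ le_rfl) (run_sq_cons r4 (run_sq_cons (Runs.cast r5 ?_ le_rfl) (run_sq_cons
    (Runs.cast r6 ?_ le_rfl) (run_sq_cons (Runs.cast r7 ?_ le_rfl) (run_sq_cons r8 (run_sq_cons
    (Runs.cast r9 ?_ le_rfl) (run_sq_cons r10 (run_sq_cons r11 run_sq_nil))))))))))) ?_ ?_
  · simp
  · rw [Store.set_same, Store.set_set, hn, Nat.add_sub_cancel]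
    simp [num, List.replicate_succ]
  · simp
  · rw [Store.set_same, Store.set_set, num_mark, Nat.sub_add_cancel hbq]
  · simp
  · simp
  · simp
  · have h1 : b / 2 ≤ b := Nat.div_le_self _ _
    have h2 : b / 2 * q ≤ b * q := Nat.mul_le_mul_right _ h1
    have h3 : b * q ≤ b * (b * q) := Nat.le_mul_of_pos_left _ hb
    have h4 : b ≤ b * q := Nat.le_mul_of_pos_right _ hq
    have h5 : b * (b / 2 * q) ≤ b * (b * q) := Nat.mul_le_mul_left _ h2
    have e1 : b * (q * 4 + 4) = 4 * (b * q) + 4 * b := by ring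
    have e2 : b / 2 * (q * 4 + 4) = 4 * (b / 2 * q) + 4 * (b / 2) := by ring
    have e3 : b * (b / 2 * q * 4 + 4) = 4 * (b * (b / 2 * q)) + 4 * b := by ring
    rw [e1, e2, e3]
    omega

/-- First loop of `padF`. -/
theorem run_padF1 {s : Store (RF τ κ) (Sy α)} {w p : ℕ} {row : ℕ → List (Sy α)}
    {rest : List (Sy α)} (hrow : ∀ i, (row i).length = w)
    (hW2 : s (ex W2) = num w) (hW3 : s (ex W3) = num w) (hWD : s (ex WD) = num p)
    (hD : s (r D) = fm w row ++ rest) :
    Runs (forN (ex W2) (.seq (moveN (ex W3) (.r .D) (.r .C))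
        (fillN 1 (ex WD) (.r .C) (Sy.bit false)))) s
      ((s.set (r D) rest).set (r C)
        (s (r C) ++ fm w fun i => row i ++ List.replicate p (Sy.bit false)))
      (w * ((3 * w + 2) + (p * 4 + 2) + 2) + 2) := by
  have key := Runs.forN (c := ex W2) (body := .seq (moveN (ex W3) (.r .D) (.r .C))
        (fillN 1 (ex WD) (.r .C) (Sy.bit false))) w
    (fun i => (s.set (r D) (ft i w row ++ rest)).set (r C)
      (s (r C) ++ fm i fun i => row i ++ List.replicate p (Sy.bit false)))
    ((3 * w + 2) + (p * 4 + 2))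
    (by intro i; simp [hW2])
    (by
      intro i hi x
      have h1 := run_moveN (c := ex W3) (a := r D) (b := r C) (by simp) (by simp) (by simp)
        (s := ((s.set (r D) (ft i w row ++ rest)).set (r C)
          (s (r C) ++ fm i fun i => row i ++ List.replicate p (Sy.bit false))).set (ex W2) x)
        (N := w) (l := row i) (rest := ft (i + 1) w row ++ rest)
        (by simp [hW3]) (by simp [ft_step hi]) (hrow i)
      have h2 := run_fillN (k := 1) (c := ex WD) (b := r C) (x := Sy.bit false) (by simp)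
        (s := ((s.set (r D) (ft (i + 1) w row ++ rest)).set (r C)
          (s (r C) ++ (fm i fun i => row i ++ List.replicate p (Sy.bit false)) ++ row i)).set
          (ex W2) x) (N := p) (by simp [hWD])
      refine Runs.cast ((Runs.cast h1 ?_ le_rfl).seq h2) ?_ (by omega)
      · apply Store.ext'
        intro r
        simp only [Store.set]
        clear hi h1 h2
        split_ifs <;> simp_all
      · apply Store.ext'
        intro r
        simp only [Store.set]
        clear hi h1 h2
        split_ifs <;> simp_all [fm_succ])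
  simp only [ft_zero, ft_self, fm_zero, List.append_nil, List.nil_append] at key
  have e0 : (s.set (r D) (fm w row ++ rest)).set (r C) (s (r C)) = s := by
    rw [Store.set_eq_self s hD, Store.set_self]
  rw [e0] at key
  exact key

/-- Append a rectangle of zeros. -/
theorem run_zeros3 {s : Store (RF τ κ) (Sy α)} {q b p : ℕ}
    (hWD : s (ex WD) = num p) (hnc : s (ex nc) = num b) (hq1 : s (r q1) = num q) :
    Runs (forN (ex WD) (forN (ex nc) (fillN 1 (.r .q1) (.r .C) (Sy.bit false)))) s
      (s.set (r C) (s (r C) ++ List.replicate (p * (b * q)) (Sy.bit false)))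
      (p * (b * (q * 4 + 4) + 4) + 2) := by
  have inner : ∀ (s : Store (RF τ κ) (Sy α)), s (ex nc) = num b → s (r q1) = num q →
      Runs (forN (ex nc) (fillN 1 (.r .q1) (.r .C) (Sy.bit false))) s
        (s.set (r C) (s (r C) ++ List.replicate (b * q) (Sy.bit false)))
        (b * (q * 4 + 4) + 2) := by
    intro s hnc hq1
    have key := Runs.forN (c := ex nc) (body := fillN 1 (.r .q1) (.r .C) (Sy.bit false)) b
      (fun i => s.set (r C) (s (r C) ++ List.replicate (i * q) (Sy.bit false))) (q * 4 + 2)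
      (by intro i; simp [hnc])
      (by
        intro i _ x
        have := run_fillN (k := 1) (c := r q1) (b := r C) (x := Sy.bit false) (by simp)
          (s := (s.set (r C) (s (r C) ++ List.replicate (i * q) (Sy.bit false))).set (ex nc) x)
          (N := q) (by simp [hq1])
        refine Runs.cast this ?_ (by omega)
        have e : (i + 1) * q = i * q + 1 * q := by ring
        rw [e, List.replicate_add]
        apply Store.ext'
        intro r
        simp only [Store.set]
        clear this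
        split_ifs <;> simp_all)
    simp only [Nat.zero_mul, List.replicate_zero, List.append_nil, Store.set_self] at key
    exact key.mono (le_of_eq (by ring))
  have key := Runs.forN (c := ex WD)
    (body := forN (ex nc) (fillN 1 (.r .q1) (.r .C) (Sy.bit false))) p
    (fun i => s.set (r C) (s (r C) ++ List.replicate (i * (b * q)) (Sy.bit false)))
    (b * (q * 4 + 4) + 2)
    (by intro i; simp [hWD])
    (by
      intro i _ x
      have := inner ((s.set (r C) (s (r C) ++ List.replicate (i * (b * q)) (Sy.bit false))).set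
        (ex WD) x) (by simp [hnc]) (by simp [hq1])
      refine Runs.cast this ?_ le_rfl
      have e : (i + 1) * (b * q) = i * (b * q) + b * q := by ring
      rw [e, List.replicate_add]
      apply Store.ext'
      intro r
      simp only [Store.set]
      clear inner this
      split_ifs <;> simp_all)
  simp only [Nat.zero_mul, List.replicate_zero, List.append_nil, Store.set_self] at key
  exact key.mono (le_of_eq (by ring))

omit [DecidableEq τ] [DecidableEq κ] in
/-- The padded matrix. -/
theorem pad_eq (w N : ℕ) (hw : w ≤ N) (f : ℕ → ℕ → Bool) :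
    (fm N fun x => fm N fun y => [if x < w ∧ y < w then f x y else false]) =
      (fm w fun x => fm w (fun y => [f x y]) ++ List.replicate (N - w) false) ++
        List.replicate ((N - w) * N) false := by
  obtain ⟨p, rfl⟩ := Nat.exists_eq_add_of_le hw
  rw [fm_add w p (fun x => fm (w + p) fun y => [if x < w ∧ y < w then f x y else false]),
    Nat.add_sub_cancel_left]
  congr 1
  · refine fm_congr fun x hx => ?_
    rw [fm_add]
    congr 1
    · exact fm_congr fun y hy => by simp [hx, hy]
    · exact fm_const_singleton _ _ _ fun y _ => by simp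
  · rw [← fm_const_replicate]
    exact fm_congr fun x _ => fm_const_singleton _ _ _ fun y _ => by simp

theorem run_padF : ∃ C0 : ℕ, ∀ (s : Store (RF τ κ) (Sy α)) (q b w : ℕ) (f : ℕ → ℕ → Bool),
    1 ≤ q → 1 ≤ b → 1 ≤ w → w ≤ b * q → s (ex W2) = num w → s (ex W3) = num w →
    s (ex WD) = num (b * q - w) → s (ex nc) = num b → s (r q1) = num q →
    s (r D) = bs (fm w fun x => fm w fun y => [f x y]) → s (r C) = [] →
    Runs padF s (s.set (r D) (bs (fm (b * q) fun x => fm (b * q) fun y =>
        [if x < w ∧ y < w then f x y else false])))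
      (C0 * ((b * q) * (b * q))) := by
  refine ⟨100, fun s q b w f hq hb hw hwb hW2 hW3 hWD hnc hq1 hD hC => ?_⟩
  have hrow : ∀ i, (bs (fm w fun y => [f i y]) : List (Sy α)).length = w := by
    intro i
    rw [bs_length, fm_length (c := 1) (fun _ _ => rfl), Nat.mul_one]
  have r1 := run_padF1 (s := s) (w := w) (p := b * q - w)
    (row := fun i => bs (fm w fun y => [f i y])) (rest := []) hrow hW2 hW3 hWD
    (by rw [hD, bs_fm, List.append_nil])
  have r2 := run_zeros3 (s := (s.set (r D) []).set (r C)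
        (s (r C) ++ fm w fun i => bs (fm w fun y => [f i y]) ++
          List.replicate (b * q - w) (Sy.bit false))) (q := q) (b := b) (p := b * q - w)
    (by simp [hWD]) (by simp [hnc]) (by simp [hq1])
  have r3 := run_mvAll (a := r C) (b := r D) (by simp)
    (s := ((s.set (r D) []).set (r C)
        ((fm w fun i => bs (fm w fun y => [f i y]) ++
          List.replicate (b * q - w) (Sy.bit false)) ++
          List.replicate ((b * q - w) * (b * q)) (Sy.bit false))))
  have e : (bs (fm (b * q) fun x => fm (b * q) fun y =>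
        [if x < w ∧ y < w then f x y else false]) : List (Sy α)) =
      ((fm w fun i => bs (fm w fun y => [f i y]) ++
          List.replicate (b * q - w) (Sy.bit false)) ++
          List.replicate ((b * q - w) * (b * q)) (Sy.bit false)) := by
    rw [pad_eq w (b * q) hwb f, bs_append, bs_replicate, bs_fm]
    congr 1
    exact fm_congr fun x _ => by rw [bs_append, bs_replicate]
  have hlen : ((fm w fun i => (bs (fm w fun y => [f i y]) : List (Sy α)) ++
          List.replicate (b * q - w) (Sy.bit false)) ++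
          List.replicate ((b * q - w) * (b * q)) (Sy.bit false)).length =
          (b * q) * (b * q) := by
    rw [← e, bs_length, fm_length (c := b * q)]
    intro i _
    rw [fm_length (c := 1) (fun _ _ => rfl), Nat.mul_one]
  refine Runs.cast (run_sq_cons r1 (run_sq_cons (Runs.cast r2 ?_ le_rfl) (run_sq_cons r3
    run_sq_nil))) ?_ ?_
  · rw [hC, List.nil_append, Store.set_same, Store.set_set]
  · rw [← e]
    apply Store.ext'
    intro r
    simp only [Store.set]
    clear hq hb hw hwb r1 r2 r3 e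
    split_ifs <;> simp_all
  · rw [Store.set_same, hlen]
    have hbq : 1 ≤ b * q := Nat.mul_pos hb hq
    have hp : b * q - w ≤ b * q := Nat.sub_le _ _
    have hb1 : b ≤ b * q := Nat.le_mul_of_pos_right _ hq
    generalize b * q - w = p at *
    have e1 : b * (q * 4 + 4) = 4 * (b * q) + 4 * b := by ring
    rw [e1]
    generalize b * q = N at *
    have h1 : w * (3 * w + 2 + (p * 4 + 2) + 2) ≤ N * (3 * N + 2 + (N * 4 + 2) + 2) := by
      gcongr
    have h2 : p * (4 * N + 4 * b + 4) ≤ N * (4 * N + 4 * N + 4) := by gcongr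
    have h3 : N ≤ N * N := Nat.le_mul_of_pos_left _ hbq
    have h4 : N * (3 * N + 2 + (N * 4 + 2) + 2) = 7 * (N * N) + 6 * N := by ring
    have h5 : N * (4 * N + 4 * N + 4) = 8 * (N * N) + 4 * N := by ring
    omega

/-- First loop of `cutF`. -/
theorem run_cutF1 {s : Store (RF τ κ) (Sy α)} {w p : ℕ} {row tail : ℕ → List (Sy α)}
    {rest : List (Sy α)} (hrow : ∀ i, (row i).length = w) (htail : ∀ i, (tail i).length = p)
    (hW2 : s (ex W2) = num w) (hW3 : s (ex W3) = num w) (hWD : s (ex WD) = num p)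
    (hD : s (r D) = fm w (fun i => row i ++ tail i) ++ rest) :
    Runs (forN (ex W2) (.seq (moveN (ex W3) (.r .D) (.r .C)) (dropN 1 (ex WD) (.r .D)))) s
      ((s.set (r D) rest).set (r C) (s (r C) ++ fm w row))
      (w * ((3 * w + 2) + (p * 4 + 2) + 2) + 2) := by
  have key := Runs.forN (c := ex W2) (body := .seq (moveN (ex W3) (.r .D) (.r .C))
        (dropN (α := α) 1 (ex WD) (.r .D))) w
    (fun i => (s.set (r D) (ft i w (fun i => row i ++ tail i) ++ rest)).set (r C)
      (s (r C) ++ fm i row))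
    ((3 * w + 2) + (p * 4 + 2))
    (by intro i; simp [hW2])
    (by
      intro i hi x
      have h1 := run_moveN (c := ex W3) (a := r D) (b := r C) (by simp) (by simp) (by simp)
        (s := ((s.set (r D) (ft i w (fun i => row i ++ tail i) ++ rest)).set (r C)
          (s (r C) ++ fm i row)).set (ex W2) x)
        (N := w) (l := row i) (rest := tail i ++ (ft (i + 1) w (fun i => row i ++ tail i) ++ rest))
        (by simp [hW3]) (by simp [ft_step hi]) (hrow i)
      have h2 := run_dropN (k := 1) (c := ex WD) (a := r D) (by simp)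
        (s := ((s.set (r D) (tail i ++ (ft (i + 1) w (fun i => row i ++ tail i) ++ rest))).set
          (r C) (s (r C) ++ fm (i + 1) row)).set (ex W2) x) (N := p) (by simp [hWD])
      refine Runs.cast ((Runs.cast h1 ?_ le_rfl).seq h2) ?_ (by omega)
      · apply Store.ext'
        intro r
        simp only [Store.set]
        clear hi h1 h2
        split_ifs <;> simp_all [fm_succ]
      · have ed : (tail i ++ (ft (i + 1) w (fun i => row i ++ tail i) ++ rest)).drop (1 * p) =
            ft (i + 1) w (fun i => row i ++ tail i) ++ rest := by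
          rw [Nat.one_mul]
          exact List.drop_left' (htail i)
        apply Store.ext'
        intro r
        simp only [Store.set]
        clear hi h1 h2
        split_ifs <;> simp_all)
  simp only [ft_zero, ft_self, fm_zero, List.append_nil, List.nil_append] at key
  have e0 : (s.set (r D) (fm w (fun i => row i ++ tail i) ++ rest)).set (r C) (s (r C)) = s := by
    rw [Store.set_eq_self s hD, Store.set_self]
  rw [e0] at key
  exact key

theorem run_cutF : ∃ C0 : ℕ, ∀ (s : Store (RF τ κ) (Sy α)) (N w : ℕ) (f : ℕ → ℕ → Bool),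
    1 ≤ w → w ≤ N → s (ex W2) = num w → s (ex W3) = num w → s (ex WD) = num (N - w) →
    s (r D) = bs (fm N fun x => fm N fun y => [f x y]) → s (r C) = [] →
    Runs cutF s (s.set (r D) (bs (fm w fun x => fm w fun y => [f x y]))) (C0 * (N * N)) := by
  refine ⟨100, fun s N w f hw hwN hW2 hW3 hWD hD hC => ?_⟩
  have hrow : ∀ (n : ℕ) (g : ℕ → ℕ → Bool) (i : ℕ),
      (bs (fm n fun y => [g i y]) : List (Sy α)).length = n := by
    intro n g i
    rw [bs_length, fm_length (c := 1) (fun _ _ => rfl), Nat.mul_one]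
  have hsplit : (bs (fm N fun x => fm N fun y => [f x y]) : List (Sy α)) =
      fm w (fun i => bs (fm w fun y => [f i y]) ++ bs (fm (N - w) fun y => [f i (w + y)])) ++
        bs (fm (N - w) fun x => fm N fun y => [f (w + x) y]) := by
    obtain ⟨p, rfl⟩ := Nat.exists_eq_add_of_le hwN
    rw [Nat.add_sub_cancel_left, fm_add w p (fun x => fm (w + p) fun y => [f x y]), bs_append,
      bs_fm]
    congr 1
    refine fm_congr fun x _ => ?_
    rw [fm_add, bs_append]
  have r1 := run_cutF1 (s := s) (w := w) (p := N - w)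
    (row := fun i => bs (fm w fun y => [f i y]))
    (tail := fun i => bs (fm (N - w) fun y => [f i (w + y)]))
    (rest := bs (fm (N - w) fun x => fm N fun y => [f (w + x) y]))
    (hrow w f) (hrow (N - w) fun i y => f i (w + y)) hW2 hW3 hWD (by rw [hD, hsplit])
  have r2 := run_clr (a := r D) (s := (s.set (r D)
    (bs (fm (N - w) fun x => fm N fun y => [f (w + x) y]))).set (r C)
      (s (r C) ++ fm w fun i => bs (fm w fun y => [f i y])))
  have r3 := run_mvAll (a := r C) (b := r D) (by simp) (s := (s.set (r D) []).set (r C)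
      (fm w fun i => bs (fm w fun y => [f i y])))
  refine Runs.cast (run_sq_cons r1 (run_sq_cons (Runs.cast r2 ?_ le_rfl) (run_sq_cons r3
    run_sq_nil))) ?_ ?_
  · apply Store.ext'
    intro r
    simp only [Store.set]
    clear hw hwN r1 r2 r3
    split_ifs <;> simp_all
  · rw [bs_fm w]
    apply Store.ext'
    intro r
    simp only [Store.set]
    clear hw hwN r1 r2 r3
    split_ifs <;> simp_all
  · have l1 : (fm w fun i => (bs (fm w fun y => [f i y]) : List (Sy α))).length = w * w :=
      fm_length fun i _ => hrow w f i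
    have l2 : (bs (fm (N - w) fun x => fm N fun y => [f (w + x) y]) : List (Sy α)).length =
        (N - w) * N := by
      rw [bs_length, fm_length (c := N)]
      intro i _
      rw [fm_length (c := 1) (fun _ _ => rfl), Nat.mul_one]
    rw [Store.set_same, Store.set_ne _ _ (by simp), Store.set_same, l1, l2]
    have hp : N - w ≤ N := Nat.sub_le _ _
    generalize N - w = p at *
    have h1 : w * (3 * w + 2 + (p * 4 + 2) + 2) ≤ N * (3 * N + 2 + (N * 4 + 2) + 2) := by
      gcongr
    have h2 : p * N ≤ N * N := Nat.mul_le_mul_right _ hp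
    have h3 : N ≤ N * N := Nat.le_mul_of_pos_left _ (hw.trans hwN)
    have h4 : w * w ≤ N * N := Nat.mul_le_mul hwN hwN
    have h5 : N * (3 * N + 2 + (N * 4 + 2) + 2) = 7 * (N * N) + 6 * N := by ring
    have h6 : 1 ≤ N := hw.trans hwN
    omega

omit [DecidableEq τ] [DecidableEq κ] in
/-- Flattening of a triple concatenation. -/
theorem fm_flat3 {β : Type} (a b c : ℕ) (hb : 1 ≤ b) (hc : 1 ≤ c)
    (G : ℕ → ℕ → ℕ → List β) :
    (fm a fun x => fm b fun y => fm c fun z => G x y z) =
      fm (a * b * c) fun v => G (v / c / b) (v / c % b) (v % c) := by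
  rw [fm_fm a b hb (fun x y => fm c fun z => G x y z)]
  rw [fm_fm (a * b) c hc (fun u z => G (u / b) (u % b) z)]

/-- The loop of `dilv`s in `sortF`. -/
theorem run_sort1 : ∃ C0 : ℕ, ∀ (s : Store (RF τ κ) (Sy α)) (A Y t : ℕ)
    (g : ℕ → ℕ → ℕ → Bool), 1 ≤ A → 1 ≤ Y → s (ex nt) = num t →
    s (ex NU) = num (Y * (2 ^ t / 2)) → s (r A1) = num 1 → s (r X) = [] → s (r C) = [] →
    s (r D) = bs (fm A fun a => fm Y fun y => fm (2 ^ t) fun j => [g a y j]) →
    Runs (forN (ex nt) (dilv (ex NU))) s
      (s.set (r D) (bs (fm A fun a => fm (2 ^ t) fun j => fm Y fun y => [g a y j])))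
      (t * (C0 * (A * (Y * 2 ^ t)) + 2) + 2) := by
  obtain ⟨C0, hC0⟩ := run_dilv (τ := TF τ κ) (α := α) (g := ex NU)
    ⟨by simp, by simp, by simp, by simp⟩
  refine ⟨C0, fun s A Y t g hA hY hnt hNU hA1 hX hC hD => ?_⟩
  have key := Runs.forN (c := ex nt) (body := dilv (α := α) (ex NU : RF τ κ)) t
    (fun i => s.set (r D) (fm A fun a => fm (2 ^ i) fun c => fm Y fun y =>
      fm (2 ^ (t - i)) fun d => bs [g a y (d * 2 ^ i + c)]))
    (C0 * (A * (Y * 2 ^ t)))
    (by intro i; simp [hnt])
    (by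
      intro i hi x
      obtain ⟨m, hm⟩ : ∃ m, t - i = m + 1 := ⟨t - i - 1, by omega⟩
      have hm' : t - (i + 1) = m := by omega
      have ht : t = i + m + 1 := by omega
      have hN : Y * (2 ^ t / 2) = 2 ^ i * Y * 2 ^ m := by
        rw [ht, pow_succ, Nat.mul_div_cancel _ (by norm_num), pow_add]
        ring
      have h2m : 1 ≤ 2 ^ m := Nat.one_le_two_pow
      have h2i : 1 ≤ 2 ^ i := Nat.one_le_two_pow
      have hN1 : 1 ≤ 2 ^ i * Y * 2 ^ m := Nat.mul_pos (Nat.mul_pos h2i hY) h2m
      -- the entries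
      let ent : ℕ → ℕ → ℕ → List (Sy α) := fun a e v =>
        bs [g a (v / 2 ^ m % Y) ((v % 2 ^ m * 2 + e) * 2 ^ i + v / 2 ^ m / Y)]
      have e1 : (fm A fun a => fm (2 ^ i) fun c => fm Y fun y =>
          fm (2 ^ (t - i)) fun d => (bs [g a y (d * 2 ^ i + c)] : List (Sy α))) =
          fm A fun a => fm (2 ^ i * Y * 2 ^ m) fun v => fm 2 fun e => ent a e v := by
        refine fm_congr fun a _ => ?_
        rw [← fm_flat3 (2 ^ i) Y (2 ^ m) hY h2m (fun c y d => fm 2 fun e =>
          (bs [g a y ((d * 2 + e) * 2 ^ i + c)] : List (Sy α)))]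
        refine fm_congr fun c _ => fm_congr fun y _ => ?_
        rw [hm, pow_succ, fm_mul]
      have e2 : (fm A fun a => fm (2 ^ (i + 1)) fun c => fm Y fun y =>
          fm (2 ^ (t - (i + 1))) fun d => (bs [g a y (d * 2 ^ (i + 1) + c)] : List (Sy α))) =
          fm A fun a => fm 2 fun e => fm (2 ^ i * Y * 2 ^ m) fun v => ent a e v := by
        refine fm_congr fun a _ => ?_
        rw [pow_succ, Nat.mul_comm (2 ^ i) 2, fm_mul]
        refine fm_congr fun e _ => ?_
        rw [← fm_flat3 (2 ^ i) Y (2 ^ m) hY h2m (fun c y d =>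
          (bs [g a y ((d * 2 + e) * 2 ^ i + c)] : List (Sy α)))]
        refine fm_congr fun c _ => fm_congr fun y _ => ?_
        rw [hm']
        refine fm_congr fun d _ => ?_
        have : d * (2 * 2 ^ i) + (e * 2 ^ i + c) = (d * 2 + e) * 2 ^ i + c := by ring
        rw [this]
      have := hC0 ((s.set (r D) (fm A fun a => fm (2 ^ i) fun c => fm Y fun y =>
        fm (2 ^ (t - i)) fun d => bs [g a y (d * 2 ^ i + c)])).set (ex nt) x) A
        (2 ^ i * Y * 2 ^ m) 1 ent hA hN1 le_rfl (fun _ _ _ => rfl)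
        (by rw [Store.set_ne _ _ (by simp), Store.set_same, e1])
        (by simp [hNU, hN]) (by simp [hA1]) (by simp [hX]) (by simp [hC])
      refine Runs.cast this ?_ ?_
      · rw [← e2]
        apply Store.ext'
        intro r
        simp only [Store.set]
        clear hC0 hA hY hi h2m h2i hN1 this
        split_ifs <;> simp_all
      · have h3 : 2 ^ i * Y * 2 ^ m * 1 ≤ Y * 2 ^ t := by
          rw [ht, pow_succ, pow_add]
          have : 2 ^ i * Y * 2 ^ m * 1 = Y * (2 ^ i * 2 ^ m) := by ring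
          rw [this]
          exact Nat.mul_le_mul_left _ (Nat.le_mul_of_pos_right _ (by norm_num))
        gcongr)
  have e0 : s.set (r D) (fm A fun a => fm (2 ^ 0) fun c => fm Y fun y =>
      fm (2 ^ (t - 0)) fun d => bs [g a y (d * 2 ^ 0 + c)]) = s := by
    apply Store.set_eq_self
    rw [hD, bs_fm]
    refine fm_congr fun a _ => ?_
    rw [bs_fm]
    simp only [pow_zero, fm_one, Nat.sub_zero, Nat.mul_one, Nat.add_zero]
    refine fm_congr fun y _ => ?_
    rw [bs_fm]
  have e9 : (fm A fun a => fm (2 ^ t) fun c => fm Y fun y =>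
      fm (2 ^ (t - t)) fun d => (bs [g a y (d * 2 ^ t + c)] : List (Sy α))) =
      bs (fm A fun a => fm (2 ^ t) fun j => fm Y fun y => [g a y j]) := by
    rw [bs_fm]
    refine fm_congr fun a _ => ?_
    rw [bs_fm]
    refine fm_congr fun c _ => ?_
    rw [bs_fm]
    refine fm_congr fun y _ => ?_
    rw [Nat.sub_self, pow_zero, fm_one, Nat.zero_mul, Nat.zero_add]
  rw [e0, e9] at key
  exact key

/-- The loop of `ilv`s in `sortF`. -/
theorem run_sort2 : ∃ C0 : ℕ, ∀ (s : Store (RF τ κ) (Sy α)) (A Y t : ℕ)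
    (g : ℕ → ℕ → ℕ → Bool), 1 ≤ A → 1 ≤ Y → s (ex nt) = num t →
    s (ex NS) = num (2 ^ t / 2 * Y) → s (r A1) = num 1 → s (r X) = [] → s (r C) = [] →
    s (r D) = bs (fm A fun a => fm (2 ^ t) fun j => fm Y fun y => [g a j y]) →
    Runs (forN (ex nt) (ilv (ex NS))) s
      (s.set (r D) (bs (fm A fun a => fm Y fun y => fm (2 ^ t) fun j => [g a j y])))
      (t * (C0 * (A * (Y * 2 ^ t)) + 2) + 2) := by
  obtain ⟨C0, hC0⟩ := run_ilv (τ := TF τ κ) (α := α) (g := ex NS)
    ⟨by simp, by simp, by simp, by simp⟩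
  refine ⟨C0, fun s A Y t g hA hY hnt hNU hA1 hX hC hD => ?_⟩
  have key := Runs.forN (c := ex nt) (body := ilv (α := α) (ex NS : RF τ κ)) t
    (fun i => s.set (r D) (fm A fun a => fm (2 ^ (t - i)) fun d => fm Y fun y =>
      fm (2 ^ i) fun c => bs [g a (c * 2 ^ (t - i) + d) y]))
    (C0 * (A * (Y * 2 ^ t)))
    (by intro i; simp [hnt])
    (by
      intro i hi x
      obtain ⟨m, hm⟩ : ∃ m, t - i = m + 1 := ⟨t - i - 1, by omega⟩
      have hm' : t - (i + 1) = m := by omega
      have ht : t = i + m + 1 := by omega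
      have hN : 2 ^ t / 2 * Y = 2 ^ m * Y * 2 ^ i := by
        rw [ht, pow_succ, Nat.mul_div_cancel _ (by norm_num), pow_add]
        ring
      have h2m : 1 ≤ 2 ^ m := Nat.one_le_two_pow
      have h2i : 1 ≤ 2 ^ i := Nat.one_le_two_pow
      have hN1 : 1 ≤ 2 ^ m * Y * 2 ^ i := Nat.mul_pos (Nat.mul_pos h2m hY) h2i
      -- the entries
      let ent : ℕ → ℕ → ℕ → List (Sy α) := fun a e v =>
        bs [g a ((v % 2 ^ i * 2 + e) * 2 ^ m + v / 2 ^ i / Y) (v / 2 ^ i % Y)]
      have e1 : (fm A fun a => fm (2 ^ (t - i)) fun d => fm Y fun y =>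
          fm (2 ^ i) fun c => (bs [g a (c * 2 ^ (t - i) + d) y] : List (Sy α))) =
          fm A fun a => fm 2 fun e => fm (2 ^ m * Y * 2 ^ i) fun v => ent a e v := by
        refine fm_congr fun a _ => ?_
        rw [hm, pow_succ, Nat.mul_comm (2 ^ m) 2, fm_mul]
        refine fm_congr fun e _ => ?_
        rw [← fm_flat3 (2 ^ m) Y (2 ^ i) hY h2i (fun d y c =>
          (bs [g a ((c * 2 + e) * 2 ^ m + d) y] : List (Sy α)))]
        refine fm_congr fun d _ => fm_congr fun y _ => fm_congr fun c _ => ?_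
        have : c * (2 * 2 ^ m) + (e * 2 ^ m + d) = (c * 2 + e) * 2 ^ m + d := by ring
        rw [this]
      have e2 : (fm A fun a => fm (2 ^ (t - (i + 1))) fun d => fm Y fun y =>
          fm (2 ^ (i + 1)) fun c => (bs [g a (c * 2 ^ (t - (i + 1)) + d) y] : List (Sy α))) =
          fm A fun a => fm (2 ^ m * Y * 2 ^ i) fun v => fm 2 fun e => ent a e v := by
        refine fm_congr fun a _ => ?_
        rw [← fm_flat3 (2 ^ m) Y (2 ^ i) hY h2i (fun d y c => fm 2 fun e =>
          (bs [g a ((c * 2 + e) * 2 ^ m + d) y] : List (Sy α)))]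
        rw [hm']
        refine fm_congr fun d _ => fm_congr fun y _ => ?_
        rw [pow_succ, fm_mul]
      have := hC0 ((s.set (r D) (fm A fun a => fm (2 ^ (t - i)) fun d => fm Y fun y =>
        fm (2 ^ i) fun c => bs [g a (c * 2 ^ (t - i) + d) y])).set (ex nt) x) A
        (2 ^ m * Y * 2 ^ i) 1 ent hA hN1 le_rfl (fun _ _ _ => rfl)
        (by rw [Store.set_ne _ _ (by simp), Store.set_same, e1])
        (by simp [hNU, hN]) (by simp [hA1]) (by simp [hX]) (by simp [hC])
      refine Runs.cast this ?_ ?_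
      · rw [← e2]
        apply Store.ext'
        intro r
        simp only [Store.set]
        clear hC0 hA hY hi h2m h2i hN1 this
        split_ifs <;> simp_all
      · have h3 : 2 ^ m * Y * 2 ^ i * 1 ≤ Y * 2 ^ t := by
          rw [ht, pow_succ, pow_add]
          have : 2 ^ m * Y * 2 ^ i * 1 = Y * (2 ^ i * 2 ^ m) := by ring
          rw [this]
          exact Nat.mul_le_mul_left _ (Nat.le_mul_of_pos_right _ (by norm_num))
        gcongr)
  have e0 : s.set (r D) (fm A fun a => fm (2 ^ (t - 0)) fun d => fm Y fun y =>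
      fm (2 ^ 0) fun c => bs [g a (c * 2 ^ (t - 0) + d) y]) = s := by
    apply Store.set_eq_self
    rw [hD, bs_fm]
    refine fm_congr fun a _ => ?_
    rw [bs_fm]
    simp only [pow_zero, fm_one, Nat.sub_zero, Nat.zero_mul, Nat.zero_add]
    refine fm_congr fun y _ => ?_
    rw [bs_fm]
  have e9 : (fm A fun a => fm (2 ^ (t - t)) fun d => fm Y fun y =>
      fm (2 ^ t) fun c => (bs [g a (c * 2 ^ (t - t) + d) y] : List (Sy α))) =
      bs (fm A fun a => fm Y fun y => fm (2 ^ t) fun j => [g a j y]) := by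
    rw [bs_fm]
    refine fm_congr fun a _ => ?_
    rw [bs_fm, Nat.sub_self, pow_zero, fm_one]
    refine fm_congr fun y _ => ?_
    rw [bs_fm]
    refine fm_congr fun c _ => ?_
    rw [Nat.mul_one, Nat.add_zero]
  rw [e0, e9] at key
  exact key

/-- From the order of `shearF` to row-major order; `b = 2^t`. -/
theorem run_sortF : ∃ C0 : ℕ, ∀ (s : Store (RF τ κ) (Sy α)) (q t : ℕ) (f : ℕ → ℕ → Bool),
    1 ≤ q → s (ex nt) = num t → s (ex NU) = num (2 ^ t * (2 ^ t / 2 * q)) →
    s (ex NS) = num (2 ^ t / 2 * q) → s (r A1) = [] → s (r X) = [] → s (r C) = [] →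
    s (r D) = bs (fm q fun j1 => fm (2 ^ t) fun i0 => fm q fun i1 => fm (2 ^ t) fun j0 =>
      [f (i1 * 2 ^ t + i0) (j1 * 2 ^ t + j0)]) →
    Runs sortF s (s.set (r D) (bs (fm (q * 2 ^ t) fun j => fm (q * 2 ^ t) fun i => [f i j])))
      (C0 * ((t + 1) * ((q * 2 ^ t) * (q * 2 ^ t)))) := by
  obtain ⟨C1, h1⟩ := run_sort1 (τ := τ) (κ := κ) (α := α)
  obtain ⟨C2, h2⟩ := run_sort2 (τ := τ) (κ := κ) (α := α)
  refine ⟨C1 + C2 + 100, fun s q t f hq hnt hNU hNS hA1 hX hC hD => ?_⟩
  have h2t : 1 ≤ 2 ^ t := Nat.one_le_two_pow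
  have hbq : 1 ≤ 2 ^ t * q := Nat.mul_pos h2t hq
  have hqb : 1 ≤ q * 2 ^ t := Nat.mul_pos hq h2t
  have r1 := run_zeroC (c := r A1) (s := s) hA1
  have r2 := run_pushF (b := r A1) (s := s.set (r A1) (num 0)) (.mark)
  -- first loop
  have eD : (bs (fm q fun j1 => fm (2 ^ t) fun i0 => fm q fun i1 => fm (2 ^ t) fun j0 =>
      [f (i1 * 2 ^ t + i0) (j1 * 2 ^ t + j0)]) : List (Sy α)) =
      bs (fm q fun a => fm (2 ^ t * q) fun y => fm (2 ^ t) fun j =>
        [f (y % q * 2 ^ t + y / q) (a * 2 ^ t + j)]) := by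
    congr 1
    refine fm_congr fun a _ => ?_
    exact fm_fm (2 ^ t) q hq (fun i0 i1 => fm (2 ^ t) fun j0 =>
      [f (i1 * 2 ^ t + i0) (a * 2 ^ t + j0)])
  have r3 := h1 (s.set (r A1) (num 1)) q (2 ^ t * q) t
    (fun a y j => f (y % q * 2 ^ t + y / q) (a * 2 ^ t + j)) hq hbq (by simp [hnt])
    (by
      simp only [Store.set_ne _ _ (show (ex NU : RF τ κ) ≠ r A1 by simp), hNU]
      congr 1
      ring)
    (by simp) (by simp [hX]) (by simp [hC]) (by simp [hD, eD])
  -- second loop
  have eE : (bs (fm q fun a => fm (2 ^ t) fun j => fm (2 ^ t * q) fun y =>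
        [f (y % q * 2 ^ t + y / q) (a * 2 ^ t + j)]) : List (Sy α)) =
      bs (fm (q * 2 ^ t) fun a => fm (2 ^ t) fun i0 => fm q fun i1 =>
        [f (i1 * 2 ^ t + i0) a]) := by
    congr 1
    rw [fm_mul q (2 ^ t)]
    refine fm_congr fun a _ => fm_congr fun j _ => ?_
    exact (fm_fm (2 ^ t) q hq (fun i0 i1 => [f (i1 * 2 ^ t + i0) (a * 2 ^ t + j)])).symm
  have r4 := h2 ((s.set (r A1) (num 1)).set (r D) (bs (fm (q * 2 ^ t) fun a => fm (2 ^ t)
      fun i0 => fm q fun i1 => [f (i1 * 2 ^ t + i0) a]))) (q * 2 ^ t) q t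
    (fun a i0 i1 => f (i1 * 2 ^ t + i0) a) hqb hq (by simp [hnt]) (by simp [hNS])
    (by simp) (by simp [hX]) (by simp [hC]) (by simp)
  have eF : (bs (fm (q * 2 ^ t) fun a => fm q fun i1 => fm (2 ^ t) fun i0 =>
        [f (i1 * 2 ^ t + i0) a]) : List (Sy α)) =
      bs (fm (q * 2 ^ t) fun j => fm (q * 2 ^ t) fun i => [f i j]) := by
    congr 1
    refine fm_congr fun a _ => ?_
    rw [fm_mul q (2 ^ t)]
  have r5 := run_clr (a := r A1) (s := (s.set (r A1) (num 1)).set (r D)
    (bs (fm (q * 2 ^ t) fun j => fm (q * 2 ^ t) fun i => [f i j])))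
  refine Runs.cast (run_sq_cons r1 (run_sq_cons (Runs.cast r2 ?_ le_rfl) (run_sq_cons
    (Runs.cast r3 ?_ le_rfl) (run_sq_cons (Runs.cast r4 ?_ le_rfl) (run_sq_cons r5
    run_sq_nil))))) ?_ ?_
  · rw [Store.set_same, num_mark, Store.set_set]
  · rw [eE]
  · rw [eF, Store.set_set]
  · apply Store.ext'
    intro r
    simp only [Store.set]
    clear h1 h2 hq h2t hbq hqb r1 r2 r3 r4 r5
    split_ifs <;> simp_all
  · have l1 : (((s.set (r A1) (num 1)).set (r D)
        (bs (fm (q * 2 ^ t) fun j => fm (q * 2 ^ t) fun i => [f i j]))) (r A1)).length = 2 := by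
      rw [Store.set_ne _ _ (by simp), Store.set_same]
      simp [num]
    rw [l1]
    have e1 : q * (2 ^ t * q * 2 ^ t) = q * 2 ^ t * (q * 2 ^ t) := by ring
    rw [e1]
    generalize hW : q * 2 ^ t * (q * 2 ^ t) = W
    have hW1 : 1 ≤ W := by rw [← hW]; exact Nat.mul_pos hqb hqb
    have e2 : t * (C1 * W + 2) = C1 * (t * W) + 2 * t := by ring
    have e3 : t * (C2 * W + 2) = C2 * (t * W) + 2 * t := by ring
    have e4 : (C1 + C2 + 100) * ((t + 1) * W) = C1 * (t * W) + C2 * (t * W) + 100 * (t * W) +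
      C1 * W + C2 * W + 100 * W := by ring
    have e5 : t ≤ t * W := Nat.le_mul_of_pos_right _ hW1
    have e6 : 0 ≤ C1 * W + C2 * W := Nat.zero_le _
    rw [e2, e3, e4]
    omega

end

end Vale.Agent.P338
end

section

/-! Correctness of the fast block transposition (SWAP) specified in `Spec.lean`. -/

namespace Vale.Agent.P338.SC

/-! ### Values of strings, least significant bit first -/

@[simp] theorem ofLsb_nil : ofLsb [] = 0 := rfl
@[simp] theorem ofLsb_cons (b : Bool) (l : List Bool) :
    ofLsb (b :: l) = b.toNat + 2 * ofLsb l := rfl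

theorem ofLsb_append (x y : List Bool) : ofLsb (x ++ y) = ofLsb x + 2 ^ x.length * ofLsb y := by
  induction x with
  | nil => simp
  | cons b x ih =>
    simp only [List.cons_append, ofLsb_cons, ih, List.length_cons, pow_succ]
    ring

theorem ofLsb_lt (x : List Bool) : ofLsb x < 2 ^ x.length := by
  induction x with
  | nil => simp
  | cons b x ih =>
    simp only [ofLsb_cons, List.length_cons, pow_succ]
    have : b.toNat ≤ 1 := Bool.toNat_le b
    omega

@[simp] theorem ofLsb_zeros (n : ℕ) : ofLsb (zeros n) = 0 := by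
  induction n with
  | zero => rfl
  | succ n ih =>
    have : zeros (n + 1) = false :: zeros n := by simp [zeros, List.replicate_succ]
    rw [this, ofLsb_cons, ih]; rfl

@[simp] theorem lsb_length (k z : ℕ) : (lsb k z).length = k := by simp [lsb]

theorem lsb_succ (k z : ℕ) : lsb (k + 1) z = z.testBit 0 :: lsb k (z / 2) := by
  simp only [lsb, List.range_succ_eq_map, List.map_cons, List.map_map]
  congr 1
  apply List.map_congr_left
  intro i _
  simp [Nat.testBit_succ]

theorem ofLsb_lsb (k z : ℕ) : ofLsb (lsb k z) = z % 2 ^ k := by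
  induction k generalizing z with
  | zero => simp [lsb, Nat.mod_one]
  | succ k ih =>
    rw [lsb_succ, ofLsb_cons, ih, pow_succ', Nat.mod_mul]
    congr 1
    simp [Nat.testBit_zero]
    rcases Nat.mod_two_eq_zero_or_one z with h | h <;> simp [h]

theorem ofLsb_inj {x y : List Bool} (hl : x.length = y.length) (h : ofLsb x = ofLsb y) :
    x = y := by
  induction x generalizing y with
  | nil => cases y with
    | nil => rfl
    | cons b y => simp at hl
  | cons a x ih =>
    cases y with
    | nil => simp at hl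
    | cons b y =>
      simp only [ofLsb_cons] at h
      have ha : a.toNat ≤ 1 := Bool.toNat_le a
      have hb : b.toNat ≤ 1 := Bool.toNat_le b
      have h1 : a.toNat = b.toNat := by omega
      have h2 : ofLsb x = ofLsb y := by omega
      have h3 : a = b := by cases a <;> cases b <;> simp_all
      rw [h3, ih (by simpa using hl) h2]

theorem lsb_ofLsb (x : List Bool) : lsb x.length (ofLsb x) = x :=
  ofLsb_inj (by simp) (by rw [ofLsb_lsb, Nat.mod_eq_of_lt (ofLsb_lt x)])

theorem ofLsb_take (k : ℕ) (x : List Bool) : ofLsb (x.take k) = ofLsb x % 2 ^ k := by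
  rcases le_total k x.length with h | h
  · have h1 : x = x.take k ++ x.drop k := (List.take_append_drop k x).symm
    conv_rhs => rw [h1]
    have h2 : (x.take k).length = k := by simp [h]
    rw [ofLsb_append, h2, Nat.add_mul_mod_self_left, Nat.mod_eq_of_lt]
    conv_rhs => rw [← h2]
    exact ofLsb_lt _
  · rw [List.take_of_length_le h, Nat.mod_eq_of_lt]
    exact (ofLsb_lt x).trans_le (Nat.pow_le_pow_right (by norm_num) h)

theorem ofLsb_drop (k : ℕ) (x : List Bool) : ofLsb (x.drop k) = ofLsb x / 2 ^ k := by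
  rcases le_total k x.length with h | h
  · have h1 : x = x.take k ++ x.drop k := (List.take_append_drop k x).symm
    conv_rhs => rw [h1]
    have h2 : (x.take k).length = k := by simp [h]
    rw [ofLsb_append, h2, Nat.add_mul_div_left _ _ (by positivity), Nat.div_eq_of_lt, zero_add]
    conv_rhs => rw [← h2]
    exact ofLsb_lt _
  · rw [List.drop_of_length_le h, ofLsb_nil, Nat.div_eq_of_lt]
    exact (ofLsb_lt x).trans_le (Nat.pow_le_pow_right (by norm_num) h)

theorem ofLsb_fm {n c : ℕ} {f : ℕ → List Bool} (h : ∀ i < n, (f i).length = c) :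
    ofLsb (fm n f) = ∑ i ∈ Finset.range n, 2 ^ (c * i) * ofLsb (f i) := by
  induction n with
  | zero => simp
  | succ n ih =>
    rw [fm_succ, ofLsb_append, ih (fun i hi => h i (by omega)), Finset.sum_range_succ,
      fm_length (c := c) (fun i hi => h i (by omega)), mul_comm n c]

/-! ### Rotations -/

theorem ofLsb_rotate (x : List Bool) (k : ℕ) (hk : k ≤ x.length) :
    2 ^ k * ofLsb (x.rotate k) ≡ ofLsb x [MOD 2 ^ x.length - 1] := by
  rw [List.rotate_eq_drop_append_take hk, ofLsb_append]
  have h1 : ofLsb x = ofLsb (x.take k) + 2 ^ k * ofLsb (x.drop k) := by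
    conv_lhs => rw [← List.take_append_drop k x]
    rw [ofLsb_append, List.length_take, min_eq_left hk]
  rw [h1, List.length_drop]
  have h2 : 2 ^ k * (ofLsb (x.drop k) + 2 ^ (x.length - k) * ofLsb (x.take k))
      = 2 ^ x.length * ofLsb (x.take k) + 2 ^ k * ofLsb (x.drop k) := by
    rw [mul_add, ← mul_assoc, ← pow_add, Nat.add_sub_cancel' hk]; ring
  rw [h2]
  apply Nat.ModEq.add_right
  have h3 : 2 ^ x.length ≡ 1 [MOD 2 ^ x.length - 1] := by
    have : 1 ≤ 2 ^ x.length := Nat.one_le_two_pow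
    exact ((Nat.modEq_iff_dvd' this).mpr (by simp)).symm
  simpa using h3.mul_right (ofLsb (x.take k))

/-! ### Addition with carry and folding -/

theorem addc_length : ∀ (x y : List Bool) (c : Bool), x.length = y.length →
    (addc x y c).1.length = x.length
  | [], [], c, _ => rfl
  | a :: x, b :: y, c, h => by
    have := addc_length x y ((a && b) || (c && (a || b))) (by simpa using h)
    rw [addc_cons]; simp [this]
  | [], b :: y, c, h => by simp at h
  | a :: x, [], c, h => by simp at h

theorem addc_value : ∀ (x y : List Bool) (c : Bool), x.length = y.length →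
    ofLsb (addc x y c).1 + 2 ^ x.length * (addc x y c).2.toNat = ofLsb x + ofLsb y + c.toNat
  | [], [], c, _ => by rw [addc_nil]; simp
  | a :: x, b :: y, c, h => by
    have := addc_value x y ((a && b) || (c && (a || b))) (by simpa using h)
    simp only [addc_cons, ofLsb_cons, List.length_cons, pow_succ]
    have h2 : 2 * (ofLsb (addc x y (a && b || c && (a || b))).1 +
      2 ^ x.length * (addc x y (a && b || c && (a || b))).2.toNat) =
      2 * (ofLsb x + ofLsb y + (a && b || c && (a || b)).toNat) := by rw [this]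
    cases a <;> cases b <;> cases c <;> simp at h2 ⊢ <;> nlinarith [h2]
  | [], b :: y, c, h => by simp at h
  | a :: x, [], c, h => by simp at h

theorem fold4_length {m : ℕ} {V : List Bool} (hV : V.length = 4 * m) :
    (fold4 m V).length = m := by
  have l0 : (addc (zeros m) (V.take m) false).1.length = m := by
    rw [addc_length _ _ _ (by simp [hV]; omega)]; simp
  have l1 : (addc (addc (zeros m) (V.take m) false).1 ((V.drop m).take m)
      (addc (zeros m) (V.take m) false).2).1.length = m := by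
    rw [addc_length _ _ _ (by rw [l0]; simp [hV]; omega), l0]
  have l2 := l1
  simp only [fold4]
  rw [addc_length, addc_length, addc_length, l0]
  · rw [l0]; simp [hV]; omega
  · rw [l1]; simp [hV]; omega
  · rw [addc_length _ _ _ (by rw [l1]; simp [hV]; omega), l1]; simp [hV]; omega

theorem fold_arith {X Q v0 v1 v2 v3 r0 k0 r1 k1 r2 k2 r3 k3 : ℕ} (hX : 0 < X) (hQ : Q < X)
    (hV : v0 + X * (v1 + X * (v2 + X * v3)) < X * X * Q) (b0 : v0 < X)
    (c1 : r1 < X) (c2 : r2 < X) (t0 : k0 ≤ 1) (t2 : k2 ≤ 1) (t3 : k3 ≤ 1) (t1 : k1 ≤ 1)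
    (a0 : r0 + X * k0 = v0) (a1 : r1 + X * k1 = r0 + v1 + k0)
    (a2 : r2 + X * k2 = r1 + v2 + k1) (a3 : r3 + X * k3 = r2 + v3 + k2) :
    r3 ≡ v0 + X * (v1 + X * (v2 + X * v3)) [MOD X - 1] := by
  have hQ2 : v2 + X * v3 < Q := by
    have h1 : X * X * (v2 + X * v3) < X * X * Q := by
      have e : v0 + X * (v1 + X * (v2 + X * v3)) = v0 + X * v1 + X * X * (v2 + X * v3) := by ring
      rw [e] at hV
      omega
    exact lt_of_mul_lt_mul_left h1 (Nat.zero_le _)
  have hv3z : v3 = 0 := by
    by_contra h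
    have h1 : 1 ≤ v3 := Nat.one_le_iff_ne_zero.mpr h
    have h2 : X * 1 ≤ X * v3 := Nat.mul_le_mul_left _ h1
    omega
  subst hv3z
  have hk0 : k0 = 0 := by
    rcases Nat.le_one_iff_eq_zero_or_eq_one.mp t0 with h | h
    · exact h
    · subst h; omega
  subst hk0
  have hk3 : k3 = 0 := by
    rcases Nat.le_one_iff_eq_zero_or_eq_one.mp t3 with h3 | h3
    · exact h3
    · subst h3
      rcases Nat.le_one_iff_eq_zero_or_eq_one.mp t2 with h | h
      · subst h; omega
      · subst h; omega
  subst hk3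
  have hN : X ≡ 1 [MOD X - 1] :=
    ((Nat.modEq_iff_dvd' (by omega : 1 ≤ X)).mpr (by simp)).symm
  have e1 : r1 + k1 ≡ v0 + v1 [MOD X - 1] := by
    have h1 : r1 + k1 ≡ r1 + X * k1 [MOD X - 1] := by
      apply Nat.ModEq.add_left
      simpa using (hN.mul_right k1).symm
    have h2 : r1 + X * k1 = v0 + v1 := by omega
    rwa [h2] at h1
  have e2 : r2 + k2 ≡ v0 + v1 + v2 [MOD X - 1] := by
    have h1 : r2 + k2 ≡ r2 + X * k2 [MOD X - 1] := by
      apply Nat.ModEq.add_left
      simpa using (hN.mul_right k2).symm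
    have h2 : r2 + X * k2 = (r1 + k1) + v2 := by omega
    rw [h2] at h1
    exact h1.trans (e1.add_right _)
  have e3 : r3 = r2 + k2 := by omega
  rw [e3]
  refine e2.trans ?_
  have h1 : v0 + v1 + v2 ≡ v0 + X * v1 + X * X * v2 [MOD X - 1] := by
    refine Nat.ModEq.add (Nat.ModEq.add_left _ ?_) ?_
    · simpa using (hN.mul_right v1).symm
    · simpa using ((hN.mul hN).mul_right v2).symm
  refine h1.trans ?_
  have : v0 + X * v1 + X * X * v2 = v0 + X * (v1 + X * (v2 + X * 0)) := by ring
  rw [this]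

theorem fold4_value {m Q : ℕ} {V : List Bool} (hV : V.length = 4 * m) (hQ : Q < 2 ^ m)
    (hV2 : ofLsb V < 2 ^ (2 * m) * Q) :
    ofLsb (fold4 m V) ≡ ofLsb V [MOD 2 ^ m - 1] := by
  have lv0 : (V.take m).length = m := by simp [hV]; omega
  have lv1 : ((V.drop m).take m).length = m := by simp [hV]; omega
  have lv2 : ((V.drop (2 * m)).take m).length = m := by simp [hV]; omega
  have lv3 : ((V.drop (3 * m)).take m).length = m := by simp [hV]; omega
  have hval : ofLsb V = ofLsb (V.take m) + 2 ^ m * (ofLsb ((V.drop m).take m) +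
      2 ^ m * (ofLsb ((V.drop (2 * m)).take m) + 2 ^ m * ofLsb ((V.drop (3 * m)).take m))) := by
    have h1 : V = V.take m ++ V.drop m := (List.take_append_drop m V).symm
    have h2 : V.drop m = (V.drop m).take m ++ V.drop (2 * m) := by
      conv_lhs => rw [← List.take_append_drop m (V.drop m)]
      rw [List.drop_drop]; congr 2; ring
    have h3 : V.drop (2 * m) = (V.drop (2 * m)).take m ++ V.drop (3 * m) := by
      conv_lhs => rw [← List.take_append_drop m (V.drop (2 * m))]
      rw [List.drop_drop]; congr 2; ring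
    have h4 : (V.drop (3 * m)).take m = V.drop (3 * m) := by
      rw [List.take_of_length_le]; simp [hV]; omega
    have f1 : ofLsb V = ofLsb (V.take m) + 2 ^ m * ofLsb (V.drop m) := by
      conv_lhs => rw [h1]
      rw [ofLsb_append, lv0]
    have f2 : ofLsb (V.drop m) = ofLsb ((V.drop m).take m) + 2 ^ m * ofLsb (V.drop (2 * m)) := by
      conv_lhs => rw [h2]
      rw [ofLsb_append, lv1]
    have f3 : ofLsb (V.drop (2 * m)) =
        ofLsb ((V.drop (2 * m)).take m) + 2 ^ m * ofLsb (V.drop (3 * m)) := by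
      conv_lhs => rw [h3]
      rw [ofLsb_append, lv2]
    rw [h4, f1, f2, f3]
  have b0 := ofLsb_lt (V.take m)
  rw [lv0] at b0
  have hXX : 2 ^ (2 * m) = 2 ^ m * 2 ^ m := by rw [← pow_add]; ring_nf
  rw [hXX, hval] at hV2
  rw [hval]
  have e : fold4 m V = (addc (addc (addc (addc (zeros m) (V.take m) false).1
    ((V.drop m).take m) (addc (zeros m) (V.take m) false).2).1 ((V.drop (2 * m)).take m)
    (addc (addc (zeros m) (V.take m) false).1
    ((V.drop m).take m) (addc (zeros m) (V.take m) false).2).2).1 ((V.drop (3 * m)).take m)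
    (addc (addc (addc (zeros m) (V.take m) false).1
    ((V.drop m).take m) (addc (zeros m) (V.take m) false).2).1 ((V.drop (2 * m)).take m)
    (addc (addc (zeros m) (V.take m) false).1
    ((V.drop m).take m) (addc (zeros m) (V.take m) false).2).2).2).1 := rfl
  rw [e]
  generalize V.take m = v0 at *
  generalize (V.drop m).take m = v1 at *
  generalize (V.drop (2 * m)).take m = v2 at *
  generalize (V.drop (3 * m)).take m = v3 at *
  clear e hval
  have l0 : (addc (zeros m) v0 false).1.length = m := by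
    rw [addc_length _ _ _ (by simp [lv0])]; simp
  have a0 := addc_value (zeros m) v0 false (by simp [lv0])
  generalize addc (zeros m) v0 false = r0 at *
  have l1 : (addc r0.1 v1 r0.2).1.length = m := by rw [addc_length _ _ _ (by rw [l0, lv1]), l0]
  have a1 := addc_value r0.1 v1 r0.2 (by rw [l0, lv1])
  generalize addc r0.1 v1 r0.2 = r1 at *
  have l2 : (addc r1.1 v2 r1.2).1.length = m := by rw [addc_length _ _ _ (by rw [l1, lv2]), l1]
  have a2 := addc_value r1.1 v2 r1.2 (by rw [l1, lv2])
  generalize addc r1.1 v2 r1.2 = r2 at *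
  have a3 := addc_value r2.1 v3 r2.2 (by rw [l2, lv3])
  generalize addc r2.1 v3 r2.2 = r3 at *
  rw [l0] at a1
  rw [l1] at a2
  rw [l2] at a3
  simp only [zeros_length, ofLsb_zeros, Bool.toNat_false, zero_add, add_zero] at a0
  have c1 := ofLsb_lt r1.1
  have c2 := ofLsb_lt r2.1
  rw [l1] at c1
  rw [l2] at c2
  exact fold_arith (by positivity) hQ hV2 b0 c1 c2 (Bool.toNat_le _) (Bool.toNat_le _)
    (Bool.toNat_le _) (Bool.toNat_le _) a0 a1 a2 a3

/-! ### Digits of sums and products -/

theorem sum_lt_pow {B : ℕ} (hB : 0 < B) (c : ℕ → ℕ) (hc : ∀ r, c r < B) (p : ℕ) :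
    ∑ r ∈ Finset.range p, c r * B ^ r < B ^ p := by
  induction p with
  | zero => simp
  | succ p ih =>
    rw [Finset.sum_range_succ, pow_succ]
    have h1 : c p * B ^ p ≤ (B - 1) * B ^ p := Nat.mul_le_mul_right _ (by have := hc p; omega)
    have h2 : (B - 1) * B ^ p + B ^ p = B ^ p * B := by
      have : (B - 1) * B ^ p + B ^ p = (B - 1 + 1) * B ^ p := by ring
      rw [this, Nat.sub_add_cancel hB, mul_comm]
    omega

theorem digit_eq {B : ℕ} (hB : 0 < B) (c : ℕ → ℕ) (hc : ∀ r, c r < B) {n p : ℕ} (hp : p < n) :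
    (∑ r ∈ Finset.range n, c r * B ^ r) / B ^ p % B = c p := by
  obtain ⟨k, rfl⟩ : ∃ k, n = (p + 1) + k := ⟨n - (p + 1), by omega⟩
  rw [Finset.sum_range_add, Finset.sum_range_succ]
  have h1 : ∑ x ∈ Finset.range k, c (p + 1 + x) * B ^ (p + 1 + x) =
      B ^ p * (B * ∑ x ∈ Finset.range k, c (p + 1 + x) * B ^ x) := by
    rw [Finset.mul_sum, Finset.mul_sum]
    apply Finset.sum_congr rfl
    intro x _
    rw [pow_add, pow_succ]; ring
  rw [h1]
  have h2 : ∑ x ∈ Finset.range p, c x * B ^ x + c p * B ^ p +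
      B ^ p * (B * ∑ x ∈ Finset.range k, c (p + 1 + x) * B ^ x) =
      ∑ x ∈ Finset.range p, c x * B ^ x +
      B ^ p * (c p + B * ∑ x ∈ Finset.range k, c (p + 1 + x) * B ^ x) := by ring
  rw [h2, Nat.add_mul_div_left _ _ (by positivity), Nat.div_eq_of_lt (sum_lt_pow hB c hc p),
    zero_add, Nat.add_mul_mod_self_left, Nat.mod_eq_of_lt (hc p)]

/-- Shifting a sum of digits. -/
theorem shift_sum (B : ℕ) (f : ℕ → ℕ) (n k m : ℕ) (hf : ∀ p, n ≤ p → f p = 0) (hk : k ≤ m) :
    B ^ k * ∑ p ∈ Finset.range n, f p * B ^ p =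
      ∑ r ∈ Finset.range (n + m), (if k ≤ r then f (r - k) else 0) * B ^ r := by
  obtain ⟨d, rfl⟩ : ∃ d, m = k + d := ⟨m - k, by omega⟩
  have e : n + (k + d) = k + (n + d) := by ring
  rw [e, Finset.sum_range_add, Finset.sum_range_add]
  have h1 : ∑ x ∈ Finset.range k, (if k ≤ x then f (x - k) else 0) * B ^ x = 0 := by
    apply Finset.sum_eq_zero
    intro x hx
    rw [if_neg (by simpa using hx), zero_mul]
  have h3 : ∑ x ∈ Finset.range d, (if k ≤ k + (n + x) then f (k + (n + x) - k) else 0) *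
      B ^ (k + (n + x)) = 0 := by
    apply Finset.sum_eq_zero
    intro x _
    rw [if_pos (by omega), hf _ (by omega), zero_mul]
  rw [h1, zero_add, h3, add_zero, Finset.mul_sum]
  apply Finset.sum_congr rfl
  intro x _
  rw [if_pos (by omega), Nat.add_sub_cancel_left, pow_add]; ring

/-- Product of a number with digits `f` and a number with sparse digits `g` at multiples of `q`. -/
theorem conv_sum (B q : ℕ) (f g : ℕ → ℕ) (n T : ℕ) (hf : ∀ p, n ≤ p → f p = 0) :
    (∑ p ∈ Finset.range n, f p * B ^ p) * (∑ d ∈ Finset.range T, g d * B ^ (q * d)) =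
      ∑ r ∈ Finset.range (n + q * T), (∑ d ∈ Finset.range T,
        g d * (if q * d ≤ r then f (r - q * d) else 0)) * B ^ r := by
  rw [Finset.mul_sum]
  have h1 : ∀ d ∈ Finset.range T, (∑ p ∈ Finset.range n, f p * B ^ p) * (g d * B ^ (q * d)) =
      ∑ r ∈ Finset.range (n + q * T), g d * (if q * d ≤ r then f (r - q * d) else 0) * B ^ r := by
    intro d hd
    have hd' : d < T := by simpa using hd
    have := shift_sum B f n (q * d) (q * T) hf (Nat.mul_le_mul_left _ hd'.le)
    calc (∑ p ∈ Finset.range n, f p * B ^ p) * (g d * B ^ (q * d))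
        = g d * (B ^ (q * d) * ∑ p ∈ Finset.range n, f p * B ^ p) := by ring
      _ = _ := by
        rw [this, Finset.mul_sum]
        apply Finset.sum_congr rfl
        intro r _
        ring
  rw [Finset.sum_congr rfl h1, Finset.sum_comm]
  apply Finset.sum_congr rfl
  intro r _
  rw [Finset.sum_mul]

/-! ### The data integers -/

/-- A data integer with prescribed slot contents `x a i j` (of `2 q e` bits). -/
def dataG (A q e : ℕ) (x : ℕ → ℕ → ℕ → List Bool) : List Bool :=
  fm A fun a =>
    (fm q fun i => fm q fun j => x a i j ++ zeros (6 * (q * e))) ++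
    zeros (q * (q * (8 * (q * e))))

theorem data1_eq (A q e : ℕ) (ent : ℕ → ℕ → ℕ → List Bool) :
    data1 A q e ent = dataG A q e fun a i j =>
      rr (e * i ^ 2) (enc (ent a i ((j + (q - i)) % q))) := rfl

theorem data2_eq (A q e : ℕ) (P : List Bool) :
    data2 A q e P = dataG A q e fun a k j =>
      rr (2 * e * k ^ 2 + 2 * e * (q - k) * j) (fold4 (2 * (q * e)) (slotOf q e P a k j)) := rfl

/-- The digits of a data integer. -/
def dig (A q : ℕ) (X : ℕ → ℕ → ℕ → ℕ) (p : ℕ) : ℕ :=
  if p < A * (2 * q * q) then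
    if p / q % (2 * q) < q then X (p / q / (2 * q)) (p / q % (2 * q)) (p % q) else 0
  else 0

theorem dig_eq {A q : ℕ} (X : ℕ → ℕ → ℕ → ℕ) {a i j : ℕ} (ha : a < A) (hi : i < 2 * q)
    (hj : j < q) : dig A q X ((a * (2 * q) + i) * q + j) = if i < q then X a i j else 0 := by
  have hq : 0 < q := by omega
  have h1 : ((a * (2 * q) + i) * q + j) / q = a * (2 * q) + i := by
    rw [mul_comm, Nat.mul_add_div hq, Nat.div_eq_of_lt hj, add_zero]
  have h2 : ((a * (2 * q) + i) * q + j) % q = j := by
    rw [mul_comm, Nat.mul_add_mod, Nat.mod_eq_of_lt hj]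
  have h3 : (a * (2 * q) + i) / (2 * q) = a := by
    rw [mul_comm, Nat.mul_add_div (by omega), Nat.div_eq_of_lt hi, add_zero]
  have h4 : (a * (2 * q) + i) % (2 * q) = i := by
    rw [mul_comm, Nat.mul_add_mod, Nat.mod_eq_of_lt hi]
  have h5 : (a * (2 * q) + i) * q + j < A * (2 * q * q) := by
    have e1 : a * (2 * q) + i + 1 ≤ A * (2 * q) := by
      have : (a + 1) * (2 * q) ≤ A * (2 * q) := Nat.mul_le_mul_right _ ha
      rw [Nat.succ_mul] at this
      omega
    have e2 : (a * (2 * q) + i + 1) * q ≤ A * (2 * q) * q := Nat.mul_le_mul_right _ e1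
    rw [Nat.succ_mul] at e2
    have e3 : A * (2 * q) * q = A * (2 * q * q) := by ring
    omega
  simp only [dig, h1, h2, h3, h4, if_pos h5]

theorem dig_ge {A q : ℕ} (X : ℕ → ℕ → ℕ → ℕ) {p : ℕ} (hp : A * (2 * q * q) ≤ p) :
    dig A q X p = 0 := by
  simp [dig, Nat.not_lt.mpr hp]

theorem zeros_add (a b : ℕ) : zeros (a + b) = zeros a ++ zeros b := by
  simp only [zeros]; exact List.replicate_add ..

theorem fm_zeros (n c : ℕ) : fm n (fun _ => zeros c) = zeros (n * c) := by
  induction n with
  | zero => simp [zeros]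
  | succ n ih => rw [fm_succ, ih, Nat.succ_mul, zeros_add]

theorem dataG_eq_fm {A q e : ℕ} (x : ℕ → ℕ → ℕ → List Bool) :
    dataG A q e x = fm (A * (2 * q * q)) fun p =>
      if p / q % (2 * q) < q then
        x (p / q / (2 * q)) (p / q % (2 * q)) (p % q) ++ zeros (6 * (q * e))
      else zeros (8 * (q * e)) := by
  rcases Nat.eq_zero_or_pos q with rfl | hq
  · simp only [dataG]
    have : ∀ n, fm n (fun _ : ℕ => ([] : List Bool)) = [] := by
      intro n; induction n with
      | zero => rfl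
      | succ n ih => rw [fm_succ, ih]; rfl
    simp [zeros, this]
  rw [fm_mul]
  refine fm_congr fun a _ => ?_
  rw [fm_mul, two_mul, fm_add]
  congr 1
  · refine fm_congr fun i hi => fm_congr fun j hj => ?_
    have h1 : (a * ((q + q) * q) + (i * q + j)) = (a * (q + q) + i) * q + j := by ring
    have h2 : ((a * (q + q) + i) * q + j) / q = a * (q + q) + i := by
      rw [mul_comm, Nat.mul_add_div hq, Nat.div_eq_of_lt hj, add_zero]
    have h3 : ((a * (q + q) + i) * q + j) % q = j := by
      rw [mul_comm, Nat.mul_add_mod, Nat.mod_eq_of_lt hj]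
    have h4 : (a * (q + q) + i) / (q + q) = a := by
      rw [mul_comm, Nat.mul_add_div (by omega), Nat.div_eq_of_lt (by omega), add_zero]
    have h5 : (a * (q + q) + i) % (q + q) = i := by
      rw [mul_comm, Nat.mul_add_mod, Nat.mod_eq_of_lt (by omega)]
    simp only [h1, h2, h3, h4, h5, if_pos hi]
  · symm
    have : ∀ i < q, (fm q fun j => if (a * ((q + q) * q) + ((q + i) * q + j)) / q % (q + q) < q
        then x ((a * ((q + q) * q) + ((q + i) * q + j)) / q / (q + q))
          ((a * ((q + q) * q) + ((q + i) * q + j)) / q % (q + q))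
          ((a * ((q + q) * q) + ((q + i) * q + j)) % q) ++ zeros (6 * (q * e))
        else zeros (8 * (q * e))) = zeros (q * (8 * (q * e))) := by
      intro i hi
      rw [← fm_zeros q (8 * (q * e))]
      refine fm_congr fun j hj => ?_
      have h1 : (a * ((q + q) * q) + ((q + i) * q + j)) = (a * (q + q) + (q + i)) * q + j := by
        ring
      have h2 : ((a * (q + q) + (q + i)) * q + j) / q = a * (q + q) + (q + i) := by
        rw [mul_comm, Nat.mul_add_div hq, Nat.div_eq_of_lt hj, add_zero]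
      have h5 : (a * (q + q) + (q + i)) % (q + q) = q + i := by
        rw [mul_comm, Nat.mul_add_mod, Nat.mod_eq_of_lt (by omega)]
      rw [h1, h2, h5, if_neg (by omega)]
    rw [fm_congr this, fm_zeros]

theorem ofLsb_dataG {A q e : ℕ} {x : ℕ → ℕ → ℕ → List Bool}
    (hx : ∀ a < A, ∀ i < q, ∀ j < q, (x a i j).length = 2 * (q * e)) :
    ofLsb (dataG A q e x) = ∑ p ∈ Finset.range (A * (2 * q * q)),
      dig A q (fun a i j => ofLsb (x a i j)) p * (2 ^ (8 * (q * e))) ^ p := by
  rcases Nat.eq_zero_or_pos q with rfl | hq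
  · simp only [dataG]
    have : ∀ n, fm n (fun _ : ℕ => ([] : List Bool)) = [] := by
      intro n; induction n with
      | zero => rfl
      | succ n ih => rw [fm_succ, ih]; rfl
    simp [zeros, this]
  have hbound : ∀ p < A * (2 * q * q), p / q / (2 * q) < A := by
    intro p hp
    rw [Nat.div_div_eq_div_mul]
    apply Nat.div_lt_of_lt_mul
    have : q * (2 * q) * A = A * (2 * q * q) := by ring
    omega
  rw [dataG_eq_fm, ofLsb_fm (c := 8 * (q * e))]
  · apply Finset.sum_congr rfl
    intro p hp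
    have hp' : p < A * (2 * q * q) := by simpa using hp
    rw [← pow_mul, mul_comm]
    congr 1
    simp only [dig, if_pos hp']
    split_ifs with h
    · rw [ofLsb_append, ofLsb_zeros, mul_zero, add_zero]
    · rw [ofLsb_zeros]
  · intro p hp
    split_ifs with h
    · rw [List.length_append, hx _ (hbound p hp) _ h _ (Nat.mod_lt _ hq), zeros_length]; ring
    · rw [zeros_length]

/-- The value of row `d` of the kernel. -/
def gker (q e d : ℕ) : ℕ := ofLsb ((onehot (2 * (q * e))).rotate (e * d ^ 2))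

theorem ofLsb_kern {q e : ℕ} (hq : 0 < q) (he : 0 < e) :
    ofLsb (kern q e) = ∑ d ∈ Finset.range (2 * q), gker q e d * (2 ^ (8 * (q * e))) ^ (q * d) := by
  have hqe : 0 < q * e := Nat.mul_pos hq he
  rw [kern, ofLsb_fm (c := q * (8 * (q * e)))]
  · apply Finset.sum_congr rfl
    intro d _
    rw [ofLsb_append, ofLsb_append, ofLsb_zeros, ofLsb_zeros, mul_zero, mul_zero, add_zero,
      add_zero, ← pow_mul, mul_comm, gker]
    congr 2
    ring
  · intro d _
    simp only [List.length_append, List.length_rotate, zeros_length, onehot, List.length_cons]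
    obtain ⟨r, rfl⟩ : ∃ r, q = r + 1 := ⟨q - 1, by omega⟩
    have : 2 * ((r + 1) * e) - 1 + 1 = 2 * ((r + 1) * e) := by omega
    rw [this, Nat.add_sub_cancel]; ring

/-! ### The slots of a product -/

theorem gker_lt {q e : ℕ} (hq : 0 < q) (he : 0 < e) (d : ℕ) : gker q e d < 2 ^ (2 * (q * e)) := by
  have hqe : 0 < q * e := Nat.mul_pos hq he
  have := ofLsb_lt ((onehot (2 * (q * e))).rotate (e * d ^ 2))
  rw [List.length_rotate] at this
  have h : (onehot (2 * (q * e))).length = 2 * (q * e) := by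
    simp only [onehot, List.length_cons, zeros_length]; omega
  rwa [h] at this

theorem dig_lt {A q : ℕ} (hq : 0 < q) (X : ℕ → ℕ → ℕ → ℕ) {C : ℕ} (hC : 0 < C)
    (hX : ∀ a < A, ∀ i < q, ∀ j < q, X a i j < C) (p : ℕ) : dig A q X p < C := by
  unfold dig
  split_ifs with h1 h2
  · refine hX _ ?_ _ h2 _ (Nat.mod_lt _ hq)
    rw [Nat.div_div_eq_div_mul]
    apply Nat.div_lt_of_lt_mul
    have : q * (2 * q) * A = A * (2 * q * q) := by ring
    omega
  · exact hC
  · exact hC

theorem conv_lt {q : ℕ} (hq : 0 < q) (C : ℕ) (hC : 0 < C) (f g : ℕ → ℕ) (hf : ∀ p, f p < C)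
    (hg : ∀ p, g p < C) (r : ℕ) :
    ∑ d ∈ Finset.range (2 * q), g d * (if q * d ≤ r then f (r - q * d) else 0) <
      C * C * (2 * q) := by
  have h1 : ∀ d ∈ Finset.range (2 * q), g d * (if q * d ≤ r then f (r - q * d) else 0) ≤
      C * C - 1 := by
    intro d _
    have h2 : (if q * d ≤ r then f (r - q * d) else 0) < C := by
      split_ifs
      · exact hf _
      · exact hC
    have h3 : g d * (if q * d ≤ r then f (r - q * d) else 0) < C * C :=
      Nat.mul_lt_mul'' (hg d) h2
    omega
  have h2 := Finset.sum_le_card_nsmul _ _ _ h1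
  rw [Finset.card_range, smul_eq_mul] at h2
  have h3 : 2 * q * (C * C - 1) < C * C * (2 * q) := by
    have : 0 < C * C := Nat.mul_pos hC hC
    rw [mul_comm]
    exact Nat.mul_lt_mul_of_pos_right (by omega) (by omega)
  omega

/-- The relevant digits of the product. -/
theorem conv_digit {A q : ℕ} (hq : 0 < q) (X : ℕ → ℕ → ℕ → ℕ) (g : ℕ → ℕ) {a k j : ℕ}
    (ha : a < A) (hk : k < q) (hj : j < q) :
    ∑ d ∈ Finset.range (2 * q), g d * (if q * d ≤ ((2 * a + 1) * q + k) * q + j then
      dig A q X (((2 * a + 1) * q + k) * q + j - q * d) else 0) =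
    ∑ i ∈ Finset.range q, g (q + k - i) * X a i j := by
  have e : 2 * q = (k + 1) + q + (q - k - 1) := by omega
  rw [e, Finset.sum_range_add, Finset.sum_range_add]
  have h1 : ∑ d ∈ Finset.range (k + 1), g d * (if q * d ≤ ((2 * a + 1) * q + k) * q + j then
      dig A q X (((2 * a + 1) * q + k) * q + j - q * d) else 0) = 0 := by
    apply Finset.sum_eq_zero
    intro d hd
    have hd' : d ≤ k := by have := Finset.mem_range.mp hd; omega
    have h2 : ((2 * a + 1) * q + k) * q + j - q * d = (a * (2 * q) + (q + (k - d))) * q + j := by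
      have : ((2 * a + 1) * q + k) * q + j = (a * (2 * q) + (q + (k - d))) * q + j + q * d := by
        have : k = (k - d) + d := by omega
        conv_lhs => rw [this]
        ring
      omega
    rw [h2, dig_eq X ha (by omega) hj, if_neg (by omega : ¬ (q + (k - d) < q))]
    simp
  have h3 : ∑ x ∈ Finset.range (q - k - 1), g (k + 1 + q + x) *
      (if q * (k + 1 + q + x) ≤ ((2 * a + 1) * q + k) * q + j then
      dig A q X (((2 * a + 1) * q + k) * q + j - q * (k + 1 + q + x)) else 0) = 0 := by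
    apply Finset.sum_eq_zero
    intro x hx
    have hx' : x < q - k - 1 := Finset.mem_range.mp hx
    split_ifs with hle
    · -- then `a ≥ 1`
      rcases Nat.eq_zero_or_pos a with rfl | ha1
      · exfalso
        have : ((2 * 0 + 1) * q + k) * q + j < q * (k + 1 + q + x) := by
          have e1 : ((2 * 0 + 1) * q + k) * q + j = q * (q + k) + j := by ring
          have e2 : q * (k + 1 + q + x) = q * (q + k) + q * (1 + x) := by ring
          rw [e1, e2]
          have : q ≤ q * (1 + x) := Nat.le_mul_of_pos_right _ (by omega)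
          omega
        omega
      · obtain ⟨b, rfl⟩ : ∃ b, a = b + 1 := ⟨a - 1, by omega⟩
        have h2 : ((2 * (b + 1) + 1) * q + k) * q + j - q * (k + 1 + q + x) =
            (b * (2 * q) + (2 * q - 1 - x)) * q + j := by
          have : ((2 * (b + 1) + 1) * q + k) * q + j =
              (b * (2 * q) + (2 * q - 1 - x)) * q + j + q * (k + 1 + q + x) := by
            obtain ⟨y, hy⟩ : ∃ y, 2 * q - 1 - x = y := ⟨_, rfl⟩
            have hy2 : 2 * q = y + 1 + x := by omega
            rw [hy]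
            have : ((2 * (b + 1) + 1) * q + k) * q + j =
                (b * (2 * q) + (2 * q) + q + k) * q + j := by ring
            rw [this]
            conv_lhs => rw [show b * (2 * q) + 2 * q + q + k = b * (2 * q) + (y + 1 + x) + q + k by
              rw [← hy2]]
            ring
          omega
        rw [h2, dig_eq X (by omega) (by omega) hj, if_neg (by omega)]
        simp
    · simp
  rw [h1, h3, zero_add, add_zero, ← Finset.sum_range_reflect]
  apply Finset.sum_congr rfl
  intro i hi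
  have hi' : i < q := Finset.mem_range.mp hi
  have h4 : k + 1 + (q - 1 - i) = q + k - i := by omega
  rw [h4]
  have h5 : ((2 * a + 1) * q + k) * q + j = (a * (2 * q) + i) * q + j + q * (q + k - i) := by
    obtain ⟨y, hy⟩ : ∃ y, q + k - i = y := ⟨_, rfl⟩
    have hy2 : q + k = y + i := by omega
    rw [hy]
    have : ((2 * a + 1) * q + k) * q + j = (a * (2 * q) + (q + k)) * q + j := by ring
    rw [this, hy2]; ring
  rw [if_pos (by omega), h5, Nat.add_sub_cancel, dig_eq X ha (by omega) hj, if_pos hi']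

theorem slot_value {A q e M : ℕ} {x : ℕ → ℕ → ℕ → List Bool} (hq : 0 < q) (he : 0 < e)
    (hx : ∀ a < A, ∀ i < q, ∀ j < q, (x a i j).length = 2 * (q * e))
    (hM : A * (2 * q * q * (8 * (q * e))) ≤ 2 * M) {a k j : ℕ} (ha : a < A) (hk : k < q)
    (hj : j < q) :
    (slotOf q e (mulLsb M (dataG A q e x) (kern q e)) a k j).length = 4 * (2 * (q * e)) ∧
    ofLsb (slotOf q e (mulLsb M (dataG A q e x) (kern q e)) a k j) <
      2 ^ (2 * (2 * (q * e))) * (2 * q) ∧
    ofLsb (slotOf q e (mulLsb M (dataG A q e x) (kern q e)) a k j) =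
      ∑ i ∈ Finset.range q, gker q e (q + k - i) * ofLsb (x a i j) := by
  set W := 8 * (q * e) with hW
  have hqe : 0 < q * e := Nat.mul_pos hq he
  set pos := ((2 * a + 1) * q + k) * q + j with hpos
  have hposlt : pos + 1 ≤ A * (2 * q * q) := by
    have h1 : (2 * a + 1) * q + k + 1 ≤ A * (2 * q) := by
      have h2 : (a + 1) * (2 * q) ≤ A * (2 * q) := Nat.mul_le_mul_right _ ha
      have h3 : (a + 1) * (2 * q) = (2 * a + 1) * q + q := by ring
      omega
    have h4 : ((2 * a + 1) * q + k + 1) * q ≤ A * (2 * q) * q := Nat.mul_le_mul_right _ h1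
    have h5 : ((2 * a + 1) * q + k + 1) * q = ((2 * a + 1) * q + k) * q + q := by ring
    have h6 : A * (2 * q) * q = A * (2 * q * q) := by ring
    omega
  have hposW : pos * W + W ≤ 2 * M := by
    have h1 : (pos + 1) * W ≤ A * (2 * q * q) * W := Nat.mul_le_mul_right _ hposlt
    have h2 : A * (2 * q * q) * W = A * (2 * q * q * W) := by ring
    have h3 : (pos + 1) * W = pos * W + W := by ring
    omega
  set D := dataG A q e x with hD
  set K := kern q e with hK
  have hlen : (slotOf q e (mulLsb M D K) a k j).length = W := by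
    simp only [slotOf, mulLsb, List.length_take, List.length_drop, lsb_length]
    rw [← hpos, ← hW]; omega
  have hB : 0 < 2 ^ W := by positivity
  have hval : ofLsb (slotOf q e (mulLsb M D K) a k j) =
      ofLsb D * ofLsb K / (2 ^ W) ^ pos % 2 ^ W := by
    simp only [slotOf, mulLsb, ofLsb_take, ofLsb_drop, ofLsb_lsb]
    rw [← hpos, ← hW]
    obtain ⟨s, hs⟩ : ∃ s, 2 * M = pos * W + (W + s) := ⟨2 * M - (pos * W + W), by omega⟩
    rw [hs, pow_add, Nat.mod_mul_right_div_self, pow_add, Nat.mod_mul_right_mod, ← pow_mul,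
      mul_comm W pos]
  have hprod : ofLsb D * ofLsb K = ∑ r ∈ Finset.range (A * (2 * q * q) + q * (2 * q)),
      (∑ d ∈ Finset.range (2 * q), gker q e d * (if q * d ≤ r then
        dig A q (fun a i j => ofLsb (x a i j)) (r - q * d) else 0)) * (2 ^ W) ^ r := by
    rw [hD, hK, ofLsb_dataG hx, ofLsb_kern hq he]
    exact conv_sum _ q _ _ _ _ fun p hp => dig_ge _ hp
  have hC : 0 < 2 ^ (2 * (q * e)) := by positivity
  have hXlt : ∀ a < A, ∀ i < q, ∀ j < q, ofLsb (x a i j) < 2 ^ (2 * (q * e)) := by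
    intro a ha i hi j hj
    have := ofLsb_lt (x a i j)
    rwa [hx a ha i hi j hj] at this
  have hclt := conv_lt hq _ hC (dig A q fun a i j => ofLsb (x a i j)) (gker q e)
    (dig_lt hq _ hC hXlt) (gker_lt hq he)
  have hCC : 2 ^ (2 * (q * e)) * 2 ^ (2 * (q * e)) = 2 ^ (2 * (2 * (q * e))) := by
    rw [← pow_add]; ring_nf
  have h2q : 2 * q < 2 ^ (2 * (q * e)) := by
    have h1 : 2 * q < 2 ^ (2 * q) := Nat.lt_two_pow_self
    refine h1.trans_le (Nat.pow_le_pow_right (by norm_num) ?_)
    have : q ≤ q * e := Nat.le_mul_of_pos_right _ he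
    omega
  have hcB : ∀ r, ∑ d ∈ Finset.range (2 * q), gker q e d * (if q * d ≤ r then
        dig A q (fun a i j => ofLsb (x a i j)) (r - q * d) else 0) < 2 ^ W := by
    intro r
    refine (hclt r).trans_le ?_
    calc 2 ^ (2 * (q * e)) * 2 ^ (2 * (q * e)) * (2 * q)
        ≤ 2 ^ (2 * (q * e)) * 2 ^ (2 * (q * e)) * 2 ^ (2 * (q * e)) :=
          Nat.mul_le_mul_left _ h2q.le
      _ = 2 ^ (6 * (q * e)) := by rw [← pow_add, ← pow_add]; ring_nf
      _ ≤ 2 ^ W := Nat.pow_le_pow_right (by norm_num) (by omega)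
  have hdig := digit_eq hB _ hcB (n := A * (2 * q * q) + q * (2 * q)) (p := pos) (by omega)
  rw [← hprod] at hdig
  refine ⟨?_, ?_, ?_⟩
  · rw [hlen, hW]; ring
  · rw [hval, hdig, ← hCC]; exact hclt pos
  · rw [hval, hdig, hpos]
    exact conv_digit hq _ _ ha hk hj

/-! ### Arithmetic modulo `2^m - 1` -/

section ring
variable {m : ℕ}

/-- Value modulo `2^m - 1`. -/
def vz (m : ℕ) (x : List Bool) : ZMod (2 ^ m - 1) := (ofLsb x : ZMod (2 ^ m - 1))

theorem two_pow_m (m : ℕ) : (2 : ZMod (2 ^ m - 1)) ^ m = 1 := by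
  have h : ((2 ^ m : ℕ) : ZMod (2 ^ m - 1)) = ((1 : ℕ) : ZMod (2 ^ m - 1)) := by
    rw [ZMod.natCast_eq_natCast_iff]
    exact ((Nat.modEq_iff_dvd' (Nat.one_le_two_pow)).mpr (by simp)).symm
  simpa using h

/-- The unit `2`. -/
def tu (m : ℕ) (hm : 0 < m) : (ZMod (2 ^ m - 1))ˣ where
  val := 2
  inv := 2 ^ (m - 1)
  val_inv := by rw [← pow_succ', Nat.sub_add_cancel hm, two_pow_m]
  inv_val := by rw [← pow_succ, Nat.sub_add_cancel hm, two_pow_m]

/-- `Z n = 2^n` for integer `n`. -/
def Zp (m : ℕ) (hm : 0 < m) (n : ℤ) : ZMod (2 ^ m - 1) := ((tu m hm ^ n : (ZMod (2 ^ m - 1))ˣ) : _)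

theorem Zp_add (hm : 0 < m) (a b : ℤ) : Zp m hm (a + b) = Zp m hm a * Zp m hm b := by
  simp [Zp, zpow_add]

theorem Zp_zero (hm : 0 < m) : Zp m hm 0 = 1 := by simp [Zp]

theorem Zp_nat (hm : 0 < m) (n : ℕ) : Zp m hm n = 2 ^ n := by simp [Zp, tu]

theorem tu_pow (hm : 0 < m) : tu m hm ^ m = 1 := by
  ext; simp [tu, two_pow_m]

theorem Zp_mul_m (hm : 0 < m) (c : ℤ) : Zp m hm (m * c) = 1 := by
  simp only [Zp]
  rw [zpow_mul, zpow_natCast, tu_pow, one_zpow]; rfl

theorem Zp_congr (hm : 0 < m) {a b : ℤ} (c : ℤ) (h : a = b + m * c) : Zp m hm a = Zp m hm b := by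
  rw [h, Zp_add, Zp_mul_m, mul_one]

theorem Zp_comb (hm : 0 < m) {a b c d f g k : ℤ} (r : ℤ) (y : ZMod (2 ^ m - 1))
    (h : a + b + c + d + f = g + k + m * r) :
    Zp m hm a * (Zp m hm b * (Zp m hm c * (Zp m hm d * (Zp m hm f * y)))) =
      Zp m hm g * (Zp m hm k * y) := by
  have e : Zp m hm (a + b + c + d + f) = Zp m hm (g + k) := Zp_congr hm r h
  simp only [Zp_add] at e
  linear_combination y * e

theorem Zp_pow (hm : 0 < m) (a : ℤ) (n : ℕ) : Zp m hm a ^ n = Zp m hm (a * n) := by
  simp only [Zp]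
  rw [zpow_mul, zpow_natCast]; simp

theorem vz_rotate (hm : 0 < m) {x : List Bool} (hx : x.length = m) (k : ℕ) :
    vz m (x.rotate k) = Zp m hm (-k) * vz m x := by
  have h1 : (2 : ZMod (2 ^ m - 1)) ^ (k % m) * vz m (x.rotate (k % m)) = vz m x := by
    have := ofLsb_rotate x (k % m) (by rw [hx]; exact (Nat.mod_lt _ hm).le)
    rw [hx, ← ZMod.natCast_eq_natCast_iff] at this
    simpa [vz] using this
  have h2 : x.rotate (k % m) = x.rotate k := by rw [← hx, List.rotate_mod]
  rw [h2, ← Zp_nat hm] at h1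
  have h3 : Zp m hm ((k % m : ℕ) : ℤ) = Zp m hm k := by
    refine (Zp_congr hm (k / m : ℕ) ?_).symm
    have := Nat.mod_add_div k m
    exact_mod_cast this.symm
  rw [h3] at h1
  rw [← h1, ← mul_assoc, ← Zp_add, neg_add_cancel, Zp_zero, one_mul]

theorem rr_length (k : ℕ) (x : List Bool) : (rr k x).length = x.length := by simp [rr]

theorem vz_rr (hm : 0 < m) {x : List Bool} (hx : x.length = m) (k : ℕ) :
    vz m (rr k x) = Zp m hm k * vz m x := by
  rw [rr, vz_rotate hm hx, hx]
  congr 1
  have h1 : k % m ≤ m := (Nat.mod_lt _ hm).le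
  refine Zp_congr hm (-1 - (k / m : ℕ)) ?_
  have h2 : ((k % m : ℕ) : ℤ) + m * (k / m : ℕ) = k := by exact_mod_cast Nat.mod_add_div k m
  push_cast [Nat.cast_sub h1]
  push_cast at h2
  linear_combination h2

theorem vz_onehot (m : ℕ) : vz m (onehot m) = 1 := by
  simp [vz, onehot]

theorem onehot_length (hm : 0 < m) : (onehot m).length = m := by
  simp only [onehot, List.length_cons, zeros_length]; omega

theorem ofLsb_not (x : List Bool) : ofLsb (x.map fun b => !b) + ofLsb x + 1 = 2 ^ x.length := by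
  induction x with
  | nil => rfl
  | cons b x ih =>
    simp only [List.map_cons, ofLsb_cons, List.length_cons, pow_succ]
    cases b <;> simp <;> omega

theorem enc_length (x : List Bool) : (enc x).length = 2 * x.length := by
  simp [enc]; ring

theorem ofLsb_enc (x : List Bool) : ofLsb (enc x) = (ofLsb x + 1) * (2 ^ x.length - 1) := by
  rw [enc, ofLsb_append, List.length_map]
  have h := ofLsb_not x
  have h1 : 1 ≤ 2 ^ x.length := Nat.one_le_two_pow
  obtain ⟨y, hy⟩ : ∃ y, 2 ^ x.length = y + 1 := ⟨2 ^ x.length - 1, by omega⟩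
  rw [hy] at h ⊢
  rw [Nat.add_sub_cancel]
  have : ofLsb (List.map (fun b => !b) x) = y - ofLsb x := by omega
  have h2 : ofLsb x ≤ y := by omega
  rw [this]
  zify [h2]
  ring

/-- An encoded entry is determined by its value modulo `2^(2E) - 1`. -/
theorem eq_enc {x y : List Bool} (hx : 0 < x.length) (hy : y.length = 2 * x.length)
    (h : ofLsb y ≡ ofLsb (enc x) [MOD 2 ^ (2 * x.length) - 1]) : y = enc x := by
  apply ofLsb_inj (by rw [hy, enc_length])
  have h1 := ofLsb_lt y
  rw [hy] at h1
  have h2 := ofLsb_lt x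
  have hE : 2 ≤ 2 ^ x.length := by
    calc 2 = 2 ^ 1 := rfl
      _ ≤ 2 ^ x.length := Nat.pow_le_pow_right (by norm_num) hx
  have h3 : 0 < ofLsb (enc x) := by
    rw [ofLsb_enc]
    exact Nat.mul_pos (by omega) (by omega)
  have h4 : ofLsb (enc x) < 2 ^ (2 * x.length) - 1 := by
    rw [ofLsb_enc]
    have e1 : 2 ^ (2 * x.length) = 2 ^ x.length * 2 ^ x.length := by rw [← pow_add]; ring_nf
    rw [e1]
    have e2 : (ofLsb x + 1) * (2 ^ x.length - 1) ≤ 2 ^ x.length * (2 ^ x.length - 1) :=
      Nat.mul_le_mul_right _ (by omega)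
    have e3 : 2 ^ x.length * (2 ^ x.length - 1) = 2 ^ x.length * 2 ^ x.length - 2 ^ x.length := by
      rw [Nat.mul_sub, mul_one]
    have e4 : 2 ^ x.length ≤ 2 ^ x.length * 2 ^ x.length := Nat.le_mul_of_pos_left _ (by omega)
    omega
  set N := 2 ^ (2 * x.length) - 1 with hN
  have h5 : ofLsb y ≤ N := by omega
  rcases h5.lt_or_eq with h6 | h6
  · rw [Nat.ModEq, Nat.mod_eq_of_lt h6, Nat.mod_eq_of_lt h4] at h
    exact h
  · exfalso
    rw [Nat.ModEq, h6, Nat.mod_self, Nat.mod_eq_of_lt h4] at h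
    omega

/-- The geometric sum of a power of two many terms is divisible by `1 + θ^(2^r)`. -/
theorem geom_dvd {R : Type*} [CommRing R] (θ : R) {r h : ℕ} (hr : r < h) :
    (1 + θ ^ 2 ^ r) ∣ ∑ k ∈ Finset.range (2 ^ h), θ ^ k := by
  induction h with
  | zero => omega
  | succ h ih =>
    have e : ∑ k ∈ Finset.range (2 ^ (h + 1)), θ ^ k =
        (1 + θ ^ 2 ^ h) * ∑ k ∈ Finset.range (2 ^ h), θ ^ k := by
      rw [pow_succ, mul_two, Finset.sum_range_add, add_mul, one_mul, Finset.mul_sum]
      congr 1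
      exact Finset.sum_congr rfl fun k _ => by rw [pow_add]
    rw [e]
    rcases Nat.lt_succ_iff_lt_or_eq.mp hr with h1 | h1
    · exact (ih h1).mul_left _
    · rw [h1]; exact dvd_mul_right _ _

end ring

/-! ### The main theorem -/

theorem fm_rotate {β : Type} {q c l : ℕ} {f : ℕ → List β} (hf : ∀ i < q, (f i).length = c)
    (hl : l < q) : (fm q f).rotate (l * c) = fm q fun i => f ((i + l) % q) := by
  have h1 : fm q f = fm l f ++ fm (q - l) fun j => f (l + j) := by
    conv_lhs => rw [show q = l + (q - l) by omega]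
    rw [fm_add]
  have h2 : fm q (fun i => f ((i + l) % q)) =
      fm (q - l) (fun i => f ((i + l) % q)) ++ fm l fun j => f ((q - l + j + l) % q) := by
    conv_lhs => rw [show fm q (fun i => f ((i + l) % q)) =
      fm (q - l + l) (fun i => f ((i + l) % q)) by rw [Nat.sub_add_cancel hl.le]]
    rw [fm_add]
  rw [h1, h2, ← fm_length (n := l) (c := c) (f := f) (fun i hi => hf i (by omega)),
    List.rotate_append_length_eq]
  congr 1
  · refine fm_congr fun i hi => ?_
    rw [Nat.mod_eq_of_lt (by omega), add_comm]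
  · refine fm_congr fun i hi => ?_
    have : q - l + i + l = q + i := by omega
    rw [this, Nat.add_mod_left, Nat.mod_eq_of_lt (by omega)]

theorem vz_slot {A q e M : ℕ} {x : ℕ → ℕ → ℕ → List Bool} (hq : 0 < q) (he : 0 < e)
    (hm : 0 < 2 * (q * e))
    (hx : ∀ a < A, ∀ i < q, ∀ j < q, (x a i j).length = 2 * (q * e))
    (hM : A * (2 * q * q * (8 * (q * e))) ≤ 2 * M) {a k j : ℕ} (ha : a < A) (hk : k < q)
    (hj : j < q) :
    (fold4 (2 * (q * e)) (slotOf q e (mulLsb M (dataG A q e x) (kern q e)) a k j)).length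
      = 2 * (q * e) ∧
    vz (2 * (q * e)) (fold4 (2 * (q * e))
      (slotOf q e (mulLsb M (dataG A q e x) (kern q e)) a k j)) =
      ∑ i ∈ Finset.range q, Zp (2 * (q * e)) hm (-(e * (q + k - i) ^ 2)) *
        vz (2 * (q * e)) (x a i j) := by
  obtain ⟨h1, h2, h3⟩ := slot_value hq he hx hM ha hk hj
  refine ⟨fold4_length h1, ?_⟩
  have h2q : 2 * q < 2 ^ (2 * (q * e)) := by
    have h1 : 2 * q < 2 ^ (2 * q) := Nat.lt_two_pow_self
    refine h1.trans_le (Nat.pow_le_pow_right (by norm_num) ?_)
    have : q ≤ q * e := Nat.le_mul_of_pos_right _ he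
    omega
  have h4 := fold4_value h1 h2q h2
  rw [h3, ← ZMod.natCast_eq_natCast_iff] at h4
  rw [vz, h4]
  push_cast
  apply Finset.sum_congr rfl
  intro i hi
  have hi' : i < q := Finset.mem_range.mp hi
  rw [← vz]
  congr 1
  have h5 := vz_rotate hm (onehot_length hm) (e * (q + k - i) ^ 2)
  rw [vz_onehot, mul_one] at h5
  have h6 : (gker q e (q + k - i) : ZMod (2 ^ (2 * (q * e)) - 1)) =
      vz (2 * (q * e)) ((onehot (2 * (q * e))).rotate (e * (q + k - i) ^ 2)) := rfl
  rw [h6, h5]
  congr 2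
  push_cast [Nat.cast_sub (show i ≤ q + k by omega)]
  ring

/-- Geometric sums annihilate encoded entries. -/
theorem geom_zero {h e : ℕ} (hm : 0 < 2 * (2 ^ h * e)) {x : List Bool}
    (hx : x.length = 2 ^ h * e) {s : ℕ} (hs : ¬ 2 ^ h ∣ s) :
    (∑ k ∈ Finset.range (2 ^ h), Zp (2 * (2 ^ h * e)) hm (2 * e * s) ^ k) *
      vz (2 * (2 ^ h * e)) (enc x) = 0 := by
  have hs0 : s ≠ 0 := by rintro rfl; exact hs (dvd_zero _)
  obtain ⟨a, b, hb, rfl⟩ := Nat.exists_eq_two_pow_mul_odd hs0
  have hah : a < h := by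
    by_contra hcon
    exact hs ((pow_dvd_pow 2 (not_lt.mp hcon)).mul_right b)
  obtain ⟨c, hc⟩ := hb
  obtain ⟨d, hd⟩ := geom_dvd (Zp (2 * (2 ^ h * e)) hm (2 * e * ((2 ^ a * b : ℕ) : ℤ)))
    (show h - 1 - a < h by omega)
  rw [hd, Zp_pow]
  have e1 : Zp (2 * (2 ^ h * e)) hm (2 * e * ((2 ^ a * b : ℕ) : ℤ) * ((2 ^ (h - 1 - a) : ℕ) : ℤ)) =
      Zp (2 * (2 ^ h * e)) hm ((2 ^ h * e : ℕ) : ℤ) := by
    refine Zp_congr hm c ?_
    have e2 : (2 : ℤ) ^ h = 2 * (2 ^ a * 2 ^ (h - 1 - a)) := by
      rw [← pow_add, ← pow_succ']; congr 1; omega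
    rw [hc]
    push_cast
    rw [e2]; ring
  rw [e1, Zp_nat, vz, ofLsb_enc, hx]
  have h1 : 1 ≤ 2 ^ (2 ^ h * e) := Nat.one_le_two_pow
  push_cast [Nat.cast_sub h1]
  have e3 : (2 : ZMod (2 ^ (2 * (2 ^ h * e)) - 1)) ^ (2 ^ h * e) * 2 ^ (2 ^ h * e) = 1 := by
    rw [← pow_add, ← two_mul, two_pow_m]
  linear_combination d * ((ofLsb x : ZMod (2 ^ (2 * (2 ^ h * e)) - 1)) + 1) * e3

/-- The contents of the slots of the second product, after the last rotation. -/
theorem final_slot {A h e M : ℕ} (he : 0 < e) {ent : ℕ → ℕ → ℕ → List Bool}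
    (hent : ∀ a < A, ∀ i < 2 ^ h, ∀ j < 2 ^ h, (ent a i j).length = 2 ^ h * e)
    (hM : A * (2 * 2 ^ h * 2 ^ h * (8 * (2 ^ h * e))) ≤ 2 * M) {a l j : ℕ} (ha : a < A)
    (hl : l < 2 ^ h) (hj : j < 2 ^ h) :
    rr ((2 * (2 ^ h * e) - h) + e * l ^ 2) (fold4 (2 * (2 ^ h * e)) (slotOf (2 ^ h) e
      (mulLsb M (data2 A (2 ^ h) e (mulLsb M (data1 A (2 ^ h) e ent) (kern (2 ^ h) e)))
        (kern (2 ^ h) e)) a l j)) = enc (ent a ((j + (2 ^ h - l)) % 2 ^ h) l) := by
  obtain ⟨q, hq⟩ : ∃ q, q = 2 ^ h := ⟨_, rfl⟩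
  have hq0 : 0 < q := by rw [hq]; positivity
  have hqe : 0 < q * e := Nat.mul_pos hq0 he
  have hm : 0 < 2 * (q * e) := by omega
  have hhq : h < q := by rw [hq]; exact Nat.lt_two_pow_self
  have hhm : h ≤ 2 * (q * e) := by
    have : q ≤ q * e := Nat.le_mul_of_pos_right _ he
    omega
  rw [← hq] at hent hM hl hj ⊢
  have hx1 : ∀ a < A, ∀ i < q, ∀ j < q,
      (rr (e * i ^ 2) (enc (ent a i ((j + (q - i)) % q)))).length = 2 * (q * e) := by
    intro a ha i hi j hj
    rw [rr_length, enc_length, hent a ha i hi _ (Nat.mod_lt _ hq0)]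
  rw [data2_eq, data1_eq]
  set P1 := mulLsb M (dataG A q e fun a i j =>
    rr (e * i ^ 2) (enc (ent a i ((j + (q - i)) % q)))) (kern q e) with hP1
  have hs1 : ∀ a < A, ∀ k < q, ∀ j < q, (fold4 (2 * (q * e)) (slotOf q e P1 a k j)).length
      = 2 * (q * e) ∧ _ := fun a ha k hk j hj => vz_slot hq0 he hm hx1 hM ha hk hj
  have hx2 : ∀ a < A, ∀ k < q, ∀ j < q, (rr (2 * e * k ^ 2 + 2 * e * (q - k) * j)
      (fold4 (2 * (q * e)) (slotOf q e P1 a k j))).length = 2 * (q * e) := by
    intro a ha k hk j hj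
    rw [rr_length, (hs1 a ha k hk j hj).1]
  obtain ⟨hlen, hval⟩ := vz_slot hq0 he hm hx2 hM ha hl hj
  set V := fold4 (2 * (q * e)) (slotOf q e (mulLsb M (dataG A q e fun a k j =>
    rr (2 * e * k ^ 2 + 2 * e * (q - k) * j) (fold4 (2 * (q * e)) (slotOf q e P1 a k j)))
    (kern q e)) a l j) with hV
  set i0 := (j + (q - l)) % q with hi0
  have hi0q : i0 < q := Nat.mod_lt _ hq0
  have hjl : (j + (q - i0)) % q = l := by
    rcases le_or_gt l j with h1 | h1
    · have e1 : i0 = j - l := by
        rw [hi0]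
        have : j + (q - l) = q + (j - l) := by omega
        rw [this, Nat.add_mod_left, Nat.mod_eq_of_lt (by omega)]
      rw [e1]
      have : j + (q - (j - l)) = q + l := by omega
      rw [this, Nat.add_mod_left, Nat.mod_eq_of_lt hl]
    · have e1 : i0 = j + (q - l) := by
        rw [hi0]; exact Nat.mod_eq_of_lt (by omega)
      rw [e1]
      have : j + (q - (j + (q - l))) = l := by omega
      rw [this, Nat.mod_eq_of_lt hl]
  have hentl : (ent a i0 l).length = q * e := hent a ha i0 hi0q l hl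
  refine eq_enc (by rw [hentl]; exact hqe) (by rw [rr_length, hlen, hentl]) ?_
  rw [hentl, ← ZMod.natCast_eq_natCast_iff]
  rw [← vz, ← vz, vz_rr hm hlen, hval]
  -- the double sum
  have hstep : ∀ k ∈ Finset.range q, Zp (2 * (q * e)) hm (-(e * (q + l - k) ^ 2)) *
      vz (2 * (q * e)) (rr (2 * e * k ^ 2 + 2 * e * (q - k) * j)
        (fold4 (2 * (q * e)) (slotOf q e P1 a k j))) =
      ∑ i ∈ Finset.range q, Zp (2 * (q * e)) hm (-(e * (q + l - k) ^ 2)) *
        (Zp (2 * (q * e)) hm ((2 * e * k ^ 2 + 2 * e * (q - k) * j : ℕ) : ℤ) *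
        (Zp (2 * (q * e)) hm (-(e * (q + k - i) ^ 2)) *
        (Zp (2 * (q * e)) hm ((e * i ^ 2 : ℕ) : ℤ) *
          vz (2 * (q * e)) (enc (ent a i ((j + (q - i)) % q)))))) := by
    intro k hk
    have hk' : k < q := Finset.mem_range.mp hk
    rw [vz_rr hm (hs1 a ha k hk' j hj).1, (hs1 a ha k hk' j hj).2, ← Finset.mul_sum,
      ← Finset.mul_sum]
    congr 2
    apply Finset.sum_congr rfl
    intro i hi
    have hi' : i < q := Finset.mem_range.mp hi
    rw [vz_rr hm]
    rw [enc_length, hent a ha i hi' _ (Nat.mod_lt _ hq0)]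
  rw [Finset.sum_congr rfl hstep, Finset.sum_comm, Finset.mul_sum]
  have hcol : ∀ i ∈ Finset.range q,
      Zp (2 * (q * e)) hm ((2 * (q * e) - h + e * l ^ 2 : ℕ) : ℤ) *
      ∑ k ∈ Finset.range q, Zp (2 * (q * e)) hm (-(e * (q + l - k) ^ 2)) *
        (Zp (2 * (q * e)) hm ((2 * e * k ^ 2 + 2 * e * (q - k) * j : ℕ) : ℤ) *
        (Zp (2 * (q * e)) hm (-(e * (q + k - i) ^ 2)) *
        (Zp (2 * (q * e)) hm ((e * i ^ 2 : ℕ) : ℤ) *
          vz (2 * (q * e)) (enc (ent a i ((j + (q - i)) % q)))))) =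
      Zp (2 * (q * e)) hm (-h) * ((∑ k ∈ Finset.range q,
        Zp (2 * (q * e)) hm (2 * e * ((l + i + (q - j) : ℕ) : ℤ)) ^ k) *
          vz (2 * (q * e)) (enc (ent a i ((j + (q - i)) % q)))) := by
    intro i hi
    have hi' : i < q := Finset.mem_range.mp hi
    rw [Finset.sum_mul, Finset.mul_sum, Finset.mul_sum]
    apply Finset.sum_congr rfl
    intro k hk
    have hk' : k < q := Finset.mem_range.mp hk
    rw [Zp_pow]
    refine Zp_comb hm (1 - q - l + j + i - k) _ ?_
    push_cast [Nat.cast_sub hhm, Nat.cast_sub hk'.le, Nat.cast_sub hj.le]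
    ring
  rw [Finset.sum_congr rfl hcol, Finset.sum_eq_single i0]
  · -- the surviving term
    rw [hjl]
    have hθ : Zp (2 * (q * e)) hm (2 * e * ((l + i0 + (q - j) : ℕ) : ℤ)) = 1 := by
      rw [← Zp_zero hm]
      have hdvd : q ∣ l + i0 + (q - j) := by
        rcases le_or_gt l j with h1 | h1
        · have e1 : i0 = j - l := by
            rw [hi0]
            have : j + (q - l) = q + (j - l) := by omega
            rw [this, Nat.add_mod_left, Nat.mod_eq_of_lt (by omega)]
          rw [e1]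
          exact ⟨1, by omega⟩
        · have e1 : i0 = j + (q - l) := by
            rw [hi0]; exact Nat.mod_eq_of_lt (by omega)
          rw [e1]
          exact ⟨2, by omega⟩
      obtain ⟨c, hc⟩ := hdvd
      refine Zp_congr hm c ?_
      rw [hc]; push_cast; ring
    rw [hθ]
    simp only [one_pow, Finset.sum_const, Finset.card_range, nsmul_eq_mul, mul_one]
    have h2 : ((q : ℕ) : ZMod (2 ^ (2 * (q * e)) - 1)) = Zp (2 * (q * e)) hm h := by
      rw [Zp_nat, hq]; push_cast; rfl
    have h3 : Zp (2 * (q * e)) hm (-h) * Zp (2 * (q * e)) hm h = 1 := by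
      rw [← Zp_add, neg_add_cancel, Zp_zero]
    rw [h2]
    linear_combination vz (2 * (q * e)) (enc (ent a i0 l)) * h3
  · intro i hi hne
    have hi' : i < q := Finset.mem_range.mp hi
    have hnd : ¬ q ∣ l + i + (q - j) := by
      rintro ⟨c, hc⟩
      apply hne
      have hc3 : c < 3 := by
        by_contra h3
        have : q * 3 ≤ q * c := Nat.mul_le_mul_left _ (by omega)
        omega
      have hc0 : 0 < c := by
        rcases Nat.eq_zero_or_pos c with rfl | h0
        · omega
        · exact h0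
      rcases le_or_gt l j with h1 | h1
      · have e1 : i0 = j - l := by
          rw [hi0]
          have : j + (q - l) = q + (j - l) := by omega
          rw [this, Nat.add_mod_left, Nat.mod_eq_of_lt (by omega)]
        have : c = 1 ∨ c = 2 := by omega
        rcases this with rfl | rfl <;> omega
      · have e1 : i0 = j + (q - l) := by
          rw [hi0]; exact Nat.mod_eq_of_lt (by omega)
        have : c = 1 ∨ c = 2 := by omega
        rcases this with rfl | rfl <;> omega
    have hentx := hent a ha i hi' ((j + (q - i)) % q) (Nat.mod_lt _ hq0)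
    subst hq
    rw [geom_zero hm hentx hnd, mul_zero]
  · intro h1
    exact absurd (Finset.mem_range.mpr hi0q) h1

/-- **Correctness of the fast block transposition.** -/
theorem swap_spec {A h e M : ℕ} (he : 0 < e) {ent : ℕ → ℕ → ℕ → List Bool}
    (hent : ∀ a < A, ∀ i < 2 ^ h, ∀ j < 2 ^ h, (ent a i j).length = 2 ^ h * e)
    (hM : A * (2 * 2 ^ h * 2 ^ h * (8 * (2 ^ h * e))) ≤ 2 * M) :
    data3 A (2 ^ h) e h
      (mulLsb M (data2 A (2 ^ h) e (mulLsb M (data1 A (2 ^ h) e ent) (kern (2 ^ h) e)))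
        (kern (2 ^ h) e)) =
      fm A fun a => fm (2 ^ h) fun l => fm (2 ^ h) fun i => ent a i l := by
  have hq0 : 0 < 2 ^ h := by positivity
  refine fm_congr fun a ha => fm_congr fun l hl => ?_
  have h1 : (fm (2 ^ h) fun j => (rr ((2 * (2 ^ h * e) - h) + e * l ^ 2)
      (fold4 (2 * (2 ^ h * e)) (slotOf (2 ^ h) e
      (mulLsb M (data2 A (2 ^ h) e (mulLsb M (data1 A (2 ^ h) e ent) (kern (2 ^ h) e)))
        (kern (2 ^ h) e)) a l j))).drop (2 ^ h * e)) =
      fm (2 ^ h) fun j => ent a ((j + (2 ^ h - l)) % 2 ^ h) l := by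
    refine fm_congr fun j hj => ?_
    rw [final_slot he hent hM ha hl hj, enc]
    have := hent a ha ((j + (2 ^ h - l)) % 2 ^ h) (Nat.mod_lt _ hq0) l hl
    rw [List.drop_append_of_le_length (by rw [List.length_map, this]),
      List.drop_of_length_le (by rw [List.length_map, this]), List.nil_append]
  rw [h1, fm_rotate (fun j _ => hent a ha _ (Nat.mod_lt _ hq0) l hl) hl]
  refine fm_congr fun i hi => ?_
  congr 1
  rcases Nat.lt_or_ge (i + l) (2 ^ h) with h2 | h2
  · rw [Nat.mod_eq_of_lt h2]
    have : i + l + (2 ^ h - l) = 2 ^ h + i := by omega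
    rw [this, Nat.add_mod_left, Nat.mod_eq_of_lt hi]
  · have h3 : (i + l) % 2 ^ h = i + l - 2 ^ h := by
      rw [Nat.mod_eq_sub_mod h2, Nat.mod_eq_of_lt (by omega)]
    rw [h3]
    have : i + l - 2 ^ h + (2 ^ h - l) = i := by omega
    rw [this, Nat.mod_eq_of_lt hi]

/-! ### Lengths -/

end Vale.Agent.P338.SC
end
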