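import Vale.Agent.P338.Bdl.B1
import Vale.Agent.P338.Bdl.B5
import Vale.Agent.P338.Bdl.B4
import Vale.Agent.P338.Bdl.B2

set_option linter.all false

section

/-! Arithmetic on short strings. -/

namespace Vale.Agent.P338.P2

open Vale.Agent.P338 Reg R SC

/-! ### Pure part: ripple computations -/

/-- Carry after `i` steps. -/
def car (g : ℕ → Bool → Bool × Bool) (c : Bool) : ℕ → Bool
  | 0 => c
  | i + 1 => (g i (car g c i)).2

/-- Output of the first `i` steps. -/
def outs (g : ℕ → Bool → Bool × Bool) (c : Bool) (i : ℕ) : List Bool :=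
  (List.range i).map fun j => (g j (car g c j)).1

@[simp] theorem car_zero (g : ℕ → Bool → Bool × Bool) (c : Bool) : car g c 0 = c := rfl

theorem car_succ (g : ℕ → Bool → Bool × Bool) (c : Bool) (i : ℕ) :
    car g c (i + 1) = (g i (car g c i)).2 := rfl

@[simp] theorem outs_zero (g : ℕ → Bool → Bool × Bool) (c : Bool) : outs g c 0 = [] := rfl

theorem outs_succ (g : ℕ → Bool → Bool × Bool) (c : Bool) (i : ℕ) :
    outs g c (i + 1) = outs g c i ++ [(g i (car g c i)).1] := by
  simp [outs, List.range_succ]

@[simp] theorem outs_length (g : ℕ → Bool → Bool × Bool) (c : Bool) (i : ℕ) :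
    (outs g c i).length = i := by simp [outs]

/-- Bit number `i`. -/
def bt (x : List Bool) (i : ℕ) : Bool := x.getD i false

theorem bt_eq {x : List Bool} {i : ℕ} (h : i < x.length) : bt x i = x[i] := by
  simp [bt, h]

theorem ofLsb_take_succ {x : List Bool} {i : ℕ} (h : i < x.length) :
    ofLsb (x.take (i + 1)) = ofLsb (x.take i) + 2 ^ i * (bt x i).toNat := by
  rw [List.take_succ_eq_append_getElem h, ofLsb_append, bt_eq h]
  simp [Nat.min_eq_left h.le]

theorem ofLsb_outs_succ (g : ℕ → Bool → Bool × Bool) (c : Bool) (i : ℕ) :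
    ofLsb (outs g c (i + 1)) = ofLsb (outs g c i) + 2 ^ i * (g i (car g c i)).1.toNat := by
  rw [outs_succ, ofLsb_append]
  simp

/-- Increment. -/
def gInc (x : List Bool) (i : ℕ) (c : Bool) : Bool × Bool := (Bool.xor (bt x i) c, bt x i && c)

/-- Subtraction. -/
def gSub (x p : List Bool) (i : ℕ) (c : Bool) : Bool × Bool :=
  (Bool.xor (Bool.xor (bt x i) (bt p i)) c,
    (!(bt x i) && (bt p i || c)) || (bt p i && c))

/-- Equality. -/
def gEq (x y : List Bool) (i : ℕ) (c : Bool) : Bool × Bool := (false, c && (bt x i == bt y i))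

theorem gInc_value (x : List Bool) (c : Bool) {i : ℕ} (h : i ≤ x.length) :
    ofLsb (outs (gInc x) c i) + 2 ^ i * (car (gInc x) c i).toNat =
      ofLsb (x.take i) + c.toNat := by
  induction i with
  | zero => simp
  | succ i ih =>
    have ih := ih (by omega)
    rw [ofLsb_outs_succ, ofLsb_take_succ (by omega), car_succ, pow_succ]
    have key : (gInc x i (car (gInc x) c i)).1.toNat + 2 * (gInc x i (car (gInc x) c i)).2.toNat =
        (bt x i).toNat + (car (gInc x) c i).toNat := by
      simp only [gInc]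
      cases bt x i <;> cases car (gInc x) c i <;> rfl
    calc ofLsb (outs (gInc x) c i) + 2 ^ i * (gInc x i (car (gInc x) c i)).1.toNat +
          2 ^ i * 2 * (gInc x i (car (gInc x) c i)).2.toNat
        = ofLsb (outs (gInc x) c i) + 2 ^ i * ((gInc x i (car (gInc x) c i)).1.toNat +
          2 * (gInc x i (car (gInc x) c i)).2.toNat) := by ring
      _ = (ofLsb (outs (gInc x) c i) + 2 ^ i * (car (gInc x) c i).toNat) +
          2 ^ i * (bt x i).toNat := by rw [key]; ring
      _ = _ := by rw [ih]; ring

theorem gSub_value (x p : List Bool) (c : Bool) {i : ℕ} (h : i ≤ x.length) (h' : i ≤ p.length) :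
    ofLsb (outs (gSub x p) c i) + ofLsb (p.take i) + c.toNat =
      ofLsb (x.take i) + 2 ^ i * (car (gSub x p) c i).toNat := by
  induction i with
  | zero => simp
  | succ i ih =>
    have ih := ih (by omega) (by omega)
    rw [ofLsb_outs_succ, ofLsb_take_succ (by omega), ofLsb_take_succ (by omega), car_succ,
      pow_succ]
    have key : (gSub x p i (car (gSub x p) c i)).1.toNat + (bt p i).toNat +
        (car (gSub x p) c i).toNat =
        (bt x i).toNat + 2 * (gSub x p i (car (gSub x p) c i)).2.toNat := by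
      simp only [gSub]
      cases bt x i <;> cases bt p i <;> cases car (gSub x p) c i <;> rfl
    have key2 : 2 ^ i * ((gSub x p i (car (gSub x p) c i)).1.toNat + (bt p i).toNat +
        (car (gSub x p) c i).toNat) =
        2 ^ i * ((bt x i).toNat + 2 * (gSub x p i (car (gSub x p) c i)).2.toNat) := by rw [key]
    rw [mul_add, mul_add, mul_add] at key2
    have : 2 ^ i * 2 * (gSub x p i (car (gSub x p) c i)).2.toNat =
        2 ^ i * (2 * (gSub x p i (car (gSub x p) c i)).2.toNat) := by ring
    rw [this]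
    omega

theorem gEq_value (x y : List Bool) (c : Bool) {i : ℕ} (h : i ≤ x.length) (h' : i ≤ y.length) :
    car (gEq x y) c i = (c && decide (x.take i = y.take i)) := by
  induction i with
  | zero => simp
  | succ i ih =>
    rw [car_succ, List.take_succ_eq_append_getElem (by omega : i < x.length),
      List.take_succ_eq_append_getElem (by omega : i < y.length)]
    simp only [gEq, ih (by omega) (by omega)]
    rw [bt_eq (by omega : i < x.length), bt_eq (by omega : i < y.length)]
    have : (List.take i x ++ [x[i]] = List.take i y ++ [y[i]]) ↔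
        (List.take i x = List.take i y ∧ x[i] = y[i]) := by
      constructor
      · intro h
        have := List.append_inj' h rfl
        exact ⟨this.1, by simpa using this.2⟩
      · rintro ⟨h1, h2⟩; rw [h1, h2]
    rw [decide_eq_decide.mpr this]
    rw [Bool.decide_and]
    have h2 : (x[i] == y[i]) = decide (x[i] = y[i]) := by
      generalize x[i] = u
      generalize y[i] = v
      cases u <;> cases v <;> rfl
    rw [h2, Bool.and_assoc]

/-- The bits of `x + 1`. -/
theorem outs_inc (x : List Bool) : outs (gInc x) true x.length = lsb x.length (ofLsb x + 1) := by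
  apply ofLsb_inj (by simp)
  have := gInc_value x true le_rfl
  rw [List.take_length] at this
  have h1 := ofLsb_lt (outs (gInc x) true x.length)
  rw [outs_length] at h1
  rw [ofLsb_lsb]
  simp only [Bool.toNat_true] at this
  rw [← this, Nat.add_mul_mod_self_left, Nat.mod_eq_of_lt h1]

/-- The bits of `x - p`, when there is no borrow. -/
theorem outs_sub {x p : List Bool} (hl : p.length = x.length) (h : ofLsb p ≤ ofLsb x) :
    outs (gSub x p) false x.length = lsb x.length (ofLsb x - ofLsb p) ∧
      car (gSub x p) false x.length = false := by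
  have h0 := gSub_value x p false le_rfl hl.ge
  rw [List.take_length, ← hl, List.take_length, hl] at h0
  have h1 := ofLsb_lt (outs (gSub x p) false x.length)
  rw [outs_length] at h1
  have h2 : car (gSub x p) false x.length = false := by
    by_contra hc
    have : car (gSub x p) false x.length = true := by simpa using hc
    rw [this] at h0
    simp only [Bool.toNat_false, Bool.toNat_true] at h0
    omega
  refine ⟨ofLsb_inj (by simp) ?_, h2⟩
  rw [h2] at h0
  simp only [Bool.toNat_false, mul_zero, add_zero] at h0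
  have h3 := ofLsb_lt x
  rw [ofLsb_lsb, Nat.mod_eq_of_lt (by omega)]
  omega

/-- The borrow. -/
theorem car_sub_true {x p : List Bool} (hl : p.length = x.length) (h : ofLsb x < ofLsb p) :
    car (gSub x p) false x.length = true := by
  have h0 := gSub_value x p false le_rfl hl.ge
  rw [List.take_length, ← hl, List.take_length, hl] at h0
  by_contra hc
  have : car (gSub x p) false x.length = false := by simpa using hc
  rw [this] at h0
  simp only [Bool.toNat_false, mul_zero, add_zero] at h0
  omega

/-! ### Heads -/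

theorem isOne_bit {α : Type} (b : Bool) : isOne (some (.bit b) : Option (Sy α)) = b := by
  cases b <;> rfl

section
variable {ι α : Type} [DecidableEq ι]

theorem bs_drop_cons {x : List Bool} {i : ℕ} (h : i < x.length) :
    (bs (x.drop i) : List (Sy α)) = .bit (bt x i) :: bs (x.drop (i + 1)) := by
  rw [List.drop_eq_getElem_cons h, bs_cons, bt_eq h]

theorem bs_take_succ {x : List Bool} {i : ℕ} (h : i < x.length) :
    (bs (x.take (i + 1)) : List (Sy α)) = bs (x.take i) ++ [Sy.bit (bt x i)] := by
  rw [List.take_succ_eq_append_getElem h, bs_append, bt_eq h]; rfl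

theorem bs_outs_succ (g : ℕ → Bool → Bool × Bool) (c : Bool) (i : ℕ) :
    (bs (outs g c (i + 1)) : List (Sy α)) = bs (outs g c i) ++ [Sy.bit (g i (car g c i)).1] := by
  rw [outs_succ, bs_append]; rfl

theorem run_incStep {a cy : ι} (hac : a ≠ cy) {s : Store ι (Sy α)} {b c : Bool}
    {l l' : List (Sy α)} (ha : s a = Sy.bit b :: l) (hc : s cy = Sy.bit c :: l') :
    Runs (incStep a cy) s ((s.set a (l ++ [Sy.bit (Bool.xor b c)])).set cy (Sy.bit (b && c) :: l')) 1 := by
  refine Runs.act' _ fun i => ?_
  by_cases h1 : i = a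
  · subst h1
    simp [Act.app, Store.heads, ha, hc, hac, isOne_bit]
  · by_cases h2 : i = cy
    · subst h2
      simp [Act.app, Store.heads, ha, hc, h1, isOne_bit]
    · simp [Act.app, h1, h2]

theorem run_eqStep {a b cy : ι} (hab : a ≠ b) (hac : a ≠ cy) (hbc : b ≠ cy)
    {s : Store ι (Sy α)} {x y c : Bool}
    {l l' l'' : List (Sy α)} (ha : s a = Sy.bit x :: l) (hb : s b = Sy.bit y :: l')
    (hc : s cy = Sy.bit c :: l'') :
    Runs (eqStep a b cy) s (((s.set a (l ++ [Sy.bit x])).set b (l' ++ [Sy.bit y])).set cy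
      (Sy.bit (c && (x == y)) :: l'')) 1 := by
  refine Runs.act' _ fun i => ?_
  by_cases h1 : i = a
  · subst h1
    simp [Act.app, Store.heads, ha, hab, hac]
  · by_cases h2 : i = b
    · subst h2
      simp [Act.app, Store.heads, hb, h1, hbc]
    · by_cases h3 : i = cy
      · subst h3
        simp [Act.app, Store.heads, ha, hb, hc, h1, h2, isOne_bit]
      · simp [Act.app, h1, h2, h3]

theorem run_cmpStep {x p y cy : ι} (hxp : x ≠ p) (hxy : x ≠ y) (hxc : x ≠ cy) (hpy : p ≠ y)
    (hpc : p ≠ cy) (hyc : y ≠ cy) {s : Store ι (Sy α)} {a b c : Bool}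
    {l l' l'' : List (Sy α)} (hx : s x = Sy.bit a :: l) (hp : s p = Sy.bit b :: l')
    (hc : s cy = Sy.bit c :: l'') :
    Runs (cmpStep x p y cy) s ((((s.set x (l ++ [Sy.bit a])).set p (l' ++ [Sy.bit b])).set y
      (s y ++ [Sy.bit (Bool.xor (Bool.xor a b) c)])).set cy
      (Sy.bit ((!a && (b || c)) || (b && c)) :: l'')) 1 := by
  refine Runs.act' _ fun i => ?_
  by_cases h1 : i = x
  · subst h1
    simp [Act.app, Store.heads, hx, hxp, hxy, hxc]
  · by_cases h2 : i = p
    · subst h2
      simp [Act.app, Store.heads, hp, h1, hpy, hpc]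
    · by_cases h3 : i = y
      · subst h3
        simp [Act.app, Store.heads, hx, hp, hc, h1, h2, hyc, isOne_bit]
      · by_cases h4 : i = cy
        · subst h4
          simp [Act.app, Store.heads, hx, hp, hc, h1, h2, h3, isOne_bit]
        · simp [Act.app, h1, h2, h3, h4]

theorem run_subStep {x y cy : ι} (hxy : x ≠ y) (hxc : x ≠ cy) (hyc : y ≠ cy)
    {s : Store ι (Sy α)} {a b c : Bool}
    {l l' l'' : List (Sy α)} (hx : s x = Sy.bit a :: l) (hy : s y = Sy.bit b :: l')
    (hc : s cy = Sy.bit c :: l'') :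
    Runs (subStep x y cy) s (((s.set x (l ++ [Sy.bit (Bool.xor (Bool.xor a b) c)])).set y l').set cy
      (Sy.bit ((!a && (b || c)) || (b && c)) :: l'')) 1 := by
  refine Runs.act' _ fun i => ?_
  by_cases h1 : i = x
  · subst h1
    simp [Act.app, Store.heads, hx, hy, hc, hxy, hxc, isOne_bit]
  · by_cases h2 : i = y
    · subst h2
      simp [Act.app, hy, h1, hyc]
    · by_cases h3 : i = cy
      · subst h3
        simp [Act.app, Store.heads, hx, hy, hc, h1, h2, isOne_bit]
      · simp [Act.app, h1, h2, h3]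


/-! ### Loops -/

theorem loop_inc {nl a cy : ι} (h1 : nl ≠ a) (h2 : nl ≠ cy) (h3 : a ≠ cy) {s : Store ι (Sy α)}
    {x : List Bool} {c : Bool} (hl : s nl = num x.length) (ha : s a = bs x)
    (hc : s cy = [Sy.bit c]) :
    Runs (forN nl (incStep a cy)) s ((s.set a (bs (outs (gInc x) c x.length))).set cy
      [.bit (car (gInc x) c x.length)]) (3 * x.length + 2) := by
  have key := Runs.forN (c := nl) (body := incStep a cy) x.length
    (fun i => (s.set a (bs (x.drop i) ++ bs (outs (gInc x) c i))).set cy
      [.bit (car (gInc x) c i)]) 1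
    (by intro i; simp [h1, h2, hl])
    (by
      intro i hi y
      have := run_incStep (a := a) (cy := cy) h3
        (s := ((s.set a (bs (x.drop i) ++ bs (outs (gInc x) c i))).set cy
          [.bit (car (gInc x) c i)]).set nl y) (b := bt x i) (c := car (gInc x) c i)
        (l := bs (x.drop (i + 1)) ++ bs (outs (gInc x) c i)) (l' := [])
        (by
          rw [Store.set_ne _ _ h1.symm, Store.set_ne _ _ h3, Store.set_same, bs_drop_cons hi]
          rfl)
        (by rw [Store.set_ne _ _ h2.symm, Store.set_same])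
      refine Runs.cast this ?_ le_rfl
      rw [bs_outs_succ, car_succ]
      apply Store.ext'
      intro r
      simp only [Store.set, gInc]
      clear hi this
      split_ifs <;> simp_all)
  simp only [List.drop_zero, outs_zero, bs_nil, List.append_nil, List.drop_length,
    List.nil_append, car_zero] at key
  rw [Store.set_eq_self s ha, Store.set_eq_self s hc] at key
  exact key.mono (by omega)

theorem loop_eq {nl a b cy : ι} (h : [nl, a, b, cy].Nodup) {s : Store ι (Sy α)}
    {x y : List Bool} {c : Bool} (hxy : y.length = x.length) (hl : s nl = num x.length)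
    (ha : s a = bs x) (hb : s b = bs y) (hc : s cy = [.bit c]) :
    Runs (forN nl (eqStep a b cy)) s (s.set cy [.bit (car (gEq x y) c x.length)])
      (3 * x.length + 2) := by
  simp only [List.nodup_cons, List.mem_cons, List.not_mem_nil, not_or, or_false] at h
  obtain ⟨⟨h1, h2, h3⟩, ⟨h4, h5⟩, h6, -⟩ := h
  have key := Runs.forN (c := nl) (body := eqStep a b cy) x.length
    (fun i => ((s.set a (bs (x.drop i) ++ bs (x.take i))).set b
      (bs (y.drop i) ++ bs (y.take i))).set cy [.bit (car (gEq x y) c i)]) 1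
    (by intro i; simp [h1, h2, h3, hl])
    (by
      intro i hi z
      have hi' : i < y.length := by omega
      have := run_eqStep (a := a) (b := b) (cy := cy) h4 h5 h6
        (s := (((s.set a (bs (x.drop i) ++ bs (x.take i))).set b
      (bs (y.drop i) ++ bs (y.take i))).set cy [.bit (car (gEq x y) c i)]).set nl z)
        (x := bt x i) (y := bt y i) (c := car (gEq x y) c i)
        (l := bs (x.drop (i + 1)) ++ bs (x.take i)) (l' := bs (y.drop (i + 1)) ++ bs (y.take i))
        (l'' := [])
        (by
          rw [Store.set_ne _ _ (Ne.symm h1), Store.set_ne _ _ h5, Store.set_ne _ _ h4,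
            Store.set_same, bs_drop_cons hi]
          rfl)
        (by
          rw [Store.set_ne _ _ (Ne.symm h2), Store.set_ne _ _ h6, Store.set_same,
            bs_drop_cons hi']
          rfl)
        (by rw [Store.set_ne _ _ (Ne.symm h3), Store.set_same])
      refine Runs.cast this ?_ le_rfl
      rw [bs_take_succ hi, bs_take_succ hi', car_succ]
      apply Store.ext'
      intro r
      simp only [Store.set, gEq]
      clear hi hi' this
      split_ifs <;> simp_all)
  simp only [List.drop_zero, List.take_zero, bs_nil, List.append_nil, List.drop_length,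
    List.nil_append, car_zero, List.take_length] at key
  rw [← hxy, List.drop_length, List.take_length, hxy, bs_nil, List.nil_append] at key
  rw [Store.set_eq_self s ha, Store.set_eq_self s hb, Store.set_eq_self s hc] at key
  exact key.mono (by omega)

theorem loop_cmp {nl x p y cy : ι} (h : [nl, x, p, y, cy].Nodup) {s : Store ι (Sy α)}
    {u v : List Bool} {w : List (Sy α)} {c : Bool} (huv : v.length = u.length)
    (hl : s nl = num u.length) (hx : s x = bs u ++ w) (hp : s p = bs v) (hy : s y = [])
    (hc : s cy = [.bit c]) :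
    Runs (forN nl (cmpStep x p y cy)) s (((s.set x (w ++ bs u)).set y
      (bs (outs (gSub u v) c u.length))).set cy [.bit (car (gSub u v) c u.length)])
      (3 * u.length + 2) := by
  simp only [List.nodup_cons, List.mem_cons, List.not_mem_nil, not_or, or_false] at h
  obtain ⟨⟨h1, h2, h3, h4⟩, ⟨h5, h6, h7⟩, ⟨h8, h9⟩, h10, -⟩ := h
  have key := Runs.forN (c := nl) (body := cmpStep x p y cy) u.length
    (fun i => (((s.set x (bs (u.drop i) ++ w ++ bs (u.take i))).set p
      (bs (v.drop i) ++ bs (v.take i))).set y (bs (outs (gSub u v) c i))).set cy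
        [.bit (car (gSub u v) c i)]) 1
    (by intro i; simp [h1, h2, h3, h4, hl])
    (by
      intro i hi z
      have hi' : i < v.length := by omega
      have := run_cmpStep (x := x) (p := p) (y := y) (cy := cy) h5 h6 h7 h8 h9 h10
        (s := ((((s.set x (bs (u.drop i) ++ w ++ bs (u.take i))).set p
      (bs (v.drop i) ++ bs (v.take i))).set y (bs (outs (gSub u v) c i))).set cy
        [.bit (car (gSub u v) c i)]).set nl z)
        (a := bt u i) (b := bt v i) (c := car (gSub u v) c i)
        (l := bs (u.drop (i + 1)) ++ w ++ bs (u.take i))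
        (l' := bs (v.drop (i + 1)) ++ bs (v.take i)) (l'' := [])
        (by
          rw [Store.set_ne _ _ (Ne.symm h1), Store.set_ne _ _ h7, Store.set_ne _ _ h6,
            Store.set_ne _ _ h5, Store.set_same, bs_drop_cons hi]
          rfl)
        (by
          rw [Store.set_ne _ _ (Ne.symm h2), Store.set_ne _ _ h9, Store.set_ne _ _ h8,
            Store.set_same, bs_drop_cons hi']
          rfl)
        (by rw [Store.set_ne _ _ (Ne.symm h4), Store.set_same])
      refine Runs.cast this ?_ le_rfl
      rw [bs_take_succ hi, bs_take_succ hi', car_succ, bs_outs_succ]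
      apply Store.ext'
      intro r
      simp only [Store.set, gSub]
      clear hi hi' this
      split_ifs <;> simp_all)
  simp only [List.drop_zero, List.take_zero, bs_nil, List.append_nil, List.drop_length,
    List.nil_append, car_zero, List.take_length, outs_zero] at key
  rw [← huv, List.drop_length, List.take_length, huv, bs_nil, List.nil_append] at key
  rw [Store.set_eq_self s hx, Store.set_eq_self s hp, Store.set_eq_self s hy,
    Store.set_eq_self s hc] at key
  refine Runs.cast key ?_ (by omega)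
  apply Store.ext'
  intro r
  simp only [Store.set]
  clear key
  split_ifs <;> simp_all

theorem loop_sub {nl x y cy : ι} (h : [nl, x, y, cy].Nodup) {s : Store ι (Sy α)}
    {u v : List Bool} {c : Bool} (huv : v.length = u.length)
    (hl : s nl = num u.length) (hx : s x = bs u) (hy : s y = bs v)
    (hc : s cy = [.bit c]) :
    Runs (forN nl (subStep x y cy)) s (((s.set x (bs (outs (gSub u v) c u.length))).set y
      []).set cy [.bit (car (gSub u v) c u.length)])
      (3 * u.length + 2) := by
  simp only [List.nodup_cons, List.mem_cons, List.not_mem_nil, not_or, or_false] at h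
  obtain ⟨⟨h1, h2, h3⟩, ⟨h4, h5⟩, h6, -⟩ := h
  have key := Runs.forN (c := nl) (body := subStep x y cy) u.length
    (fun i => ((s.set x (bs (u.drop i) ++ bs (outs (gSub u v) c i))).set y
      (bs (v.drop i))).set cy [.bit (car (gSub u v) c i)]) 1
    (by intro i; simp [h1, h2, h3, hl])
    (by
      intro i hi z
      have hi' : i < v.length := by omega
      have := run_subStep (x := x) (y := y) (cy := cy) h4 h5 h6
        (s := (((s.set x (bs (u.drop i) ++ bs (outs (gSub u v) c i))).set y
      (bs (v.drop i))).set cy [.bit (car (gSub u v) c i)]).set nl z)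
        (a := bt u i) (b := bt v i) (c := car (gSub u v) c i)
        (l := bs (u.drop (i + 1)) ++ bs (outs (gSub u v) c i))
        (l' := bs (v.drop (i + 1))) (l'' := [])
        (by
          rw [Store.set_ne _ _ (Ne.symm h1), Store.set_ne _ _ h5,
            Store.set_ne _ _ h4, Store.set_same, bs_drop_cons hi]
          rfl)
        (by
          rw [Store.set_ne _ _ (Ne.symm h2), Store.set_ne _ _ h6,
            Store.set_same, bs_drop_cons hi'])
        (by rw [Store.set_ne _ _ (Ne.symm h3), Store.set_same])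
      refine Runs.cast this ?_ le_rfl
      rw [car_succ, bs_outs_succ]
      apply Store.ext'
      intro r
      simp only [Store.set, gSub]
      clear hi hi' this
      split_ifs <;> simp_all)
  simp only [List.drop_zero, bs_nil, List.append_nil, List.drop_length,
    List.nil_append, car_zero, outs_zero] at key
  rw [← huv, List.drop_length, huv, bs_nil] at key
  rw [Store.set_eq_self s hx, Store.set_eq_self s hy, Store.set_eq_self s hc] at key
  exact key.mono (by omega)

end

end Vale.Agent.P338.P2

namespace Vale.Agent.P338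

open Reg R SC P2

section
variable {ι α : Type} [DecidableEq ι]

theorem run_cpL {nl a b : ι} (h1 : nl ≠ a) (h2 : nl ≠ b) (h3 : a ≠ b) {s : Store ι (Sy α)}
    {l : ℕ} {x : List (Sy α)} (hl : s nl = num l) (ha : s a = x) (hx : x.length = l)
    (hb : s b = []) : Runs (cpL nl a b) s (s.set b x) (3 * l + 2) := by
  subst ha
  have hstep : ∀ j < l, ∀ y, Runs (cpB a b)
      (((s.set a ((s a).rotate j)).set b ((s a).take j)).set nl y)
      (((s.set a ((s a).rotate (j + 1))).set b ((s a).take (j + 1))).set nl y) 1 := by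
    intro j hj y
    have hj' : j < (s a).length := by omega
    have hr : (s a).rotate j = (s a)[j] :: ((s a).drop (j + 1) ++ (s a).take j) := by
      rw [List.rotate_eq_drop_append_take (by omega), List.drop_eq_getElem_cons hj']; rfl
    have hr' : (s a).rotate (j + 1) = ((s a).drop (j + 1) ++ (s a).take j) ++ [(s a)[j]] := by
      rw [List.rotate_eq_drop_append_take (by omega), List.append_assoc,
        ← List.take_succ_eq_append_getElem hj']
    have := run_cpB (a := a) (b := b) h3
      (s := ((s.set a ((s a).rotate j)).set b ((s a).take j)).set nl y)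
      (x := (s a)[j]) (l := (s a).drop (j + 1) ++ (s a).take j)
      (by rw [Store.set_ne _ _ h1.symm, Store.set_ne _ _ h3, Store.set_same, hr])
    refine Runs.cast this ?_ le_rfl
    rw [← hr', Store.set_ne _ _ h2.symm, Store.set_same, ← List.take_succ_eq_append_getElem hj']
    apply Store.ext'
    intro r
    simp only [Store.set]
    clear this
    split_ifs <;> simp_all
  have key := Runs.forN (c := nl) (body := cpB a b) l
    (fun i => (s.set a ((s a).rotate i)).set b ((s a).take i)) 1
    (by intro i; simp [h1, h2, hl])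
    (fun i hi y => hstep i hi y)
  simp only [List.rotate_zero, List.take_zero, Store.set_self] at key
  rw [← hx, List.rotate_length, List.take_length, Store.set_self, ← hb, Store.set_self] at key
  exact key.mono (by omega)

theorem ofLsb_lsb_lt {l v : ℕ} (hv : v < 2 ^ l) : ofLsb (lsb l v) = v := by
  rw [ofLsb_lsb, Nat.mod_eq_of_lt hv]

theorem lsb_congr {l v w : ℕ} (h : v % 2 ^ l = w % 2 ^ l) : lsb l v = lsb l w :=
  ofLsb_inj (by simp) (by rw [ofLsb_lsb, ofLsb_lsb, h])

theorem run_incr {nl a cy : ι} (h1 : nl ≠ a) (h2 : nl ≠ cy) (h3 : a ≠ cy) {s : Store ι (Sy α)}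
    {l v : ℕ} (hl : s nl = num l) (ha : s a = bs (lsb l v)) (hc : s cy = []) :
    Runs (incr nl a cy) s (s.set a (bs (lsb l (v + 1)))) (10 * l + 10) := by
  have r1 := run_pushB (b := cy) (s := s) (Sy.bit true)
  have r2 := loop_inc (x := lsb l v) (c := true) h1 h2 h3 (s := s.set cy (s cy ++ [Sy.bit true]))
    (by rw [Store.set_ne _ _ h2, lsb_length]; exact hl)
    (by rw [Store.set_ne _ _ h3]; exact ha)
    (by rw [Store.set_same, hc]; rfl)
  have r3 := run_popF (a := cy) (s := ((s.set cy (s cy ++ [Sy.bit true])).set a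
    (bs (outs (gInc (lsb l v)) true (lsb l v).length))).set cy
      [Sy.bit (car (gInc (lsb l v)) true (lsb l v).length)])
  have r := run_sq_cons r1 (run_sq_cons r2 (run_sq_cons r3 run_sq_nil))
  refine Runs.cast r ?_ (by rw [lsb_length]; omega)
  rw [outs_inc, lsb_length, ofLsb_lsb]
  have e : lsb l (v % 2 ^ l + 1) = lsb l (v + 1) := lsb_congr (by simp)
  rw [e]
  apply Store.ext'
  intro r
  simp only [Store.set]
  clear r1 r2 r3
  split_ifs <;> simp_all

theorem run_eqL {nl a b cy fl : ι} (h : [nl, a, b, cy, fl].Nodup) {s : Store ι (Sy α)}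
    {l v w : ℕ} (hl : s nl = num l) (hv : v < 2 ^ l) (hw : w < 2 ^ l)
    (ha : s a = bs (lsb l v)) (hb : s b = bs (lsb l w)) (hc : s cy = []) :
    Runs (eqL nl a b cy fl) s (if v = w then s.set fl (s fl ++ [Sy.mark]) else s)
      (10 * l + 10) := by
  have h' : [nl, a, b, cy].Nodup := by
    simp only [List.nodup_cons, List.mem_cons, List.not_mem_nil, not_or, or_false] at h ⊢
    tauto
  simp only [List.nodup_cons, List.mem_cons, List.not_mem_nil, not_or, or_false] at h
  obtain ⟨⟨h1, h2, h3, h4⟩, ⟨h5, h6, h7⟩, ⟨h8, h9⟩, h10, -⟩ := h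
  have r1 := run_pushB (b := cy) (s := s) (Sy.bit true)
  have r2 := loop_eq (x := lsb l v) (y := lsb l w) (c := true) h'
    (s := s.set cy (s cy ++ [Sy.bit true])) (by simp)
    (by rw [Store.set_ne _ _ h3, lsb_length]; exact hl)
    (by rw [Store.set_ne _ _ h6]; exact ha)
    (by rw [Store.set_ne _ _ h8]; exact hb)
    (by rw [Store.set_same, hc]; rfl)
  have hcar : car (gEq (lsb l v) (lsb l w)) true (lsb l v).length = decide (v = w) := by
    rw [gEq_value _ _ _ le_rfl (by simp), List.take_length, Bool.true_and]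
    rw [show (lsb l v).length = (lsb l w).length by simp, List.take_length]
    rw [decide_eq_decide]
    constructor
    · intro e
      have := congrArg ofLsb e
      rwa [ofLsb_lsb_lt hv, ofLsb_lsb_lt hw] at this
    · rintro rfl; rfl
  rw [hcar] at r2
  have r4 : ∀ s' : Store ι (Sy α), Runs (popF cy) s' (s'.set cy (s' cy).tail) 1 :=
    fun s' => run_popF
  by_cases hvw : v = w
  · have r3 : Runs (.ite (fun h => isOne (h cy)) (pushB fl Sy.mark) (sq [] : Cmd ι (Sy α)))
        ((s.set cy (s cy ++ [Sy.bit true])).set cy [Sy.bit (decide (v = w))])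
        (((s.set cy (s cy ++ [Sy.bit true])).set cy [Sy.bit (decide (v = w))]).set fl
          (s fl ++ [Sy.mark])) 2 := by
      have := run_pushB (b := fl)
        (s := (s.set cy (s cy ++ [Sy.bit true])).set cy [Sy.bit (decide (v = w))]) Sy.mark
      have e : ((s.set cy (s cy ++ [Sy.bit true])).set cy [Sy.bit (decide (v = w))]) fl = s fl := by
        simp [Ne.symm h10]
      rw [e] at this
      exact Runs.iteT (by simp [Store.heads, isOne_bit, hvw]) this
    have r := run_sq_cons r1 (run_sq_cons r2 (run_sq_cons r3 (run_sq_cons (r4 _) run_sq_nil)))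
    refine Runs.cast r ?_ (by rw [lsb_length]; omega)
    rw [if_pos hvw]
    apply Store.ext'
    intro r
    simp only [Store.set]
    clear hv hw r1 r2 r4 r3
    split_ifs <;> simp_all
  · have r3 : Runs (.ite (fun h => isOne (h cy)) (pushB fl Sy.mark) (sq [] : Cmd ι (Sy α)))
        ((s.set cy (s cy ++ [Sy.bit true])).set cy [Sy.bit (decide (v = w))])
        ((s.set cy (s cy ++ [Sy.bit true])).set cy [Sy.bit (decide (v = w))]) 2 :=
      Runs.iteF (by simp [Store.heads, isOne_bit, hvw]) run_sq_nil
    have r := run_sq_cons r1 (run_sq_cons r2 (run_sq_cons r3 (run_sq_cons (r4 _) run_sq_nil)))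
    refine Runs.cast r ?_ (by rw [lsb_length]; omega)
    rw [if_neg hvw]
    apply Store.ext'
    intro r
    simp only [Store.set]
    clear hv hw r1 r2 r4 r3
    split_ifs <;> simp_all

theorem run_condSub {nl x p y cy : ι} (h : [nl, x, p, y, cy].Nodup) {s : Store ι (Sy α)}
    {l v w : ℕ} (hl : s nl = num l) (hv : v < 2 ^ l) (hw : w < 2 ^ l)
    (hx : s x = bs (lsb l v)) (hp : s p = bs (lsb l w)) (hy : s y = []) (hc : s cy = []) :
    Runs (condSub nl x p y cy) s (s.set x (bs (lsb l (if w ≤ v then v - w else v))))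
      (20 * l + 20) := by
  have h' := h
  simp only [List.nodup_cons, List.mem_cons, List.not_mem_nil, not_or, or_false] at h'
  obtain ⟨⟨h1, h2, h3, h4⟩, ⟨h5, h6, h7⟩, ⟨h8, h9⟩, h10, -⟩ := h'
  have r1 := run_pushB (b := cy) (s := s) (Sy.bit false)
  have r2 := loop_cmp (u := lsb l v) (v := lsb l w) (w := []) (c := false) h
    (s := s.set cy (s cy ++ [Sy.bit false])) (by simp)
    (by rw [Store.set_ne _ _ h4, lsb_length]; exact hl)
    (by rw [Store.set_ne _ _ h7, List.append_nil]; exact hx)
    (by rw [Store.set_ne _ _ h9]; exact hp)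
    (by rw [Store.set_ne _ _ h10]; exact hy)
    (by rw [Store.set_same, hc]; rfl)
  rw [List.nil_append] at r2
  by_cases hvw : w ≤ v
  · obtain ⟨e1, e2⟩ := outs_sub (x := lsb l v) (p := lsb l w) (by simp)
      (by rw [ofLsb_lsb_lt hv, ofLsb_lsb_lt hw]; exact hvw)
    rw [e1, e2, ofLsb_lsb_lt hv, ofLsb_lsb_lt hw, lsb_length] at r2
    set s2 := (((s.set cy (s cy ++ [Sy.bit false])).set x (bs (lsb l v))).set y
      (bs (lsb l (v - w)))).set cy [Sy.bit false] with hs2
    have r3a := run_clr (a := x) (s := s2)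
    have r3b := run_mvAll (a := y) (b := x) (Ne.symm h6) (s := s2.set x [])
    have r3 : Runs (.ite (fun h => isOne (h cy)) (clr y) (.seq (clr x) (mvAll y x)))
        s2 (((s2.set x []).set y []).set x (bs (lsb l (v - w)))) (4 * l + 3) := by
      refine (Runs.iteF (by simp [Store.heads, hs2, isOne_bit]) (r3a.seq r3b)).cast ?_ ?_
      · first | rfl | simp [hs2, Ne.symm h6, h10]
      · simp [hs2, h6, h7, h10, Ne.symm h6]; omega
    have r4 := run_popF (a := cy) (s := ((s2.set x []).set y []).set x (bs (lsb l (v - w))))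
    have r := run_sq_cons r1 (run_sq_cons r2 (run_sq_cons r3 (run_sq_cons r4 run_sq_nil)))
    refine Runs.cast r ?_ (by omega)
    rw [if_pos hvw]
    apply Store.ext'
    intro r
    simp only [Store.set, hs2]
    clear hv hw r1 hvw r2 r3a r3b r3 r4
    split_ifs <;> simp_all
  · have e2 := car_sub_true (x := lsb l v) (p := lsb l w) (by simp)
      (by rw [ofLsb_lsb_lt hv, ofLsb_lsb_lt hw]; omega)
    rw [e2] at r2
    set o := outs (gSub (lsb l v) (lsb l w)) false (lsb l v).length with ho
    have hol : o.length = l := by simp [ho]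
    set s2 := (((s.set cy (s cy ++ [Sy.bit false])).set x (bs (lsb l v))).set y
      (bs o)).set cy [Sy.bit true] with hs2
    have r3 : Runs (.ite (fun h => isOne (h cy)) (clr y) (.seq (clr x) (mvAll y x)))
        s2 (s2.set y []) (2 * l + 2) := by
      refine (Runs.iteT (by simp [Store.heads, hs2, isOne_bit]) (run_clr (a := y) (s := s2))).cast
        rfl ?_
      simp [hs2, h10, hol]
    have r4 := run_popF (a := cy) (s := s2.set y [])
    have r := run_sq_cons r1 (run_sq_cons r2 (run_sq_cons r3 (run_sq_cons r4 run_sq_nil)))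
    refine Runs.cast r ?_ (by rw [lsb_length]; omega)
    rw [if_neg hvw]
    apply Store.ext'
    intro r
    simp only [Store.set, hs2]
    clear hv hw r1 hvw r2 r3 r4
    split_ifs <;> simp_all

theorem run_subL {nl x y cy : ι} (h : [nl, x, y, cy].Nodup) {s : Store ι (Sy α)}
    {l v w : ℕ} (hl : s nl = num l) (hv : v < 2 ^ l) (hw : w ≤ v)
    (hx : s x = bs (lsb l v)) (hy : s y = bs (lsb l w)) (hc : s cy = []) :
    Runs (subL nl x y cy) s ((s.set x (bs (lsb l (v - w)))).set y []) (10 * l + 10) := by
  have h' := h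
  simp only [List.nodup_cons, List.mem_cons, List.not_mem_nil, not_or, or_false] at h'
  obtain ⟨⟨h1, h2, h3⟩, ⟨h4, h5⟩, h6, -⟩ := h'
  have r1 := run_pushB (b := cy) (s := s) (Sy.bit false)
  have r2 := loop_sub (u := lsb l v) (v := lsb l w) (c := false) h
    (s := s.set cy (s cy ++ [Sy.bit false])) (by simp)
    (by rw [Store.set_ne _ _ h3, lsb_length]; exact hl)
    (by rw [Store.set_ne _ _ h5]; exact hx)
    (by rw [Store.set_ne _ _ h6]; exact hy)
    (by rw [Store.set_same, hc]; rfl)
  obtain ⟨e1, e2⟩ := outs_sub (x := lsb l v) (p := lsb l w) (by simp)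
    (by rw [ofLsb_lsb_lt hv, ofLsb_lsb_lt (by omega)]; exact hw)
  rw [e1, e2, ofLsb_lsb_lt hv, ofLsb_lsb_lt (by omega), lsb_length] at r2
  have r3 := run_popF (a := cy) (s := (((s.set cy (s cy ++ [Sy.bit false])).set x
    (bs (lsb l (v - w)))).set y []).set cy [Sy.bit false])
  have r := run_sq_cons r1 (run_sq_cons r2 (run_sq_cons r3 run_sq_nil))
  refine Runs.cast r ?_ (by omega)
  apply Store.ext'
  intro r
  simp only [Store.set]
  clear hv hw r1 r2 r3
  split_ifs <;> simp_all

theorem lsb_succ' (k z : ℕ) : lsb (k + 1) z = lsb k z ++ [z.testBit k] := by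
  simp [lsb, List.range_succ]

theorem false_cons_lsb (l u : ℕ) : false :: lsb l u = lsb l (2 * u) ++ [(2 * u).testBit l] := by
  rw [← lsb_succ', lsb_succ, Nat.mul_div_cancel_left _ (by norm_num)]
  congr 1
  simp [Nat.testBit_zero]

theorem run_divStep {nl x p y cy mu : ι} (h : [nl, x, p, y, cy, mu].Nodup) {s : Store ι (Sy α)}
    {l u w : ℕ} (hl : s nl = num l) (hu : u < w) (hw : 2 * w ≤ 2 ^ l)
    (hx : s x = bs (lsb l u)) (hp : s p = bs (lsb l w)) (hy : s y = []) (hc : s cy = []) :
    Runs (divStep nl x p y cy mu) s ((s.set x (bs (lsb l (2 * u % w)))).set mu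
      (Sy.bit (decide (w ≤ 2 * u)) :: s mu)) (20 * l + 20) := by
  have h5' : [nl, x, p, y, cy].Nodup := by
    simp only [List.nodup_cons, List.mem_cons, List.not_mem_nil, not_or, or_false] at h ⊢
    tauto
  simp only [List.nodup_cons, List.mem_cons, List.not_mem_nil, not_or, or_false] at h
  obtain ⟨⟨h1, h2, h3, h4, h5⟩, ⟨h6, h7, h8, h9⟩, ⟨h10, h11, h12⟩, ⟨h13, h14⟩, h15, -⟩ := h
  have hv : 2 * u < 2 ^ l := by omega
  have hw' : w < 2 ^ l := by omega
  have r1 := run_pushF (b := x) (s := s) (Sy.bit false)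
  have r2 := run_pushB (b := cy) (s := s.set x (Sy.bit false :: s x)) (Sy.bit false)
  set s1 := (s.set x (Sy.bit false :: s x)).set cy
    ((s.set x (Sy.bit false :: s x)) cy ++ [Sy.bit false]) with hs1
  have hx1 : s1 x = bs (lsb l (2 * u)) ++ [Sy.bit ((2 * u).testBit l)] := by
    rw [hs1, Store.set_ne _ _ h8, Store.set_same, hx]
    have := congrArg (bs (α := α)) (false_cons_lsb l u)
    rw [bs_cons, bs_append] at this
    exact this
  have r3 := loop_cmp (u := lsb l (2 * u)) (v := lsb l w) (w := [Sy.bit ((2 * u).testBit l)])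
    (c := false) h5' (s := s1) (by simp)
    (by rw [hs1, Store.set_ne _ _ h4, Store.set_ne _ _ h1, lsb_length]; exact hl)
    hx1
    (by rw [hs1, Store.set_ne _ _ h11, Store.set_ne _ _ (Ne.symm h6)]; exact hp)
    (by rw [hs1, Store.set_ne _ _ h13, Store.set_ne _ _ (Ne.symm h7)]; exact hy)
    (by rw [hs1, Store.set_same, Store.set_ne _ _ (Ne.symm h8), hc]; rfl)
  by_cases hvw : w ≤ 2 * u
  · obtain ⟨e1, e2⟩ := outs_sub (x := lsb l (2 * u)) (p := lsb l w) (by simp)
      (by rw [ofLsb_lsb_lt hv, ofLsb_lsb_lt hw']; exact hvw)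
    rw [e1, e2, ofLsb_lsb_lt hv, ofLsb_lsb_lt hw', lsb_length] at r3
    set s2 := ((s1.set x ([Sy.bit ((2 * u).testBit l)] ++ bs (lsb l (2 * u)))).set y
      (bs (lsb l (2 * u - w)))).set cy [Sy.bit false] with hs2
    have r4 := run_popF (a := x) (s := s2)
    set s3 := s2.set x (s2 x).tail with hs3
    have hx3 : s3 x = bs (lsb l (2 * u)) := by
      rw [hs3, Store.set_same, hs2, Store.set_ne _ _ h8, Store.set_ne _ _ h7, Store.set_same]
      rfl
    have hy3 : s3 y = bs (lsb l (2 * u - w)) := by
      rw [hs3, Store.set_ne _ _ (Ne.symm h7), hs2, Store.set_ne _ _ h13, Store.set_same]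
    have hc3 : s3 cy = [Sy.bit false] := by
      rw [hs3, Store.set_ne _ _ (Ne.symm h8), hs2, Store.set_same]
    have hm3 : s3 mu = s mu := by
      rw [hs3, hs2, hs1, Store.set_ne _ _ (Ne.symm h9), Store.set_ne _ _ (Ne.symm h15),
        Store.set_ne _ _ (Ne.symm h14), Store.set_ne _ _ (Ne.symm h9),
        Store.set_ne _ _ (Ne.symm h15), Store.set_ne _ _ (Ne.symm h9)]
    have q1 := run_clr (a := x) (s := s3)
    have q2 := run_mvAll (a := y) (b := x) (Ne.symm h7) (s := s3.set x [])
    have q3 := run_pushF (b := mu) (s := ((s3.set x []).set y []).set x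
      ((s3.set x []) x ++ (s3.set x []) y)) (Sy.bit true)
    have q := run_sq_cons q1 (run_sq_cons q2 (run_sq_cons q3 run_sq_nil))
    have r5 := Runs.iteF (c := .seq (clr y) (pushF mu (Sy.bit false)))
      (p := fun h => isOne (h cy)) (s := s3) (by simp [Store.heads, hc3, isOne_bit]) q
    have r6 := run_popF (a := cy) (s := (((s3.set x []).set y []).set x
      ((s3.set x []) x ++ (s3.set x []) y)).set mu (Sy.bit true :: (((s3.set x []).set y []).set x
      ((s3.set x []) x ++ (s3.set x []) y)) mu))
    have r := run_sq_cons r1 (run_sq_cons r2 (run_sq_cons r3 (run_sq_cons r4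
      (run_sq_cons r5 (run_sq_cons r6 run_sq_nil)))))
    have hmod : 2 * u % w = 2 * u - w := by
      rw [Nat.mod_eq_sub_mod hvw, Nat.mod_eq_of_lt (by omega)]
    refine Runs.cast r ?_ ?_
    · rw [hmod]
      have : decide (w ≤ 2 * u) = true := by simpa using hvw
      rw [this]
      have hx3' : (s3.set x []) x ++ (s3.set x []) y = bs (lsb l (2 * u - w)) := by
        rw [Store.set_same, Store.set_ne _ _ (Ne.symm h7), hy3]; rfl
      rw [hx3']
      have hm' : (((s3.set x []).set y []).set x (bs (lsb l (2 * u - w)))) mu = s mu := by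
        rw [Store.set_ne _ _ (Ne.symm h9), Store.set_ne _ _ (Ne.symm h14),
          Store.set_ne _ _ (Ne.symm h9), hm3]
      rw [hm']
      have hc' : ((((s3.set x []).set y []).set x (bs (lsb l (2 * u - w)))).set mu
          (Sy.bit true :: s mu)) cy = [Sy.bit false] := by
        rw [Store.set_ne _ _ h15, Store.set_ne _ _ (Ne.symm h8), Store.set_ne _ _ (Ne.symm h13),
          Store.set_ne _ _ (Ne.symm h8), hc3]
      rw [hc', List.tail_cons]
      apply Store.ext'
      intro r
      simp only [Store.set, hs3, hs2, hs1]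
      clear hu hw hv hw' r1 r2 hvw r3 r4 q1 q2 q3 q r5 r6 this
      split_ifs <;> simp_all
    · rw [hx3, Store.set_ne _ _ (Ne.symm h7), hy3]
      simp only [bs_length, lsb_length]
      omega
  · have e2 := car_sub_true (x := lsb l (2 * u)) (p := lsb l w) (by simp)
      (by rw [ofLsb_lsb_lt hv, ofLsb_lsb_lt hw']; omega)
    rw [e2] at r3
    set o := outs (gSub (lsb l (2 * u)) (lsb l w)) false (lsb l (2 * u)).length with ho
    have hol : o.length = l := by simp [ho]
    set s2 := ((s1.set x ([Sy.bit ((2 * u).testBit l)] ++ bs (lsb l (2 * u)))).set y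
      (bs o)).set cy [Sy.bit true] with hs2
    have r4 := run_popF (a := x) (s := s2)
    set s3 := s2.set x (s2 x).tail with hs3
    have hx3 : s3 x = bs (lsb l (2 * u)) := by
      rw [hs3, Store.set_same, hs2, Store.set_ne _ _ h8, Store.set_ne _ _ h7, Store.set_same]
      rfl
    have hy3 : s3 y = bs o := by
      rw [hs3, Store.set_ne _ _ (Ne.symm h7), hs2, Store.set_ne _ _ h13, Store.set_same]
    have hc3 : s3 cy = [Sy.bit true] := by
      rw [hs3, Store.set_ne _ _ (Ne.symm h8), hs2, Store.set_same]
    have hm3 : s3 mu = s mu := by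
      rw [hs3, hs2, hs1, Store.set_ne _ _ (Ne.symm h9), Store.set_ne _ _ (Ne.symm h15),
        Store.set_ne _ _ (Ne.symm h14), Store.set_ne _ _ (Ne.symm h9),
        Store.set_ne _ _ (Ne.symm h15), Store.set_ne _ _ (Ne.symm h9)]
    have q1 := run_clr (a := y) (s := s3)
    have q3 := run_pushF (b := mu) (s := s3.set y []) (Sy.bit false)
    have r5 := Runs.iteT (d := sq [clr x, mvAll y x, pushF mu (Sy.bit true)])
      (p := fun h => isOne (h cy)) (s := s3) (by simp [Store.heads, hc3, isOne_bit]) (q1.seq q3)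
    have r6 := run_popF (a := cy) (s := (s3.set y []).set mu (Sy.bit false :: (s3.set y []) mu))
    have r := run_sq_cons r1 (run_sq_cons r2 (run_sq_cons r3 (run_sq_cons r4
      (run_sq_cons r5 (run_sq_cons r6 run_sq_nil)))))
    have hmod : 2 * u % w = 2 * u := Nat.mod_eq_of_lt (by omega)
    refine Runs.cast r ?_ ?_
    · rw [hmod]
      have : decide (w ≤ 2 * u) = false := by simpa using hvw
      rw [this]
      have hm' : (s3.set y []) mu = s mu := by
        rw [Store.set_ne _ _ (Ne.symm h14), hm3]
      rw [hm']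
      have hc' : ((s3.set y []).set mu (Sy.bit false :: s mu)) cy = [Sy.bit true] := by
        rw [Store.set_ne _ _ h15, Store.set_ne _ _ (Ne.symm h13), hc3]
      rw [hc', List.tail_cons]
      apply Store.ext'
      intro r
      simp only [Store.set, hs3, hs2, hs1]
      clear hu hw hv hw' r1 r2 hvw r3 r4 q1 q3 r5 r6 this
      split_ifs <;> simp_all
    · rw [hy3]
      simp only [bs_length, lsb_length, hol]
      omega

theorem lsb_zero (z : ℕ) : lsb 0 z = [] := rfl

theorem run_recipP {nl nl2 x p y cy mu one : ι} (h : [nl, nl2, x, p, y, cy, mu, one].Nodup)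
    {s : Store ι (Sy α)} {l w : ℕ} (hl : s nl = num l) (hl2 : s nl2 = num l) (h1 : 1 ≤ l)
    (hw : 2 ≤ w) (hw2 : 2 * w ≤ 2 ^ l) (hp : s p = bs (lsb l w)) (ho : s one = bs (lsb l 1))
    (hx : s x = []) (hy : s y = []) (hc : s cy = []) (hm : s mu = []) :
    Runs (recipP nl nl2 x p y cy mu one) s (s.set mu (bs (lsb l (2 ^ l / w))))
      (100 * (l * l) + 100) := by
  have hd : [nl, x, p, y, cy, mu].Nodup := by
    simp only [List.nodup_cons, List.mem_cons, List.not_mem_nil, not_or, or_false] at h ⊢
    tauto
  simp only [List.nodup_cons, List.mem_cons, List.not_mem_nil, not_or, or_false] at h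
  obtain ⟨⟨a1, a2, a3, a4, a5, a6, a7⟩, ⟨b1, b2, b3, b4, b5, b6⟩, ⟨c1, c2, c3, c4, c5⟩,
    ⟨d1, d2, d3, d4⟩, ⟨e1, e2, e3⟩, ⟨f1, f2⟩, g1, -⟩ := h
  have r1 := run_cpL (nl := nl) (a := one) (b := x) a7 a2 (Ne.symm c5) (s := s) (l := l) hl ho
    (by simp) hx
  have r2 := Runs.forN (c := nl2) (body := divStep nl x p y cy mu) l
    (fun i => (s.set x (bs (lsb l (2 ^ i % w)))).set mu (bs (lsb i (2 ^ i / w)))) (20 * l + 20)
    (by intro i; simp [b1, b5, hl2])
    (by
      intro i hi z
      have := run_divStep (nl := nl) (x := x) (p := p) (y := y) (cy := cy) (mu := mu) hd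
        (s := ((s.set x (bs (lsb l (2 ^ i % w)))).set mu (bs (lsb i (2 ^ i / w)))).set nl2 z)
        (l := l) (u := 2 ^ i % w) (w := w)
        (by rw [Store.set_ne _ _ a1, Store.set_ne _ _ a6, Store.set_ne _ _ a2]; exact hl)
        (Nat.mod_lt _ (by omega)) hw2
        (by rw [Store.set_ne _ _ (Ne.symm b1), Store.set_ne _ _ c4, Store.set_same])
        (by
          rw [Store.set_ne _ _ (Ne.symm b2), Store.set_ne _ _ d3, Store.set_ne _ _ (Ne.symm c1)]
          exact hp)
        (by
          rw [Store.set_ne _ _ (Ne.symm b3), Store.set_ne _ _ e2, Store.set_ne _ _ (Ne.symm c2)]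
          exact hy)
        (by
          rw [Store.set_ne _ _ (Ne.symm b4), Store.set_ne _ _ f1, Store.set_ne _ _ (Ne.symm c3)]
          exact hc)
      refine Runs.cast this ?_ le_rfl
      have e1 : 2 * (2 ^ i % w) % w = 2 ^ (i + 1) % w := by
        rw [pow_succ', Nat.mul_mod_mod]
      have e2 : (bs (lsb (i + 1) (2 ^ (i + 1) / w)) : List (Sy α)) =
          .bit (decide (w ≤ 2 * (2 ^ i % w))) :: bs (lsb i (2 ^ i / w)) := by
        rw [lsb_succ, bs_cons]
        have hwpos : 0 < w := by omega
        congr 2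
        · have h3 : 2 ^ (i + 1) / w = 2 * (2 ^ i / w) + 2 * (2 ^ i % w) / w := by
            have h4 : 2 ^ (i + 1) = w * (2 * (2 ^ i / w)) + 2 * (2 ^ i % w) := by
              have := Nat.div_add_mod (2 ^ i) w
              calc 2 ^ (i + 1) = 2 * 2 ^ i := by rw [pow_succ']
                _ = 2 * (w * (2 ^ i / w) + 2 ^ i % w) := by rw [this]
                _ = _ := by ring
            conv_lhs => rw [h4, Nat.mul_add_div hwpos]
          have h5 : 2 ^ i % w < w := Nat.mod_lt _ hwpos
          by_cases h6 : w ≤ 2 * (2 ^ i % w)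
          · have h7 : 2 * (2 ^ i % w) / w = 1 := by
              apply Nat.div_eq_of_lt_le <;> omega
            rw [h3, h7, Nat.testBit_zero]
            simp [h6]
          · have h7 : 2 * (2 ^ i % w) / w = 0 := Nat.div_eq_of_lt (by omega)
            rw [h3, h7, Nat.testBit_zero]
            simp [h6]
        · rw [Nat.div_div_eq_div_mul, mul_comm w 2, pow_succ', Nat.mul_div_mul_left _ _ (by norm_num)]
      rw [e1, e2]
      apply Store.ext'
      intro r
      simp only [Store.set]
      clear h1 hw hw2 r1 hi this e2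
      split_ifs <;> simp_all)
  have r3 := run_clr (a := x) (s := (s.set x (bs (lsb l (2 ^ l % w)))).set mu
    (bs (lsb l (2 ^ l / w))))
  have e0 : (s.set x (bs (lsb l (2 ^ 0 % w)))).set mu (bs (lsb 0 (2 ^ 0 / w))) =
      s.set x (bs (lsb l 1)) := by
    rw [pow_zero, Nat.mod_eq_of_lt (by omega), lsb_zero, bs_nil]
    apply Store.ext'
    intro r
    simp only [Store.set]
    clear h1 hw hw2 r1 r2 r3
    split_ifs <;> simp_all
  simp only [e0] at r2
  have r := run_sq_cons r1 (run_sq_cons r2 (run_sq_cons r3 run_sq_nil))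
  refine Runs.cast r ?_ ?_
  · apply Store.ext'
    intro r
    simp only [Store.set]
    clear h1 hw hw2 r1 r3 r2
    split_ifs <;> simp_all
  · rw [Store.set_ne _ _ c4, Store.set_same, bs_length, lsb_length]
    nlinarith

end

end Vale.Agent.P338
end

section

/-! Modular arithmetic: Barrett reduction, multiplication modulo `p`. -/

namespace Vale.Agent.P338
open Reg R Ex SC P2

namespace P2

/-- Barrett reduction. -/
theorem barrett {l p V : ℕ} (hp : 0 < p) (hV : V < 2 ^ l) :
    V * (2 ^ l / p) / 2 ^ l * p ≤ V ∧ V - V * (2 ^ l / p) / 2 ^ l * p < 2 * p := by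
  set B := 2 ^ l with hB
  set m := B / p with hm
  set q := V * m / B with hq
  have hBpos : 0 < B := by omega
  have h1 : m * p ≤ B := Nat.div_mul_le_self _ _
  have h2 : B < (m + 1) * p := by
    have := Nat.lt_div_mul_add hp (a := B)
    rw [← hm] at this
    linarith
  have h3 : q * B ≤ V * m := Nat.div_mul_le_self _ _
  have h4 : V * m < (q + 1) * B := by
    have := Nat.lt_div_mul_add hBpos (a := V * m)
    rw [← hq] at this
    linarith
  have h5 : q * p ≤ V := by
    have : q * p * B ≤ V * B := by nlinarith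
    exact Nat.le_of_mul_le_mul_right this hBpos
  refine ⟨h5, ?_⟩
  have h6 : V < q * p + 2 * p := by
    -- V * B < V * (m + 1) * p = V m p + V p < (q+1) B p + B p
    have h7 : V * B ≤ V * ((m + 1) * p) := Nat.mul_le_mul_left _ h2.le
    have h8 : V * m * p < (q + 1) * B * p := Nat.mul_lt_mul_of_pos_right h4 hp
    have h9 : V * p < B * p := Nat.mul_lt_mul_of_pos_right hV hp
    have h10 : V * B < (q * p + 2 * p) * B := by
      calc V * B ≤ V * ((m + 1) * p) := h7
        _ = V * m * p + V * p := by ring
        _ < (q + 1) * B * p + B * p := by omega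
        _ = (q * p + 2 * p) * B := by ring
    exact lt_of_mul_lt_mul_right h10 (Nat.zero_le _)
  omega

section
variable {τ κ α : Type} [DecidableEq τ] [DecidableEq κ]

/-- The registers of the simulation of the second machine. -/
def idleReg : RF τ κ → Bool
  | .tl (.inr (.inr .sST)) => true
  | .tl (.inr (.inl _)) | .tr (.inr (.inl _)) => true
  | _ => false

theorem smIdle_set {s : Store (RF τ κ) (Sy α)} (h : SmIdle s) {a : RF τ κ}
    (ha : idleReg a = false) (v : List (Sy α)) : SmIdle (s.set a v) := by
  have key : ∀ b : RF τ κ, idleReg b = true → (s.set a v) b = s b := by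
    intro b hb
    rw [Store.set_ne]
    rintro rfl
    rw [ha] at hb; exact absurd hb (by decide)
  refine ⟨?_, fun j => ?_, fun j => ?_⟩
  · rw [key _ rfl]; exact h.1
  · rw [key _ rfl]; exact h.2.1 j
  · rw [key _ rfl]; exact h.2.2 j

theorem mulLsb_drop (l : ℕ) (x y : List Bool) :
    (mulLsb l x y).drop l = lsb l (ofLsb x * ofLsb y / 2 ^ l) := by
  apply ofLsb_inj
  · simp [mulLsb]; omega
  · rw [ofLsb_drop, mulLsb, ofLsb_lsb, ofLsb_lsb, two_mul, pow_add, Nat.mod_mul_right_div_self]

theorem mulLsb_take (l : ℕ) (x y : List Bool) :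
    (mulLsb l x y).take l = lsb l (ofLsb x * ofLsb y) := by
  apply ofLsb_inj
  · simp [mulLsb]; omega
  · rw [ofLsb_take, mulLsb, ofLsb_lsb, ofLsb_lsb, two_mul, pow_add, Nat.mod_mul_right_mod]

end

end P2

section
variable {τ κ α : Type} [DecidableEq τ] [DecidableEq κ]
  {sm : Cmd (RF τ κ) (Sy α)} {t : ℕ → ℕ} {C1 : ℕ}

theorem run_redX (hs : SmallSpec sm t C1) : ∃ C0 : ℕ, ∀ (s : Store (RF τ κ) (Sy α))
    (l p : ℕ) (x : List Bool), Ctx s l p → x.length = l → s (r X) = bs x →
    Runs (redX sm) s (s.set (r X) (bs (lsb l (ofLsb x % p)))) (C0 * (t l + l)) := by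
  refine ⟨2 * C1 + 300, ?_⟩
  intro s l p x hC hx hX
  have hl1 := hC.l1
  have hp3 := hC.p3
  have hpl := hC.pl
  have hnL := hC.nL
  have hPm := hC.Pm
  have hMU := hC.MU
  have hSX := hC.SX
  have hSY := hC.SY
  have hSZ := hC.SZ
  have hY := hC.Y
  have hCY := hC.CY
  have hid := hC.idle
  set V := ofLsb x with hV
  have hVl : V < 2 ^ l := by rw [hV, ← hx]; exact ofLsb_lt x
  have hxV : x = lsb l V := by rw [hV, ← hx, lsb_ofLsb]
  have hpl' : p < 2 ^ l := by nlinarith
  set m := 2 ^ l / p with hm
  have hml : m < 2 ^ l := Nat.div_lt_self (by positivity) (by omega)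
  set q := V * m / 2 ^ l with hq
  obtain ⟨hb1, hb2⟩ := barrett (p := p) (by omega) hVl
  rw [← hm, ← hq] at hb1 hb2
  have hql : q < 2 ^ l := by
    have : q * 1 ≤ q * p := Nat.mul_le_mul_left _ (by omega)
    omega
  -- the stores
  have c1 : Runs (cpL (ex nL) (.r .X) (ex SX)) s (s.set (ex SX) (bs x)) (3 * l + 2) :=
    run_cpL (by simp [ex]) (by simp [ex]) (by simp [ex]) hnL hX (by simp [hx]) hSX
  have c2 : Runs (cpL (ex nL) (ex MU) (ex SY)) (s.set (ex SX) (bs x))
      ((s.set (ex SX) (bs x)).set (ex SY) (bs (lsb l m))) (3 * l + 2) :=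
    run_cpL (by simp [ex]) (by simp [ex]) (by simp [ex]) (by simp [ex, hnL])
      (by simp [ex, hMU]) (by simp) (by simp [ex, hSY])
  have c3 : Runs sm ((s.set (ex SX) (bs x)).set (ex SY) (bs (lsb l m)))
      (s.set (ex SZ) (bs (mulLsb l x (lsb l m)))) (C1 * (t l + l)) := by
    refine (hs _ l x (lsb l m) hl1 hx (by simp) (by simp [ex]) (by simp [ex])
      (by simp [ex, hSZ]) (by simp [ex, hnL])
      (smIdle_set (smIdle_set hid rfl _) rfl _)).cast ?_ le_rfl
    clear hxV
    apply Store.ext'
    intro r
    simp only [Store.set]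
    clear hs hl1 hp3 hpl hVl hpl' hml hb1 hb2 hql c1 c2
    split_ifs <;> simp_all
  have c4 : Runs (dropN 1 (ex nL) (ex SZ)) (s.set (ex SZ) (bs (mulLsb l x (lsb l m))))
      (s.set (ex SZ) (bs (lsb l q))) (4 * l + 2) := by
    refine (run_dropN (k := 1) (c := ex nL) (a := ex SZ) (by simp [ex])
      (s := s.set (ex SZ) (bs (mulLsb l x (lsb l m)))) (N := l)
      (by simp [ex, hnL])).cast ?_ (by omega)
    rw [Store.set_same, Store.set_set, Nat.one_mul]
    congr 1
    rw [bs, List.drop_eq_drop_iff.mpr rfl, ← List.map_drop, mulLsb_drop, ← hV, ofLsb_lsb_lt hml]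
    rfl
  have c5 : Runs (mvAll (ex SZ) (ex SX)) (s.set (ex SZ) (bs (lsb l q)))
      (s.set (ex SX) (bs (lsb l q))) (2 * l + 1) := by
    refine (run_mvAll (a := ex SZ) (b := ex SX) (by simp [ex])
      (s := s.set (ex SZ) (bs (lsb l q)))).cast ?_ (by simp)
    rw [Store.set_same, Store.set_set]
    clear hxV
    apply Store.ext'
    intro r
    simp only [Store.set]
    clear hs hl1 hp3 hpl hVl hpl' hml hb1 hb2 hql c1 c2 c3 c4
    split_ifs <;> simp_all
  have c6 : Runs (cpL (ex nL) (ex Pm) (ex SY)) (s.set (ex SX) (bs (lsb l q)))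
      ((s.set (ex SX) (bs (lsb l q))).set (ex SY) (bs (lsb l p))) (3 * l + 2) :=
    run_cpL (by simp [ex]) (by simp [ex]) (by simp [ex]) (by simp [ex, hnL])
      (by simp [ex, hPm]) (by simp) (by simp [ex, hSY])
  have c7 : Runs sm ((s.set (ex SX) (bs (lsb l q))).set (ex SY) (bs (lsb l p)))
      (s.set (ex SZ) (bs (mulLsb l (lsb l q) (lsb l p)))) (C1 * (t l + l)) := by
    refine (hs _ l (lsb l q) (lsb l p) hl1 (by simp) (by simp) (by simp [ex]) (by simp [ex])
      (by simp [ex, hSZ]) (by simp [ex, hnL])
      (smIdle_set (smIdle_set hid rfl _) rfl _)).cast ?_ le_rfl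
    clear hxV
    apply Store.ext'
    intro r
    simp only [Store.set]
    clear hs hl1 hp3 hpl hVl hpl' hml hb1 hb2 hql c1 c2 c3 c4 c5 c6
    split_ifs <;> simp_all
  have c8 : Runs (moveN (ex nL) (ex SZ) (.r .Y)) (s.set (ex SZ)
      (bs (mulLsb l (lsb l q) (lsb l p))))
      ((s.set (ex SZ) (bs (lsb l (q * p / 2 ^ l)))).set (.r .Y) (bs (lsb l (q * p))))
      (3 * l + 2) := by
    have e : (bs (mulLsb l (lsb l q) (lsb l p)) : List (Sy α)) =
        bs (lsb l (q * p)) ++ bs (lsb l (q * p / 2 ^ l)) := by
      rw [← bs_append]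
      congr 1
      conv_lhs => rw [← List.take_append_drop l (mulLsb l (lsb l q) (lsb l p))]
      rw [mulLsb_take, mulLsb_drop, ofLsb_lsb_lt hql, ofLsb_lsb_lt hpl']
    refine (run_moveN (c := ex nL) (a := ex SZ) (b := .r .Y) (by simp [ex]) (by simp [ex])
      (by simp [ex]) (s := s.set (ex SZ) (bs (mulLsb l (lsb l q) (lsb l p)))) (N := l)
      (l := bs (lsb l (q * p))) (rest := bs (lsb l (q * p / 2 ^ l)))
      (by simp [ex, hnL]) (by rw [Store.set_same, e]) (by simp)).cast ?_ le_rfl
    clear hxV
    apply Store.ext'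
    intro r
    simp only [Store.set]
    clear hs hl1 hp3 hpl hVl hpl' hml hb1 hb2 hql c1 c2 c3 c4 c5 c6 c7
    split_ifs <;> simp_all
  have c9 : Runs (clr (ex SZ))
      ((s.set (ex SZ) (bs (lsb l (q * p / 2 ^ l)))).set (.r .Y) (bs (lsb l (q * p))))
      (s.set (.r .Y) (bs (lsb l (q * p)))) (2 * l + 1) := by
    refine (run_clr (a := ex SZ) (s := (s.set (ex SZ) (bs (lsb l (q * p / 2 ^ l)))).set (.r .Y)
      (bs (lsb l (q * p))))).cast ?_ (by simp [ex])
    clear hxV
    apply Store.ext'
    intro r
    simp only [Store.set]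
    clear hs hl1 hp3 hpl hVl hpl' hml hb1 hb2 hql c1 c2 c3 c4 c5 c6 c7 c8
    split_ifs <;> simp_all
  have c10 : Runs (subL (ex nL) (.r .X) (.r .Y) (.r .CY)) (s.set (.r .Y) (bs (lsb l (q * p))))
      (s.set (.r .X) (bs (lsb l (V - q * p)))) (10 * l + 10) := by
    refine (run_subL (by simp [ex]) (s := s.set (.r .Y) (bs (lsb l (q * p)))) (l := l)
      (v := V) (w := q * p) (by simp [ex, hnL]) hVl hb1 (by simp [hX, ← hxV])
      (by simp) (by simp [hCY])).cast ?_ le_rfl
    clear hxV
    apply Store.ext'
    intro r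
    simp only [Store.set]
    clear hs hl1 hp3 hpl hVl hpl' hml hb1 hb2 hql c1 c2 c3 c4 c5 c6 c7 c8 c9
    split_ifs <;> simp_all
  have c11 : Runs (condSub (ex nL) (.r .X) (ex Pm) (.r .Y) (.r .CY))
      (s.set (.r .X) (bs (lsb l (V - q * p)))) (s.set (.r .X) (bs (lsb l (V % p))))
      (20 * l + 20) := by
    refine (run_condSub (by simp [ex]) (s := s.set (.r .X) (bs (lsb l (V - q * p)))) (l := l)
      (v := V - q * p) (w := p) (by simp [ex, hnL]) (by omega) hpl'
      (by simp) (by simp [ex, hPm]) (by simp [hY]) (by simp [hCY])).cast ?_ le_rfl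
    rw [Store.set_set]
    congr 3
    have h1 : V % p = (V - q * p) % p := by
      conv_lhs => rw [← Nat.sub_add_cancel hb1]
      rw [Nat.add_mul_mod_self_right]
    rw [h1]
    split_ifs with h2
    · rw [Nat.mod_eq_sub_mod h2, Nat.mod_eq_of_lt (by omega)]
    · rw [Nat.mod_eq_of_lt (by omega)]
  have r := run_sq_cons c1 (run_sq_cons c2 (run_sq_cons c3 (run_sq_cons c4 (run_sq_cons c5
    (run_sq_cons c6 (run_sq_cons c7 (run_sq_cons c8 (run_sq_cons c9 (run_sq_cons c10
    (run_sq_cons c11 run_sq_nil))))))))))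
  refine r.mono ?_
  have : (2 * C1 + 300) * (t l + l) = C1 * (t l + l) + C1 * (t l + l) + 300 * (t l + l) := by ring
  rw [this]
  omega

omit [DecidableEq τ] [DecidableEq κ] in
theorem ne_of_ctxReg {v w : RF τ κ} (hv : ctxReg v = false) (hw : ctxReg w = true) : w ≠ v := by
  rintro rfl
  rw [hv] at hw
  exact absurd hw (by decide)

theorem run_mulX (hs : SmallSpec sm t C1) : ∃ C0 : ℕ, ∀ (s : Store (RF τ κ) (Sy α))
    (l p a b : ℕ) (v : RF τ κ), ctxReg v = false → v ≠ r X → Ctx s l p → a < p → b < p →
    s (r X) = bs (lsb l a) → s v = bs (lsb l b) →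
    Runs (mulX sm v) s (s.set (r X) (bs (lsb l (a * b % p)))) (C0 * (t l + l)) := by
  obtain ⟨C2, hred⟩ := run_redX (sm := sm) hs
  refine ⟨C1 + C2 + 100, ?_⟩
  intro s l p a b v hv hvX hC ha hb hX hsv
  have hl1 := hC.l1
  have hpl := hC.pl
  have hnL := hC.nL
  have hSX := hC.SX
  have hSY := hC.SY
  have hSZ := hC.SZ
  have hid := hC.idle
  have v1 : ex nL ≠ v := ne_of_ctxReg hv rfl
  have v2 : ex SY ≠ v := ne_of_ctxReg hv rfl
  have v3 : ex SX ≠ v := ne_of_ctxReg hv rfl
  have hal : a < 2 ^ l := by nlinarith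
  have hbl : b < 2 ^ l := by nlinarith
  have habl : a * b < 2 ^ l := lt_of_lt_of_le (Nat.mul_lt_mul'' ha hb) hpl
  have c1 : Runs (mvAll (.r .X) (ex SX)) s ((s.set (.r .X) []).set (ex SX) (bs (lsb l a)))
      (2 * l + 1) := by
    refine Runs.cast (run_mvAll (a := .r .X) (b := ex SX) (by simp [ex]) (s := s)) ?_ ?_
    · rw [hSX, hX]; rfl
    · rw [hX, bs_length, lsb_length]
  have c2 : Runs (cpL (ex nL) v (ex SY)) ((s.set (.r .X) []).set (ex SX) (bs (lsb l a)))
      (((s.set (.r .X) []).set (ex SX) (bs (lsb l a))).set (ex SY) (bs (lsb l b)))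
      (3 * l + 2) :=
    run_cpL v1 (by simp [ex]) v2.symm (by simp [ex, hnL])
      (by rw [Store.set_ne _ _ v3.symm, Store.set_ne _ _ hvX]; exact hsv) (by simp)
      (by simp [ex, hSY])
  have c3 : Runs sm (((s.set (.r .X) []).set (ex SX) (bs (lsb l a))).set (ex SY)
      (bs (lsb l b))) ((s.set (.r .X) []).set (ex SZ) (bs (mulLsb l (lsb l a) (lsb l b))))
      (C1 * (t l + l)) := by
    refine (hs _ l (lsb l a) (lsb l b) hl1 (by simp) (by simp) (by simp [ex]) (by simp [ex])
      (by simp [ex, hSZ]) (by simp [ex, hnL])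
      (smIdle_set (smIdle_set (smIdle_set hid rfl _) rfl _) rfl _)).cast ?_ le_rfl
    apply Store.ext'
    intro r
    simp only [Store.set]
    clear hs hred ha hb hl1 hpl hal hbl habl c1 c2
    split_ifs <;> simp_all
  have c4 : Runs (moveN (ex nL) (ex SZ) (.r .X)) ((s.set (.r .X) []).set (ex SZ)
      (bs (mulLsb l (lsb l a) (lsb l b))))
      ((s.set (ex SZ) (bs (lsb l (a * b / 2 ^ l)))).set (.r .X) (bs (lsb l (a * b))))
      (3 * l + 2) := by
    have e : (bs (mulLsb l (lsb l a) (lsb l b)) : List (Sy α)) =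
        bs (lsb l (a * b)) ++ bs (lsb l (a * b / 2 ^ l)) := by
      rw [← bs_append]
      congr 1
      conv_lhs => rw [← List.take_append_drop l (mulLsb l (lsb l a) (lsb l b))]
      rw [mulLsb_take, mulLsb_drop, ofLsb_lsb_lt hal, ofLsb_lsb_lt hbl]
    refine (run_moveN (c := ex nL) (a := ex SZ) (b := .r .X) (by simp [ex]) (by simp [ex])
      (by simp [ex]) (s := (s.set (.r .X) []).set (ex SZ)
        (bs (mulLsb l (lsb l a) (lsb l b)))) (N := l)
      (l := bs (lsb l (a * b))) (rest := bs (lsb l (a * b / 2 ^ l)))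
      (by simp [ex, hnL]) (by rw [Store.set_same, e]) (by simp)).cast ?_ le_rfl
    apply Store.ext'
    intro r
    simp only [Store.set]
    clear hs hred ha hb hl1 hpl hal hbl habl c1 c2 c3
    split_ifs <;> simp_all
  have c5 : Runs (clr (ex SZ))
      ((s.set (ex SZ) (bs (lsb l (a * b / 2 ^ l)))).set (.r .X) (bs (lsb l (a * b))))
      (s.set (.r .X) (bs (lsb l (a * b)))) (2 * l + 1) := by
    refine (run_clr (a := ex SZ) (s := (s.set (ex SZ) (bs (lsb l (a * b / 2 ^ l)))).set (.r .X)
      (bs (lsb l (a * b))))).cast ?_ (by simp [ex])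
    apply Store.ext'
    intro r
    simp only [Store.set]
    clear hs hred ha hb hl1 hpl hal hbl habl c1 c2 c3 c4
    split_ifs <;> simp_all
  have c6 : Runs (redX sm) (s.set (.r .X) (bs (lsb l (a * b))))
      (s.set (.r .X) (bs (lsb l (a * b % p)))) (C2 * (t l + l)) := by
    refine (hred (s.set (.r .X) (bs (lsb l (a * b)))) l p (lsb l (a * b))
      (hC.set rfl _) (by simp) (by simp)).cast ?_ le_rfl
    rw [Store.set_set, ofLsb_lsb_lt habl]
  have r := run_sq_cons c1 (run_sq_cons c2 (run_sq_cons c3 (run_sq_cons c4 (run_sq_cons c5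
    (run_sq_cons c6 run_sq_nil)))))
  refine r.mono ?_
  have : (C1 + C2 + 100) * (t l + l) = C1 * (t l + l) + C2 * (t l + l) + 100 * (t l + l) := by ring
  rw [this]
  omega

theorem run_mulR (hs : SmallSpec sm t C1) : ∃ C0 : ℕ, ∀ (s : Store (RF τ κ) (Sy α))
    (l p a b : ℕ) (u v : RF τ κ), ctxReg v = false → v ≠ r X → ctxReg u = false → u ≠ r X →
    u ≠ v → Ctx s l p → a < p → b < p → s (r X) = [] →
    s u = bs (lsb l a) → s v = bs (lsb l b) →
    Runs (mulR sm u v) s (s.set u (bs (lsb l (a * b % p)))) (C0 * (t l + l)) := by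
  obtain ⟨C2, hmul⟩ := run_mulX (sm := sm) hs
  refine ⟨C2 + 100, ?_⟩
  intro s l p a b u v hv hvX hu huX huv hC ha hb hX hsu hsv
  have hl1 := hC.l1
  have c1 : Runs (mvAll u (.r .X)) s ((s.set u []).set (.r .X) (bs (lsb l a))) (2 * l + 1) := by
    refine Runs.cast (run_mvAll (a := u) (b := .r .X) huX (s := s)) ?_ ?_
    · rw [hX, hsu]; rfl
    · rw [hsu, bs_length, lsb_length]
  have c2 : Runs (mulX sm v) ((s.set u []).set (.r .X) (bs (lsb l a)))
      ((s.set u []).set (.r .X) (bs (lsb l (a * b % p)))) (C2 * (t l + l)) := by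
    refine (hmul ((s.set u []).set (.r .X) (bs (lsb l a))) l p a b v hv hvX
      ((hC.set hu _).set rfl _) ha hb (by simp)
      (by rw [Store.set_ne _ _ hvX, Store.set_ne _ _ huv.symm]; exact hsv)).cast ?_ le_rfl
    rw [Store.set_set]
  have c3 : Runs (mvAll (.r .X) u) ((s.set u []).set (.r .X) (bs (lsb l (a * b % p))))
      (s.set u (bs (lsb l (a * b % p)))) (2 * l + 1) := by
    refine (run_mvAll (a := .r .X) (b := u) huX.symm
      (s := (s.set u []).set (.r .X) (bs (lsb l (a * b % p))))).cast ?_ (by simp)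
    rw [Store.set_ne _ _ huX, Store.set_same, Store.set_same]
    apply Store.ext'
    intro r
    simp only [Store.set]
    clear hs hmul ha hb hl1 c1 c2
    split_ifs <;> simp_all
  have r := run_sq_cons c1 (run_sq_cons c2 (run_sq_cons c3 run_sq_nil))
  refine r.mono ?_
  have : (C2 + 100) * (t l + l) = C2 * (t l + l) + 100 * (t l + l) := by ring
  rw [this]
  omega

end

end Vale.Agent.P338
end

section

/-! The registers needed by the passes of the second core program. -/

namespace Vale.Agent.P338
open Reg R Ex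

section
variable {τ κ α : Type} [DecidableEq τ] [DecidableEq κ]

/-- The registers needed by the passes: counters and constants. -/
structure Pctx (s : Store (RF τ κ) (Sy α)) (l p q b z h : ℕ) : Prop where
  ctx : Ctx s l p
  root : Root p q z h
  b1 : 1 ≤ b
  bl : b ≤ l
  bp : 2 ^ b ≤ p
  pl3 : p ^ 3 ≤ 2 ^ l
  q1 : s (r q1) = num q
  q2 : s (r q2) = num q
  nb1 : s (ex nb1) = num b
  nc : s (ex nc) = num b
  nLb : s (ex nLb) = num (l - b)
  A3 : s (r A3) = num (b * q - 1)
  ONE : s (ex ONE) = bs (lsb l 1)
  ZT : s (ex ZT) = bs (lsb l z)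
  HH : s (ex HH) = bs (lsb l h)
  X : s (r X) = []
  RW : s (r RW) = []
  A2 : s (r A2) = []
  U : s (ex U) = []
  V : s (ex V) = []
  S : s (ex S) = []
  S0 : s (ex S0) = []
  DD : s (ex DD) = []

end

end Vale.Agent.P338
end

section

/-! The constants and the primitive root of the second core program. -/

namespace Vale.Agent.P338
open Reg R Ex

namespace G10

section
variable {ι α : Type} [DecidableEq ι]

theorem lsb_one (l : ℕ) (hl : 1 ≤ l) : lsb l 1 = true :: List.replicate (l - 1) false := by
  obtain ⟨m, rfl⟩ : ∃ m, l = m + 1 := ⟨l - 1, by omega⟩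
  simp only [lsb, List.range_succ_eq_map, List.map_cons, List.map_map, Nat.add_sub_cancel]
  congr 1
  rw [List.eq_replicate_iff]
  refine ⟨by simp, ?_⟩
  intro b hb
  rw [List.mem_map] at hb
  obtain ⟨i, _, rfl⟩ := hb
  simp [Nat.testBit_succ]

theorem lsb_zero (l : ℕ) : lsb l 0 = List.replicate l false := by
  rw [List.eq_replicate_iff]
  refine ⟨by simp [lsb], ?_⟩
  intro b hb
  simp only [lsb, List.mem_map] at hb
  obtain ⟨i, _, rfl⟩ := hb
  simp

end

section
variable {τ κ α : Type} [DecidableEq τ] [DecidableEq κ]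
  {sm : Cmd (RF τ κ) (Sy α)} {t : ℕ → ℕ} {C1 : ℕ}

theorem run_constF : ∃ C0 : ℕ, ∀ (s : Store (RF τ κ) (Sy α)) (l q : ℕ), 1 ≤ l → 2 ≤ q →
    2 * (q + 1) ≤ 2 ^ l → s (ex nL) = num l → s (ex nL2) = num l → s (r q1) = num q →
    s (ex ONE) = [] → s (ex Pm) = [] → s (ex MU) = [] → s (r X) = [] → s (r Y) = [] →
    s (r CY) = [] →
    Runs constF s (((s.set (ex ONE) (bs (lsb l 1))).set (ex Pm) (bs (lsb l (q + 1)))).set (ex MU)
        (bs (lsb l (2 ^ l / (q + 1)))))
      (C0 * (q * l + l * l)) := by
  refine ⟨400, fun s l q hl hq hql hnL hnL2 hq1 hONE hPm hMU hX hY hCY => ?_⟩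
  have h1 := run_fillN (k := 1) (c := (ex nL : RF τ κ)) (b := ex ONE) (x := .bit false) (by simp)
    hnL
  rw [hONE, List.nil_append, one_mul] at h1
  have h2 := run_popF (a := (ex ONE : RF τ κ))
    (s := s.set (ex ONE) (List.replicate l (.bit false)))
  have h3 := run_pushF (b := (ex ONE : RF τ κ))
    (s := (s.set (ex ONE) (List.replicate l (.bit false))).set (ex ONE)
      ((s.set (ex ONE) (List.replicate l (.bit false))) (ex ONE)).tail) (.bit true)
  have e3 : ((s.set (ex ONE) (List.replicate l (.bit false))).set (ex ONE)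
      ((s.set (ex ONE) (List.replicate l (.bit false))) (ex ONE)).tail).set (ex ONE)
      (.bit true :: ((s.set (ex ONE) (List.replicate l (.bit false))).set (ex ONE)
      ((s.set (ex ONE) (List.replicate l (.bit false))) (ex ONE)).tail) (ex ONE)) =
      s.set (ex ONE) (bs (lsb l 1)) := by
    simp only [Store.set_set, Store.set_same]
    congr 1
    rw [lsb_one l hl]
    simp [bs]
  rw [e3] at h3
  have h4 := run_cpL (nl := (ex nL : RF τ κ)) (a := ex ONE) (b := ex Pm) (by simp) (by simp)
    (by simp) (s := s.set (ex ONE) (bs (lsb l 1))) (l := l) (x := bs (lsb l 1))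
    (by simpa using hnL) (by simp) (by simp [lsb]) (by simpa using hPm)
  have h5 := Runs.forN (c := (r q1 : RF τ κ)) (body := incr (ex nL) (ex Pm) (.r .CY)) q
    (fun i => (s.set (ex ONE) (bs (lsb l 1))).set (ex Pm) (bs (lsb l (1 + i)))) (10 * l + 10)
    (by intro i; simpa using hq1)
    (by
      intro i _ x
      have := run_incr (nl := (ex nL : RF τ κ)) (a := ex Pm) (cy := .r .CY) (by simp) (by simp)
        (by simp) (s := ((s.set (ex ONE) (bs (lsb l 1))).set (ex Pm)
          (bs (lsb l (1 + i)))).set (r q1) x) (l := l) (v := 1 + i)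
        (by simpa using hnL) (by simp) (by simpa using hCY)
      refine this.cast ?_ le_rfl
      apply Store.ext'
      intro a
      simp only [Store.set]
      clear hl hq hql h1 h2 h3 h4 this
      split_ifs <;> simp_all [Nat.add_assoc])
  have h6 := run_recipP (nl := (ex nL : RF τ κ)) (nl2 := ex nL2) (x := .r .X) (p := ex Pm)
    (y := .r .Y) (cy := .r .CY) (mu := ex MU) (one := ex ONE) (by simp)
    (s := (s.set (ex ONE) (bs (lsb l 1))).set (ex Pm) (bs (lsb l (1 + q))))
    (l := l) (w := q + 1) (by simpa using hnL) (by simpa using hnL2) hl (by omega) hql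
    (by rw [Nat.add_comm]; simp) (by simp) (by simpa using hX) (by simpa using hY)
    (by simpa using hCY) (by simpa using hMU)
  refine (run_sq_cons h1 (run_sq_cons h2 (run_sq_cons h3 (run_sq_cons h4 (run_sq_cons h5
    (run_sq_cons h6 run_sq_nil)))))).cast ?_ ?_
  · rw [Nat.add_comm 1 q]
  · have e1 : 1 ≤ l * l := Nat.mul_pos hl hl
    have e2 : l ≤ l * l := Nat.le_mul_of_pos_left _ hl
    have e3 : q ≤ q * l := Nat.le_mul_of_pos_right _ hl
    have e4 : q * (10 * l + 10 + 2) = 10 * (q * l) + 12 * q := by ring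
    rw [e4]
    omega

/-- The number of `j` with `1 ≤ j ≤ i` and `z ^ j = 1` modulo `p`. -/
def cnt (p z i : ℕ) : ℕ := ((List.range i).filter fun j => z ^ (j + 1) % p = 1).length

theorem cnt_succ (p z i : ℕ) :
    cnt p z (i + 1) = cnt p z i + if z ^ (i + 1) % p = 1 then 1 else 0 := by
  simp only [cnt, List.range_succ, List.filter_append, List.length_append]
  split_ifs with h <;> simp [h]

theorem cnt_pos {p z i : ℕ} : 0 < cnt p z i ↔ ∃ e, 0 < e ∧ e ≤ i ∧ z ^ e % p = 1 := by
  simp only [cnt, List.length_pos_iff_exists_mem, List.mem_filter, List.mem_range,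
    decide_eq_true_eq]
  constructor
  · rintro ⟨j, h1, h2⟩
    exact ⟨j + 1, by omega, by omega, h2⟩
  · rintro ⟨e, h1, h2, h3⟩
    exact ⟨e - 1, by omega, by rwa [Nat.sub_add_cancel h1]⟩

theorem cnt_le (p z i : ℕ) : cnt p z i ≤ i := by
  simp only [cnt]
  exact (List.length_filter_le _ _).trans (by simp)

/-- The body of the inner loop. -/
def inner (sm : Cmd (RF τ κ) (Sy α)) : Cmd (RF τ κ) (Sy α) := sq [
      clr (ex HH), cpL (ex nL) (.r .X) (ex HH),
      eqL (ex nL) (.r .X) (ex ONE) (.r .CY) (.r .FL), mulX sm (ex ZT)]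

theorem run_inner (hs : SmallSpec sm t C1) : ∃ C0 : ℕ, ∀ (s : Store (RF τ κ) (Sy α))
    (l p a z : ℕ), Ctx s l p → a < p → z < p → s (r X) = bs (lsb l a) →
    s (ex ZT) = bs (lsb l z) → s (ex ONE) = bs (lsb l 1) → (s (ex HH)).length ≤ l →
    Runs (inner sm) s (((s.set (ex HH) (bs (lsb l a))).set (r FL)
      (s (r FL) ++ List.replicate (if a = 1 then 1 else 0) Sy.mark)).set (r X)
        (bs (lsb l (a * z % p)))) (C0 * (t l + l)) := by
  obtain ⟨C2, hmul⟩ := run_mulX hs
  refine ⟨C2 + 50, fun s l p a z hctx ha hz hX hZT hONE hHH => ?_⟩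
  have hl := hctx.l1
  have hp2 : p ≤ 2 ^ l := (Nat.le_mul_self p).trans hctx.pl
  have h1 := run_clr (a := (ex HH : RF τ κ)) (s := s)
  have h2 := run_cpL (nl := (ex nL : RF τ κ)) (a := .r .X) (b := ex HH) (by simp) (by simp)
    (by simp) (s := s.set (ex HH) []) (l := l) (x := bs (lsb l a))
    (by simpa using hctx.nL) (by simpa using hX) (by simp [lsb]) (by simp)
  rw [Store.set_set] at h2
  have h3 := run_eqL (nl := (ex nL : RF τ κ)) (a := .r .X) (b := ex ONE) (cy := .r .CY)
    (fl := .r .FL) (by simp) (s := s.set (ex HH) (bs (lsb l a))) (l := l) (v := a) (w := 1)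
    (by simpa using hctx.nL) (by omega) (by have := hctx.p3; omega)
    (by simpa using hX) (by simpa using hONE) (by simpa using hctx.CY)
  have e3 : (if a = 1 then (s.set (ex HH) (bs (lsb l a))).set (r FL)
      ((s.set (ex HH) (bs (lsb l a))) (r FL) ++ [Sy.mark]) else s.set (ex HH) (bs (lsb l a))) =
      (s.set (ex HH) (bs (lsb l a))).set (r FL)
        (s (r FL) ++ List.replicate (if a = 1 then 1 else 0) Sy.mark) := by
    split_ifs with h
    · simp
    · apply Store.ext'
      intro x
      simp only [Store.set]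
      clear hs hmul ha hz hHH hl hp2 h1 h2 h3
      split_ifs <;> simp_all
  rw [e3] at h3
  have hctx' : Ctx ((s.set (ex HH) (bs (lsb l a))).set (r FL)
      (s (r FL) ++ List.replicate (if a = 1 then 1 else 0) Sy.mark)) l p :=
    (hctx.set (by rfl) _).set (by rfl) _
  have h4 := hmul _ l p a z (ex ZT) (by rfl) (by simp) hctx' ha hz (by simpa using hX)
    (by simpa using hZT)
  refine (run_sq_cons h1 (run_sq_cons h2 (run_sq_cons h3 (run_sq_cons h4 run_sq_nil)))).mono ?_
  rw [Nat.add_mul]
  have : l ≤ t l + l := Nat.le_add_left _ _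
  omega

/-- The body of the outer loop. -/
def outer (sm : Cmd (RF τ κ) (Sy α)) : Cmd (RF τ κ) (Sy α) := sq [
    clr (.r .FL), incr (ex nL) (ex ZT) (.r .CY), cpL (ex nL) (ex ZT) (.r .X),
    forN (ex qm) (inner sm), clr (.r .X)]

theorem run_outer (hs : SmallSpec sm t C1) : ∃ C0 : ℕ, ∀ (s : Store (RF τ κ) (Sy α))
    (l p q z : ℕ), Ctx s l p → 2 ≤ q → q + 1 = p → z + 1 < p → s (ex qm) = num (q - 1) →
    s (ex ZT) = bs (lsb l z) → s (ex ONE) = bs (lsb l 1) → (s (ex HH)).length ≤ l →
    (s (r FL)).length ≤ p → s (r X) = [] →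
    Runs (outer sm) s (((s.set (ex ZT) (bs (lsb l (z + 1)))).set (ex HH)
      (bs (lsb l ((z + 1) ^ (q - 1) % p)))).set (r FL)
        (List.replicate (cnt p (z + 1) (q - 1)) .mark)) (C0 * (p * (t l + l))) := by
  obtain ⟨C2, hin⟩ := run_inner hs
  refine ⟨C2 + 100, fun s l p q z hctx hq hqp hz hqm hZT hONE hHH hFL hX => ?_⟩
  have hl := hctx.l1
  have h1 := run_clr (a := (r FL : RF τ κ)) (s := s)
  have h2 := run_incr (nl := (ex nL : RF τ κ)) (a := ex ZT) (cy := .r .CY) (by simp) (by simp)
    (by simp) (s := s.set (r FL) []) (l := l) (v := z) (by simpa using hctx.nL)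
    (by simpa using hZT) (by simpa using hctx.CY)
  have h3 := run_cpL (nl := (ex nL : RF τ κ)) (a := ex ZT) (b := .r .X) (by simp) (by simp)
    (by simp) (s := (s.set (r FL) []).set (ex ZT) (bs (lsb l (z + 1)))) (l := l)
    (x := bs (lsb l (z + 1))) (by simpa using hctx.nL) (by simp) (by simp [lsb])
    (by simpa using hX)
  let S : ℕ → Store (RF τ κ) (Sy α) := fun i =>
    (((s.set (ex ZT) (bs (lsb l (z + 1)))).set (ex HH)
      (if i = 0 then s (ex HH) else bs (lsb l ((z + 1) ^ i % p)))).set (r FL)
        (List.replicate (cnt p (z + 1) i) .mark)).set (r X)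
          (bs (lsb l ((z + 1) ^ (i + 1) % p)))
  have h4 := Runs.forN (c := (ex qm : RF τ κ)) (body := inner sm) (q - 1) S
    (C2 * (t l + l)) (by intro i; simpa [S] using hqm)
    (by
      intro i hi x
      have hS : Ctx ((S i).set (ex qm) x) l p :=
        ((((hctx.set (by rfl) _).set (by rfl) _).set (by rfl) _).set (by rfl) _).set (by rfl) _
      have := hin ((S i).set (ex qm) x) l p ((z + 1) ^ (i + 1) % p) (z + 1) hS
        (Nat.mod_lt _ (by omega)) hz (by simp [S]) (by simp [S]) (by simpa [S] using hONE)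
        (by
          simp only [S]
          by_cases h : i = 0
          · simpa [h] using hHH
          · simp [h, lsb])
      refine this.cast ?_ le_rfl
      have epow : (z + 1) ^ (i + 1) % p * (z + 1) % p = (z + 1) ^ (i + 1 + 1) % p := by
        rw [pow_succ (z + 1) (i + 1), Nat.mul_mod, Nat.mod_mod, ← Nat.mul_mod]
      rw [epow]
      apply Store.ext'
      intro a
      simp only [S, Store.set, cnt_succ]
      clear hs hin hq hz hHH hFL hl h1 h2 h3 hi this
      split_ifs <;> simp_all [List.replicate_add])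
  have hS0 : ((s.set (r FL) []).set (ex ZT) (bs (lsb l (z + 1)))).set (r X)
      (bs (lsb l (z + 1))) = S 0 := by
    apply Store.ext'
    intro a
    simp only [S, Store.set, cnt]
    have : (z + 1) % p = z + 1 := Nat.mod_eq_of_lt hz
    clear hs hin hq hz hHH hFL hl h1 h2 h3 h4
    split_ifs <;> simp_all
  rw [hS0] at h3
  have h5 := run_clr (a := (r X : RF τ κ)) (s := S (q - 1))
  have hlen : (S (q - 1) (r X)).length = l := by simp [S, lsb]
  refine (run_sq_cons h1 (run_sq_cons h2 (run_sq_cons h3 (run_sq_cons h4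
    (run_sq_cons h5 run_sq_nil))))).cast ?_ ?_
  · apply Store.ext'
    intro a
    have hq1 : ¬ q - 1 = 0 := by omega
    simp only [S, Store.set, hq1, if_false]
    clear hs hin hq hz hHH hFL hl h1 h2 h3 h4 h5
    split_ifs <;> simp_all
  · rw [hlen]
    have e1 : l ≤ t l + l := Nat.le_add_left _ _
    have e2 : 1 ≤ t l + l := by omega
    have e3 : t l + l ≤ p * (t l + l) := Nat.le_mul_of_pos_left _ (by omega)
    have e4 : p ≤ p * (t l + l) := Nat.le_mul_of_pos_right _ e2
    have e5 : (q - 1) * (C2 * (t l + l) + 2) ≤ C2 * (p * (t l + l)) + 2 * p := by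
      calc (q - 1) * (C2 * (t l + l) + 2) ≤ p * (C2 * (t l + l) + 2) :=
            Nat.mul_le_mul_right _ (by omega)
        _ = C2 * (p * (t l + l)) + 2 * p := by ring
    rw [Nat.add_mul]
    omega

theorem exists_root (p q : ℕ) (hp : p.Prime) (hq : q + 1 = p) :
    ∃ z, 0 < z ∧ z < p ∧ ∀ e, 0 < e → e < q → z ^ e % p ≠ 1 := by
  have : Fact p.Prime := ⟨hp⟩
  obtain ⟨g, hg⟩ := IsCyclic.exists_ofOrder_eq_natCard (α := (ZMod p)ˣ)
  rw [Nat.card_eq_fintype_card, ZMod.card_units_eq_totient, Nat.totient_prime hp] at hg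
  refine ⟨(g : ZMod p).val, ?_, ZMod.val_lt _, ?_⟩
  · rw [Nat.pos_iff_ne_zero]
    intro h
    rw [ZMod.val_eq_zero] at h
    exact g.ne_zero h
  · intro e he heq h
    have h1 : ((g : ZMod p)) ^ e = 1 := by
      have h2 : (((g : ZMod p).val ^ e : ℕ) : ZMod p) = ((1 : ℕ) : ZMod p) := by
        rw [ZMod.natCast_eq_natCast_iff]
        unfold Nat.ModEq
        rw [h, Nat.mod_eq_of_lt hp.one_lt]
      simpa using h2
    have h3 : g ^ e = 1 := by
      apply Units.ext
      simpa using h1
    have h4 := orderOf_dvd_of_pow_eq_one h3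
    rw [hg] at h4
    have := Nat.le_of_dvd he h4
    omega

theorem exists_least_root (p q : ℕ) (hp : p.Prime) (hq : q + 1 = p) :
    ∃ z, 0 < z ∧ z < p ∧ (∀ e, 0 < e → e < q → z ^ e % p ≠ 1) ∧
      ∀ y, y < z → 0 < y → ∃ e, 0 < e ∧ e < q ∧ y ^ e % p = 1 := by
  classical
  have hex := exists_root p q hp hq
  obtain ⟨h1, h2, h3⟩ := Nat.find_spec hex
  refine ⟨Nat.find hex, h1, h2, h3, ?_⟩
  intro y hy hy0
  have := Nat.find_min hex hy
  by_contra hcon
  apply this
  refine ⟨hy0, by omega, ?_⟩
  intro e he heq h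
  exact hcon ⟨e, he, heq, h⟩

theorem pow_pred_mod (p q z : ℕ) (hp : p.Prime) (hq : q + 1 = p) (h0 : 0 < z) (hz : z < p) :
    z ^ q % p = 1 := by
  have : Fact p.Prime := ⟨hp⟩
  have h1 : (z : ZMod p) ≠ 0 := by
    rw [Ne, ZMod.natCast_eq_zero_iff]
    exact Nat.not_dvd_of_pos_of_lt h0 hz
  have h2 := ZMod.pow_card_sub_one_eq_one h1
  have h3 : ((z ^ q : ℕ) : ZMod p) = ((1 : ℕ) : ZMod p) := by
    have : q = p - 1 := by omega
    rw [this]; simpa using h2
  rw [ZMod.natCast_eq_natCast_iff] at h3
  unfold Nat.ModEq at h3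
  rwa [Nat.mod_eq_of_lt hp.one_lt] at h3

theorem run_rootF (hs : SmallSpec sm t C1) : ∃ C0 : ℕ, ∀ (s : Store (RF τ κ) (Sy α))
    (l p q : ℕ), Ctx s l p → p.Prime → q + 1 = p → s (ex qm) = num (q - 1) →
    s (ex ONE) = bs (lsb l 1) → s (ex ZT) = [] → s (ex HH) = [] → s (r FL) = [] →
    s (r X) = [] →
    ∃ z h, Root p q z h ∧
      Runs (rootF sm) s ((s.set (ex ZT) (bs (lsb l z))).set (ex HH) (bs (lsb l h)))
        (C0 * (p * p * (t l + l))) := by
  obtain ⟨C2, hout⟩ := run_outer hs
  refine ⟨C2 + 100, fun s l p q hctx hp hqp hqm hONE hZT hHH hFL hX => ?_⟩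
  have hl := hctx.l1
  have hp3 := hctx.p3
  obtain ⟨z, hz0, hzp, hzo, hzmin⟩ := exists_least_root p q hp hqp
  have hpw := pow_pred_mod p q z hp hqp hz0 hzp
  refine ⟨z, z ^ (q - 1) % p, ⟨hp, hp3, hqp, hzp, Nat.mod_lt _ (by omega), ?_, hzo, hpw⟩, ?_⟩
  · rw [Nat.mul_mod, Nat.mod_mod, ← Nat.mul_mod, ← pow_succ', Nat.sub_add_cancel (by omega)]
    exact hpw
  -- the program
  let S : ℕ → Store (RF τ κ) (Sy α) := fun y =>
    ((s.set (ex ZT) (bs (lsb l y))).set (ex HH)
      (if y = 0 then [] else bs (lsb l (y ^ (q - 1) % p)))).set (r FL)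
        (if y = 0 then [Sy.mark] else List.replicate (cnt p y (q - 1)) Sy.mark)
  have h1 := run_fillN (k := 1) (c := (ex nL : RF τ κ)) (b := ex ZT) (x := Sy.bit false) (by simp)
    hctx.nL
  rw [hZT, List.nil_append, one_mul] at h1
  have h2 := run_pushB (b := (r FL : RF τ κ)) (s := s.set (ex ZT) (List.replicate l (Sy.bit false)))
    (Sy.mark)
  have e2 : (s.set (ex ZT) (List.replicate l (Sy.bit false))).set (r FL)
      ((s.set (ex ZT) (List.replicate l (Sy.bit false))) (r FL) ++ [Sy.mark]) = S 0 := by
    apply Store.ext'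
    intro a
    simp only [S, Store.set, lsb_zero, bs_replicate]
    clear hs hout hl hp3 hz0 hzp hzmin h1 h2
    split_ifs <;> simp_all
  rw [e2] at h2
  have h3 := Runs.loopN (c := outer sm) (p := fun h => (h (.r .FL)).isSome) z S
    (C2 * (p * (t l + l)))
    (by
      intro y hy
      simp only [Store.heads, S, Store.set_same]
      by_cases h : y = 0
      · simp [h]
      · obtain ⟨e, he, heq, h1⟩ := hzmin y hy (by omega)
        have : 0 < cnt p y (q - 1) := cnt_pos.mpr ⟨e, he, by omega, h1⟩
        obtain ⟨m, hm⟩ : ∃ m, cnt p y (q - 1) = m + 1 := ⟨cnt p y (q - 1) - 1, by omega⟩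
        simp [h, hm, List.replicate_succ])
    (by
      intro y hy
      have hS : Ctx (S y) l p := ((hctx.set (by rfl) _).set (by rfl) _).set (by rfl) _
      have := hout (S y) l p q y hS (by omega) hqp (by omega) (by simpa [S] using hqm)
        (by simp [S]) (by simpa [S] using hONE)
        (by
          simp only [S]
          by_cases h : y = 0
          · simp [h]
          · simp [h, lsb])
        (by
          simp only [S]
          by_cases h : y = 0
          · simp [h]; omega
          · have := cnt_le p y (q - 1)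
            simp [h]; omega)
        (by simpa [S] using hX)
      refine this.cast ?_ le_rfl
      apply Store.ext'
      intro a
      simp only [S, Store.set]
      clear hs hout hl hp3 hz0 hzp hzmin h1 h2 hy this
      split_ifs <;> simp_all)
    (by
      have hz' : z ≠ 0 := by omega
      have : cnt p z (q - 1) = 0 := by
        by_contra hne
        obtain ⟨e, he, heq, h1⟩ := cnt_pos.mp (Nat.pos_of_ne_zero hne)
        exact hzo e he (by omega) h1
      simp [Store.heads, S, hz', this])
  have hfin : S z = (s.set (ex ZT) (bs (lsb l z))).set (ex HH)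
      (bs (lsb l (z ^ (q - 1) % p))) := by
    have hz' : z ≠ 0 := by omega
    have : cnt p z (q - 1) = 0 := by
      by_contra hne
      obtain ⟨e, he, heq, h1⟩ := cnt_pos.mp (Nat.pos_of_ne_zero hne)
      exact hzo e he (by omega) h1
    apply Store.ext'
    intro a
    simp only [S, Store.set, hz', this, if_false]
    clear hs hout hl hp3 hz0 hzp hzmin h1 h2 h3
    split_ifs <;> simp_all
  rw [hfin] at h3
  refine (run_sq_cons h1 (run_sq_cons h2 (run_sq_cons h3 run_sq_nil))).mono ?_
  have e1 : l ≤ t l + l := Nat.le_add_left _ _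
  have e2 : 1 ≤ t l + l := by omega
  have e3 : t l + l ≤ p * p * (t l + l) := Nat.le_mul_of_pos_left _ (Nat.mul_pos (by omega) (by omega))
  have e4 : z * (C2 * (p * (t l + l)) + 1) ≤ C2 * (p * p * (t l + l)) + p := by
    calc z * (C2 * (p * (t l + l)) + 1) ≤ p * (C2 * (p * (t l + l)) + 1) :=
          Nat.mul_le_mul_right _ (by omega)
      _ = _ := by ring
  have e5 : p ≤ p * p * (t l + l) := by
    calc p ≤ p * p := Nat.le_mul_self p
      _ ≤ p * p * (t l + l) := Nat.le_mul_of_pos_right _ e2
  rw [Nat.add_mul]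
  omega

end

end G10

end Vale.Agent.P338
end

section

/-! Correctness and cost of the elementary programs on slots. -/

namespace Vale.Agent.P338
open Reg R

/-! ### Addition with carry -/

theorem addc_append : ∀ (x y x' y' : List Bool) (c : Bool), x.length = y.length →
    addc (x ++ x') (y ++ y') c =
      ((addc x y c).1 ++ (addc x' y' (addc x y c).2).1, (addc x' y' (addc x y c).2).2)
  | [], [], x', y', c, _ => by simp
  | [], _ :: _, _, _, _, h => by simp at h
  | _ :: _, [], _, _, _, h => by simp at h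
  | a :: x, b :: y, x', y', c, h => by
    have ih := addc_append x y x' y' ((a && b) || (c && (a || b))) (by simpa using h)
    simp only [List.cons_append, addc_cons, ih]

theorem addc_length : ∀ (x y : List Bool) (c : Bool), x.length = y.length →
    (addc x y c).1.length = x.length
  | [], y, c, _ => by simp
  | _ :: _, [], _, h => by simp at h
  | a :: x, b :: y, c, h => by
    simp only [addc_cons, List.length_cons]
    rw [addc_length x y _ (by simpa using h)]

section
variable {τ α : Type} [DecidableEq τ]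

theorem set_shadow (s : Store (Reg τ) (Sy α)) {a c : Reg τ} (h : a ≠ c)
    (u v w : List (Sy α)) : ((s.set a u).set c v).set a w = (s.set a w).set c v := by
  apply Store.ext'
  intro i
  simp only [Store.set]
  split_ifs <;> simp_all

theorem set_set2 (s : Store (Reg τ) (Sy α)) {a c : Reg τ} (h : a ≠ c)
    (u v u' v' : List (Sy α)) :
    (((s.set a u).set c v).set a u').set c v' = (s.set a u').set c v' := by
  rw [set_shadow s h, Store.set_set]

/-- the state after some steps of an addition pass -/
def addS (s : Store (Reg τ) (Sy α)) (x y : List Bool) (c : Bool) (rest : List (Sy α)) (j : ℕ) :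
    Store (Reg τ) (Sy α) :=
  ((s.set (r X) (bs (x.drop j ++ (addc (x.take j) (y.take j) c).1))).set (r P)
    (bs (y.drop j) ++ rest)).set (r CY) [.bit (addc (x.take j) (y.take j) c).2]

theorem run_addStep (s : Store (Reg τ) (Sy α)) (x y : List Bool) (c : Bool)
    (rest : List (Sy α)) (j : ℕ) (hj : j < x.length) (hxy : x.length = y.length) (z : List (Sy α)) :
    Runs addStep ((addS s x y c rest j).set (r nE) z)
      ((addS s x y c rest (j + 1)).set (r nE) z) 1 := by
  have hj' : j < y.length := by omega
  obtain ⟨a, x', hx, hx1, hx2⟩ : ∃ a x', x.drop j = a :: x' ∧ x.drop (j + 1) = x' ∧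
      x.take (j + 1) = x.take j ++ [a] :=
    ⟨_, _, List.drop_eq_getElem_cons hj, rfl, List.take_succ_eq_append_getElem hj⟩
  obtain ⟨b, y', hy, hy1, hy2⟩ : ∃ a x', y.drop j = a :: x' ∧ y.drop (j + 1) = x' ∧
      y.take (j + 1) = y.take j ++ [a] :=
    ⟨_, _, List.drop_eq_getElem_cons hj', rfl, List.take_succ_eq_append_getElem hj'⟩
  have hadd := addc_append (x.take j) (y.take j) [a] [b] c (by simp [hxy])
  rw [← hx2, ← hy2] at hadd
  have hone : ∀ b : Bool, isOne (some (.bit b : Sy α)) = b := by intro b; cases b <;> rfl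
  refine Runs.act' _ fun i => ?_
  have e1 : ((addS s x y c rest j).set (r nE) z) (r X) =
      .bit a :: bs (x' ++ (addc (x.take j) (y.take j) c).1) := by
    simp [addS, Store.set, hx]
  have e2 : ((addS s x y c rest j).set (r nE) z) (r P) = .bit b :: (bs y' ++ rest) := by
    simp [addS, Store.set, hy]
  have e3 : ((addS s x y c rest j).set (r nE) z) (r CY) =
      [.bit (addc (x.take j) (y.take j) c).2] := by
    simp [addS, Store.set]
  simp only [Store.heads, e1, e2, e3, List.head?_cons, hone]
  by_cases h1 : i = r X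
  · subst h1
    simp only [if_true, Act.app, e1]
    simp [addS, Store.set, hadd, addc_cons, hx1]
  by_cases h2 : i = r P
  · subst h2
    simp only [h1, if_false, if_true, Act.app, e2]
    simp [addS, Store.set, hy1]
  by_cases h3 : i = r CY
  · subst h3
    simp only [h1, h2, if_false, if_true, Act.app, e3]
    simp [addS, Store.set, hadd, addc_cons]
  · simp only [h1, h2, h3, if_false, Act.app]
    simp [addS, Store.set, h1, h2, h3]

theorem run_addPass {s : Store (Reg τ) (Sy α)} {E : ℕ} {x y : List Bool} {c : Bool}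
    {rest : List (Sy α)} (hE : s (r nE) = num E) (hX : s (r X) = bs x)
    (hCY : s (r CY) = [.bit c]) (hP : s (r P) = bs y ++ rest) (hx : x.length = 2 * E)
    (hy : y.length = 2 * E) :
    Runs (forN (.r .nE) (.seq addStep addStep)) s
      (((s.set (r X) (bs (addc x y c).1)).set (r P) rest).set (r CY) [.bit (addc x y c).2])
      (4 * E + 2) := by
  have key := Runs.forN (c := r nE) (body := .seq addStep addStep) E
    (fun i => addS s x y c rest (2 * i)) 2
    (by intro i; simp [addS, Store.set, hE])
    (by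
      intro i hi z
      have h1 := run_addStep s x y c rest (2 * i) (by omega) (by omega) z
      have h2 := run_addStep s x y c rest (2 * i + 1) (by omega) (by omega) z
      exact (h1.seq h2).mono (by omega))
  have e0 : addS s x y c rest (2 * 0) = s := by
    apply Store.ext'
    intro i
    simp only [addS, Store.set, Nat.mul_zero, List.drop_zero, List.take_zero, addc_nil,
      List.append_nil]
    clear key
    split_ifs <;> simp_all
  have e1 : addS s x y c rest (2 * E) =
      (((s.set (r X) (bs (addc x y c).1)).set (r P) rest).set (r CY) [.bit (addc x y c).2]) := by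
    unfold addS
    rw [List.drop_of_length_le (by omega), List.drop_of_length_le (by omega),
      List.take_of_length_le (by omega), List.take_of_length_le (by omega)]
    simp
  simp only [e0, e1] at key
  exact key.mono (by omega)

/-- the store with given contents of `X`, `P`, `CY` -/
def foldS (s : Store (Reg τ) (Sy α)) (x p c : List (Sy α)) : Store (Reg τ) (Sy α) :=
  ((s.set (r X) x).set (r P) p).set (r CY) c

theorem run_addPass' {s : Store (Reg τ) (Sy α)} {E : ℕ} {x y : List Bool} {c : Bool}
    {rest : List (Sy α)} (hE : s (r nE) = num E) (hx : x.length = 2 * E)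
    (hy : y.length = 2 * E) :
    Runs (forN (.r .nE) (.seq addStep addStep)) (foldS s (bs x) (bs y ++ rest) [.bit c])
      (foldS s (bs (addc x y c).1) rest [.bit (addc x y c).2]) (4 * E + 2) := by
  refine (run_addPass (s := foldS s (bs x) (bs y ++ rest) [.bit c]) (E := E) (x := x) (y := y)
    (c := c) (rest := rest) ?_ ?_ ?_ ?_ hx hy).cast ?_ le_rfl
  · simp [foldS, hE]
  · simp [foldS]
  · simp [foldS]
  · simp [foldS]
  · apply Store.ext'
    intro i
    simp only [foldS, Store.set]
    split_ifs <;> simp_all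

theorem foldS_start {s : Store (Reg τ) (Sy α)} {x p c : List (Sy α)} (hp : s (r P) = p) :
    (s.set (r X) x).set (r CY) c = foldS s x p c := by
  apply Store.ext'
  intro i
  simp only [foldS, Store.set]
  split_ifs <;> simp_all

theorem foldS_end {s : Store (Reg τ) (Sy α)} {x p c : List (Sy α)} (hc : s (r CY) = []) :
    (foldS s x p c).set (r CY) [] = (s.set (r X) x).set (r P) p := by
  apply Store.ext'
  intro i
  simp only [foldS, Store.set]
  split_ifs <;> simp_all

theorem run_foldP {s : Store (Reg τ) (Sy α)} {E : ℕ} {V : List Bool} {rest : List (Sy α)}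
    (hE : s (r nE) = num E) (hX : s (r X) = []) (hCY : s (r CY) = [])
    (hP : s (r P) = bs V ++ rest) (hV : V.length = 8 * E) :
    Runs foldP s ((s.set (r X) (bs (fold4 (2 * E) V))).set (r P) rest) (100 * E + 100) := by
  obtain ⟨m, hm⟩ : ∃ m, m = 2 * E := ⟨_, rfl⟩
  have hsplit : V = V.take m ++ ((V.drop m).take m ++ ((V.drop (2 * m)).take m ++
      (V.drop (3 * m)).take m)) := by
    have h1 : (V.drop (3 * m)).take m = V.drop (3 * m) :=
      List.take_of_length_le (by rw [List.length_drop]; omega)
    have h2 : V.drop (3 * m) = (V.drop (2 * m)).drop m := by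
      rw [List.drop_drop]; congr 1; omega
    have h3 : V.drop (2 * m) = (V.drop m).drop m := by rw [List.drop_drop]; congr 1; omega
    rw [h1, h2, List.take_append_drop, h3, List.take_append_drop, List.take_append_drop]
  set y0 := V.take m with hy0
  set y1 := (V.drop m).take m with hy1
  set y2 := (V.drop (2 * m)).take m with hy2
  set y3 := (V.drop (3 * m)).take m with hy3
  have l0 : y0.length = 2 * E := by rw [hy0, List.length_take]; omega
  have l1 : y1.length = 2 * E := by rw [hy1, List.length_take, List.length_drop]; omega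
  have l2 : y2.length = 2 * E := by rw [hy2, List.length_take, List.length_drop]; omega
  have l3 : y3.length = 2 * E := by rw [hy3, List.length_take, List.length_drop]; omega
  have lz : (zeros m).length = 2 * E := by simp [hm]
  obtain ⟨q0, hq0⟩ : ∃ q, q = addc (zeros m) y0 false := ⟨_, rfl⟩
  obtain ⟨q1, hq1⟩ : ∃ q, q = addc q0.1 y1 q0.2 := ⟨_, rfl⟩
  obtain ⟨q2, hq2⟩ : ∃ q, q = addc q1.1 y2 q1.2 := ⟨_, rfl⟩
  obtain ⟨q3, hq3⟩ : ∃ q, q = addc q2.1 y3 q2.2 := ⟨_, rfl⟩
  have m0 : q0.1.length = 2 * E := by rw [hq0, addc_length _ _ _ (by omega), lz]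
  have m1 : q1.1.length = 2 * E := by rw [hq1, addc_length _ _ _ (by omega), m0]
  have m2 : q2.1.length = 2 * E := by rw [hq2, addc_length _ _ _ (by omega), m1]
  have hfold : fold4 (2 * E) V = q3.1 := by
    rw [← hm, hq3, hq2, hq1, hq0]; rfl
  have s1 := run_fillN (k := 2) (c := (r nE : Reg τ)) (b := r X) (x := (Sy.bit false : Sy α))
    (by simp) (s := s) (N := E) hE
  have s2 := run_pushB (b := (r CY : Reg τ))
    (s := s.set (r X) (s (r X) ++ List.replicate (2 * E) (Sy.bit false))) (Sy.bit false : Sy α)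
  have e2 : (s.set (r X) (s (r X) ++ List.replicate (2 * E) (Sy.bit false))).set (r CY)
      ((s.set (r X) (s (r X) ++ List.replicate (2 * E) (Sy.bit false))) (r CY) ++ [Sy.bit false]) =
      foldS s (bs (zeros m)) (bs y0 ++ (bs y1 ++ (bs y2 ++ (bs y3 ++ rest)))) [Sy.bit false] := by
    have hP' : s (r P) = bs y0 ++ (bs y1 ++ (bs y2 ++ (bs y3 ++ rest))) := by
      rw [hP, hsplit]; simp
    rw [← foldS_start hP', hX, Store.set_ne _ _ (by simp), hCY, hm, zeros, bs_replicate]
    rfl
  rw [e2] at s2
  have p0 := run_addPass' (s := s) (rest := bs y1 ++ (bs y2 ++ (bs y3 ++ rest))) (c := false)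
    hE lz l0
  rw [← hq0] at p0
  have p1 := run_addPass' (s := s) (rest := bs y2 ++ (bs y3 ++ rest)) (c := q0.2) hE m0 l1
  rw [← hq1] at p1
  have p2 := run_addPass' (s := s) (rest := bs y3 ++ rest) (c := q1.2) hE m1 l2
  rw [← hq2] at p2
  have p3 := run_addPass' (s := s) (rest := rest) (c := q2.2) hE m2 l3
  rw [← hq3] at p3
  have s3 := run_popF (a := (r CY : Reg τ)) (s := foldS s (bs q3.1) rest [Sy.bit q3.2])
  have h := run_sq_cons s1 (run_sq_cons s2 (run_sq_cons p0 (run_sq_cons p1 (run_sq_cons p2
    (run_sq_cons p3 (run_sq_cons s3 run_sq_nil))))))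
  refine Runs.cast h ?_ (by omega)
  rw [hfold, ← foldS_end (c := [Sy.bit q3.2]) hCY]
  simp [foldS]

/-! ### Rotations -/

theorem run_rot1 {a : Reg τ} (s : Store (Reg τ) (Sy α)) :
    Runs (mvB a a) s (s.set a ((s a).rotate 1)) 1 := by
  rcases hs : s a with _ | ⟨x, l⟩
  · refine Runs.act' _ fun i => ?_
    by_cases ha : i = a
    · subst ha; simp [Act.app, Store.heads, hs]
    · simp [Act.app, ha]
  · have := run_rot hs
    simpa [hs] using this

theorem head_rotate_onehot {n k : ℕ} (hn : 1 ≤ n) :
    ((onehot n).rotate k).head? = some (decide (k % n = 0)) := by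
  have hl : (onehot n).length = n := by simp only [onehot, List.length_cons, zeros_length]; omega
  rw [← List.rotate_mod, hl, List.head?_rotate (by rw [hl]; exact Nat.mod_lt _ (by omega))]
  rcases Nat.eq_zero_or_pos (k % n) with h | h
  · simp [h, onehot]
  · have hlt : k % n < n := Nat.mod_lt _ (by omega)
    obtain ⟨j, hj⟩ : ∃ j, k % n = j + 1 := ⟨k % n - 1, by omega⟩
    have hj' : j < n - 1 := by omega
    rw [hj]
    simp [onehot, zeros, hj']

theorem bs_rotate (l : List Bool) (k : ℕ) :
    (bs (l.rotate k) : List (Sy α)) = (bs l).rotate k := by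
  simp [bs, List.map_rotate]

theorem run_rotH {a : Reg τ} (h1 : a ≠ r X) (h2 : a ≠ r H2) (h3 : a ≠ r nE)
    {s : Store (Reg τ) (Sy α)} {E m : ℕ} {x : List Bool}
    (hE : s (r nE) = num E) (hE1 : 1 ≤ E) (hH2 : s (r H2) = [])
    (ha : s a = bs ((onehot (2 * E)).rotate m)) (hX : s (r X) = bs x) (hx : x.length = 2 * E) :
    Runs (rotH a) s (s.set (r X) (bs (rr m x))) (100 * E + 100) := by
  have hlen : ((onehot (2 * E)).rotate m).length = 2 * E := by
    simp only [List.length_rotate, onehot, List.length_cons, zeros_length]; omega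
  obtain ⟨n, hn⟩ : ∃ n, n = 2 * E := ⟨_, rfl⟩
  have hn1 : 1 ≤ n := by omega
  have s1 := run_cpy2 (c := (r nE : Reg τ)) (a := a) (b := r H2) (s := s) (N := E) h3.symm
    (by simp) h2 hE (by rw [ha, bs_length, hlen])
  rw [hH2, List.nil_append, ha, ← hn] at s1
  set J := (n - m % n) % n with hJ
  have hmod : m % n < n := Nat.mod_lt _ (by omega)
  have hJn : J < n := Nat.mod_lt _ (by omega)
  have hJ1 : (m + J) % n = 0 := by
    rw [hJ, Nat.add_mod, Nat.mod_mod, ← Nat.add_mod]
    have h5 : m + (n - m % n) = n * (m / n + 1) := by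
      have := Nat.div_add_mod m n
      rw [Nat.mul_succ]; omega
    rw [h5]
    exact Nat.mul_mod_right _ _
  have hJ2 : ∀ j < J, (m + j) % n ≠ 0 := by
    intro j hj h0
    have h4 : (J - j) % n = 0 := by
      have h5 : (m + J) % n = (m + j) % n := by rw [hJ1, h0]
      have h6 : m + J = (m + j) + (J - j) := by omega
      rw [h6] at h5
      have h7 : (m + j) + (J - j) ≡ (m + j) + 0 [MOD n] := by simpa [Nat.ModEq] using h5
      have h8 := Nat.ModEq.add_left_cancel' _ h7
      simpa [Nat.ModEq] using h8
    rw [Nat.mod_eq_of_lt (by omega)] at h4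
    omega
  have s2 := Runs.loopN (p := fun h : Reg τ → Option (Sy α) => !isOne (h (.r .H2)))
    (c := .seq (mvB (.r .H2) (.r .H2)) (mvB (.r .X) (.r .X))) J
    (fun j => (s.set (r H2) (bs ((onehot n).rotate (m + j)))).set (r X) (bs (x.rotate j))) 2
    (by
      intro j hj
      have h4 : ((bs ((onehot n).rotate (m + j)) : List (Sy α))).head? = some (.bit false) := by
        rw [bs, List.head?_map, head_rotate_onehot hn1]
        simp [hJ2 j hj]
      simp only [Store.heads]
      rw [Store.set_ne _ _ (by simp), Store.set_same, h4]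
      rfl)
    (by
      intro j hj
      have r1 := run_rot1 (a := (r H2 : Reg τ))
        ((s.set (r H2) (bs ((onehot n).rotate (m + j)))).set (r X) (bs (x.rotate j)))
      have r2 := run_rot1 (a := (r X : Reg τ))
        (((s.set (r H2) (bs ((onehot n).rotate (m + j)))).set (r X) (bs (x.rotate j))).set (r H2)
          (bs ((onehot n).rotate (m + (j + 1)))))
      refine (r1.cast ?_ le_rfl).seq' (r2.cast ?_ le_rfl) (by omega)
      · rw [Store.set_ne _ _ (by simp), Store.set_same, ← bs_rotate, List.rotate_rotate,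
          Nat.add_assoc]
      · rw [Store.set_ne _ _ (by simp), Store.set_same, ← bs_rotate, List.rotate_rotate]
        apply Store.ext'
        intro i
        simp only [Store.set]
        clear hE1 hn1 s1 hmod hJn hj r1 r2
        split_ifs <;> simp_all)
    (by
      have h4 : ((bs ((onehot n).rotate (m + J)) : List (Sy α))).head? = some (.bit true) := by
        rw [bs, List.head?_map, head_rotate_onehot hn1]
        simp [hJ1]
      simp only [Store.heads]
      rw [Store.set_ne _ _ (by simp), Store.set_same, h4]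
      rfl)
  have s3 := run_clr (a := (r H2 : Reg τ))
    (s := (s.set (r H2) (bs ((onehot n).rotate (m + J)))).set (r X) (bs (x.rotate J)))
  have e2 : (s.set (r H2) (bs ((onehot n).rotate (m + 0)))).set (r X) (bs (x.rotate 0)) =
      s.set (r H2) (bs ((onehot n).rotate m)) := by
    rw [Nat.add_zero, List.rotate_zero]
    apply Store.set_eq_self
    rw [Store.set_ne _ _ (by simp), hX]
  simp only [e2] at s2
  have h := run_sq_cons s1 (run_sq_cons s2 (run_sq_cons s3 run_sq_nil))
  refine Runs.cast h ?_ ?_
  · have hrr : rr m x = x.rotate J := by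
      rw [rr, hx, ← hn, hJ]
      conv_lhs => rw [← List.rotate_mod, hx, ← hn]
    rw [hrr]
    apply Store.ext'
    intro i
    simp only [Store.set]
    clear hE1 hn1 s1 hmod hJn s3 s2 h
    split_ifs <;> simp_all
  · rw [Store.set_ne _ _ (by simp), Store.set_same, bs_length, List.length_rotate]
    have : (onehot n).length = n := by
      simp only [onehot, List.length_cons, zeros_length]; omega
    rw [this]
    omega

/-! ### One-hot strings -/

theorem run_mkH {s : Store (Reg τ) (Sy α)} {E : ℕ} (hE : s (r nE) = num E) (hE1 : 1 ≤ E)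
    (hH : s (r H) = []) :
    Runs mkH s (s.set (r H) (bs (onehot (2 * E)))) (100 * E + 100) := by
  have s1 := run_fillN (k := 2) (c := (r nE : Reg τ)) (b := r H) (x := (.bit false : Sy α))
    (by simp) (s := s) (N := E) hE
  have s2 := run_popF (a := (r H : Reg τ))
    (s := s.set (r H) (s (r H) ++ List.replicate (2 * E) (.bit false : Sy α)))
  have s3 := run_pushF (b := (r H : Reg τ))
    (s := (s.set (r H) (s (r H) ++ List.replicate (2 * E) (.bit false : Sy α))).set (r H)
      ((s.set (r H) (s (r H) ++ List.replicate (2 * E) (.bit false : Sy α))) (r H)).tail)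
    (.bit true : Sy α)
  have h := run_sq_cons s1 (run_sq_cons s2 (run_sq_cons s3 run_sq_nil))
  refine Runs.cast h ?_ (by omega)
  simp [hH, onehot, zeros, bs_replicate]

theorem run_mkHh {s : Store (Reg τ) (Sy α)} {E h : ℕ} (hE : s (r nE) = num E)
    (hh : s (r nh) = num h) (hE1 : h < 2 * E) (hH : s (r H) = []) :
    Runs mkHh s (s.set (r H) (bs ((onehot (2 * E)).rotate (2 * E - h)))) (100 * E + 100) := by
  have s1 := run_fillN (k := 2) (c := (r nE : Reg τ)) (b := r H) (x := (Sy.bit false : Sy α))
    (by simp) (s := s) (N := E) hE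
  rw [hH, List.nil_append] at s1
  have s2 := run_dropN (k := 1) (c := (r nh : Reg τ)) (a := r H) (by simp)
    (s := s.set (r H) (List.replicate (2 * E) (Sy.bit false : Sy α))) (N := h)
    (by rw [Store.set_ne _ _ (by simp), hh])
  rw [Store.set_same, Store.set_set, Nat.one_mul, List.drop_replicate] at s2
  have s3 := run_popF (a := (r H : Reg τ))
    (s := s.set (r H) (List.replicate (2 * E - h) (Sy.bit false : Sy α)))
  rw [Store.set_same, Store.set_set, List.tail_replicate] at s3
  have s4 := run_pushF (b := (r H : Reg τ))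
    (s := s.set (r H) (List.replicate (2 * E - h - 1) (Sy.bit false : Sy α))) (Sy.bit true : Sy α)
  rw [Store.set_same, Store.set_set] at s4
  have s5 := Runs.forN (c := (r nh : Reg τ)) (body := pushF (r H) (Sy.bit false : Sy α)) h
    (fun i => s.set (r H) (List.replicate i (Sy.bit false) ++
      (Sy.bit true) :: List.replicate (2 * E - h - 1) (Sy.bit false))) 1
    (by intro i; rw [Store.set_ne _ _ (by simp), hh])
    (by
      intro i hi z
      refine (run_pushF (b := (r H : Reg τ)) (Sy.bit false : Sy α)).cast ?_ le_rfl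
      rw [Store.set_ne _ _ (by simp), Store.set_same]
      apply Store.ext'
      intro i
      simp only [Store.set, List.replicate_succ, List.cons_append]
      clear hE1 s1 s2 s3 s4 hi
      split_ifs <;> simp_all)
  simp only [List.replicate_zero, List.nil_append] at s5
  have hs := run_sq_cons s1 (run_sq_cons s2 (run_sq_cons s3 (run_sq_cons s4
    (run_sq_cons s5 run_sq_nil))))
  refine Runs.cast hs ?_ (by omega)
  congr 1
  rcases Nat.eq_zero_or_pos h with h0 | h0
  · subst h0
    have hl : 2 * E - 0 = (onehot (2 * E)).length := by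
      simp only [onehot, List.length_cons, zeros_length]; omega
    rw [hl, List.rotate_length]
    simp [onehot, zeros, bs_replicate]
  · obtain ⟨j, hj⟩ : ∃ j, 2 * E - h = j + 1 := ⟨2 * E - h - 1, by omega⟩
    rw [List.rotate_eq_drop_append_take (by
      simp only [onehot, List.length_cons, zeros_length]; omega), hj]
    simp only [onehot, zeros, List.drop_succ_cons, List.take_succ_cons, List.drop_replicate,
      List.take_replicate, bs_append, bs_cons, bs_replicate]
    have e1 : 2 * E - 1 - j = h := by omega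
    have e2 : min j (2 * E - 1) = j := by omega
    rw [e1, e2]
    simp

/-! ### Output and encoding -/

theorem run_outX {s : Store (Reg τ) (Sy α)} {E : ℕ} {x : List Bool} (hE : s (r nE) = num E)
    (hX : s (r X) = bs x) (hx : x.length = 2 * E) :
    Runs outX s ((s.set (r X) []).set (r C) (s (r C) ++ bs (x ++ zeros (6 * E))))
      (100 * E + 100) := by
  have hx' : x = x.take E ++ x.drop E := (List.take_append_drop E x).symm
  have s1 := run_moveN (c := (r nE : Reg τ)) (a := r X) (b := r C) (by simp) (by simp) (by simp)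
    (s := s) (N := E) (l := bs (x.take E)) (rest := bs (x.drop E)) hE
    (by rw [hX, ← bs_append, ← hx']) (by rw [bs_length, List.length_take]; omega)
  have s2 := run_moveN (c := (r nE : Reg τ)) (a := r X) (b := r C) (by simp) (by simp) (by simp)
    (s := (s.set (r X) (bs (x.drop E))).set (r C) (s (r C) ++ bs (x.take E))) (N := E)
    (l := bs (x.drop E)) (rest := [])
    (by rw [Store.set_ne _ _ (by simp), Store.set_ne _ _ (by simp), hE])
    (by rw [Store.set_ne _ _ (by simp), Store.set_same, List.append_nil])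
    (by rw [bs_length, List.length_drop]; omega)
  have s3 := run_fillN (k := 6) (c := (r nE : Reg τ)) (b := r C) (x := (.bit false : Sy α))
    (by simp) (s := (((s.set (r X) (bs (x.drop E))).set (r C) (s (r C) ++ bs (x.take E))).set
      (r X) []).set (r C) (((s.set (r X) (bs (x.drop E))).set (r C) (s (r C) ++
        bs (x.take E))) (r C) ++ bs (x.drop E))) (N := E)
    (by simp [hE])
  have h := run_sq_cons s1 (run_sq_cons s2 (run_sq_cons s3 run_sq_nil))
  refine Runs.cast h ?_ (by omega)
  have hb : (bs x : List (Sy α)) = bs (x.take E) ++ bs (x.drop E) := by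
    rw [← bs_append, ← hx']
  rw [Store.set_same, Store.set_same, set_set2 _ (by simp), Store.set_set, bs_append, zeros,
    bs_replicate, hb]
  simp only [List.append_assoc]

theorem run_outZ {s : Store (Reg τ) (Sy α)} {E q : ℕ} (hE : s (r nE) = num E)
    (hq1 : s (r q1) = num q) (hq2 : s (r q2) = num q) :
    Runs outZ s (s.set (r C) (s (r C) ++ bs (zeros (q * (q * (8 * E))))))
      (100 * (q * (q * E)) + 100 * (q * q) + 100 * q + 100) := by
  have inner : ∀ (s : Store (Reg τ) (Sy α)), s (r nE) = num E → s (r q2) = num q →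
      Runs (forN (.r .q2) (fillN 8 (.r .nE) (.r .C) (.bit false))) s
        (s.set (r C) (s (r C) ++ bs (zeros (q * (8 * E))))) (q * (11 * E + 4) + 2) := by
    intro s hE hq
    have := Runs.forN (c := (r q2 : Reg τ)) (body := fillN 8 (.r .nE) (.r .C) (.bit false : Sy α))
      q (fun i => s.set (r C) (s (r C) ++ bs (zeros (i * (8 * E))))) (11 * E + 2)
      (by intro i; rw [Store.set_ne _ _ (by simp), hq])
      (by
        intro i hi z
        refine (run_fillN (by simp) (N := E) (by
          rw [Store.set_ne _ _ (by simp), Store.set_ne _ _ (by simp), hE])).cast ?_ (by omega)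
        rw [Store.set_ne _ _ (by simp), Store.set_same]
        have e : (i + 1) * (8 * E) = i * (8 * E) + 8 * E := by ring
        rw [set_shadow _ (by simp), e]
        simp only [zeros, bs_replicate, List.append_assoc, List.replicate_append_replicate])
    simp only [Nat.zero_mul, zeros, List.replicate_zero, bs_nil, List.append_nil,
      Store.set_self] at this
    exact this.mono (by ring_nf; omega)
  have := Runs.forN (c := (r q1 : Reg τ))
    (body := forN (.r .q2) (fillN 8 (.r .nE) (.r .C) (.bit false : Sy α)))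
    q (fun i => s.set (r C) (s (r C) ++ bs (zeros (i * (q * (8 * E)))))) (q * (11 * E + 4) + 2)
    (by intro i; rw [Store.set_ne _ _ (by simp), hq1])
    (by
      intro i hi z
      refine (inner _ (by
          rw [Store.set_ne _ _ (by simp), Store.set_ne _ _ (by simp), hE]) (by
          rw [Store.set_ne _ _ (by simp), Store.set_ne _ _ (by simp), hq2])).cast ?_ (by omega)
      rw [Store.set_ne _ _ (by simp), Store.set_same]
      have e : (i + 1) * (q * (8 * E)) = i * (q * (8 * E)) + q * (8 * E) := by ring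
      rw [set_shadow _ (by simp), e]
      simp only [zeros, bs_replicate, List.append_assoc, List.replicate_append_replicate])
  simp only [Nat.zero_mul, zeros, List.replicate_zero, bs_nil, List.append_nil,
    Store.set_self] at this
  refine this.mono ?_
  nlinarith [Nat.zero_le (q * (q * E)), Nat.zero_le (q * q)]

theorem run_encRW {s : Store (Reg τ) (Sy α)} {E : ℕ} {x : List Bool} {rest : List (Sy α)}
    (hE : s (r nE) = num E) (hX : s (r X) = []) (hY : s (r Y) = [])
    (hR : s (r RW) = bs x ++ rest) (hx : x.length = E) :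
    Runs encRW s ((s.set (r RW) rest).set (r X) (bs (enc x))) (100 * E + 100) := by
  have s1 := Runs.forN (c := (r nE : Reg τ)) (body := .act fun (h : Reg τ → Option (Sy α)) i =>
      if i = .r .RW then { pop := true }
      else if i = .r .X then { pb := some (.bit (!isOne (h (.r .RW)))) }
      else if i = .r .Y then { pb := h (.r .RW) }
      else {}) E
    (fun i => ((s.set (r RW) (bs (x.drop i) ++ rest)).set (r X)
      (bs ((x.take i).map (fun b => !b)))).set (r Y) (bs (x.take i))) 1
    (by intro i; simp [hE])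
    (by
      intro j hj z
      have hone : ∀ b : Bool, isOne (some (.bit b : Sy α)) = b := by intro b; cases b <;> rfl
      obtain ⟨a, x', hx0, hx1, hx2⟩ : ∃ a x', x.drop j = a :: x' ∧ x.drop (j + 1) = x' ∧
          x.take (j + 1) = x.take j ++ [a] :=
        ⟨_, _, List.drop_eq_getElem_cons (by omega), rfl,
          List.take_succ_eq_append_getElem (by omega)⟩
      refine Runs.act' _ fun i => ?_
      have e1 : ((((s.set (r RW) (bs (x.drop j) ++ rest)).set (r X)
          (bs ((x.take j).map (fun b => !b)))).set (r Y) (bs (x.take j))).set (r nE) z) (r RW) =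
          .bit a :: (bs x' ++ rest) := by
        simp [Store.set, hx0]
      simp only [Store.heads, e1, List.head?_cons, hone, hx1, hx2]
      by_cases h1 : i = r RW
      · subst h1
        simp only [if_true, Act.app, e1]
        simp [Store.set]
      by_cases h2 : i = r X
      · subst h2
        simp [Act.app, Store.set]
      by_cases h3 : i = r Y
      · subst h3
        simp [Act.app, Store.set]
      · simp [Act.app, Store.set, h1, h2, h3])
  have e0 : ((s.set (r RW) (bs (x.drop 0) ++ rest)).set (r X)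
      (bs ((x.take 0).map (fun b => !b)))).set (r Y) (bs (x.take 0)) = s := by
    apply Store.ext'
    intro i
    simp only [Store.set, List.drop_zero, List.take_zero, List.map_nil, bs_nil]
    clear s1
    split_ifs <;> simp_all
  simp only [e0] at s1
  rw [List.drop_of_length_le (by omega), List.take_of_length_le (by omega)] at s1
  have s2 := run_moveN (c := (r nE : Reg τ)) (a := r Y) (b := r X) (by simp) (by simp) (by simp)
    (s := ((s.set (r RW) (bs [] ++ rest)).set (r X)
      (bs (x.map (fun b => !b)))).set (r Y) (bs x)) (N := E) (l := bs x) (rest := [])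
    (by simp [hE]) (by simp) (by rw [bs_length, hx])
  have h := run_sq_cons s1 (run_sq_cons s2 run_sq_nil)
  refine Runs.cast h ?_ (by omega)
  rw [enc, bs_append]
  apply Store.ext'
  intro i
  simp only [Store.set]
  clear s1 s2 h
  split_ifs <;> simp_all

end

end Vale.Agent.P338
end
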