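import Vale.Agent.P338.Bdl.B7
import Vale.Agent.P338.Bdl.B5
import Vale.Agent.P338.Bdl.B4
import Vale.Agent.P338.Bdl.B6
import Vale.Agent.P338.Bdl.B2
import Vale.Agent.P338.Bdl.B1

set_option linter.all false

section

/-! The third pass of the second core. -/

namespace Vale.Agent.P338
open Reg R Ex

namespace PF3

theorem lsb_take {b l : ℕ} (h : b ≤ l) (z : ℕ) : (lsb l z).take b = lsb b z := by
  rw [lsb, lsb, ← List.map_take, List.take_range, Nat.min_eq_left h]

theorem tri_pred (i : ℕ) : (i + 1) * (i + 1 - 1) / 2 = i * (i - 1) / 2 + i := by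
  rcases i with _ | i
  · rfl
  · have h : (i + 1 + 1) * (i + 1 + 1 - 1) = (i + 1) * (i + 1 - 1) + (i + 1) * 2 := by
      simp only [Nat.add_sub_cancel]; ring
    rw [h, Nat.add_mul_div_right _ _ (by norm_num)]

section
variable {τ κ α : Type} [DecidableEq τ] [DecidableEq κ]
  {sm : Cmd (RF τ κ) (Sy α)} {t : ℕ → ℕ} {C1 : ℕ}

/-- The conclusion of `run_redX`. -/
def RedSpec (sm : Cmd (RF τ κ) (Sy α)) (t : ℕ → ℕ) (K : ℕ) : Prop :=
  ∀ (s : Store (RF τ κ) (Sy α))
    (l p : ℕ) (x : List Bool), Ctx s l p → x.length = l → s (r X) = bs x →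
    Runs (redX sm) s (s.set (r X) (bs (lsb l (ofLsb x % p)))) (K * (t l + l))

theorem run_ent {Kr K : ℕ} (hKr : RedSpec sm t Kr) (hK : PF1.MulXSpec sm t K)
    {s : Store (RF τ κ) (Sy α)} {l p b a : ℕ}
    {x : List Bool} {rest : List (Sy α)} (hc : Ctx s l p) (hb : b ≤ l)
    (hnb : s (ex nb1) = num b) (hX : s (r X) = [])
    (ha : a < p) (hU : s (ex U) = bs (lsb l a)) (hP : s (r P) = bs x ++ rest)
    (hx : x.length = l) :
    Runs (sq [moveN (ex nL) (r P) (r X), redX sm, mulX sm (ex U),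
        moveN (ex nb1) (r X) (r RW), clr (r X)]) s
      ((s.set (r P) rest).set (r RW) (s (r RW) ++ bs (lsb b (ofLsb x * a % p))))
      ((Kr + K + 20) * (t l + l)) := by
  have hp0 : 0 < p := by have := hc.p3; omega
  have r1 := run_moveN (c := ex nL) (a := r P) (b := r X) (by simp) (by simp) (by simp)
    (s := s) (N := l) (l := bs x) (rest := rest) hc.nL hP (by rw [bs_length, hx])
  set s1 := (s.set (r P) rest).set (r X) (s (r X) ++ bs x) with hs1
  have r2 := hKr s1 l p x ((hc.set rfl _).set rfl _) hx (by simp [hs1, hX])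
  set s2 := s1.set (r X) (bs (lsb l (ofLsb x % p))) with hs2
  have r3 := hK s2 l p (ofLsb x % p) a (ex U) rfl (by simp)
    (((hc.set rfl _).set rfl _).set rfl _) (Nat.mod_lt _ hp0) ha (by simp [hs2])
    (by simp [hs2, hs1, hU])
  rw [Nat.mod_mul_mod] at r3
  set s3 := s2.set (r X) (bs (lsb l (ofLsb x * a % p))) with hs3
  have r4 := run_moveN (c := ex nb1) (a := r X) (b := r RW) (by simp) (by simp) (by simp)
    (s := s3) (N := b) (l := bs (lsb b (ofLsb x * a % p)))
    (rest := bs ((lsb l (ofLsb x * a % p)).drop b)) (by simp [hs3, hs2, hs1, hnb])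
    (by
      rw [← bs_append, ← lsb_take hb, List.take_append_drop]
      simp [hs3]) (by simp)
  set s4 := (s3.set (r X) (bs ((lsb l (ofLsb x * a % p)).drop b))).set (r RW)
    (s3 (r RW) ++ bs (lsb b (ofLsb x * a % p))) with hs4
  have r5 := run_clr (a := r X) (s := s4)
  have l1 := hc.l1
  have hh := run_sq_cons r1 (run_sq_cons r2 (run_sq_cons r3 (run_sq_cons r4 (run_sq_cons r5
    run_sq_nil))))
  refine Runs.cast hh ?_ ?_
  · funext y
    rcases y with y | i | i
    · cases y
      all_goals first | rfl | simp [hs4, hs3, hs2, hs1, hX]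
    · rcases i with i | i | i
      all_goals first | rfl | simp [hs4, hs3, hs2, hs1]
    · first | rfl | simp [hs4, hs3, hs2, hs1]
  · have l2 : (s4 (r X)).length = l - b := by simp [hs4]
    rw [l2]
    have h1 : (Kr + K + 20) * (t l + l) =
        Kr * (t l + l) + K * (t l + l) + 20 * t l + 20 * l := by ring
    rw [h1]
    omega

theorem run_entLoop {Kr K : ℕ} (hKr : RedSpec sm t Kr) (hK : PF1.MulXSpec sm t K)
    {s : Store (RF τ κ) (Sy α)} {l p q b a k c : ℕ} {v : List Bool}
    (hc : Ctx s l p) (hb : b ≤ l) (hnb : s (ex nb1) = num b) (hX : s (r X) = [])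
    (hq2 : s (r q2) = num q) (hRW : s (r RW) = [])
    (ha : a < p) (hU : s (ex U) = bs (lsb l a))
    (hP : s (r P) = bs (v.drop (fpos q b l k c 0)))
    (hv : 2 * q * (b * q * l) ≤ v.length) (hk : k < q) (hcb : c < b) :
    Runs (forN (r q2) (sq [moveN (ex nL) (r P) (r X), redX sm, mulX sm (ex U),
        moveN (ex nb1) (r X) (r RW), clr (r X)])) s
      ((s.set (r P) (bs (v.drop (fpos q b l k (c + 1) 0)))).set (r RW)
        (bs (fm q fun j => lsb b (ofLsb (fslot q b l v k c j) * a % p))))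
      (q * ((Kr + K + 20) * (t l + l) + 2) + 2) := by
  have key := Runs.forN (c := r q2) (body := sq [moveN (ex nL) (r P) (r X), redX sm,
      mulX sm (ex U), moveN (ex nb1) (r X) (r RW), clr (r X)]) q
    (fun j => (s.set (r P) (bs (v.drop (fpos q b l k c j)))).set (r RW)
      (bs (fm j fun j => lsb b (ofLsb (fslot q b l v k c j) * a % p))))
    ((Kr + K + 20) * (t l + l))
    (by intro i; simp [hq2])
    (by
      intro j hj y
      have := run_ent hKr hK (s := ((s.set (r P) (bs (v.drop (fpos q b l k c j)))).set (r RW)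
        (bs (fm j fun j => lsb b (ofLsb (fslot q b l v k c j) * a % p)))).set (r q2) y)
        (l := l) (p := p) (b := b) (a := a) (x := fslot q b l v k c j)
        (rest := bs (v.drop (fpos q b l k c (j + 1))))
        (((hc.set rfl _).set rfl _).set rfl _) hb (by simp [hnb])
        (by simp [hX]) ha (by simp [hU])
        (by rw [← fslot_split]; simp) (fslot_len3 hv hk hcb hj)
      refine Runs.cast this ?_ le_rfl
      funext x
      rcases x with x | i | i
      · cases x
        all_goals simp [fm_succ]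
      · simp
      · simp)
  have e0 : (s.set (r P) (bs (v.drop (fpos q b l k c 0)))).set (r RW)
      (bs (fm 0 fun j => lsb b (ofLsb (fslot q b l v k c j) * a % p))) = s := by
    simp only [fm_zero, bs_nil]
    rw [Store.set_eq_self s hP, Store.set_eq_self s hRW]
  rw [e0, fpos_q] at key
  exact key

/-- A segment of the result. -/
def seg (q b l p a m : ℕ) (v : List Bool) (k c : ℕ) : List Bool :=
  (fm q fun j => lsb b (ofLsb (fslot q b l v k c j) * a % p)).rotate m

/-- The stores of the loop over the segments of a row. -/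
def segSt (s : Store (RF τ κ) (Sy α)) (q b l p a m k : ℕ) (v : List Bool)
    (D0 : List (Sy α)) (c : ℕ) : Store (RF τ κ) (Sy α) :=
  (s.set (r P) (bs (v.drop (fpos q b l k c 0)))).set (r D)
    (D0 ++ bs (fm c fun c => seg q b l p a m v k c))

theorem run_seg {Kr K : ℕ} (hKr : RedSpec sm t Kr) (hK : PF1.MulXSpec sm t K)
    {s : Store (RF τ κ) (Sy α)} {l p q b a m k c : ℕ} {v : List Bool} {D0 : List (Sy α)}
    (hc : Ctx s l p) (hb : b ≤ l) (hq : 1 ≤ q)
    (hnb : s (ex nb1) = num b) (hX : s (r X) = [])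
    (hR : s (r RW) = []) (hq2 : s (r q2) = num q) (hA2 : s (r A2) = num m)
    (hm : m ≤ q * b) (ha : a < p) (hU : s (ex U) = bs (lsb l a))
    (hv : 2 * q * (b * q * l) ≤ v.length) (hk : k < q) (hcb : c < b) (y : List (Sy α)) :
    Runs (sq [forN (r q2) (sq [moveN (ex nL) (r P) (r X), redX sm, mulX sm (ex U),
          moveN (ex nb1) (r X) (r RW), clr (r X)]),
        rotN (r A2) (r RW), forN (r q2) (moveN (ex nb1) (r RW) (r D))])
      ((segSt s q b l p a m k v D0 c).set (ex nc) y)
      ((segSt s q b l p a m k v D0 (c + 1)).set (ex nc) y)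
      (q * ((Kr + K + 40) * (t l + l))) := by
  set s0 := (segSt s q b l p a m k v D0 c).set (ex nc) y with hs0
  have r1 := run_entLoop hKr hK (s := s0) (l := l) (p := p) (q := q) (b := b) (a := a)
    (k := k) (c := c) (v := v) (((hc.set rfl _).set rfl _).set rfl _) hb
    (by simp [hs0, segSt, hnb]) (by simp [hs0, segSt, hX]) (by simp [hs0, segSt, hq2])
    (by simp [hs0, segSt, hR]) ha (by simp [hs0, segSt, hU]) (by simp [hs0, segSt]) hv hk hcb
  set W := fm q fun j => lsb b (ofLsb (fslot q b l v k c j) * a % p) with hW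
  have hWl : W.length = q * b := fm_length fun j _ => SC.lsb_length _ _
  set s1 := (s0.set (r P) (bs (v.drop (fpos q b l k (c + 1) 0)))).set (r RW) (bs W) with hs1
  have r2 := run_rotN (c := r A2) (a := r RW) (by simp) (s := s1) (N := m)
    (by simp [hs1, hs0, segSt, hA2])
  have eRW : (s1 (r RW)).rotate m = bs (W.rotate m) := by
    simp [hs1, bs_rotate]
  rw [eRW] at r2
  set s2 := s1.set (r RW) (bs (W.rotate m)) with hs2
  have r3 := run_forMove (c := r q2) (d := ex nb1) (a := r RW) (b := r D) (by simp) (by simp)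
    (by simp) (by simp) (by simp) (by simp) (s := s2) (N := q) (M := b)
    (l := bs (W.rotate m)) (rest := [])
    (by simp [hs2, hs1, hs0, segSt, hq2]) (by simp [hs2, hs1, hs0, segSt, hnb])
    (by simp [hs2]) (by rw [bs_length, List.length_rotate, hWl])
  have hh := run_sq_cons r1 (run_sq_cons r2 (run_sq_cons r3 run_sq_nil))
  have l1 := hc.l1
  refine Runs.cast hh ?_ ?_
  · funext x
    rcases x with x | i | i
    · cases x
      case D => simp [hs2, hs1, hs0, segSt, fm_succ, seg, hW]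
      case RW => simp [hs2, hs1, hs0, segSt, hR]
      all_goals first | rfl | simp [hs2, hs1, hs0, segSt]
    · rcases i with i | i | i
      · first | rfl | simp [hs2, hs1, hs0, segSt]
      · first | rfl | simp [hs2, hs1, hs0, segSt]
      · cases i
        all_goals first | rfl | simp [hs2, hs1, hs0, segSt]
    · first | rfl | simp [hs2, hs1, hs0, segSt]
  · have h1 : q * ((Kr + K + 40) * (t l + l)) =
        q * ((Kr + K + 20) * (t l + l)) + 20 * (q * t l) + 20 * (q * l) := by ring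
    have h2 : q * ((Kr + K + 20) * (t l + l) + 2) =
        q * ((Kr + K + 20) * (t l + l)) + 2 * q := by ring
    have h4 : q ≤ q * l := Nat.le_mul_of_pos_right _ l1
    have h5 : q * b ≤ q * l := Nat.mul_le_mul_left _ hb
    have h6 : q * (3 * b + 4) = 3 * (q * b) + 4 * q := by ring
    rw [h1, h2, h6]
    omega

theorem run_segs {Kr K : ℕ} (hKr : RedSpec sm t Kr) (hK : PF1.MulXSpec sm t K)
    {s : Store (RF τ κ) (Sy α)} {l p q b a m k : ℕ} {v : List Bool}
    (hc : Ctx s l p) (hb : b ≤ l) (hq : 1 ≤ q)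
    (hnb : s (ex nb1) = num b) (hX : s (r X) = [])
    (hR : s (r RW) = []) (hq2 : s (r q2) = num q) (hnc : s (ex nc) = num b)
    (hA2 : s (r A2) = num m)
    (hm : m ≤ q * b) (ha : a < p) (hU : s (ex U) = bs (lsb l a))
    (hP : s (r P) = bs (v.drop (fpos q b l k 0 0)))
    (hv : 2 * q * (b * q * l) ≤ v.length) (hk : k < q) :
    Runs (forN (ex nc) (sq [forN (r q2) (sq [moveN (ex nL) (r P) (r X), redX sm,
          mulX sm (ex U), moveN (ex nb1) (r X) (r RW), clr (r X)]),
        rotN (r A2) (r RW), forN (r q2) (moveN (ex nb1) (r RW) (r D))])) s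
      ((s.set (r P) (bs (v.drop (fpos q b l (k + 1) 0 0)))).set (r D)
        (s (r D) ++ bs (fm b fun c => seg q b l p a m v k c)))
      (b * (q * ((Kr + K + 40) * (t l + l)) + 2) + 2) := by
  have key := Runs.forN (c := ex nc) (body := sq [forN (r q2) (sq [moveN (ex nL) (r P) (r X),
        redX sm, mulX sm (ex U), moveN (ex nb1) (r X) (r RW), clr (r X)]),
      rotN (r A2) (r RW), forN (r q2) (moveN (ex nb1) (r RW) (r D))]) b
    (segSt s q b l p a m k v (s (r D))) (q * ((Kr + K + 40) * (t l + l)))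
    (by intro i; simp [segSt, hnc])
    (fun c hcb y => run_seg hKr hK hc hb hq hnb hX hR hq2 hA2 hm ha hU hv hk hcb y)
  have e0 : segSt s q b l p a m k v (s (r D)) 0 = s := by
    simp only [segSt, fm_zero, bs_nil, List.append_nil]
    rw [Store.set_eq_self s hP, Store.set_self]
  rw [e0] at key
  refine Runs.cast key ?_ le_rfl
  rw [segSt, fpos_b]

/-- Row `k` of the result. -/
def rowF (q b l p h : ℕ) (v : List Bool) (k : ℕ) : List Bool :=
  fm b fun c => seg q b l p ((p - 1) * h ^ (k * (k - 1) / 2) % p) (k * b) v k c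

theorem fdata3_eq (q b l p h : ℕ) (v : List Bool) :
    fdata3 q b l p h v = fm q (rowF q b l p h v) := by
  unfold fdata3 rowF seg
  refine fm_congr fun i _ => fm_congr fun c _ => ?_
  congr 1
  refine fm_congr fun j _ => ?_
  rw [Nat.mul_mod_mod, Nat.mul_comm]

/-- The stores of the loop over the rows. -/
def rowSt (s : Store (RF τ κ) (Sy α)) (q b l p h : ℕ) (v : List Bool) (k : ℕ) :
    Store (RF τ κ) (Sy α) :=
  ((((s.set (ex U) (bs (lsb l ((p - 1) * h ^ (k * (k - 1) / 2) % p)))).set (ex V)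
    (bs (lsb l (h ^ k % p)))).set (r A2) (num (k * b))).set (r P)
    (bs (v.drop (fpos q b l k 0 0)))).set (r D) (bs (fm k (rowF q b l p h v)))

theorem run_row {Kr K K' : ℕ} (hKr : RedSpec sm t Kr) (hK : PF1.MulXSpec sm t K)
    (hK' : PF1.MulRSpec sm t K') {s : Store (RF τ κ) (Sy α)} {l p q b z h k : ℕ} {v : List Bool}
    (hs : Pctx s l p q b z h) (hv : 2 * q * (b * q * l) ≤ v.length)
    (hk : k < q) (y : List (Sy α)) :
    Runs (sq [forN (ex nc) (sq [forN (r q2) (sq [moveN (ex nL) (r P) (r X), redX sm,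
          mulX sm (ex U), moveN (ex nb1) (r X) (r RW), clr (r X)]),
        rotN (r A2) (r RW), forN (r q2) (moveN (ex nb1) (r RW) (r D))]),
        mulR sm (ex U) (ex V), mulR sm (ex V) (ex HH), addC 1 (ex nb1) (r A2)])
      ((rowSt s q b l p h v k).set (r q1) y) ((rowSt s q b l p h v (k + 1)).set (r q1) y)
      (b * (q * ((Kr + K + 2 * K' + 60) * (t l + l)))) := by
  have hq : 1 ≤ q := by omega
  have hp0 : 0 < p := by have := hs.root.three; omega
  have hb1 := hs.b1
  have hbl := hs.bl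
  set s0 := (rowSt s q b l p h v k).set (r q1) y with hs0
  have hc0 : Ctx s0 l p :=
    (((((hs.ctx.set rfl _).set rfl _).set rfl _).set rfl _).set rfl _).set rfl _
  have r1 := run_segs hKr hK (s := s0) (l := l) (p := p) (q := q) (b := b)
    (a := (p - 1) * h ^ (k * (k - 1) / 2) % p) (m := k * b) (k := k) (v := v)
    hc0 hbl hq (by simp [hs0, rowSt, hs.nb1])
    (by simp [hs0, rowSt, hs.X]) (by simp [hs0, rowSt, hs.RW]) (by simp [hs0, rowSt, hs.q2])
    (by simp [hs0, rowSt, hs.nc]) (by simp [hs0, rowSt]) (Nat.mul_le_mul_right _ hk.le)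
    (Nat.mod_lt _ hp0) (by simp [hs0, rowSt]) (by simp [hs0, rowSt]) hv hk
  set s1 := (s0.set (r P) (bs (v.drop (fpos q b l (k + 1) 0 0)))).set (r D)
    (s0 (r D) ++ bs (fm b fun c => seg q b l p ((p - 1) * h ^ (k * (k - 1) / 2) % p) (k * b)
      v k c)) with hs1
  have hc1 : Ctx s1 l p := (hc0.set rfl _).set rfl _
  have r2 := hK' s1 l p ((p - 1) * h ^ (k * (k - 1) / 2) % p) (h ^ k % p) (ex U) (ex V) rfl
    (by simp) rfl (by simp) (by simp) hc1 (Nat.mod_lt _ hp0) (Nat.mod_lt _ hp0)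
    (by simp [hs1, hs0, rowSt, hs.X]) (by simp [hs1, hs0, rowSt]) (by simp [hs1, hs0, rowSt])
  rw [← Nat.mul_mod, Nat.mul_assoc, ← pow_add, ← tri_pred] at r2
  set s2 := s1.set (ex U) (bs (lsb l ((p - 1) * h ^ ((k + 1) * (k + 1 - 1) / 2) % p))) with hs2
  have hc2 : Ctx s2 l p := hc1.set rfl _
  have r3 := hK' s2 l p (h ^ k % p) h (ex V) (ex HH) rfl (by simp)
    rfl (by simp) (by simp) hc2 (Nat.mod_lt _ hp0) hs.root.hlt
    (by simp [hs2, hs1, hs0, rowSt, hs.X]) (by simp [hs2, hs1, hs0, rowSt])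
    (by simp [hs2, hs1, hs0, rowSt, hs.HH])
  rw [Nat.mod_mul_mod, ← pow_succ] at r3
  set s3 := s2.set (ex V) (bs (lsb l (h ^ (k + 1) % p))) with hs3
  have r4 := run_addC (k := 1) (d := ex nb1) (c := r A2) (by simp) (s := s3) (N := b)
    (m := k * b) (by simp [hs3, hs2, hs1, hs0, rowSt, hs.nb1])
    (by simp [hs3, hs2, hs1, hs0, rowSt])
  have e3 : k * b + 1 * b = (k + 1) * b := by ring
  rw [e3] at r4
  have hh := run_sq_cons r1 (run_sq_cons r2 (run_sq_cons r3 (run_sq_cons r4 run_sq_nil)))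
  have l1 := hs.ctx.l1
  refine Runs.cast hh ?_ ?_
  · funext x
    rcases x with x | i | i
    · cases x
      case D => simp [hs3, hs2, hs1, hs0, rowSt, fm_succ, rowF]
      all_goals first | rfl | simp [hs3, hs2, hs1, hs0, rowSt]
    · rcases i with i | i | i
      · first | rfl | simp [hs3, hs2, hs1, hs0, rowSt]
      · first | rfl | simp [hs3, hs2, hs1, hs0, rowSt]
      · cases i
        all_goals first | rfl | simp [hs3, hs2, hs1, hs0, rowSt]
    · first | rfl | simp [hs3, hs2, hs1, hs0, rowSt]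
  · have h1 : b * (q * ((Kr + K + 2 * K' + 60) * (t l + l))) =
        b * (q * ((Kr + K + 40) * (t l + l))) + 2 * (b * (q * (K' * (t l + l)))) +
        20 * (b * (q * (t l))) + 20 * (b * (q * l)) := by ring
    have h2 : b * (q * ((Kr + K + 40) * (t l + l)) + 2) =
        b * (q * ((Kr + K + 40) * (t l + l))) + 2 * b := by ring
    have h3 : K' * (t l + l) ≤ b * (q * (K' * (t l + l))) := by
      rw [← Nat.mul_assoc]
      exact Nat.le_mul_of_pos_left _ (Nat.mul_pos hb1 hq)
    have h4 : b ≤ b * (q * l) := Nat.le_mul_of_pos_right _ (Nat.mul_pos hq l1)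
    rw [h1, h2]
    omega

theorem odd_lsb {l p : ℕ} (hl : 1 ≤ l) (hp : Odd p) :
    lsb l p = true :: lsb (l - 1) (p / 2) ∧ lsb l (p - 1) = false :: lsb (l - 1) (p / 2) := by
  obtain ⟨m, rfl⟩ : ∃ m, l = m + 1 := ⟨l - 1, by omega⟩
  obtain ⟨n, rfl⟩ := hp
  have e1 : (2 * n + 1) / 2 = n := by omega
  have e2 : (2 * n + 1 - 1) / 2 = n := by omega
  have e3 : (2 * n + 1).testBit 0 = true := by simp
  have e4 : (2 * n + 1 - 1).testBit 0 = false := by simp
  rw [SC.lsb_succ, SC.lsb_succ, e1, e2, e3, e4, Nat.add_sub_cancel]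
  exact ⟨rfl, rfl⟩

end

end PF3

section
variable {τ κ α : Type} [DecidableEq τ] [DecidableEq κ]
  {sm : Cmd (RF τ κ) (Sy α)} {t : ℕ → ℕ} {C1 : ℕ}

theorem run_passF3 (hs : SmallSpec sm t C1) : ∃ C0 : ℕ, ∀ (s : Store (RF τ κ) (Sy α))
    (l p q b z h : ℕ) (v : List Bool), Pctx s l p q b z h → 2 * q * (b * q * l) ≤ v.length →
    s (r P) = bs v → s (r D) = [] →
    Runs (passF3 sm) s ((s.set (r P) (bs (v.drop (2 * q * (b * q * l))))).set (r D)
        (bs (fdata3 q b l p h v)))
      (C0 * (q * (b * q) * (t l + l))) := by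
  obtain ⟨Kr, hKr⟩ := run_redX hs
  obtain ⟨K, hK⟩ := run_mulX hs
  obtain ⟨K', hK'⟩ := run_mulR hs
  refine ⟨Kr + K + 2 * K' + 200, fun s l p q b z h v hp hv hP hD => ?_⟩
  have hp3 := hp.root.three
  have hpq := hp.root.hq
  have hb1 := hp.b1
  have hbl := hp.bl
  have l1 := hp.ctx.l1
  have hq : 1 ≤ q := by omega
  have hodd : Odd p := hp.root.prime.odd_of_ne_two (by omega)
  obtain ⟨o1, o2⟩ := PF3.odd_lsb l1 hodd
  have r0 := run_skipF (s := s) hq hb1 l1 hp.q1 hp.q2 hp.nc hp.ctx.nL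
  have e0 : (s (r P)).drop (q * (b * q * l)) = bs (v.drop (fpos q b l 0 0 0)) := by
    rw [hP, fpos_zero]; simp [bs]
  rw [e0] at r0
  set s0 := s.set (r P) (bs (v.drop (fpos q b l 0 0 0))) with hs0
  have r1 := run_cpL (nl := ex nL) (a := ex Pm) (b := ex U) (by simp) (by simp) (by simp)
    (s := s0) (l := l) (x := bs (lsb l p)) (by simp [hs0, hp.ctx.nL]) (by simp [hs0, hp.ctx.Pm])
    (by simp) (by simp [hs0, hp.U])
  set s1 := s0.set (ex U) (bs (lsb l p)) with hs1
  have r2 := run_popF (a := ex U) (s := s1)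
  have e2 : (s1 (ex U)).tail = bs (lsb (l - 1) (p / 2)) := by
    simp [hs1, o1]
  rw [e2] at r2
  set s2 := s1.set (ex U) (bs (lsb (l - 1) (p / 2))) with hs2
  have r3 := run_pushF (b := ex U) (s := s2) (.bit false)
  have e3 : (Sy.bit false :: s2 (ex U)) = bs (lsb l (p - 1)) := by
    simp [hs2, o2]
  rw [e3] at r3
  set s3 := s2.set (ex U) (bs (lsb l (p - 1))) with hs3
  have r4 := run_cpL (nl := ex nL) (a := ex ONE) (b := ex V) (by simp) (by simp) (by simp)
    (s := s3) (l := l) (x := bs (lsb l 1)) (by simp [hs3, hs2, hs1, hs0, hp.ctx.nL])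
    (by simp [hs3, hs2, hs1, hs0, hp.ONE])
    (by simp) (by simp [hs3, hs2, hs1, hs0, hp.V])
  set s4 := s3.set (ex V) (bs (lsb l 1)) with hs4
  have r5 := run_zeroC (c := r A2) (s := s4) (by simp [hs4, hs3, hs2, hs1, hs0, hp.A2])
  set s5 := s4.set (r A2) (num 0) with hs5
  have e5 : s5 = PF3.rowSt s q b l p h v 0 := by
    funext x
    rcases x with x | i | i
    · cases x
      all_goals first | rfl | simp [hs5, hs4, hs3, hs2, hs1, hs0, PF3.rowSt, hD]
    · rcases i with i | i | i
      · first | rfl | simp [hs5, hs4, hs3, hs2, hs1, hs0, PF3.rowSt]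
      · first | rfl | simp [hs5, hs4, hs3, hs2, hs1, hs0, PF3.rowSt]
      · cases i
        case U =>
          simp [hs5, hs4, hs3, hs2, hs1, hs0, PF3.rowSt,
            Nat.mod_eq_of_lt (show p - 1 < p by omega)]
        case V =>
          simp [hs5, hs4, hs3, hs2, hs1, hs0, PF3.rowSt,
            Nat.mod_eq_of_lt (show 1 < p by omega)]
        all_goals first | rfl | simp [hs5, hs4, hs3, hs2, hs1, hs0, PF3.rowSt]
    · first | rfl | simp [hs5, hs4, hs3, hs2, hs1, hs0, PF3.rowSt]
  have r6 := Runs.forN (c := r q1) (body := sq [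
      forN (ex nc) (sq [forN (r q2) (sq [moveN (ex nL) (r P) (r X), redX sm,
          mulX sm (ex U), moveN (ex nb1) (r X) (r RW), clr (r X)]),
        rotN (r A2) (r RW), forN (r q2) (moveN (ex nb1) (r RW) (r D))]),
        mulR sm (ex U) (ex V), mulR sm (ex V) (ex HH), addC 1 (ex nb1) (r A2)]) q
    (fun i => PF3.rowSt s q b l p h v i) (b * (q * ((Kr + K + 2 * K' + 60) * (t l + l))))
    (by intro i; simp [PF3.rowSt, hp.q1])
    (fun i hi y => PF3.run_row hKr hK hK' hp hv hi y)
  rw [← e5] at r6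
  set s6 := PF3.rowSt s q b l p h v q with hs6
  have r7 := run_clr (a := ex U) (s := s6)
  set s7 := s6.set (ex U) [] with hs7
  have r8 := run_clr (a := ex V) (s := s7)
  set s8 := s7.set (ex V) [] with hs8
  have r9 := run_clr (a := r A2) (s := s8)
  have hh := run_sq_cons r0 (run_sq_cons r1 (run_sq_cons r2 (run_sq_cons r3 (run_sq_cons r4
    (run_sq_cons r5 (run_sq_cons r6 (run_sq_cons r7 (run_sq_cons r8 (run_sq_cons r9
      run_sq_nil)))))))))
  refine Runs.cast hh ?_ ?_
  · rw [PF3.fdata3_eq]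
    funext x
    rcases x with x | i | i
    · cases x
      case P => simp [hs8, hs7, hs6, PF3.rowSt, fpos_end]
      all_goals first | rfl | simp [hs8, hs7, hs6, PF3.rowSt, hp.A2]
    · rcases i with i | i | i
      · first | rfl | simp [hs8, hs7, hs6, PF3.rowSt]
      · first | rfl | simp [hs8, hs7, hs6, PF3.rowSt]
      · cases i
        all_goals first | rfl | simp [hs8, hs7, hs6, PF3.rowSt, hp.U, hp.V]
    · first | rfl | simp [hs8, hs7, hs6, PF3.rowSt]
  · have l2 : (s6 (ex U)).length = l := by simp [hs6, PF3.rowSt]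
    have l3 : (s7 (ex V)).length = l := by simp [hs7, hs6, PF3.rowSt]
    have l4 : (s8 (r A2)).length = q * b + 1 := by simp [hs8, hs7, hs6, PF3.rowSt, num]
    rw [l2, l3, l4]
    have h1 : (Kr + K + 2 * K' + 200) * (q * (b * q) * (t l + l)) =
        q * (b * (q * ((Kr + K + 2 * K' + 60) * (t l + l)))) + 140 * (q * (b * (q * t l))) +
        140 * (q * (b * (q * l))) := by ring
    have h2 : q * (b * (q * ((Kr + K + 2 * K' + 60) * (t l + l))) + 2) =
        q * (b * (q * ((Kr + K + 2 * K' + 60) * (t l + l)))) + 2 * q := by ring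
    have hql : 1 ≤ q * l := Nat.mul_pos hq l1
    have h4 : l ≤ q * (b * (q * l)) := by
      calc l ≤ q * l := Nat.le_mul_of_pos_left _ hq
        _ ≤ b * (q * l) := Nat.le_mul_of_pos_left _ hb1
        _ ≤ q * (b * (q * l)) := Nat.le_mul_of_pos_left _ hq
    have h5 : q * b ≤ q * (b * (q * l)) :=
      Nat.mul_le_mul_left _ (Nat.le_mul_of_pos_right _ hql)
    have h6 : q ≤ q * b := Nat.le_mul_of_pos_right _ hb1
    rw [h1, h2]
    omega

end

end Vale.Agent.P338
end

section

/-! Correctness of the transposition specified in `Spec2.lean`. -/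

namespace Vale.Agent.P338

open SC

/-! ### Digits of a product -/

/-- The relevant digits of the product. -/
theorem conv_digit2 {q w : ℕ} (f g : ℕ → ℕ) (hf : ∀ p, q * w ≤ p → f p = 0) {k s : ℕ}
    (hk : k < q) (hs : s < w) :
    ∑ d ∈ Finset.range (2 * q), g d * (if w * d ≤ (q + k) * w + s then
      f ((q + k) * w + s - w * d) else 0) =
    ∑ i ∈ Finset.range q, g (q + k - i) * f (i * w + s) := by
  have e : 2 * q = (k + 1) + q + (q - k - 1) := by omega
  rw [e, Finset.sum_range_add, Finset.sum_range_add]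
  have h1 : ∑ d ∈ Finset.range (k + 1), g d * (if w * d ≤ (q + k) * w + s then
      f ((q + k) * w + s - w * d) else 0) = 0 := by
    apply Finset.sum_eq_zero
    intro d hd
    have hd' : d ≤ k := by have := Finset.mem_range.mp hd; omega
    have h2 : (q + k) * w + s = (q + (k - d)) * w + s + w * d := by
      have : k = (k - d) + d := by omega
      conv_lhs => rw [this]
      ring
    rw [hf, ite_self, mul_zero]
    rw [h2, Nat.add_sub_cancel]
    have : q * w ≤ (q + (k - d)) * w := Nat.mul_le_mul_right _ (by omega)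
    omega
  have h3 : ∑ x ∈ Finset.range (q - k - 1), g (k + 1 + q + x) *
      (if w * (k + 1 + q + x) ≤ (q + k) * w + s then
      f ((q + k) * w + s - w * (k + 1 + q + x)) else 0) = 0 := by
    apply Finset.sum_eq_zero
    intro x hx
    rw [if_neg, mul_zero]
    have e1 : w * (k + 1 + q + x) = (q + k) * w + w * (1 + x) := by ring
    have e2 : w ≤ w * (1 + x) := Nat.le_mul_of_pos_right _ (by omega)
    omega
  rw [h1, h3, zero_add, add_zero, ← Finset.sum_range_reflect]
  apply Finset.sum_congr rfl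
  intro i hi
  have hi' : i < q := Finset.mem_range.mp hi
  have h4 : k + 1 + (q - 1 - i) = q + k - i := by omega
  rw [h4]
  have h5 : (q + k) * w + s = i * w + s + w * (q + k - i) := by
    obtain ⟨y, hy⟩ : ∃ y, q + k - i = y := ⟨_, rfl⟩
    have hy2 : q + k = y + i := by omega
    rw [hy, hy2]; ring
  rw [if_pos (by omega)]
  congr 2
  omega

/-- No overflow of the digits of the product. -/
theorem conv_lt2 {q w C : ℕ} (hw : 0 < w) (hq : 0 < q) (f g : ℕ → ℕ)
    (hf0 : ∀ p, q * w ≤ p → f p = 0) (hf : ∀ p, f p < C) (hg : ∀ p, g p < C) (r : ℕ) :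
    ∑ d ∈ Finset.range (2 * q), g d * (if w * d ≤ r then f (r - w * d) else 0) <
      C * C * q := by
  set T := Finset.Icc (r / w + 1 - q) (r / w) with hT
  have hC : 0 < C := (Nat.zero_le _).trans_lt (hf 0)
  have hcard : T.card ≤ q := by rw [hT, Nat.card_Icc]; omega
  have h1 : ∑ d ∈ Finset.range (2 * q), g d * (if w * d ≤ r then f (r - w * d) else 0) ≤
      ∑ d ∈ T, g d * (if w * d ≤ r then f (r - w * d) else 0) := by
    apply Finset.sum_le_sum_of_ne_zero
    intro d _ hne
    rw [hT, Finset.mem_Icc]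
    have h2 : w * d ≤ r := by
      by_contra h
      rw [if_neg h, mul_zero] at hne
      exact hne rfl
    rw [if_pos h2] at hne
    have h3 : r - w * d < q * w := by
      by_contra h
      rw [hf0 _ (not_lt.mp h), mul_zero] at hne
      exact hne rfl
    have h4 : d ≤ r / w := (Nat.le_div_iff_mul_le hw).mpr (by rw [mul_comm]; exact h2)
    have h5 : r / w < d + q := by
      apply Nat.div_lt_of_lt_mul
      have : w * (d + q) = w * d + q * w := by ring
      omega
    omega
  have h2 : ∀ d ∈ T, g d * (if w * d ≤ r then f (r - w * d) else 0) ≤ C * C - 1 := by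
    intro d _
    have h2 : (if w * d ≤ r then f (r - w * d) else 0) < C := by
      split_ifs
      · exact hf _
      · exact hC
    have h3 : g d * (if w * d ≤ r then f (r - w * d) else 0) < C * C :=
      Nat.mul_lt_mul'' (hg d) h2
    omega
  have h3 := Finset.sum_le_card_nsmul _ _ _ h2
  rw [smul_eq_mul] at h3
  have h4 : T.card * (C * C - 1) ≤ q * (C * C - 1) := Nat.mul_le_mul_right _ hcard
  have h5 : q * (C * C - 1) < C * C * q := by
    have : 0 < C * C := Nat.mul_pos hC hC
    rw [mul_comm]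
    exact Nat.mul_lt_mul_of_pos_right (by omega) hq
  omega

/-! ### The data integers -/

/-- A data integer with prescribed slot values. -/
def fdataG (q b l : ℕ) (x : ℕ → ℕ → ℕ → ℕ) : List Bool :=
  fm q fun i => fm b fun c => fm q fun j => lsb l (x i c j)

/-- Its digits. -/
def fdig (q b : ℕ) (x : ℕ → ℕ → ℕ → ℕ) (s : ℕ) : ℕ :=
  if s < q * (b * q) then x (s / (b * q)) (s % (b * q) / q) (s % q) else 0

theorem fdig_eq {q b : ℕ} (x : ℕ → ℕ → ℕ → ℕ) {i c j : ℕ} (hi : i < q) (hc : c < b)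
    (hj : j < q) : fdig q b x (i * (b * q) + (c * q + j)) = x i c j := by
  have h0 : c * q + j < b * q := by
    have : (c + 1) * q ≤ b * q := Nat.mul_le_mul_right _ hc
    rw [Nat.succ_mul] at this; omega
  have hbq : 0 < b * q := by omega
  have h1 : (i * (b * q) + (c * q + j)) / (b * q) = i := by
    rw [mul_comm, Nat.mul_add_div hbq, Nat.div_eq_of_lt h0, add_zero]
  have h2 : (i * (b * q) + (c * q + j)) % (b * q) = c * q + j := by
    rw [mul_comm, Nat.mul_add_mod, Nat.mod_eq_of_lt h0]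
  have h3 : (i * (b * q) + (c * q + j)) % q = j := by
    have : i * (b * q) + (c * q + j) = q * (i * b + c) + j := by ring
    rw [this, Nat.mul_add_mod, Nat.mod_eq_of_lt hj]
  have h4 : (c * q + j) / q = c := by
    rw [mul_comm, Nat.mul_add_div (by omega), Nat.div_eq_of_lt hj, add_zero]
  have h5 : i * (b * q) + (c * q + j) < q * (b * q) := by
    have : (i + 1) * (b * q) ≤ q * (b * q) := Nat.mul_le_mul_right _ hi
    rw [Nat.succ_mul] at this; omega
  simp only [fdig, if_pos h5, h1, h2, h3, h4]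

theorem fdig_ge {q b : ℕ} (x : ℕ → ℕ → ℕ → ℕ) {s : ℕ} (hs : q * (b * q) ≤ s) :
    fdig q b x s = 0 := by
  simp [fdig, Nat.not_lt.mpr hs]

theorem fdig_lt {q b C : ℕ} (hC : 0 < C) (hq : 0 < q) (x : ℕ → ℕ → ℕ → ℕ)
    (hx : ∀ i < q, ∀ c < b, ∀ j < q, x i c j < C) (s : ℕ) : fdig q b x s < C := by
  unfold fdig
  split_ifs with h
  · refine hx _ ?_ _ ?_ _ (Nat.mod_lt _ hq)
    · apply Nat.div_lt_of_lt_mul
      rwa [mul_comm]
    · apply Nat.div_lt_of_lt_mul
      rw [mul_comm q b]
      apply Nat.mod_lt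
      by_contra h0
      have : b * q = 0 := by omega
      rw [this] at h; omega
  · exact hC

theorem fdataG_eq_fm (q b l : ℕ) (x : ℕ → ℕ → ℕ → ℕ) :
    fdataG q b l x = fm (q * (b * q)) fun s => lsb l (fdig q b x s) := by
  rw [fm_mul]
  refine fm_congr fun i hi => ?_
  rw [fm_mul]
  refine fm_congr fun c hc => fm_congr fun j hj => ?_
  rw [fdig_eq x hi hc hj]

theorem ofLsb_fdataG {q b l : ℕ} (hq : 0 < q) {x : ℕ → ℕ → ℕ → ℕ}
    (hx : ∀ i < q, ∀ c < b, ∀ j < q, x i c j < 2 ^ l) :
    ofLsb (fdataG q b l x) = ∑ s ∈ Finset.range (q * (b * q)), fdig q b x s * (2 ^ l) ^ s := by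
  rw [fdataG_eq_fm, ofLsb_fm (c := l)]
  · apply Finset.sum_congr rfl
    intro s _
    rw [ofLsb_lsb, Nat.mod_eq_of_lt (fdig_lt (by positivity) hq x hx s), ← pow_mul, mul_comm]
  · intro s _
    exact lsb_length _ _

/-- The value of row `d` of the kernel. -/
def fgk (p z d : ℕ) : ℕ := z ^ (d * (d - 1) / 2) % p

theorem fkern_length {q b l p z : ℕ} (hbq : 0 < b * q) :
    (fkern q b l p z).length = 2 * q * (b * q * l) := by
  refine fm_length fun d _ => ?_
  simp only [List.length_append, lsb_length, zeros_length]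
  obtain ⟨r, hr⟩ : ∃ r, b * q = r + 1 := ⟨b * q - 1, by omega⟩
  rw [hr, Nat.add_sub_cancel]; ring

theorem ofLsb_fkern {q b l p z : ℕ} (hbq : 0 < b * q) (hp : 0 < p) (hl : p ≤ 2 ^ l) :
    ofLsb (fkern q b l p z) =
      ∑ d ∈ Finset.range (2 * q), fgk p z d * (2 ^ l) ^ (b * q * d) := by
  rw [fkern, ofLsb_fm (c := b * q * l)]
  · apply Finset.sum_congr rfl
    intro d _
    rw [ofLsb_append, ofLsb_zeros, mul_zero, add_zero, ofLsb_lsb, Nat.mod_eq_of_lt
      ((Nat.mod_lt _ hp).trans_le hl), ← pow_mul, mul_comm, fgk]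
    congr 2
    ring
  · intro d _
    simp only [List.length_append, lsb_length, zeros_length]
    obtain ⟨r, hr⟩ : ∃ r, b * q = r + 1 := ⟨b * q - 1, by omega⟩
    rw [hr, Nat.add_sub_cancel]; ring

theorem fslot_value {p q z b l M : ℕ} {x : ℕ → ℕ → ℕ → ℕ} (hq : 0 < q) (hqp : q < p) (hb : 0 < b)
    (hx : ∀ i < q, ∀ c < b, ∀ j < q, x i c j < p) (hl : p ^ 3 ≤ 2 ^ l)
    (hM : 2 * q * (b * q) * l ≤ M) {k c j : ℕ} (hk : k < q) (hc : c < b) (hj : j < q) :
    ofLsb (fslot q b l (mulLsb M (fdataG q b l x) (fkern q b l p z)) k c j) =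
      ∑ i ∈ Finset.range q, fgk p z (q + k - i) * x i c j := by
  have hp : 0 < p := by omega
  have hbq : 0 < b * q := Nat.mul_pos hb hq
  have hpl : p ≤ 2 ^ l := le_trans (by nlinarith [Nat.pow_le_pow_right hp (show 1 ≤ 3 by norm_num)]) hl
  set pos := ((q + k) * b + c) * q + j with hpos
  have hpos2 : pos = (q + k) * (b * q) + (c * q + j) := by rw [hpos]; ring
  have hsw : c * q + j < b * q := by
    have : (c + 1) * q ≤ b * q := Nat.mul_le_mul_right _ hc
    rw [Nat.succ_mul] at this; omega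
  have hposlt : pos + 1 ≤ 2 * q * (b * q) := by
    have h3 : (q + k + 1) * (b * q) ≤ 2 * q * (b * q) := Nat.mul_le_mul_right _ (by omega)
    rw [Nat.succ_mul] at h3; omega
  have hposl : pos * l + l ≤ 2 * M := by
    have h6 : (pos + 1) * l ≤ 2 * q * (b * q) * l := Nat.mul_le_mul_right _ hposlt
    rw [Nat.succ_mul] at h6; omega
  set D := fdataG q b l x with hD
  set K := fkern q b l p z with hK
  have hval : ofLsb (fslot q b l (mulLsb M D K) k c j) =
      ofLsb D * ofLsb K / (2 ^ l) ^ pos % 2 ^ l := by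
    simp only [fslot, mulLsb, ofLsb_take, ofLsb_drop, ofLsb_lsb]
    rw [← hpos]
    obtain ⟨s, hs⟩ : ∃ s, 2 * M = pos * l + (l + s) := ⟨2 * M - (pos * l + l), by omega⟩
    rw [hs, pow_add, Nat.mod_mul_right_div_self, pow_add, Nat.mod_mul_right_mod, ← pow_mul,
      mul_comm l pos]
  have hprod : ofLsb D * ofLsb K = ∑ r ∈ Finset.range (q * (b * q) + b * q * (2 * q)),
      (∑ d ∈ Finset.range (2 * q), fgk p z d * (if b * q * d ≤ r then
        fdig q b x (r - b * q * d) else 0)) * (2 ^ l) ^ r := by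
    rw [hD, hK, ofLsb_fdataG hq (fun i hi c hc j hj => (hx i hi c hc j hj).trans_le hpl),
      ofLsb_fkern hbq hp hpl]
    exact conv_sum _ (b * q) _ _ _ _ fun s hs => fdig_ge x hs
  have hcB : ∀ r, ∑ d ∈ Finset.range (2 * q), fgk p z d * (if b * q * d ≤ r then
        fdig q b x (r - b * q * d) else 0) < 2 ^ l := by
    intro r
    refine (conv_lt2 hbq hq _ _ (fun s hs => fdig_ge x hs) (fdig_lt hp hq x hx)
      (fun d => Nat.mod_lt _ hp) r).trans_le ?_
    calc p * p * q ≤ p * p * p := Nat.mul_le_mul_left _ hqp.le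
      _ = p ^ 3 := by ring
      _ ≤ 2 ^ l := hl
  have hdig := digit_eq (B := 2 ^ l) (by positivity) _ hcB
    (n := q * (b * q) + b * q * (2 * q)) (p := pos) (by
      have : b * q * (2 * q) = 2 * q * (b * q) := by ring
      omega)
  rw [← hprod] at hdig
  rw [hval, hdig, hpos2]
  rw [conv_digit2 _ _ (fun s hs => fdig_ge x hs) hk hsw]
  apply Finset.sum_congr rfl
  intro i hi
  rw [fdig_eq x (Finset.mem_range.mp hi) hc hj]

/-! ### Arithmetic modulo `p` -/

namespace Root

variable {p q z h : ℕ}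

theorem q_pos (hr : Root p q z h) : 0 < q := by have := hr.three; have := hr.hq; omega

theorem q_lt (hr : Root p q z h) : q < p := by have := hr.hq; omega

theorem z_mul_h (hr : Root p q z h) : (z : ZMod p) * h = 1 := by
  have h1 : ((z * h : ℕ) : ZMod p) = ((1 : ℕ) : ZMod p) := by
    rw [ZMod.natCast_eq_natCast_iff, Nat.ModEq, hr.zh,
      Nat.mod_eq_of_lt (by have := hr.three; omega)]
  simpa using h1

theorem z_pow_q (hr : Root p q z h) : (z : ZMod p) ^ q = 1 := by
  have h1 : ((z ^ q : ℕ) : ZMod p) = ((1 : ℕ) : ZMod p) := by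
    rw [ZMod.natCast_eq_natCast_iff, Nat.ModEq, hr.pow,
      Nat.mod_eq_of_lt (by have := hr.three; omega)]
  simpa using h1

theorem z_pow_ne (hr : Root p q z h) {s : ℕ} (hs : ¬ q ∣ s) : (z : ZMod p) ^ s ≠ 1 := by
  intro h1
  have h2 : (z : ZMod p) ^ (s % q) = 1 := by
    rw [← h1]
    conv_rhs => rw [← Nat.mod_add_div s q]
    rw [pow_add, pow_mul, hr.z_pow_q, one_pow, mul_one]
  have h3 : z ^ (s % q) % p = 1 := by
    have h4 : ((z ^ (s % q) : ℕ) : ZMod p) = ((1 : ℕ) : ZMod p) := by simpa using h2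
    rw [ZMod.natCast_eq_natCast_iff, Nat.ModEq,
      Nat.mod_eq_of_lt (show 1 < p by have := hr.three; omega)] at h4
    exact h4
  refine hr.order (s % q) ?_ (Nat.mod_lt _ hr.q_pos) h3
  exact Nat.pos_of_ne_zero fun h0 => hs (Nat.dvd_of_mod_eq_zero h0)

theorem z_ne (hr : Root p q z h) : (z : ZMod p) ≠ 0 := by
  have := Fact.mk hr.prime
  intro h0
  have := hr.z_mul_h
  rw [h0, zero_mul] at this
  exact zero_ne_one this

theorem h_eq (hr : Root p q z h) : (h : ZMod p) = (haveI := Fact.mk hr.prime; (z : ZMod p)⁻¹) := by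
  have := Fact.mk hr.prime
  exact eq_inv_of_mul_eq_one_right hr.z_mul_h

end Root

/-- `T n = z^n` for integer `n`. -/
noncomputable def Tz (p z : ℕ) [Fact p.Prime] (n : ℤ) : ZMod p := (z : ZMod p) ^ n

section tz
variable {p q z h : ℕ} [Fact p.Prime]

theorem Tz_add (hr : Root p q z h) (a b : ℤ) : Tz p z (a + b) = Tz p z a * Tz p z b :=
  zpow_add₀ hr.z_ne a b

theorem Tz_nat (n : ℕ) : Tz p z n = (z : ZMod p) ^ n := zpow_natCast _ _

theorem Tz_neg_nat (hr : Root p q z h) (n : ℕ) : Tz p z (-n) = (h : ZMod p) ^ n := by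
  rw [Tz, zpow_neg, zpow_natCast, hr.h_eq, inv_pow]

theorem Tz_zero : Tz p z 0 = 1 := zpow_zero _

theorem Tz_q (hr : Root p q z h) (c : ℤ) : Tz p z (q * c) = 1 := by
  rw [Tz, zpow_mul, zpow_natCast, hr.z_pow_q, one_zpow]

theorem Tz_congr (hr : Root p q z h) {a b : ℤ} (c : ℤ) (hab : a = b + q * c) :
    Tz p z a = Tz p z b := by
  rw [hab, Tz_add hr, Tz_q hr, mul_one]

theorem Tz_comb (hr : Root p q z h) {a b c d f g k : ℤ} (r : ℤ) (y : ZMod p)
    (hab : a + b + c + d + f = g + k + q * r) :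
    Tz p z a * (Tz p z b * (Tz p z c * (Tz p z d * (Tz p z f * y)))) =
      Tz p z g * (Tz p z k * y) := by
  have e : Tz p z (a + b + c + d + f) = Tz p z (g + k) := Tz_congr hr r hab
  simp only [Tz_add hr] at e
  linear_combination y * e

/-- Natural exponents. -/
noncomputable def TP (p z : ℕ) [Fact p.Prime] (n : ℕ) : ZMod p := Tz p z n

/-- Negated natural exponents. -/
noncomputable def TN (p z : ℕ) [Fact p.Prime] (n : ℕ) : ZMod p := Tz p z (-n)

end tz

/-- Twice a triangular number. -/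
theorem two_tri (a : ℕ) : 2 * ((a * (a - 1) / 2 : ℕ) : ℤ) = a * (a - 1) := by
  have h1 : 2 * (a * (a - 1) / 2) = a * (a - 1) :=
    Nat.two_mul_div_two_of_even (Nat.even_mul_pred_self a)
  rcases Nat.eq_zero_or_pos a with rfl | ha
  · simp
  · have h2 : ((a - 1 : ℕ) : ℤ) = (a : ℤ) - 1 := by rw [Nat.cast_sub ha, Nat.cast_one]
    rw [← h2]
    exact_mod_cast h1

theorem two_tri' (a : ℕ) : 2 * ((a * (a + 1) / 2 : ℕ) : ℤ) = a * (a + 1) := by
  have := two_tri (a + 1)
  rw [Nat.add_sub_cancel, mul_comm (a + 1) a] at this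
  rw [this]; push_cast; ring

/-- The contents of the slots of the second product, after the last multiplication. -/
theorem final_fslot {p q z h b l M : ℕ} (hr : Root p q z h) (hb : 1 ≤ b) (hbp : 2 ^ b ≤ p)
    (hl : p ^ 3 ≤ 2 ^ l) (hM : 2 * q * (b * q) * l ≤ M) (ent : ℕ → ℕ → ℕ → List Bool)
    (hent : ∀ i < q, ∀ c < b, ∀ j < q, (ent i c j).length = b) {k c j : ℕ} (hk : k < q)
    (hc : c < b) (hj : j < q) :
    lsb b (((p - 1) * h ^ (k * (k - 1) / 2) * ofLsb (fslot q b l (mulLsb M
      (fdata2 q b l p z h (mulLsb M (fdata1 q b l p h ent) (fkern q b l p z)))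
        (fkern q b l p z)) k c j)) % p) = ent ((j + (q - k)) % q) c k := by
  have := Fact.mk hr.prime
  have hq := hr.q_pos
  have hqp := hr.q_lt
  have hp : 0 < p := by omega
  set i0 := (j + (q - k)) % q with hi0
  have hi0q : i0 < q := Nat.mod_lt _ hq
  have hik : (j + (q - i0)) % q = k := by
    rcases le_or_gt k j with h1 | h1
    · have e1 : i0 = j - k := by
        rw [hi0]
        have : j + (q - k) = q + (j - k) := by omega
        rw [this, Nat.add_mod_left, Nat.mod_eq_of_lt (by omega)]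
      rw [e1]
      have : j + (q - (j - k)) = q + k := by omega
      rw [this, Nat.add_mod_left, Nat.mod_eq_of_lt hk]
    · have e1 : i0 = j + (q - k) := by
        rw [hi0]; exact Nat.mod_eq_of_lt (by omega)
      rw [e1]
      have : j + (q - (j + (q - k))) = k := by omega
      rw [this, Nat.mod_eq_of_lt hk]
  -- value of the first product
  have hd1 : fdata1 q b l p h ent = fdataG q b l fun i c j =>
      (h ^ (i * (i + 1) / 2) * ofLsb (ent i c ((j + (q - i)) % q))) % p := rfl
  rw [hd1]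
  set P1 := mulLsb M (fdataG q b l fun i c j =>
      (h ^ (i * (i + 1) / 2) * ofLsb (ent i c ((j + (q - i)) % q))) % p) (fkern q b l p z) with hP1
  have hd2 : fdata2 q b l p z h P1 = fdataG q b l fun k c j =>
      (h ^ (k ^ 2) * z ^ (k * j) * ofLsb (fslot q b l P1 k c j)) % p := rfl
  rw [hd2]
  have hs1 : ∀ k < q, ofLsb (fslot q b l P1 k c j) = _ := fun k hk =>
    fslot_value hq hqp hb (fun i _ c _ j _ => Nat.mod_lt _ hp) hl hM hk hc hj
  have hs2 := fslot_value (z := z) (x := fun k c j =>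
      (h ^ (k ^ 2) * z ^ (k * j) * ofLsb (fslot q b l P1 k c j)) % p)
      hq hqp hb (fun i _ c _ j _ => Nat.mod_lt _ hp) hl hM hk hc hj
  have hel : (ent i0 c k).length = b := hent i0 hi0q c hc k hk
  have hev : ofLsb (ent i0 c k) < p := by
    have := ofLsb_lt (ent i0 c k)
    rw [hel] at this; omega
  apply ofLsb_inj (by rw [lsb_length, hel])
  rw [ofLsb_lsb]
  suffices hmain : ((p - 1) * h ^ (k * (k - 1) / 2) * ofLsb (fslot q b l (mulLsb M
      (fdataG q b l fun k c j => (h ^ (k ^ 2) * z ^ (k * j) * ofLsb (fslot q b l P1 k c j)) % p)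
        (fkern q b l p z)) k c j)) % p = ofLsb (ent i0 c k) by
    rw [hmain]
    apply Nat.mod_eq_of_lt
    have := ofLsb_lt (ent i0 c k)
    rwa [hel] at this
  rw [← Nat.mod_eq_of_lt hev]
  change _ ≡ _ [MOD p]
  rw [← ZMod.natCast_eq_natCast_iff, hs2]
  have hp1 : (((p - 1 : ℕ)) : ZMod p) = -1 := by
    rw [Nat.cast_sub hp]; simp
  -- the terms of the double sum
  have hstep : ∀ k' ∈ Finset.range q, ((fgk p z (q + k - k') *
      ((h ^ (k' ^ 2) * z ^ (k' * j) * ofLsb (fslot q b l P1 k' c j)) % p) : ℕ) : ZMod p) =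
      ∑ i ∈ Finset.range q, TP p z ((q + k - k') * (q + k - k' - 1) / 2) *
        (TN p z (k' ^ 2) * (TP p z (k' * j) *
        (TP p z ((q + k' - i) * (q + k' - i - 1) / 2) *
        (TN p z (i * (i + 1) / 2) * (ofLsb (ent i c ((j + (q - i)) % q)) : ZMod p))))) := by
    intro k' hk'
    rw [hs1 k' (Finset.mem_range.mp hk')]
    push_cast [fgk, ZMod.natCast_mod]
    rw [Finset.mul_sum, Finset.mul_sum]
    apply Finset.sum_congr rfl
    intro i _
    simp only [TP, TN]
    rw [Tz_nat, Tz_neg_nat hr, Tz_nat, Tz_nat, Tz_neg_nat hr]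
    ring
  push_cast
  push_cast at hstep
  rw [hp1, Finset.sum_congr rfl hstep, Finset.sum_comm, Finset.mul_sum]
  have hcol : ∀ i ∈ Finset.range q,
      -1 * (h : ZMod p) ^ (k * (k - 1) / 2) *
      ∑ k' ∈ Finset.range q, TP p z ((q + k - k') * (q + k - k' - 1) / 2) *
        (TN p z (k' ^ 2) * (TP p z (k' * j) *
        (TP p z ((q + k' - i) * (q + k' - i - 1) / 2) *
        (TN p z (i * (i + 1) / 2) * (ofLsb (ent i c ((j + (q - i)) % q)) : ZMod p))))) =
      -((∑ k' ∈ Finset.range q, ((z : ZMod p) ^ (j + (q - i) + (q - k))) ^ k') *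
          (ofLsb (ent i c ((j + (q - i)) % q)) : ZMod p)) := by
    intro i hi
    have hi' : i < q := Finset.mem_range.mp hi
    rw [Finset.sum_mul, Finset.mul_sum, ← Finset.sum_neg_distrib]
    apply Finset.sum_congr rfl
    intro k' hk'
    have hk'q : k' < q := Finset.mem_range.mp hk'
    simp only [TP, TN]
    rw [← pow_mul, ← Tz_neg_nat hr, ← Tz_nat]
    have t1 := two_tri (q + k - k')
    have t2 := two_tri (q + k' - i)
    have t3 := two_tri' i
    have t4 := two_tri k
    rw [Tz_comb hr (g := ((k * (k - 1) / 2 : ℕ) : ℤ))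
      (k := (((j + (q - i) + (q - k)) * k' : ℕ) : ℤ)) (r := (q : ℤ) - 1 + k - i - 2 * k')]
    · have e : Tz p z (-((k * (k - 1) / 2 : ℕ) : ℤ)) * Tz p z ((k * (k - 1) / 2 : ℕ) : ℤ) = 1 := by
        rw [← Tz_add hr, neg_add_cancel, Tz_zero]
      linear_combination -(Tz p z (((j + (q - i) + (q - k)) * k' : ℕ) : ℤ) *
        (ofLsb (ent i c ((j + (q - i)) % q)) : ZMod p)) * e
    · push_cast [Nat.cast_sub (show k' ≤ q + k by omega), Nat.cast_sub (show i ≤ q + k' by omega),
        Nat.cast_sub hi'.le, Nat.cast_sub hk.le] at t1 t2 t3 t4 ⊢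
      have : (2 : ℤ) ≠ 0 := by norm_num
      apply mul_left_cancel₀ this
      linear_combination t1 + t2 - t3 - t4
  rw [Finset.sum_congr rfl hcol, Finset.sum_eq_single i0]
  · rw [hik]
    have hdvd : q ∣ j + (q - i0) + (q - k) := by
      rcases le_or_gt k j with h1 | h1
      · have e1 : i0 = j - k := by
          rw [hi0]
          have : j + (q - k) = q + (j - k) := by omega
          rw [this, Nat.add_mod_left, Nat.mod_eq_of_lt (by omega)]
        rw [e1]
        exact ⟨2, by omega⟩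
      · have e1 : i0 = j + (q - k) := by
          rw [hi0]; exact Nat.mod_eq_of_lt (by omega)
        rw [e1]
        exact ⟨1, by omega⟩
    obtain ⟨d, hd⟩ := hdvd
    have hθ : (z : ZMod p) ^ (j + (q - i0) + (q - k)) = 1 := by
      rw [hd, pow_mul, hr.z_pow_q, one_pow]
    rw [hθ]
    simp only [one_pow, Finset.sum_const, Finset.card_range, nsmul_eq_mul, mul_one]
    have hq1 : (q : ZMod p) = -1 := by
      have : ((q + 1 : ℕ) : ZMod p) = 0 := by rw [hr.hq]; simp
      push_cast at this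
      linear_combination this
    rw [hq1]; ring
  · intro i hi hne
    have hi' : i < q := Finset.mem_range.mp hi
    have hnd : ¬ q ∣ j + (q - i) + (q - k) := by
      rintro ⟨d, hd⟩
      apply hne
      have hd3 : d < 3 := by
        by_contra h3
        have : q * 3 ≤ q * d := Nat.mul_le_mul_left _ (by omega)
        omega
      have hd0 : 0 < d := by
        rcases Nat.eq_zero_or_pos d with rfl | h0
        · omega
        · exact h0
      rcases le_or_gt k j with h1 | h1
      · have e1 : i0 = j - k := by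
          rw [hi0]
          have : j + (q - k) = q + (j - k) := by omega
          rw [this, Nat.add_mod_left, Nat.mod_eq_of_lt (by omega)]
        have : d = 1 ∨ d = 2 := by omega
        rcases this with rfl | rfl <;> omega
      · have e1 : i0 = j + (q - k) := by
          rw [hi0]; exact Nat.mod_eq_of_lt (by omega)
        have : d = 1 ∨ d = 2 := by omega
        rcases this with rfl | rfl <;> omega
    have hθ := hr.z_pow_ne hnd
    have hgeom : ∑ k' ∈ Finset.range q, ((z : ZMod p) ^ (j + (q - i) + (q - k))) ^ k' = 0 := by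
      rw [geom_sum_eq hθ, ← pow_mul, mul_comm, pow_mul, hr.z_pow_q, one_pow, sub_self, zero_div]
    rw [hgeom, zero_mul, neg_zero]
  · intro h1
    exact absurd (Finset.mem_range.mpr hi0q) h1

/-- **Correctness.** -/
theorem fswap_spec {p q z h b l M : ℕ} (hr : Root p q z h) (hb : 1 ≤ b) (hbp : 2 ^ b ≤ p)
    (hl : p ^ 3 ≤ 2 ^ l) (hM : 2 * q * (b * q) * l ≤ M) (ent : ℕ → ℕ → ℕ → List Bool)
    (hent : ∀ i < q, ∀ c < b, ∀ j < q, (ent i c j).length = b) :
    fdata3 q b l p h (mulLsb M
      (fdata2 q b l p z h (mulLsb M (fdata1 q b l p h ent) (fkern q b l p z)))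
        (fkern q b l p z)) =
      fm q fun k => fm b fun c => fm q fun i => ent i c k := by
  have hq := hr.q_pos
  refine fm_congr fun k hk => fm_congr fun c hc => ?_
  rw [fm_congr (fun j hj => final_fslot hr hb hbp hl hM ent hent hk hc hj),
    SC.fm_rotate (fun j _ => hent _ (Nat.mod_lt _ hq) c hc k hk) hk]
  refine fm_congr fun i hi => ?_
  congr 1
  rcases Nat.lt_or_ge (i + k) q with h2 | h2
  · rw [Nat.mod_eq_of_lt h2]
    have : i + k + (q - k) = q + i := by omega
    rw [this, Nat.add_mod_left, Nat.mod_eq_of_lt hi]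
  · have h3 : (i + k) % q = i + k - q := by
      rw [Nat.mod_eq_sub_mod h2, Nat.mod_eq_of_lt (by omega)]
    rw [h3]
    have : i + k - q + (q - k) = i := by omega
    rw [this, Nat.mod_eq_of_lt hi]

/-! ### Lengths -/

theorem fdata1_length (q b l p h : ℕ) (ent : ℕ → ℕ → ℕ → List Bool) :
    (fdata1 q b l p h ent).length = q * (b * (q * l)) :=
  fm_length fun _ _ => fm_length fun _ _ => fm_length fun _ _ => lsb_length _ _

theorem fdata2_length (q b l p z h : ℕ) (P : List Bool) :
    (fdata2 q b l p z h P).length = q * (b * (q * l)) :=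
  fm_length fun _ _ => fm_length fun _ _ => fm_length fun _ _ => lsb_length _ _

end Vale.Agent.P338
end

section

/-! Correctness and cost of the transposition with the middle index kept. -/

namespace Vale.Agent.P338
open Reg R Ex

namespace G7

section
variable {τ κ α : Type} [DecidableEq τ] [DecidableEq κ]

/-- The four registers not mentioned in `Pctx`. -/
def free4 (a : RF τ κ) : Prop := a = r D ∨ a = r C ∨ a = r G ∨ a = r P

theorem pctx_set {s : Store (RF τ κ) (Sy α)} {l p q b z h : ℕ} (hp : Pctx s l p q b z h)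
    {a : RF τ κ} (ha : free4 a) (v : List (Sy α)) : Pctx (s.set a v) l p q b z h := by
  have h0 : ctxReg a = false := by rcases ha with rfl | rfl | rfl | rfl <;> rfl
  have key : ∀ c : RF τ κ, ¬ free4 c → (s.set a v) c = s c := by
    intro c hc
    rw [Store.set_ne]
    rintro rfl
    exact hc ha
  exact
  { ctx := hp.ctx.set h0 v
    root := hp.root
    b1 := hp.b1
    bl := hp.bl
    bp := hp.bp
    pl3 := hp.pl3
    q1 := by rw [key _ (by simp [free4])]; exact hp.q1
    q2 := by rw [key _ (by simp [free4])]; exact hp.q2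
    nb1 := by rw [key _ (by simp [free4])]; exact hp.nb1
    nc := by rw [key _ (by simp [free4])]; exact hp.nc
    nLb := by rw [key _ (by simp [free4])]; exact hp.nLb
    A3 := by rw [key _ (by simp [free4])]; exact hp.A3
    ONE := by rw [key _ (by simp [free4])]; exact hp.ONE
    ZT := by rw [key _ (by simp [free4])]; exact hp.ZT
    HH := by rw [key _ (by simp [free4])]; exact hp.HH
    X := by rw [key _ (by simp [free4])]; exact hp.X
    RW := by rw [key _ (by simp [free4])]; exact hp.RW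
    A2 := by rw [key _ (by simp [free4])]; exact hp.A2
    U := by rw [key _ (by simp [free4])]; exact hp.U
    V := by rw [key _ (by simp [free4])]; exact hp.V
    S := by rw [key _ (by simp [free4])]; exact hp.S
    S0 := by rw [key _ (by simp [free4])]; exact hp.S0
    DD := by rw [key _ (by simp [free4])]; exact hp.DD }

theorem bigIdle_set {s : Store (RF τ κ) (Sy α)} (hs : BigIdle s)
    {a : RF τ κ} (ha : free4 a) (v : List (Sy α)) : BigIdle (s.set a v) := by
  have key : ∀ c : RF τ κ, ¬ free4 c → (s.set a v) c = s c := by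
    intro c hc
    rw [Store.set_ne]
    rintro rfl
    exact hc ha
  refine ⟨?_, fun i => ?_, fun i => ?_⟩
  · rw [key _ (by simp [free4])]; exact hs.1
  · rw [key _ (by simp [free4])]; exact hs.2.1 i
  · rw [key _ (by simp [free4])]; exact hs.2.2 i

/-- The store `s` with the four main registers overwritten. -/
def Q (s : Store (RF τ κ) (Sy α)) (d c g p : List (Sy α)) : Store (RF τ κ) (Sy α) :=
  (((s.set (r D) d).set (r C) c).set (r G) g).set (r P) p

section Q
variable (s : Store (RF τ κ) (Sy α)) (d c g p v : List (Sy α))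

theorem Q_get_D : Q s d c g p (r D) = d := by simp [Q]
theorem Q_get_C : Q s d c g p (r C) = c := by simp [Q]
theorem Q_get_G : Q s d c g p (r G) = g := by simp [Q]
theorem Q_get_P : Q s d c g p (r P) = p := by simp [Q]
theorem Q_get_M1 : Q s d c g p (r M1) = s (r M1) := by simp [Q]

theorem Q_D : (Q s d c g p).set (r D) v = Q s v c g p := by
  apply Store.ext'; intro i
  by_cases h1 : i = r D
  · subst h1; simp [Q]
  · simp only [Q, Store.set, h1, if_false]

theorem Q_C : (Q s d c g p).set (r C) v = Q s d v g p := by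
  apply Store.ext'; intro i
  by_cases h1 : i = r C
  · subst h1; simp [Q]
  · simp only [Q, Store.set, h1, if_false]

theorem Q_G : (Q s d c g p).set (r G) v = Q s d c v p := by
  apply Store.ext'; intro i
  by_cases h1 : i = r G
  · subst h1; simp [Q]
  · simp only [Q, Store.set, h1, if_false]

theorem Q_P : (Q s d c g p).set (r P) v = Q s d c g v := by
  apply Store.ext'; intro i
  by_cases h1 : i = r P
  · subst h1; simp [Q]
  · simp only [Q, Store.set, h1, if_false]

variable {s} in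
theorem Q_pctx {l p' q b z h : ℕ} (hp : Pctx s l p' q b z h) :
    Pctx (Q s d c g p) l p' q b z h :=
  pctx_set (pctx_set (pctx_set (pctx_set hp (Or.inl rfl) d) (Or.inr (Or.inl rfl)) c)
    (Or.inr (Or.inr (Or.inl rfl))) g) (Or.inr (Or.inr (Or.inr rfl))) p

variable {s} in
theorem Q_idle (hs : BigIdle s) : BigIdle (Q s d c g p) :=
  bigIdle_set (bigIdle_set (bigIdle_set (bigIdle_set hs (Or.inl rfl) d) (Or.inr (Or.inl rfl)) c)
    (Or.inr (Or.inr (Or.inl rfl))) g) (Or.inr (Or.inr (Or.inr rfl))) p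

end Q

end

end G7

section
variable {τ κ α : Type} [DecidableEq τ] [DecidableEq κ]
  {sm : Cmd (RF τ κ) (Sy α)} {t : ℕ → ℕ} {C1 : ℕ}
open G7

theorem run_shearF (hs : SmallSpec sm t C1) (mulP : Cmd (RF τ κ) (Sy α)) (T : ℕ → ℕ) (C2 : ℕ)
    (hm : BigSpec mulP T C2) : ∃ C0 : ℕ, ∀ (s : Store (RF τ κ) (Sy α))
    (l p q b z h M : ℕ) (ent : ℕ → ℕ → ℕ → List Bool), Pctx s l p q b z h →
    (∀ i < q, ∀ c < b, ∀ j < q, (ent i c j).length = b) → 2 * q * (b * q * l) ≤ M →
    s (r D) = bs (fm q fun i => fm b fun c => fm q fun j => ent i c j) →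
    s (r C) = [] → s (r G) = [] → s (r P) = [] → s (r M1) = num M → BigIdle s →
    Runs (shearF sm mulP) s
      (s.set (r D) (bs (fm q fun k => fm b fun c => fm q fun i => ent i c k)))
      (C0 * (T M + M + q * (b * q) * (t l + l))) := by
  obtain ⟨c1, h1⟩ := run_passF1 hs
  obtain ⟨ck, hk⟩ := run_kernF hs
  obtain ⟨c2, h2⟩ := run_passF2 hs
  obtain ⟨c3, h3⟩ := run_passF3 hs
  refine ⟨c1 + (2 * ck + (C2 + (c2 + (5 + (2 * ck + (C2 + (c3 + (5 + 1)))))))), ?_⟩
  intro s l p q b z h M ent hp hent hM hD hC hG hP hM1 hbig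
  have hl := hp.ctx.l1
  have hq : 1 ≤ q := by have := hp.root.hq; have := hp.ctx.p3; omega
  have hb := hp.b1
  have hbq : 0 < b * q := Nat.mul_pos hb hq
  have hqbql : 1 ≤ q * (b * q * l) := Nat.mul_pos hq (Nat.mul_pos hbq hl)
  have eM : 2 * q * (b * q * l) = 2 * (q * (b * q * l)) := by ring
  have eM2 : 2 * q * (b * q * l) = 2 * q * (b * q) * l := by ring
  have hM0 : 1 ≤ M := by omega
  have e0 : s = Q s (bs (fm q fun i => fm b fun c => fm q fun j => ent i c j)) [] [] [] := by
    unfold Q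
    rw [Store.set_eq_self s hD, Store.set_eq_self s hC, Store.set_eq_self s hG,
      Store.set_eq_self s hP]
  have r1 := h1 (Q s (bs (fm q fun i => fm b fun c => fm q fun j => ent i c j)) [] [] [])
    l p q b z h ent (Q_pctx _ _ _ _ hp) hent (by rw [Q_get_D]) (by rw [Q_get_C])
  rw [Q_D, Q_C, ← e0] at r1
  have r2 := hk (Q s [] (bs (fdata1 q b l p h ent)) [] []) l p q b z h (Q_pctx _ _ _ _ hp)
    (by rw [Q_get_G])
  rw [Q_G] at r2
  have r3 := hm (Q s [] (bs (fdata1 q b l p h ent)) (bs (fkern q b l p z)) []) M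
    (fdata1 q b l p h ent) (fkern q b l p z) hM0
    (by
      rw [fdata1_length]
      have : q * (b * (q * l)) = q * (b * q * l) := by ring
      omega)
    (by
      rw [fkern_length hbq]
      omega)
    (by rw [Q_get_C]) (by rw [Q_get_G]) (by rw [Q_get_P]) (by rw [Q_get_M1]; exact hM1)
    (Q_idle _ _ _ _ hbig)
  rw [Q_C, Q_G, Q_P] at r3
  obtain ⟨v1, hv1⟩ : ∃ v, v = mulLsb M (fdata1 q b l p h ent) (fkern q b l p z) := ⟨_, rfl⟩
  have lv1 : v1.length = 2 * M := by rw [hv1]; simp [mulLsb, lsb]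
  rw [← hv1] at r3
  have r4 := h2 (Q s [] [] [] (bs v1)) l p q b z h v1 (Q_pctx _ _ _ _ hp) (by omega)
    (by rw [Q_get_P]) (by rw [Q_get_C])
  rw [Q_P, Q_C] at r4
  have r5 := run_clr (a := r P) (s := Q s [] (bs (fdata2 q b l p z h v1)) []
    (bs (v1.drop (2 * q * (b * q * l)))))
  rw [Q_P, Q_get_P] at r5
  have r6 := hk (Q s [] (bs (fdata2 q b l p z h v1)) [] []) l p q b z h (Q_pctx _ _ _ _ hp)
    (by rw [Q_get_G])
  rw [Q_G] at r6
  have r7 := hm (Q s [] (bs (fdata2 q b l p z h v1)) (bs (fkern q b l p z)) []) M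
    (fdata2 q b l p z h v1) (fkern q b l p z) hM0
    (by
      rw [fdata2_length]
      have : q * (b * (q * l)) = q * (b * q * l) := by ring
      omega)
    (by
      rw [fkern_length hbq]
      omega)
    (by rw [Q_get_C]) (by rw [Q_get_G]) (by rw [Q_get_P]) (by rw [Q_get_M1]; exact hM1)
    (Q_idle _ _ _ _ hbig)
  rw [Q_C, Q_G, Q_P] at r7
  obtain ⟨v2, hv2⟩ : ∃ v, v = mulLsb M (fdata2 q b l p z h v1) (fkern q b l p z) := ⟨_, rfl⟩
  have lv2 : v2.length = 2 * M := by rw [hv2]; simp [mulLsb, lsb]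
  rw [← hv2] at r7
  have r8 := h3 (Q s [] [] [] (bs v2)) l p q b z h v2 (Q_pctx _ _ _ _ hp) (by omega)
    (by rw [Q_get_P]) (by rw [Q_get_D])
  have espec : fdata3 q b l p h v2 = fm q fun k => fm b fun c => fm q fun i => ent i c k := by
    rw [hv2, hv1]
    exact fswap_spec hp.root hb hp.bp hp.pl3 (by omega) ent hent
  rw [Q_P, Q_D, espec] at r8
  have r9 := run_clr (a := r P) (s := Q s (bs (fm q fun k => fm b fun c => fm q fun i => ent i c k))
    [] [] (bs (v2.drop (2 * q * (b * q * l)))))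
  rw [Q_P, Q_get_P] at r9
  have ef : Q s (bs (fm q fun k => fm b fun c => fm q fun i => ent i c k)) [] [] [] =
      s.set (r D) (bs (fm q fun k => fm b fun c => fm q fun i => ent i c k)) := by
    unfold Q
    rw [Store.set_eq_self, Store.set_eq_self, Store.set_eq_self] <;> simp [hC, hG, hP]
  rw [ef] at r9
  refine (run_sq_cons r1 (run_sq_cons r2 (run_sq_cons r3 (run_sq_cons r4 (run_sq_cons r5
    (run_sq_cons r6 (run_sq_cons r7 (run_sq_cons r8 (run_sq_cons r9
    run_sq_nil))))))))).mono ?_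
  obtain ⟨W, hW⟩ : ∃ W, W = T M + M + q * (b * q) * (t l + l) := ⟨_, rfl⟩
  rw [← hW]
  have i1 : q * (b * q) * (t l + l) ≤ W := by omega
  have i2 : T M + M ≤ W := by omega
  have i3 : q * (b * q * l) + q * (t l + l) ≤ 2 * W := by
    have j1 : q * (b * q * l) ≤ q * (b * q) * (t l + l) := by
      calc q * (b * q * l) = q * (b * q) * l := by ring
        _ ≤ _ := Nat.mul_le_mul_left _ (by omega)
    have j2 : q * (t l + l) ≤ q * (b * q) * (t l + l) :=
      Nat.mul_le_mul_right _ (Nat.le_mul_of_pos_right _ hbq)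
    omega
  have l1 : (bs (v1.drop (2 * q * (b * q * l))) : List (Sy α)).length ≤ 2 * M := by
    simp [lv1]
  have l2 : (bs (v2.drop (2 * q * (b * q * l))) : List (Sy α)).length ≤ 2 * M := by
    simp [lv2]
  have k1 : c1 * (q * (b * q) * (t l + l)) ≤ c1 * W := Nat.mul_le_mul_left _ i1
  have k2 : c2 * (q * (b * q) * (t l + l)) ≤ c2 * W := Nat.mul_le_mul_left _ i1
  have k3 : c3 * (q * (b * q) * (t l + l)) ≤ c3 * W := Nat.mul_le_mul_left _ i1
  have k4 : C2 * (T M + M) ≤ C2 * W := Nat.mul_le_mul_left _ i2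
  have k5 : ck * (q * (b * q * l) + q * (t l + l)) ≤ 2 * ck * W := by
    calc _ ≤ ck * (2 * W) := Nat.mul_le_mul_left _ i3
      _ = 2 * ck * W := by ring
  simp only [Nat.add_mul]
  omega

end

end Vale.Agent.P338
end

section

/-! The second core program meets its specification. -/

namespace Vale.Agent.P338
open Reg R Ex

section
variable {ι α : Type} [DecidableEq ι]

/-- Emptying a list of registers. -/
theorem run_clrs (l : List ι) {s : Store ι (Sy α)} {W : ℕ} (hW : 1 ≤ W)
    (h : ∀ a ∈ l, 2 * (s a).length + 1 ≤ W) :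
    Runs (sq (l.map clr)) s (l.foldl (fun s a => s.set a []) s) ((l.length + 1) * W) := by
  induction l generalizing s with
  | nil => exact sqW_nil hW
  | cons a l ih =>
    have h1 := run_clr (a := a) (s := s)
    have h2 := ih (s := s.set a []) (by
      intro a' ha'
      by_cases haa : a' = a
      · subst haa
        simpa using hW
      · rw [Store.set_ne _ _ haa]
        exact h a' (List.mem_cons_of_mem _ ha'))
    have h3 : Runs (clr a) s (s.set a []) (1 * W) :=
      h1.mono (by rw [one_mul]; exact h a List.mem_cons_self)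
    refine (sqW_cons h3 h2).mono ?_
    apply Nat.mul_le_mul_right
    simp only [List.length_cons]
    omega

end

section
variable {τ κ α : Type} [DecidableEq τ] [DecidableEq κ]
  {sm : Cmd (RF τ κ) (Sy α)} {t : ℕ → ℕ} {C1 : ℕ}

/-- The store after `sizesF`. -/
def cst1 (s : Store (RF τ κ) (Sy α)) (k : ℕ) : Store (RF τ κ) (Sy α) :=
  (((((((((((s.set (ex nk) (num k)).set (ex W2) (num (2 ^ k))).set (ex W3) (num (2 ^ k))).set
        (ex nb1) (num (bOf k))).set (ex nc) (num (bOf k))).set (ex nt) (num (tOf k))).set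
        (ex nhb) (num (bOf k / 2))).set (ex nL) (num (lOf k))).set (ex nL2) (num (lOf k))).set
        (ex nLb) (num (lOf k - bOf k))).set (ex m0) (num (m0Of k)))

/-- The store after `constF`. -/
def cst3 (s : Store (RF τ κ) (Sy α)) (k p q : ℕ) : Store (RF τ κ) (Sy α) :=
  ((((((cst1 s k).set (ex m0) []).set (r q1) (num q)).set (r q2) (num q)).set (ex qm)
    (num (q - 1))).set (ex ONE) (bs (lsb (lOf k) 1))).set (ex Pm) (bs (lsb (lOf k) p)) |>.set
    (ex MU) (bs (lsb (lOf k) (2 ^ lOf k / p)))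

/-- The store after `cntF`. -/
def cst5 (s : Store (RF τ κ) (Sy α)) (k p q z h : ℕ) : Store (RF τ κ) (Sy α) :=
  ((((((cst3 s k p q).set (ex ZT) (bs (lsb (lOf k) z))).set (ex HH) (bs (lsb (lOf k) h))).set
    (r A3) (num (bOf k * q - 1))).set (ex WD) (num (bOf k * q - 2 ^ k))).set (ex NS)
    (num (bOf k / 2 * q))).set (ex NU) (num (bOf k * (bOf k / 2 * q)))

/-- The registers that are emptied at the end. -/
def cleanL : List (RF τ κ) :=
  [.r .q1, .r .q2, .r .A3, ex Pm, ex MU, ex ZT, ex HH, ex ONE, ex nL, ex nL2, ex nLb, ex nb1,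
    ex nc, ex qm, ex nk, ex nt, ex nhb, ex W2, ex W3, ex WD, ex NU, ex NS]

theorem cst_final (s : Store (RF τ κ) (Sy α)) (k p q z h : ℕ) (v : List (Sy α))
    (hemp : ∀ x, x ∉ [inp, out, D, K, M1, N1, N2, N3, N4, N5] → s (r x) = [])
    (htl : ∀ i, s (tl i) = []) :
    (cleanL).foldl (fun s a => s.set a []) ((cst5 s k p q z h).set (r D) v) =
      s.set (r D) v := by
  funext i
  rcases i with x | i | i
  · cases x with
    | q1 => exact (hemp q1 (by simp)).symm
    | q2 => exact (hemp q2 (by simp)).symm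
    | A3 => exact (hemp A3 (by simp)).symm
    | _ => rfl
  · rcases i with i | i | y
    · rfl
    · rfl
    · cases y with
      | m0 => exact (htl (.inr (.inr .m0))).symm
      | Pm => exact (htl (.inr (.inr .Pm))).symm
      | MU => exact (htl (.inr (.inr .MU))).symm
      | ZT => exact (htl (.inr (.inr .ZT))).symm
      | HH => exact (htl (.inr (.inr .HH))).symm
      | ONE => exact (htl (.inr (.inr .ONE))).symm
      | nL => exact (htl (.inr (.inr .nL))).symm
      | nL2 => exact (htl (.inr (.inr .nL2))).symm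
      | nLb => exact (htl (.inr (.inr .nLb))).symm
      | nb1 => exact (htl (.inr (.inr .nb1))).symm
      | nc => exact (htl (.inr (.inr .nc))).symm
      | qm => exact (htl (.inr (.inr .qm))).symm
      | nk => exact (htl (.inr (.inr .nk))).symm
      | nt => exact (htl (.inr (.inr .nt))).symm
      | nhb => exact (htl (.inr (.inr .nhb))).symm
      | W2 => exact (htl (.inr (.inr .W2))).symm
      | W3 => exact (htl (.inr (.inr .W3))).symm
      | WD => exact (htl (.inr (.inr .WD))).symm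
      | NU => exact (htl (.inr (.inr .NU))).symm
      | NS => exact (htl (.inr (.inr .NS))).symm
      | _ => rfl
  · rfl

theorem cst3_ctx {s : Store (RF τ κ) (Sy α)} {k p q : ℕ} (hp : 3 ≤ p) (hpl : p * p ≤ 2 ^ lOf k)
    (hemp : ∀ x, x ∉ [inp, out, D, K, M1, N1, N2, N3, N4, N5] → s (r x) = [])
    (htl : ∀ i, s (tl i) = []) (htr : ∀ i, s (tr i) = []) : Ctx (cst3 s k p q) (lOf k) p :=
  { l1 := by unfold lOf; omega
    p3 := hp
    pl := hpl
    nL := rfl
    Pm := rfl
    MU := rfl
    SX := htl (.inr (.inr .SX))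
    SY := htl (.inr (.inr .SY))
    SZ := htl (.inr (.inr .SZ))
    Y := hemp Y (by simp)
    CY := hemp CY (by simp)
    idle := ⟨htl (.inr (.inr .sST)), fun j => htl (.inr (.inl j)), fun j => htr (.inr (.inl j))⟩ }

theorem cst5_ctx {s : Store (RF τ κ) (Sy α)} {k p q z h : ℕ} {v : List (Sy α)} (hp : 3 ≤ p)
    (hpl : p * p ≤ 2 ^ lOf k)
    (hemp : ∀ x, x ∉ [inp, out, D, K, M1, N1, N2, N3, N4, N5] → s (r x) = [])
    (htl : ∀ i, s (tl i) = []) (htr : ∀ i, s (tr i) = []) :
    Ctx ((cst5 s k p q z h).set (r D) v) (lOf k) p :=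
  { l1 := by unfold lOf; omega
    p3 := hp
    pl := hpl
    nL := rfl
    Pm := rfl
    MU := rfl
    SX := htl (.inr (.inr .SX))
    SY := htl (.inr (.inr .SY))
    SZ := htl (.inr (.inr .SZ))
    Y := hemp Y (by simp)
    CY := hemp CY (by simp)
    idle := ⟨htl (.inr (.inr .sST)), fun j => htl (.inr (.inl j)), fun j => htr (.inr (.inl j))⟩ }

theorem cst5_pctx {s : Store (RF τ κ) (Sy α)} {k m p q z h : ℕ} {v : List (Sy α)}
    (Z : CF.Sizes k m p q (bOf k) (lOf k)) (hroot : Root p q z h)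
    (hemp : ∀ x, x ∉ [inp, out, D, K, M1, N1, N2, N3, N4, N5] → s (r x) = [])
    (htl : ∀ i, s (tl i) = []) (htr : ∀ i, s (tr i) = []) :
    Pctx ((cst5 s k p q z h).set (r D) v) (lOf k) p q (bOf k) z h :=
  { ctx := cst5_ctx Z.p3 Z.p_sq hemp htl htr
    root := hroot
    b1 := Z.b1
    bl := Z.b_le_l
    bp := Z.bp'
    pl3 := Z.p_cube
    q1 := rfl
    q2 := rfl
    nb1 := rfl
    nc := rfl
    nLb := rfl
    A3 := rfl
    ONE := rfl
    ZT := rfl
    HH := rfl
    X := hemp X (by simp)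
    RW := hemp RW (by simp)
    A2 := hemp A2 (by simp)
    U := htl (.inr (.inr .U))
    V := htl (.inr (.inr .V))
    S := htl (.inr (.inr .S))
    S0 := htl (.inr (.inr .S0))
    DD := htl (.inr (.inr .DD)) }

/-- The entries of the padded matrix. -/
def padG (f : ℕ → ℕ → Bool) (w x y : ℕ) : Bool := if x < w ∧ y < w then f x y else false

theorem clean_len {s : Store (RF τ κ) (Sy α)} {k m p q z h : ℕ} {v : List (Sy α)}
    (Z : CF.Sizes k m p q (bOf k) (lOf k)) (a : RF τ κ) (ha : a ∈ (cleanL : List (RF τ κ))) :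
    2 * (((cst5 s k p q z h).set (r D) v) a).length + 1 ≤ 9 * 4 ^ k := by
  have h4pos : 1 ≤ 4 ^ k := Nat.one_le_pow _ _ (by norm_num)
  have key : ∀ N, N ≤ 3 * 4 ^ k → 2 * (num N : List (Sy α)).length + 1 ≤ 9 * 4 ^ k := by
    intro N hN
    simp only [num, List.length_append, List.length_replicate, List.length_singleton]
    omega
  have hl := Z.l_le
  have key2 : ∀ N, 2 * (bs (lsb (lOf k) N) : List (Sy α)).length + 1 ≤ 9 * 4 ^ k := by
    intro N
    simp only [bs_length, lsb, List.length_map, List.length_range]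
    omega
  have hq := Z.q_le
  have h2k := CF.Sizes.two_pow_le (k := k)
  have hk := CF.Sizes.k_le (k := k)
  have hbq := Z.bq_le
  have hbbq := Z.bbq_le
  have hbk := Z.bk
  have hb2 : bOf k / 2 * q ≤ bOf k * q := Nat.mul_le_mul_right _ (Nat.div_le_self _ _)
  have hbb2 : bOf k * (bOf k / 2 * q) ≤ bOf k * (bOf k * q) := Nat.mul_le_mul_left _ hb2
  have ht := CF.tOf_lt Z.k1
  simp only [cleanL, List.mem_cons, List.not_mem_nil, or_false] at ha
  rcases ha with rfl | rfl | rfl | rfl | rfl | rfl | rfl | rfl | rfl | rfl | rfl | rfl | rfl |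
    rfl | rfl | rfl | rfl | rfl | rfl | rfl | rfl | rfl
  · exact key q (by omega)
  · exact key q (by omega)
  · exact key (bOf k * q - 1) (by omega)
  · exact key2 p
  · exact key2 _
  · exact key2 z
  · exact key2 h
  · exact key2 1
  · exact key (lOf k) (by omega)
  · exact key (lOf k) (by omega)
  · exact key (lOf k - bOf k) (by omega)
  · exact key (bOf k) (by omega)
  · exact key (bOf k) (by omega)
  · exact key (q - 1) (by omega)
  · exact key k (by omega)
  · exact key (tOf k) (by omega)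
  · exact key (bOf k / 2) (by omega)
  · exact key (2 ^ k) (by omega)
  · exact key (2 ^ k) (by omega)
  · exact key (bOf k * q - 2 ^ k) (by omega)
  · exact key (bOf k * (bOf k / 2 * q)) (by omega)
  · exact key (bOf k / 2 * q) (by omega)

theorem coreF_spec (hs : SmallSpec sm t C1) (mulP : Cmd (RF τ κ) (Sy α)) (T : ℕ → ℕ) (C2 : ℕ)
    (hm : BigSpec mulP T C2) :
    CoreSpec (coreF sm mulP) 192 (fun k M => T M + M + 4 ^ k * (Nat.log 2 k + 1) +
      4 ^ k / k * t (3 * (k + 1)) + t (3 * (k + 1))) := by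
  obtain ⟨c1, h1⟩ := run_sizesF (τ := τ) (κ := κ) (α := α)
  obtain ⟨c2, h2⟩ := run_primeF (τ := τ) (κ := κ) (α := α)
  obtain ⟨c3, h3⟩ := G10.run_constF (τ := τ) (κ := κ) (α := α)
  obtain ⟨c4, h4⟩ := G10.run_rootF hs
  obtain ⟨c5, h5⟩ := run_cntF (τ := τ) (κ := κ) (α := α)
  obtain ⟨c6, h6⟩ := run_padF (τ := τ) (κ := κ) (α := α)
  obtain ⟨c7, h7⟩ := run_shearF hs mulP T C2 hm
  obtain ⟨c8, h8⟩ := run_sortF (τ := τ) (κ := κ) (α := α)
  obtain ⟨c9, h9⟩ := run_cutF (τ := τ) (κ := κ) (α := α)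
  refine ⟨c1 + (c2 + (c3 * 33 + (c4 * 160 + (c5 * 2 + (c6 * 4 + (c7 * 81 + (c8 * 4 + (c9 * 4 +
    (23 * 9 + 1))))))))), ?_⟩
  intro s k M f hk hM hD hK hM1 hemp htl htr
  have Z := CF.sizes_of hk
  have hE : ∀ y : Ex, s (ex y) = [] := fun y => htl _
  obtain ⟨p, hp⟩ : ∃ p, p = pOf (m0Of k) := ⟨_, rfl⟩
  obtain ⟨q, hq⟩ : ∃ q, q = p - 1 := ⟨_, rfl⟩
  rw [← hp, ← hq] at Z
  obtain ⟨W, hW⟩ : ∃ W, W = T M + M + 4 ^ k * (Nat.log 2 k + 1) +
      4 ^ k / k * t (3 * (k + 1)) + t (3 * (k + 1)) := ⟨_, rfl⟩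
  show Runs _ _ _ (_ * (T M + M + 4 ^ k * (Nat.log 2 k + 1) +
      4 ^ k / k * t (3 * (k + 1)) + t (3 * (k + 1))))
  rw [← hW]
  have hW4 : 4 ^ k * (Nat.log 2 k + 1) ≤ W := by omega
  have h4le : 4 ^ k ≤ 4 ^ k * (Nat.log 2 k + 1) := Nat.le_mul_of_pos_right _ (by omega)
  have hW4' : 4 ^ k ≤ W := h4le.trans hW4
  have hWd : 4 ^ k / k * t (lOf k) ≤ W := by unfold lOf; omega
  have hWT : T M + M ≤ W := by omega
  have h4pos : 1 ≤ 4 ^ k := Nat.one_le_pow _ _ (by norm_num)
  -- the steps
  have r1 : Runs sizesF s (cst1 s k) (c1 * W) :=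
    (h1 s k hk hK hE (hemp A3 (by simp))).mono (Nat.mul_le_mul_left _ hW4')
  have r2 := h2 (cst1 s k) (m0Of k) (by have := Z.m2; omega) rfl (hE FG) (hE HD) (hE SK) (hE n2)
    (hE nd) (hE nh1) (hE qm) (hemp q1 (by simp)) (hemp q2 (by simp))
  have e2 : p - 2 = q - 1 := by omega
  rw [← hp, ← hq, e2] at r2
  have r2' := r2.mono (T := c2 * W) (Nat.mul_le_mul_left _ (Z.mm_le.trans hW4'))
  have r3 := h3 (((((cst1 s k).set (ex m0) []).set (r q1) (num q)).set (r q2) (num q)).set (ex qm)
    (num (q - 1))) (lOf k) q Z.l1 (by have := Z.m2; have := Z.mq; omega) Z.p_two rfl rfl rfl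
    (hE ONE) (hE Pm) (hE MU) (hemp X (by simp)) (hemp Y (by simp)) (hemp CY (by simp))
  rw [Z.hq] at r3
  have r3' : Runs constF _ (cst3 s k p q) (c3 * 33 * W) := r3.mono (by
    rw [mul_assoc c3 33 W]
    apply Nat.mul_le_mul_left
    have := Z.ql
    have := Z.ll
    omega)
  obtain ⟨z, h, hroot, r4⟩ := h4 (cst3 s k p q) (lOf k) p q (cst3_ctx Z.p3 Z.p_sq hemp htl htr)
    Z.prime Z.hq rfl rfl (hE ZT) (hE HH) (hemp FL (by simp)) (hemp X (by simp))
  have r4' := r4.mono (T := c4 * 160 * W) (by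
    rw [mul_assoc c4 160 W]
    apply Nat.mul_le_mul_left
    have := Z.root_cost (t (lOf k))
    omega)
  have hnc : (((cst3 s k p q).set (ex ZT) (bs (lsb (lOf k) z))).set (ex HH)
    (bs (lsb (lOf k) h))) (ex nc) = num (bOf k) := rfl
  have r5 := h5 (((cst3 s k p q).set (ex ZT) (bs (lsb (lOf k) z))).set (ex HH)
    (bs (lsb (lOf k) h))) q (bOf k) (2 ^ k) (by have := Z.m2; have := Z.mq; omega) Z.b1 Z.w_le
    rfl hnc rfl rfl (hemp A3 (by simp)) (hE WD) (hE NU) (hE NS)
  have r5' : Runs cntF _ (cst5 s k p q z h) (c5 * 2 * W) := r5.mono (by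
    rw [mul_assoc c5 2 W]
    apply Nat.mul_le_mul_left
    have := Z.bbq_le
    omega)
  have hDD : (cst5 s k p q z h) (r D) = bs (fm (2 ^ k) fun x => fm (2 ^ k) fun y => [f x y]) := hD
  have r6 := h6 (cst5 s k p q z h) q (bOf k) (2 ^ k) f (by have := Z.m2; have := Z.mq; omega) Z.b1
    Nat.one_le_two_pow Z.w_le rfl rfl rfl rfl rfl hDD (hemp C (by simp))
  have r6' := r6.mono (T := c6 * 4 * W) (by
    rw [mul_assoc c6 4 W]
    apply Nat.mul_le_mul_left
    have := Z.bq_sq
    omega)
  have e6 : (bs (fm (bOf k * q) fun x => fm (bOf k * q) fun y =>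
      [if x < 2 ^ k ∧ y < 2 ^ k then f x y else false]) : List (Sy α)) =
      bs (fm q fun i => fm (bOf k) fun c => fm q fun j => fm (bOf k) fun j0 =>
        [padG f (2 ^ k) (i * bOf k + c) (j * bOf k + j0)]) := by
    rw [mul_comm (bOf k) q, fm_mul]
    congr 1
    refine fm_congr fun i _ => fm_congr fun c _ => ?_
    rw [fm_mul]
    rfl
  rw [e6] at r6'
  have r7 := h7 ((cst5 s k p q z h).set (r D) (bs (fm q fun i => fm (bOf k) fun c => fm q fun j =>
      fm (bOf k) fun j0 => [padG f (2 ^ k) (i * bOf k + c) (j * bOf k + j0)])))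
    (lOf k) p q (bOf k) z h M (fun i c j => fm (bOf k) fun j0 =>
      [padG f (2 ^ k) (i * bOf k + c) (j * bOf k + j0)])
    (cst5_pctx Z hroot hemp htl htr) (by
      intro i _ c _ j _
      rw [fm_length (c := 1) (fun _ _ => rfl), mul_one])
    (Z.data_le.trans hM) rfl (hemp C (by simp)) (hemp G (by simp)) (hemp P (by simp)) hM1
    ⟨hemp ST (by simp), fun i => htl (.inl i), fun i => htr (.inl i)⟩
  rw [Store.set_set] at r7
  have r7' := r7.mono (T := c7 * 81 * W) (by
    rw [mul_assoc c7 81 W]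
    apply Nat.mul_le_mul_left
    have := Z.pass_cost (t (lOf k))
    omega)
  have r8 := h8 ((cst5 s k p q z h).set (r D) (bs (fm q fun j => fm (bOf k) fun c => fm q fun i =>
      fm (bOf k) fun j0 => [padG f (2 ^ k) (i * bOf k + c) (j * bOf k + j0)])))
    q (tOf k) (padG f (2 ^ k)) (by have := Z.m2; have := Z.mq; omega) rfl rfl rfl
    (hemp A1 (by simp)) (hemp X (by simp)) (hemp C (by simp)) rfl
  rw [Store.set_set] at r8
  have r8' := r8.mono (T := c8 * 4 * W) (by
    rw [mul_assoc c8 4 W]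
    apply Nat.mul_le_mul_left
    have e1 : q * 2 ^ tOf k = bOf k * q := mul_comm _ _
    rw [e1]
    calc (tOf k + 1) * (bOf k * q * (bOf k * q)) ≤ (Nat.log 2 k + 1) * (4 * 4 ^ k) :=
          Nat.mul_le_mul (by have := CF.tOf_le_log (k := k); omega) Z.bq_sq
      _ = 4 * (4 ^ k * (Nat.log 2 k + 1)) := by ring
      _ ≤ 4 * W := Nat.mul_le_mul_left _ hW4)
  have e8 : q * 2 ^ tOf k = bOf k * q := mul_comm _ _
  rw [e8] at r8'
  have r9 := h9 ((cst5 s k p q z h).set (r D) (bs (fm (bOf k * q) fun j => fm (bOf k * q) fun i =>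
      [padG f (2 ^ k) i j]))) (bOf k * q) (2 ^ k) (fun j i => padG f (2 ^ k) i j)
    Nat.one_le_two_pow Z.w_le rfl rfl rfl rfl (hemp C (by simp))
  rw [Store.set_set] at r9
  have r9' := r9.mono (T := c9 * 4 * W) (by
    rw [mul_assoc c9 4 W]
    apply Nat.mul_le_mul_left
    have := Z.bq_sq
    omega)
  have e9 : (fm (2 ^ k) fun x => fm (2 ^ k) fun y => [padG f (2 ^ k) y x]) =
      fm (2 ^ k) fun y => fm (2 ^ k) fun x => [f x y] := by
    refine fm_congr fun i hi => fm_congr fun j hj => ?_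
    rw [padG, if_pos ⟨hj, hi⟩]
  rw [e9] at r9'
  have r10 := run_clrs (cleanL : List (RF τ κ)) (s := (cst5 s k p q z h).set (r D)
    (bs (fm (2 ^ k) fun y => fm (2 ^ k) fun x => [f x y]))) (W := 9 * 4 ^ k) (by omega)
    (fun a ha => clean_len Z a ha)
  rw [cst_final s k p q z h _ hemp htl] at r10
  have r10' : Runs cleanF _ _ (23 * 9 * W) := r10.mono (by
    show (22 + 1) * (9 * 4 ^ k) ≤ 23 * 9 * W
    omega)
  unfold coreF
  exact sqW_cons r1 (sqW_cons r2' (sqW_cons r3' (sqW_cons r4' (sqW_cons r5' (sqW_cons r6'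
    (sqW_cons r7' (sqW_cons r8' (sqW_cons r9' (sqW_cons r10' (sqW_nil (by omega)))))))))))

end

end Vale.Agent.P338
end

section

/-! The interface of the clocked multiplication program. -/

namespace Vale.Agent.P338
open Reg R

section
variable {τ α : Type} [DecidableEq τ]

/-- What is required of the clocked multiplication program: `T M` bounds the time of the machine
on `M`-bit numbers. -/
def MulSpec (mulP : Cmd (Reg τ) (Sy α)) (T : ℕ → ℕ) (C0 : ℕ) : Prop :=
  ∀ (s : Store (Reg τ) (Sy α)) (M h : ℕ) (x y : List Bool), 1 ≤ M → 1 ≤ h →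
    x.length ≤ M → y.length ≤ M → s (r C) = bs x → s (r G) = bs y →
    s (r P) = [] → s (r FL) = [] → s (r ST) = [] → (∀ i, s (tl i) = []) → (∀ i, s (tr i) = []) →
    s (r M1) = num M → s (r nh) = num h →
    ∃ U ≤ C0 * (min (T M) (M * h) + M + h),
      Runs mulP s ((((s.set (r C) []).set (r G) []).set (r P) (bs (mulLsb M x y))).set (r FL)
        [.mark]) U ∨
      (M * h ≤ T M ∧ Runs mulP s ((s.set (r C) []).set (r G) []) U)

/-- The scratch registers used below are empty. -/
def Clean (s : Store (Reg τ) (Sy α)) : Prop :=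
  (∀ x ∈ [B, C, G, P, X, Y, RW, H, H2, H3, CY, FL, A1, A2, A3, nA, ST], s (r x) = []) ∧
  (∀ i, s (tl i) = []) ∧ (∀ i, s (tr i) = [])

end

end Vale.Agent.P338
end
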