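import Vale.Agent.P338.Bdl.B10
import Vale.Agent.P338.Bdl.B1
import Vale.Agent.P338.Bdl.B2
import Vale.Agent.P338.Bdl.B8
import Vale.Agent.P338.Bdl.B4

set_option linter.all false

section

/-! Correctness of the parts of the simulation of a machine. -/

namespace Vale.Agent.P338
namespace Sim
variable {A : Machine} {ε : Type}

@[simp] theorem rd_cl (c : Cell A.Ext) : rd (some (cl c)) = c := rfl
@[simp] theorem rd_none : rd (A := A) none = .blank := rfl

theorem rd_head (l : List (Cell A.Ext)) : rd ((cls l).head?) = (l[0]?).getD .blank := by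
  cases l <;> simp [cls]

theorem mk_set_u [DecidableEq A.Tape] [DecidableEq ε]
    (t : A.Tape → List (Cell A.Ext) × List (Cell A.Ext))
    (st : List (Sy (SExt A))) (x y z : List Bool) (u u' : List (Sy (SExt A)))
    (o : ε → List (Sy (SExt A))) :
    (mk t st x y z u o).set .u u' = mk t st x y z u' o := by
  apply Store.ext'
  intro r
  cases r <;> simp [Store.set, mk]

theorem mk_set_o [DecidableEq A.Tape] [DecidableEq ε]
    (t : A.Tape → List (Cell A.Ext) × List (Cell A.Ext))
    (st : List (Sy (SExt A))) (x y z : List Bool) (u : List (Sy (SExt A)))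
    (o : ε → List (Sy (SExt A))) (e : ε) (v' : List (Sy (SExt A))) :
    (mk t st x y z u o).set (.o e) v' = mk t st x y z u (Store.set o e v') := by
  apply Store.ext'
  intro r
  cases r <;> simp [Store.set, mk]

theorem isOne_bs (x : List Bool) (i : ℕ) :
    isOne ((bs (x.drop i) : List (Sy (SExt A))).head?) = x.getD i false := by
  rw [List.getD_eq_getElem?_getD, ← List.head?_drop]
  cases x.drop i with
  | nil => rfl
  | cons b l => exact isOne_bit b

/-- The bits `0, …, i - 1` of `x` as cells, the last one first. -/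
def pre (A : Machine) (x : List Bool) (i : ℕ) : List (Cell A.Ext) :=
  ((List.range i).map fun p => Cell.sym (.bit (x.getD p false))).reverse

theorem pre_succ (x : List Bool) (i : ℕ) :
    pre A x (i + 1) = Cell.sym (.bit (x.getD i false)) :: pre A x i := by
  simp [pre, List.range_succ]

open Classical in
/-- Tapes with `l` on the input tape. -/
noncomputable def inl (A : Machine) (l : List (Cell A.Ext)) (i : A.Tape) :
    List (Cell A.Ext) × List (Cell A.Ext) := ([], if i = A.inTape then l else [])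

theorem run_loadX [DecidableEq A.Tape] [DecidableEq ε] (N : ℕ) (l : List (Cell A.Ext)) (st : List (Sy (SExt A)))
    (x y z : List Bool) (w : ε → List (Sy (SExt A))) (hx : x.length ≤ N) :
    Runs (forN SReg.u (loadX A ε)) (mk (inl A l) st x y z (num N) w)
      (mk (inl A (pre A x N ++ l)) st [] y z (num N) w) (N * 3 + 2) := by
  have key := Runs.forN (c := SReg.u) (body := loadX A ε) N
    (fun i => mk (inl A (pre A x i ++ l)) st (x.drop i) y z (num N) w) 1
    (by intro i; rfl)
    (by
      intro i hi w'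
      rw [mk_set_u, mk_set_u]
      refine Runs.act' _ fun r => ?_
      cases r with
      | x => simp [Act.app, mk, bs]
      | tr j =>
        have e := isOne_bs (A := A) x i
        simp only [Act.app, mk, Store.heads, inl, pre_succ]
        rw [e]
        by_cases hj : j = A.inTape
        · simp [hj, cls]
        · simp [hj, cls]
      | _ => simp [Act.app, mk, inl, cls])
  have e1 : pre A x 0 = [] := rfl
  have e2 : x.drop N = [] := List.drop_eq_nil_of_le hx
  simp only [e1, e2, List.nil_append, List.drop_zero] at key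
  exact key

theorem run_loadY [DecidableEq A.Tape] [DecidableEq ε] (N : ℕ) (l : List (Cell A.Ext)) (st : List (Sy (SExt A)))
    (x y z : List Bool) (w : ε → List (Sy (SExt A))) (hy : y.length ≤ N) :
    Runs (forN SReg.u (loadY A ε)) (mk (inl A l) st x y z (num N) w)
      (mk (inl A (pre A y N ++ l)) st x [] z (num N) w) (N * 3 + 2) := by
  have key := Runs.forN (c := SReg.u) (body := loadY A ε) N
    (fun i => mk (inl A (pre A y i ++ l)) st x (y.drop i) z (num N) w) 1
    (by intro i; rfl)
    (by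
      intro i hi w'
      rw [mk_set_u, mk_set_u]
      refine Runs.act' _ fun r => ?_
      cases r with
      | y => simp [Act.app, mk, bs]
      | tr j =>
        have e := isOne_bs (A := A) y i
        simp only [Act.app, mk, Store.heads, inl, pre_succ]
        rw [e]
        by_cases hj : j = A.inTape
        · simp [hj, cls]
        · simp [hj, cls]
      | _ => simp [Act.app, mk, inl, cls])
  have e1 : pre A y 0 = [] := rfl
  have e2 : y.drop N = [] := List.drop_eq_nil_of_le hy
  simp only [e1, e2, List.nil_append, List.drop_zero] at key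
  exact key

theorem run_loadS (l : List (Cell A.Ext)) (st : List (Sy (SExt A)))
    (x y z : List Bool) (u : List (Sy (SExt A))) (w : ε → List (Sy (SExt A))) :
    Runs (loadS A ε) (mk (inl A l) st x y z u w) (mk (inl A (.sym .sep :: l)) st x y z u w) 1 := by
  refine Runs.act' _ fun r => ?_
  cases r with
  | tr j =>
    by_cases hj : j = A.inTape
    · simp [hj, cls, Act.app, mk, inl]
    · simp [hj, cls, Act.app, mk, inl]
  | _ => simp [Act.app, mk, inl, cls]

theorem run_loadQ (t : A.Tape → List (Cell A.Ext) × List (Cell A.Ext))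
    (x y z : List Bool) (u : List (Sy (SExt A))) (w : ε → List (Sy (SExt A))) :
    Runs (loadQ A ε) (mk t [] x y z u w)
      (mk t [.ext (.st A.start fun _ => .stay)] x y z u w) 1 := by
  refine Runs.act' _ fun r => ?_
  cases r <;> simp [Act.app, mk]

/-! ### The simulation loop -/

/-- The store after `j` simulated steps. -/
noncomputable def stj (A : Machine) (w : List Sym) (uu : ℕ → List (Sy (SExt A)))
    (oo : ℕ → ε → List (Sy (SExt A))) (j : ℕ) : Store (SReg A.Tape ε) (Sy (SExt A)) :=
  mk (lrSeq A w j) [.ext (.st (A.cf (A.init w) j).state fun _ => .stay)] [] [] [] (uu j) (oo j)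

variable {uu : ℕ → List (Sy (SExt A))} {oo : ℕ → ε → List (Sy (SExt A))}

theorem nxt_stj (w : List Sym) (j : ℕ) :
    nxt (stj A w uu oo j).heads = A.step (A.cf (A.init w) j).state
      (fun k => (A.cf (A.init w) j).cont k ((A.cf (A.init w) j).head k)) := by
  simp only [nxt, Store.heads, stj, mk, List.head?_cons]
  congr 1
  funext i
  rw [rd_head]
  exact (lrSeq_rep A w j i).2 0

theorem next_isSome (c : A.Cfg) :
    (A.next c).isSome = (A.step c.state fun k => c.cont k (c.head k)).isSome := by
  simp [Machine.next]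

theorem cls_tail (l : List (Cell A.Ext)) : (cls l).tail = cls l.tail := by
  cases l <;> rfl

theorem stj_succ (w : List Sym) (j : ℕ) {a : A.State × (A.Tape → Cell A.Ext × Dir)}
    (ha : A.step (A.cf (A.init w) j).state
      (fun k => (A.cf (A.init w) j).cont k ((A.cf (A.init w) j).head k)) = some a) :
    stj A w uu oo (j + 1) = mk (fun i => updT (a.2 i) (lrSeq A w j i))
      [.ext (.st a.1 fun _ => .stay)] [] [] [] (uu (j + 1)) (oo (j + 1)) := by
  have e1 : lrSeq A w (j + 1) = fun i => updT (a.2 i) (lrSeq A w j i) := by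
    funext i
    simp only [lrSeq, ha]
  have e2 : (A.cf (A.init w) (j + 1)).state = a.1 := by
    simp only [Machine.cf, Machine.next, ha, Option.map_some, Option.getD_some]
  rw [stj, e1, e2]

variable {cu : (SReg A.Tape ε → Option (Sy (SExt A))) → Act (Sy (SExt A))}
  {co : (SReg A.Tape ε → Option (Sy (SExt A))) → ε → Act (Sy (SExt A))}

theorem run_wr (w : List Sym) {j : ℕ}
    (hu : (cu (stj A w uu oo j).heads).app (uu j) = uu (j + 1))
    (ho : ∀ e, (co (stj A w uu oo j).heads e).app (oo j e) = oo (j + 1) e)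
    {a : A.State × (A.Tape → Cell A.Ext × Dir)}
    (ha : A.step (A.cf (A.init w) j).state
      (fun k => (A.cf (A.init w) j).cont k ((A.cf (A.init w) j).head k)) = some a) :
    Runs (wr A ε cu co) (stj A w uu oo j)
      (mk (fun i => ((lrSeq A w j i).1, (a.2 i).1 :: (lrSeq A w j i).2.tail))
      [.ext (.st a.1 fun i => (a.2 i).2)] [] [] [] (uu (j + 1)) (oo (j + 1))) 1 := by
  have hn := (nxt_stj (uu := uu) (oo := oo) w j).trans ha
  refine Runs.act' _ fun r => ?_
  cases r with
  | u => exact hu
  | o e => exact ho e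
  | st =>
    simp only [hn]
    simp [Act.app, mk, stj]
  | tr i =>
    simp only [hn]
    simp only [Act.app, mk, stj, cls_tail]
    simp [cls]
  | _ => simp [Act.app, mk, stj]

theorem run_mv (lr : A.Tape → List (Cell A.Ext) × List (Cell A.Ext))
    (a : A.State × (A.Tape → Cell A.Ext × Dir)) (u : List (Sy (SExt A)))
    (o : ε → List (Sy (SExt A))) :
    Runs (mv A ε) (mk (fun i => ((lr i).1, (a.2 i).1 :: (lr i).2.tail))
      [.ext (.st a.1 fun i => (a.2 i).2)] [] [] [] u o)
      (mk (fun i => updT (a.2 i) (lr i)) [.ext (.st a.1 fun _ => .stay)] [] [] [] u o) 1 := by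
  refine Runs.act' _ fun r => ?_
  cases r with
  | st => simp [Act.app, mk, base, Store.heads]
  | tl i =>
    rcases ha : a.2 i with ⟨b, d⟩
    rcases hl : lr i with ⟨l, r⟩
    cases d <;> cases l <;>
      simp [Act.app, mk, pend, Store.heads, ha, hl, updT, cls]
  | tr i =>
    rcases ha : a.2 i with ⟨b, d⟩
    rcases hl : lr i with ⟨l, r⟩
    cases d <;> cases l <;>
      simp [Act.app, mk, pend, Store.heads, ha, hl, updT, cls]
  | _ => simp [Act.app, mk]

/-- The simulation loop runs for `N` steps, where either the guard fails or the machine has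
halted. -/
theorem run_run (w : List Sym) {N : ℕ} {g : (SReg A.Tape ε → Option (Sy (SExt A))) → Bool}
    (hg : ∀ j < N, g (stj A w uu oo j).heads = true)
    (hu : ∀ j < N, (cu (stj A w uu oo j).heads).app (uu j) = uu (j + 1))
    (ho : ∀ j < N, ∀ e, (co (stj A w uu oo j).heads e).app (oo j e) = oo (j + 1) e)
    (hs : ∀ j < N, (A.next (A.cf (A.init w) j)).isSome = true)
    (he : g (stj A w uu oo N).heads = false ∨ A.next (A.cf (A.init w) N) = none) :
    Runs (.loop (fun h => g h && (nxt h).isSome) (.seq (wr A ε cu co) (mv A ε)))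
      (stj A w uu oo 0) (stj A w uu oo N) (N * 3 + 1) := by
  refine Runs.loopN N (stj A w uu oo) 2 ?_ ?_ ?_
  · intro i hi
    rw [Bool.and_eq_true, hg i hi]
    refine ⟨rfl, ?_⟩
    rw [nxt_stj, ← next_isSome]; exact hs i hi
  · intro j hj
    have ha := hs j hj
    rw [next_isSome, Option.isSome_iff_exists] at ha
    obtain ⟨a, ha⟩ := ha
    rw [stj_succ w j ha]
    exact (run_wr w (hu j hj) (ho j hj) ha).seq (run_mv _ a _ _)
  · rw [Bool.and_eq_false_iff]
    rcases he with h | h
    · left; exact h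
    · right
      rw [nxt_stj, ← next_isSome, h]; rfl

/-! ### Output and clearing -/

theorem run_rew (l : List (Cell A.Ext)) :
    ∀ (r : List (Cell A.Ext)) (t : A.Tape → List (Cell A.Ext) × List (Cell A.Ext))
    (st : List (Sy (SExt A))) (x y z : List Bool) (u : List (Sy (SExt A))) (w : ε → List (Sy (SExt A))),
    t A.outTape = (l, r) →
    ∃ t' : A.Tape → List (Cell A.Ext) × List (Cell A.Ext), t' A.outTape = ([], l.reverse ++ r) ∧
      (∀ i, i ≠ A.outTape → t' i = t i) ∧
      Runs (rew A ε) (mk t st x y z u w) (mk t' st x y z u w) (2 * l.length + 1) := by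
  classical
  induction l with
  | nil =>
    intro r t st x y z u w ht
    refine ⟨t, by simpa using ht, fun _ _ => rfl, ?_⟩
    refine (Runs.loopF ?_).mono (by simp)
    simp [Store.heads, mk, ht, cls]
  | cons c l ih =>
    intro r t st x y z u w ht
    obtain ⟨t', h1, h2, h3⟩ := ih (c :: r)
      (fun i => if i = A.outTape then (l, c :: r) else t i) st x y z u w (by simp)
    refine ⟨t', by rw [h1]; simp, ?_, ?_⟩
    · intro i hi
      rw [h2 i hi, if_neg hi]
    · have hstep : Runs (rew1 A ε) (mk t st x y z u w)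
        (mk (fun i => if i = A.outTape then (l, c :: r) else t i) st x y z u w) 1 := by
        refine Runs.act' _ fun q => ?_
        cases q with
        | tl i =>
          by_cases hi : i = A.outTape
          · subst hi; simp [Act.app, mk, ht, cls]
          · simp [Act.app, mk, hi]
        | tr i =>
          by_cases hi : i = A.outTape
          · subst hi; simp [Act.app, mk, ht, cls, Store.heads]
          · simp [Act.app, mk, hi]
        | _ => simp [Act.app, mk]
      refine (Runs.loopT ?_ hstep h3).mono (by simp; omega)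
      simp [Store.heads, mk, ht, cls]

theorem cellBit_cl (c : Cell A.Ext) : cellBit (some (cl c)) =
    match c with | .sym (.bit b) => some b | _ => none := by
  rcases c with _ | ⟨_ | _⟩ | _ <;> rfl

theorem run_takeAll (o : List Bool) :
    ∀ (r : List (Cell A.Ext)) (t : A.Tape → List (Cell A.Ext) × List (Cell A.Ext))
    (st : List (Sy (SExt A))) (x y z : List Bool) (u : List (Sy (SExt A))) (w : ε → List (Sy (SExt A))),
    cellBit ((cls r).head?) = none →
    (t A.outTape).2 = o.map (fun b => Cell.sym (Sym.bit b)) ++ r →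
    ∃ t' : A.Tape → List (Cell A.Ext) × List (Cell A.Ext),
      t' A.outTape = ((t A.outTape).1, r) ∧
      (∀ i, i ≠ A.outTape → t' i = t i) ∧
      Runs (takeAll A ε) (mk t st x y z u w) (mk t' st x y (o.reverse ++ z) u w)
        (2 * o.length + 1) := by
  classical
  induction o with
  | nil =>
    intro r t st x y z u w hr ht
    refine ⟨t, ?_, fun _ _ => rfl, ?_⟩
    · exact Prod.ext rfl (by simpa using ht)
    · refine (Runs.loopF ?_).mono (by simp)
      have : (mk t st x y z u w).heads (.tr A.outTape) = (cls r).head? := by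
        simp [Store.heads, mk, ht]
      simp only [this, hr]
      rfl
  | cons b o ih =>
    intro r t st x y z u w hr ht
    obtain ⟨t', h1, h2, h3⟩ := ih r
      (fun i => if i = A.outTape then ((t i).1, o.map (fun b => Cell.sym (Sym.bit b)) ++ r) else t i)
      st x y (b :: z) u w hr (by simp)
    refine ⟨t', by rw [h1]; simp, ?_, ?_⟩
    · intro i hi
      rw [h2 i hi, if_neg hi]
    · have hstep : Runs (take1 A ε) (mk t st x y z u w)
        (mk (fun i => if i = A.outTape then ((t i).1, o.map (fun b => Cell.sym (Sym.bit b)) ++ r) else t i)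
          st x y (b :: z) u w) 1 := by
        refine Runs.act' _ fun q => ?_
        cases q with
        | tl i =>
          by_cases hi : i = A.outTape
          · subst hi; simp [Act.app, mk]
          · simp [Act.app, mk, hi]
        | tr i =>
          by_cases hi : i = A.outTape
          · subst hi; simp [Act.app, mk, ht, cls]
          · simp [Act.app, mk, hi]
        | z => simp [Act.app, mk, ht, cls, Store.heads, cellBit_cl, bs]
        | _ => simp [Act.app, mk]
      have e : (b :: o).reverse ++ z = o.reverse ++ (b :: z) := by simp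
      rw [e]
      refine (Runs.loopT ?_ hstep h3).mono (by simp; omega)
      simp [Store.heads, mk, ht, cls, cellBit_cl]

theorem run_clrAll (B : ℕ) :
    ∀ (t : A.Tape → List (Cell A.Ext) × List (Cell A.Ext))
    (st : List (Sy (SExt A))) (x y z : List Bool) (u : List (Sy (SExt A))) (w : ε → List (Sy (SExt A))),
    (∀ i, (t i).1.length ≤ B ∧ (t i).2.length ≤ B) →
    Runs (clrAll A ε) (mk t st x y z u w) (mk (fun _ => ([], [])) st x y z u w) (2 * B + 1) := by
  induction B with
  | zero =>
    intro t st x y z u w ht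
    have : t = fun _ => ([], []) := by
      funext i
      have h := ht i
      have h1 : (t i).1 = [] := List.eq_nil_of_length_eq_zero (by omega)
      have h2 : (t i).2 = [] := List.eq_nil_of_length_eq_zero (by omega)
      exact Prod.ext h1 h2
    subst this
    refine (Runs.loopF ?_).mono (by simp)
    simp [Store.heads, mk, cls]
  | succ B ih =>
    intro t st x y z u w ht
    have hstep : Runs (clr1 A ε) (mk t st x y z u w)
        (mk (fun i => ((t i).1.tail, (t i).2.tail)) st x y z u w) 1 := by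
      refine Runs.act' _ fun q => ?_
      cases q with
      | tl i => simp [Act.app, mk, cls_tail]
      | tr i => simp [Act.app, mk, cls_tail]
      | _ => simp [Act.app, mk]
    by_cases hg : ∃ i, ((mk t st x y z u w).heads (.tl i)).isSome ∨
        ((mk t st x y z u w).heads (.tr i)).isSome
    · refine (Runs.loopT (by simpa using hg) hstep (ih _ st x y z u w ?_)).mono (by omega)
      intro i
      have h := ht i
      simp only [List.length_tail]
      omega
    · have : t = fun _ => ([], []) := by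
        funext i
        have h : ¬ _ := fun h => hg ⟨i, h⟩
        simp only [Store.heads, mk, not_or] at h
        refine Prod.ext ?_ ?_
        · have := h.1
          cases h' : (t i).1 with
          | nil => rfl
          | cons c l => simp [h', cls] at this
        · have := h.2
          cases h' : (t i).2 with
          | nil => rfl
          | cons c l => simp [h', cls] at this
      subst this
      refine (Runs.loopF ?_).mono (by omega)
      simp [Store.heads, mk, cls]

theorem pre_eq (x : List Bool) (n : ℕ) :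
    pre A x n = (((List.range n).map fun i => Sym.bit (x.getD i false)).reverse).map .sym := by
  simp [pre]

/-- The word on the input tape of the machine. -/
def word (n : ℕ) (x y : List Bool) : List Sym :=
  mulInput (fun i : Fin n => x.getD (n - 1 - i) false) (fun i : Fin n => y.getD (n - 1 - i) false)

theorem word_length (n : ℕ) (x y : List Bool) : (word n x y).length = 2 * n + 1 := by
  simp [word, mulInput]; omega

/-- Loading the input and the start state. -/
noncomputable def loads (A : Machine) (ε : Type) [DecidableEq A.Tape] [DecidableEq ε] :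
    Cmd (SReg A.Tape ε) (Sy (SExt A)) :=
  .seq (forN SReg.u (loadY A ε)) (.seq (loadS A ε) (.seq (forN SReg.u (loadX A ε)) (loadQ A ε)))

theorem run_loads [DecidableEq A.Tape] [DecidableEq ε] (U : ℕ) (x y : List Bool)
    (hx : x.length ≤ U) (hy : y.length ≤ U) (o : ε → List (Sy (SExt A)))
    (hu : uu 0 = num U) (ho : oo 0 = o) :
    Runs (loads A ε)
      (mk (fun _ => ([], [])) [] x y [] (num U) o) (stj A (word U x y) uu oo 0)
      (6 * U + 6) := by
  have e0 : (fun _ => ([], []) : A.Tape → List (Cell A.Ext) × List (Cell A.Ext)) = inl A [] := by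
    funext i; simp [inl]
  have e1 : stj A (word U x y) uu oo 0 =
      mk (inl A (pre A x U ++ (Cell.sym Sym.sep :: (pre A y U ++ []))))
        [.ext (.st A.start fun _ => .stay)] [] [] [] (num U) o := by
    have h1 : lrSeq A (word U x y) 0 =
        inl A (pre A x U ++ (Cell.sym Sym.sep :: (pre A y U ++ []))) := by
      funext i
      simp only [lrSeq, inl]
      congr 1
      by_cases hi : i = A.inTape
      · rw [if_pos hi, if_pos hi, word, mulInput_eq, pre_eq, pre_eq]
        simp
      · rw [if_neg hi, if_neg hi]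
    rw [stj, h1, hu, ho]
    rfl
  rw [e0, e1]
  refine ((run_loadY U [] [] x y [] o hy).seq
    ((run_loadS _ [] x [] [] (num U) o).seq
      ((run_loadX U _ [] x [] [] o hx).seq
        (run_loadQ _ [] [] [] (num U) o)))).mono (by omega)

/-- Reading the output tape. -/
theorem out_split {lr : List (Cell A.Ext) × List (Cell A.Ext)} {h : ℕ} {o : List Bool}
    (H : RepT lr h (tapeOf (o.map Sym.bit))) :
    ∃ r', lr.1.reverse ++ lr.2 = o.map (fun b => Cell.sym (Sym.bit b)) ++ r' ∧
      cellBit ((cls r').head?) = none := by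
  obtain ⟨l, r⟩ := lr
  obtain ⟨h1, h2⟩ := H
  simp only at h1 h2 ⊢
  have hall : ∀ k, ((l.reverse ++ r)[k]?).getD .blank = tapeOf (X := A.Ext) (o.map Sym.bit) k := by
    intro k
    rw [h1, List.reverse_reverse]
    rcases Nat.lt_or_ge k h with hk | hk
    · rw [List.getElem?_append_left (by simpa using hk)]
      simp [hk]
    · rw [List.getElem?_append_right (by simpa using hk)]
      simp only [List.length_map, List.length_range]
      rw [h2]
      congr 1; omega
  have hlen : o.length ≤ (l.reverse ++ r).length := by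
    by_contra hc
    push Not at hc
    have h3 := hall (l.reverse ++ r).length
    rw [List.getElem?_eq_none le_rfl] at h3
    rw [tapeOf_some (a := Sym.bit o[(l.reverse ++ r).length])
      (by rw [List.getElem?_map, List.getElem?_eq_getElem hc]; rfl)] at h3
    simp at h3
  refine ⟨(l.reverse ++ r).drop o.length, ?_, ?_⟩
  · have h4 : (l.reverse ++ r).take o.length = o.map (fun b => Cell.sym (Sym.bit b)) := by
      apply List.ext_getElem
      · simpa using hlen
      · intro i h5 h6
        have h7 : i < o.length := by simpa using h6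
        have h8 := hall i
        rw [List.getElem?_eq_getElem (by omega)] at h8
        rw [tapeOf_some (a := Sym.bit o[i])
          (by rw [List.getElem?_map, List.getElem?_eq_getElem h7]; rfl)] at h8
        rw [List.getElem_take]
        simpa using h8
    rw [← h4, List.take_append_drop]
  · have h9 := hall o.length
    rw [tapeOf_none (List.getElem?_eq_none (l := o.map Sym.bit) (by simp))] at h9
    rw [cls, List.head?_map, List.head?_drop]
    cases h10 : (l.reverse ++ r)[o.length]? with
    | none => rfl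
    | some c =>
      rw [h10] at h9
      simp only [Option.getD_some] at h9
      subst h9
      rfl

/-- Reading the output. -/
noncomputable def readOut (A : Machine) (ε : Type) : Cmd (SReg A.Tape ε) (Sy (SExt A)) :=
  .seq (rew A ε) (takeAll A ε)

/-- Removing what is left on the tape registers and the state register. -/
noncomputable def clean (A : Machine) (ε : Type) : Cmd (SReg A.Tape ε) (Sy (SExt A)) :=
  .seq (clrAll A ε) (clrQ A ε)

theorem run_clean (B : ℕ) (t : A.Tape → List (Cell A.Ext) × List (Cell A.Ext))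
    (a : Sy (SExt A)) (z : List Bool) (u : List (Sy (SExt A))) (o : ε → List (Sy (SExt A)))
    (ht : ∀ i, (t i).1.length ≤ B ∧ (t i).2.length ≤ B) :
    Runs (clean A ε) (mk t [a] [] [] z u o)
      (mk (fun _ => ([], [])) [] [] [] z u o) (2 * B + 2) := by
  have h1 := run_clrAll B t [a] [] [] z u o ht
  have h2 : Runs (clrQ A ε) (mk (fun _ => ([], [])) [a] [] [] z u o)
      (mk (fun _ => ([], [])) [] [] [] z u o) 1 := by
    refine Runs.act' _ fun q => ?_
    cases q <;> simp [Act.app, mk]
  exact (h1.seq h2).mono (by omega)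

/-- Reading the output when the machine has halted with the product on its output tape. -/
theorem run_readOut (U : ℕ) (x y : List Bool) {t : ℕ} {c : A.Cfg} {w : List Sym}
    (hcf : A.cf (A.init w) t = c) (hc3 : c.cont A.outTape =
      tapeOf ((bin (2 * U) (ofLsb x * ofLsb y)).map .bit)) (hw : w.length = 2 * U + 1) :
    ∃ t2 : A.Tape → List (Cell A.Ext) × List (Cell A.Ext),
      (∀ i, (t2 i).1.length ≤ 2 * U + 1 + t ∧ (t2 i).2.length ≤ 2 * U + 1 + t) ∧
      Runs (readOut A ε) (stj A w uu oo t)
        (mk t2 [.ext (.st (A.cf (A.init w) t).state fun _ => .stay)] [] [] (mulLsb U x y)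
          (uu t) (oo t)) (8 * U + 2 * t + 4) := by
  set o := bin (2 * U) (ofLsb x * ofLsb y) with ho
  have hol : o.length = 2 * U := by simp [ho, bin]
  have hrep := lrSeq_rep A w t A.outTape
  rw [hcf, hc3] at hrep
  obtain ⟨r', hr1, hr2⟩ := out_split hrep
  have hlen := fun i => lrSeq_length A w t i
  obtain ⟨t1, ht1, ht1', hrew⟩ := run_rew (lrSeq A w t A.outTape).1 (lrSeq A w t A.outTape).2
    (lrSeq A w t) [.ext (.st (A.cf (A.init w) t).state fun _ => .stay)] [] [] []
    (uu t) (oo t) rfl
  obtain ⟨t2, ht2, ht2', htake⟩ := run_takeAll o r' t1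
    [.ext (.st (A.cf (A.init w) t).state fun _ => .stay)] [] [] []
    (uu t) (oo t) hr2 (by rw [ht1, ← hr1])
  have hz : o.reverse ++ [] = mulLsb U x y := by
    rw [List.append_nil, ho, bin_reverse, mulLsb]
  rw [hz] at htake
  refine ⟨t2, ?_, (hrew.seq htake).mono ?_⟩
  · intro i
    by_cases hi : i = A.outTape
    · subst hi
      rw [ht2, ht1]
      have h5 := congrArg List.length hr1
      have h6 := hlen A.outTape
      simp only [List.length_append, List.length_reverse, List.length_map] at h5
      simp only [List.length_nil]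
      omega
    · rw [ht2' i hi, ht1' i hi]
      have h6 := hlen i
      omega
  · have h6 := hlen A.outTape
    rw [hol]
    omega

/-! ### The simulation without clock -/

/-- Running the machine to the end. -/
noncomputable def fullU (A : Machine) [DecidableEq A.Tape] : Cmd (SReg A.Tape Empty) (Sy (SExt A)) :=
  .seq (loads A Empty)
    (.seq (.loop (fun h => (fun _ => true) h && (nxt h).isSome)
      (.seq (wr A Empty (fun _ => {}) (fun _ _ => {})) (mv A Empty)))
      (.seq (readOut A Empty) (clean A Empty)))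

theorem run_fullU [DecidableEq A.Tape] (hA : A.Multiplies) (U : ℕ) (hU : 1 ≤ U)
    (x y : List Bool) (hx : x.length ≤ U) (hy : y.length ≤ U) (o : Empty → List (Sy (SExt A))) :
    Runs (fullU A) (mk (fun _ => ([], [])) [] x y [] (num U) o)
        (mk (fun _ => ([], [])) [] [] [] (mulLsb U x y) (num U) o)
        (50 * (A.mulTime U + U)) := by
  set w := word U x y with hw
  obtain ⟨t, ht⟩ := hA U hU (fun i : Fin U => x.getD (U - 1 - i) false)
    (fun i : Fin U => y.getD (U - 1 - i) false)
  rw [val_padded U x hx, val_padded U y hy] at ht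
  change A.HaltsWith w t _ at ht
  have htime : A.time w = t := Machine.time_eq ht.haltsIn
  have hT : t ≤ A.mulTime U := by
    rw [← htime]; exact Machine.time_le_mulTime _ _
  obtain ⟨c, hc1, hc2, hc3⟩ := ht
  obtain ⟨hcf, hrun⟩ := Machine.steps_cf hc1
  have hload := run_loads (A := A) (uu := fun _ => num U) (oo := fun _ => o) U x y hx hy o rfl rfl
  rw [← hw] at hload
  have hwl : w.length = 2 * U + 1 := word_length U x y
  have h1 := run_run (A := A) (uu := fun _ => num U) (oo := fun _ => o)
    (cu := fun _ => {}) (co := fun _ _ => {}) (g := fun _ => true) w (N := t)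
    (fun _ _ => rfl) (fun _ _ => by simp [Act.app]) (fun _ _ e => by simp [Act.app]) hrun
    (Or.inr (by rw [hcf]; exact hc2))
  obtain ⟨t2, hb, h2⟩ := run_readOut (A := A) (uu := fun _ => num U) (oo := fun _ => o) U x y
    hcf hc3 hwl
  have h3 := run_clean (2 * U + 1 + t) t2
    (.ext (.st (A.cf (A.init w) t).state fun _ => .stay)) (mulLsb U x y) (num U) o hb
  refine (hload.seq (h1.seq (h2.seq h3))).mono ?_
  omega

end Sim
end Vale.Agent.P338
end

section

/-! The simulation of a machine as a program over arbitrary registers, with and without clock. -/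

namespace Vale.Agent.P338
namespace Sim
variable {A : Machine}

/-! ### The clock -/

/-- Registers of the clock and the flag. -/
inductive CF where
  | v | f
  deriving DecidableEq

/-- A counter of size `n`, rotated by `i`. -/
def rotC (A : Machine) (n i : ℕ) : List (Sy (SExt A)) :=
  List.replicate (n - i) Sy.mark ++ [Sy.sent] ++ List.replicate i Sy.mark

theorem rotC_zero (n : ℕ) : rotC A n 0 = num n := by simp [rotC, num]

theorem rotC_step {n i : ℕ} (h : i < n) :
    (rotC A n i).head? = some Sy.mark ∧ (rotC A n i).tail ++ [Sy.mark] = rotC A n (i + 1) := by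
  obtain ⟨m, hm⟩ : ∃ m, n - i = m + 1 := ⟨n - i - 1, by omega⟩
  have h2 : n - (i + 1) = m := by omega
  refine ⟨by simp [rotC, hm, List.replicate_succ], ?_⟩
  rw [rotC, rotC, hm, h2, List.replicate_succ' (n := i)]
  simp [List.replicate_succ]

theorem rotC_last (n : ℕ) :
    (rotC A n n).head? = some Sy.sent ∧ (rotC A n n).tail ++ [Sy.sent] = num n := by
  refine ⟨by simp [rotC], by simp [rotC, num]⟩

theorem isMark_rotC {n i : ℕ} (h : i ≤ n) :
    isMark ((rotC A n i).head?) = decide (i < n) := by
  rcases Nat.lt_or_ge i n with h1 | h1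
  · rw [(rotC_step h1).1]; simp [isMark, h1]
  · have : i = n := le_antisymm h h1
    subst this
    rw [(rotC_last i).1]; simp [isMark]

/-- Contents of the clock and flag registers. -/
def cf (v f : List (Sy (SExt A))) : CF → List (Sy (SExt A))
  | .v => v
  | .f => f

/-- Action on the first counter. -/
def ckU (A : Machine) (h : SReg A.Tape CF → Option (Sy (SExt A))) : Act (Sy (SExt A)) :=
  if isMark (h (.o .v)) then {} else { pop := true, pb := h .u }

/-- Action on the second counter. -/
def ckO (A : Machine) (h : SReg A.Tape CF → Option (Sy (SExt A))) : CF → Act (Sy (SExt A))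
  | .v => { pop := true, pb := h (.o .v) }
  | .f => {}

theorem clock_step {U V j : ℕ} (hj : j < U * (V + 1)) :
    ((if isMark ((rotC A V (j % (V + 1))).head?) then ({} : Act (Sy (SExt A)))
      else { pop := true, pb := (rotC A U (j / (V + 1))).head? }).app (rotC A U (j / (V + 1))) =
        rotC A U ((j + 1) / (V + 1))) ∧
    (({ pop := true, pb := (rotC A V (j % (V + 1))).head? } : Act (Sy (SExt A))).app
      (rotC A V (j % (V + 1))) = rotC A V ((j + 1) % (V + 1))) := by
  have hr : j % (V + 1) < V + 1 := Nat.mod_lt _ (by omega)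
  have hq : j / (V + 1) < U := by
    rw [Nat.div_lt_iff_lt_mul (by omega)]; exact hj
  have hd := Nat.div_add_mod j (V + 1)
  rw [isMark_rotC (by omega)]
  rcases Nat.lt_or_ge (j % (V + 1)) V with h | h
  · have e1 : (j + 1) / (V + 1) = j / (V + 1) := by
      rw [Nat.div_eq_iff (by omega)]
      constructor
      · have := Nat.div_mul_le_self j (V + 1)
        rw [mul_comm] at hd
        omega
      · rw [mul_comm] at hd
        omega
    have e2 : (j + 1) % (V + 1) = j % (V + 1) + 1 := by
      rw [Nat.add_mod_of_add_mod_lt]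
      · rw [Nat.mod_eq_of_lt (a := 1) (by omega)]
      · rw [Nat.mod_eq_of_lt (a := 1) (by omega)]; omega
    rw [e1, e2]
    simp only [h, decide_true, if_true]
    refine ⟨by simp [Act.app], ?_⟩
    rw [(rotC_step h).1]
    simp only [Act.app, Option.toList_none, List.nil_append, Option.toList_some, if_true]
    exact (rotC_step h).2
  · have hV : j % (V + 1) = V := by omega
    have e0 : j + 1 = (j / (V + 1) + 1) * (V + 1) := by
      rw [Nat.succ_mul, mul_comm]; omega
    have e1 : (j + 1) / (V + 1) = j / (V + 1) + 1 := by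
      rw [e0]; exact Nat.mul_div_cancel _ (by omega)
    have e2 : (j + 1) % (V + 1) = 0 := by rw [e0]; exact Nat.mul_mod_left _ _
    rw [e1, e2, hV]
    simp only [lt_irrefl, decide_false, Bool.false_eq_true, if_false]
    refine ⟨?_, ?_⟩
    · rw [(rotC_step hq).1]
      simp only [Act.app, Option.toList_none, List.nil_append, Option.toList_some, if_true]
      exact (rotC_step hq).2
    · rw [(rotC_last V).1, rotC_zero]
      simp only [Act.app, Option.toList_none, List.nil_append, Option.toList_some, if_true]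
      exact (rotC_last V).2

/-- Contents of the first counter after `j` steps. -/
def uuC (A : Machine) (U V j : ℕ) : List (Sy (SExt A)) := rotC A U (j / (V + 1))

/-- Contents of the second counter and the flag after `j` steps. -/
def ooC (A : Machine) (V j : ℕ) : CF → List (Sy (SExt A)) := cf (rotC A V (j % (V + 1))) []

/-- Set the flag. -/
def setF (A : Machine) : Cmd (SReg A.Tape CF) (Sy (SExt A)) := .act fun _ r =>
  match r with
  | .o .f => { pf := some .mark }
  | _ => {}

/-- The clocked simulation. -/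
noncomputable def full (A : Machine) [DecidableEq A.Tape] : Cmd (SReg A.Tape CF) (Sy (SExt A)) :=
  .seq (loads A CF)
    (.seq (.loop (fun h => (fun h : SReg A.Tape CF → Option (Sy (SExt A)) => isMark (h .u)) h &&
        (nxt h).isSome) (.seq (wr A CF (ckU A) (ckO A)) (mv A CF)))
      (.seq (.ite (fun h => (nxt h).isSome) (.act fun _ _ => {})
          (.seq (readOut A CF) (setF A)))
        (.seq (clean A CF) (.seq (restore .u) (restore (.o .v))))))

theorem run_restores [DecidableEq A.Tape] (U V N : ℕ) (hN : N ≤ U * (V + 1))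
    (z : List Bool) (f : List (Sy (SExt A))) :
    Runs (.seq (restore .u) (restore (.o .v)))
      (mk (A := A) (fun _ => ([], [])) [] [] [] z (uuC A U V N) (cf (rotC A V (N % (V + 1))) f))
      (mk (fun _ => ([], [])) [] [] [] z (num U) (cf (num V) f)) (2 * U + 2 * V + 4) := by
  have hq : N / (V + 1) ≤ U := by
    rw [Nat.div_le_iff_le_mul_add_pred (by omega)]
    have : (V + 1) * U = U * (V + 1) := mul_comm _ _
    omega
  have hr : N % (V + 1) ≤ V := by
    have := Nat.mod_lt N (show 0 < V + 1 by omega)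
    omega
  rw [uuC]
  generalize N / (V + 1) = q at hq ⊢
  generalize N % (V + 1) = r at hr ⊢
  have h3 := run_restore (c := SReg.u)
    (s := mk (A := A) (fun _ => ([], [])) [] [] [] z (rotC A U q) (cf (rotC A V r) f))
    (U - q) q rfl
  rw [mk_set_u, Nat.sub_add_cancel hq] at h3
  have h4 := run_restore (c := SReg.o CF.v)
    (s := mk (A := A) (fun _ => ([], [])) [] [] [] z (num U) (cf (rotC A V r) f))
    (V - r) r rfl
  rw [mk_set_o, Nat.sub_add_cancel hr] at h4
  have e : Store.set (cf (rotC A V r) f) CF.v (num V) = cf (num V) f := by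
    funext x; cases x <;> simp [Store.set, cf]
  rw [e] at h4
  exact (h3.seq h4).mono (by omega)

theorem run_full [DecidableEq A.Tape] (hA : A.Multiplies) (U V : ℕ) (hU : 1 ≤ U)
    (x y : List Bool) (hx : x.length ≤ U) (hy : y.length ≤ U) :
    ∃ W ≤ 50 * (min (A.mulTime U) (U * V) + U + V),
      Runs (full A) (mk (fun _ => ([], [])) [] x y [] (num U) (cf (num V) []))
        (mk (fun _ => ([], [])) [] [] [] (mulLsb U x y) (num U) (cf (num V) [.mark])) W ∨
      (U * V ≤ A.mulTime U ∧ Runs (full A) (mk (fun _ => ([], [])) [] x y [] (num U) (cf (num V) []))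
        (mk (fun _ => ([], [])) [] [] [] [] (num U) (cf (num V) [])) W) := by
  set w := word U x y with hw
  obtain ⟨t, ht⟩ := hA U hU (fun i : Fin U => x.getD (U - 1 - i) false)
    (fun i : Fin U => y.getD (U - 1 - i) false)
  rw [val_padded U x hx, val_padded U y hy] at ht
  change A.HaltsWith w t _ at ht
  have htime : A.time w = t := Machine.time_eq ht.haltsIn
  have hT : t ≤ A.mulTime U := by
    rw [← htime]; exact Machine.time_le_mulTime _ _
  obtain ⟨c, hc1, hc2, hc3⟩ := ht
  obtain ⟨hcf, hrun⟩ := Machine.steps_cf hc1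
  have hload := run_loads (A := A) (uu := uuC A U V) (oo := ooC A V) U x y hx hy
    (cf (num V) []) (by simp [uuC, rotC_zero]) (by simp [ooC, rotC_zero])
  rw [← hw] at hload
  have hwl : w.length = 2 * U + 1 := word_length U x y
  have hUV : U * (V + 1) = U * V + U := by ring
  have hgu : ∀ j ≤ U * (V + 1), isMark ((stj A w (uuC A U V) (ooC A V) j).heads .u) =
      decide (j / (V + 1) < U) := by
    intro j hj
    have hq : j / (V + 1) ≤ U := by
      rw [Nat.div_le_iff_le_mul_add_pred (by omega)]
      have : (V + 1) * U = U * (V + 1) := mul_comm _ _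
      omega
    exact isMark_rotC hq
  have hgT : ∀ j < U * (V + 1), isMark ((stj A w (uuC A U V) (ooC A V) j).heads .u) = true := by
    intro j hj
    rw [hgu j hj.le, decide_eq_true_eq, Nat.div_lt_iff_lt_mul (by omega)]
    exact hj
  have hcu : ∀ j < U * (V + 1), (ckU A (stj A w (uuC A U V) (ooC A V) j).heads).app
      (uuC A U V j) = uuC A U V (j + 1) := fun j hj => (clock_step (A := A) hj).1
  have hco : ∀ j < U * (V + 1), ∀ e, (ckO A (stj A w (uuC A U V) (ooC A V) j).heads e).app
      (ooC A V j e) = ooC A V (j + 1) e := by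
    intro j hj e
    cases e with
    | v => exact (clock_step (A := A) hj).2
    | f => simp [ckO, Act.app, ooC, cf]
  by_cases hcase : t ≤ U * (V + 1)
  · -- success
    have hmin : t ≤ min (A.mulTime U) (U * V) + U := by
      rcases le_total (A.mulTime U) (U * V) with h | h
      · rw [min_eq_left h]; omega
      · rw [min_eq_right h]; omega
    have h1 := run_run (A := A) (uu := uuC A U V) (oo := ooC A V) (cu := ckU A) (co := ckO A)
      (g := fun h => isMark (h .u)) w (N := t)
      (fun j hj => hgT j (by omega)) (fun j hj => hcu j (by omega)) (fun j hj => hco j (by omega))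
      hrun (Or.inr (by rw [hcf]; exact hc2))
    obtain ⟨t2, hb, h2⟩ := run_readOut (A := A) (uu := uuC A U V) (oo := ooC A V) U x y
      hcf hc3 hwl
    have hset : Runs (setF A) (mk t2 [.ext (.st (A.cf (A.init w) t).state fun _ => .stay)] [] []
        (mulLsb U x y) (uuC A U V t) (ooC A V t))
        (mk t2 [.ext (.st (A.cf (A.init w) t).state fun _ => .stay)] [] []
        (mulLsb U x y) (uuC A U V t) (cf (rotC A V (t % (V + 1))) [.mark])) 1 := by
      refine Runs.act' _ fun q => ?_
      rcases q with _ | _ | _ | _ | _ | _ | _ | e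
      case o => cases e <;> simp [Act.app, mk, cf, ooC]
      all_goals simp [Act.app, mk]
    have hite := Runs.iteF (c := .act fun _ _ => {}) (p := fun h => (nxt h).isSome)
      (s := stj A w (uuC A U V) (ooC A V) t) (by rw [nxt_stj, ← next_isSome, hcf, hc2]; rfl)
      (h2.seq hset)
    have h3 := run_clean (2 * U + 1 + t) t2
      (.ext (.st (A.cf (A.init w) t).state fun _ => .stay)) (mulLsb U x y) (uuC A U V t)
      (cf (rotC A V (t % (V + 1))) [.mark]) hb
    have h4 := run_restores (A := A) U V t hcase (mulLsb U x y) [.mark]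
    refine ⟨_, le_rfl, Or.inl ((hload.seq (h1.seq (hite.seq (h3.seq h4)))).mono ?_)⟩
    omega
  · -- the clock runs out
    push Not at hcase
    have hmin : U * (V + 1) ≤ min (A.mulTime U) (U * V) + U := by
      rw [min_eq_right (by omega)]; omega
    have h1 := run_run (A := A) (uu := uuC A U V) (oo := ooC A V) (cu := ckU A) (co := ckO A)
      (g := fun h => isMark (h .u)) w (N := U * (V + 1)) hgT hcu hco
      (fun j hj => hrun j (by omega)) (Or.inl (by
        rw [hgu _ le_rfl, decide_eq_false_iff_not, not_lt, Nat.mul_div_cancel _ (by omega)]))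
    have hact : Runs (.act fun _ _ => {}) (stj A w (uuC A U V) (ooC A V) (U * (V + 1)))
        (stj A w (uuC A U V) (ooC A V) (U * (V + 1))) 1 := by
      refine Runs.act' _ fun q => ?_
      simp [Act.app]
    have hite := Runs.iteT (d := .seq (readOut A CF) (setF A))
      (p := fun h => (nxt h).isSome)
      (s := stj A w (uuC A U V) (ooC A V) (U * (V + 1)))
      (by rw [nxt_stj, ← next_isSome]; exact hrun _ hcase) hact
    have hb : ∀ i, (lrSeq A w (U * (V + 1)) i).1.length ≤ w.length + U * (V + 1) ∧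
        (lrSeq A w (U * (V + 1)) i).2.length ≤ w.length + U * (V + 1) := by
      intro i
      have h6 := lrSeq_length A w (U * (V + 1)) i
      omega
    have h3 := run_clean (w.length + U * (V + 1)) (lrSeq A w (U * (V + 1)))
      (.ext (.st (A.cf (A.init w) (U * (V + 1))).state fun _ => .stay)) []
      (uuC A U V (U * (V + 1))) (ooC A V (U * (V + 1))) hb
    have h4 := run_restores (A := A) U V (U * (V + 1)) le_rfl [] []
    refine ⟨_, le_rfl, Or.inr ⟨by omega, (hload.seq (h1.seq (hite.seq (h3.seq h4)))).mono ?_⟩⟩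
    rw [hwl]
    omega

end Sim
end Vale.Agent.P338
end

section

/-! The calls of a multiplication machine as programs over arbitrary registers. -/

namespace Vale.Agent.P338
open Reg R

/-- A naming of the private registers. -/
def SReg.elim {τ ε ι : Type} (tl tr : τ → ι) (st x y z u : ι) (o : ε → ι) : SReg τ ε → ι
  | .tl i => tl i
  | .tr i => tr i
  | .st => st
  | .x => x
  | .y => y
  | .z => z
  | .u => u
  | .o e => o e

/-- Call of a multiplication machine without clock: the factors in `x` and `y` are consumed, the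
counter `u` holds the common length, the product appears in `z`. -/
theorem exists_call (A : Machine) (hA : A.Multiplies) {ι α : Type} [DecidableEq ι]
    (es : SExt A → α) (hs : Function.Injective es) (tl tr : A.Tape → ι) (st x y z u : ι)
    (he : Function.Injective (SReg.elim (ε := Empty) tl tr st x y z u Empty.elim)) :
    ∃ P : Cmd ι (Sy α), ∀ (s : Store ι (Sy α)) (M : ℕ) (xs ys : List Bool), 1 ≤ M →
      xs.length ≤ M → ys.length ≤ M → s x = bs xs → s y = bs ys → s z = [] → s st = [] →
      (∀ i, s (tl i) = []) → (∀ i, s (tr i) = []) → s u = num M →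
      Runs P s (((s.set x []).set y []).set z (bs (mulLsb M xs ys)))
        (50 * (A.mulTime M + M)) := by
  classical
  set e := SReg.elim (ε := Empty) tl tr st x y z u Empty.elim with hedef
  refine ⟨(Sim.fullU A).lift e (Sy.emb es) (Sy.bme es), ?_⟩
  intro s M xs ys hM hx hy h1 h2 h3 h4 h5 h6 h7
  have h := (Sim.run_fullU hA M hM xs ys hx hy Empty.elim).lift he
    (Sy.bme_emb hs) s (by
      intro k
      cases k with
      | tl i => simpa [hedef, SReg.elim, Sim.mk, Sim.cls] using h5 i
      | tr i => simpa [hedef, SReg.elim, Sim.mk, Sim.cls] using h6 i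
      | st => simpa [hedef, SReg.elim, Sim.mk] using h4
      | x => simpa [hedef, SReg.elim, Sim.mk] using h1
      | y => simpa [hedef, SReg.elim, Sim.mk] using h2
      | z => simpa [hedef, SReg.elim, Sim.mk] using h3
      | u => simpa [hedef, SReg.elim, Sim.mk] using h7
      | o e => exact e.elim)
  have e1 : (Sim.mk (A := A) (fun _ => ([], [])) [] [] [] (mulLsb M xs ys) (num M) Empty.elim) =
      ((((Sim.mk (A := A) (fun _ => ([], [])) [] xs ys [] (num M) Empty.elim).set .x []).set
        .y []).set .z (bs (mulLsb M xs ys))) := by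
    apply Store.ext'
    intro r
    cases r <;> simp [Store.set, Sim.mk]
  rw [e1, Store.ovr_set he, Store.ovr_set he, Store.ovr_set he, Store.ovr_self he] at h
  · simpa [hedef, SReg.elim] using h
  · intro k
    cases k with
    | tl i => simpa [hedef, SReg.elim, Sim.mk, Sim.cls] using h5 i
    | tr i => simpa [hedef, SReg.elim, Sim.mk, Sim.cls] using h6 i
    | st => simpa [hedef, SReg.elim, Sim.mk] using h4
    | x => simpa [hedef, SReg.elim, Sim.mk] using h1
    | y => simpa [hedef, SReg.elim, Sim.mk] using h2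
    | z => simpa [hedef, SReg.elim, Sim.mk] using h3
    | u => simpa [hedef, SReg.elim, Sim.mk] using h7
    | o e => exact e.elim

/-- Clocked call over the registers of the transposition program. -/
theorem exists_clocked (A : Machine) (hA : A.Multiplies) {τ α : Type} [DecidableEq τ]
    (et : A.Tape → τ) (ht : Function.Injective et) (es : SExt A → α)
    (hs : Function.Injective es) :
    ∃ mulP : Cmd (Reg τ) (Sy α), ∀ (s : Store (Reg τ) (Sy α)) (M h : ℕ) (x y : List Bool),
      1 ≤ M → 1 ≤ h → x.length ≤ M → y.length ≤ M → s (r C) = bs x → s (r G) = bs y →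
      s (r P) = [] → s (r FL) = [] → s (r ST) = [] → (∀ i, s (tl i) = []) →
      (∀ i, s (tr i) = []) → s (r M1) = num M → s (r nh) = num h →
      ∃ U ≤ 50 * (min (A.mulTime M) (M * h) + M + h),
        Runs mulP s ((((s.set (r C) []).set (r G) []).set (r P) (bs (mulLsb M x y))).set (r FL)
          [.mark]) U ∨
        (M * h ≤ A.mulTime M ∧ Runs mulP s ((s.set (r C) []).set (r G) []) U) := by
  classical
  set o : Sim.CF → Reg τ := (fun c => match c with | .v => r nh | .f => r FL) with ho
  set e := SReg.elim (fun i => tl (et i)) (fun i => tr (et i)) (r ST) (r C) (r G) (r P) (r M1) o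
    with hedef
  have he : Function.Injective e := by
    intro a b hab
    rcases a with a | a | _ | _ | _ | _ | _ | (_ | _) <;>
      rcases b with b | b | _ | _ | _ | _ | _ | (_ | _) <;>
      simp_all [SReg.elim, ht.eq_iff]
  refine ⟨(Sim.full A).lift e (Sy.emb es) (Sy.bme es), ?_⟩
  intro s M h x y hM hh hx hy h1 h2 h3 h4 h5 h6 h7 h8 h9
  have hst : ∀ k, s (e k) = (Sim.mk (A := A) (fun _ => ([], [])) [] x y [] (num M)
      (Sim.cf (num h) []) k).map (Sy.emb es) := by
    intro k
    rcases k with i | i | _ | _ | _ | _ | _ | (_ | _)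
    · simpa [hedef, SReg.elim, Sim.mk, Sim.cls] using h6 (et i)
    · simpa [hedef, SReg.elim, Sim.mk, Sim.cls] using h7 (et i)
    · simpa [hedef, SReg.elim, Sim.mk] using h5
    · simpa [hedef, SReg.elim, Sim.mk] using h1
    · simpa [hedef, SReg.elim, Sim.mk] using h2
    · simpa [hedef, SReg.elim, Sim.mk] using h3
    · simpa [hedef, SReg.elim, Sim.mk] using h8
    · simpa [hedef, ho, SReg.elim, Sim.mk, Sim.cf] using h9
    · simpa [hedef, ho, SReg.elim, Sim.mk, Sim.cf] using h4
  obtain ⟨W, hW, hrun⟩ := Sim.run_full hA M h hM x y hx hy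
  refine ⟨W, hW, ?_⟩
  rcases hrun with hrun | ⟨hle, hrun⟩
  · left
    have h' := hrun.lift he (Sy.bme_emb hs) s hst
    have e1 : (Sim.mk (A := A) (fun _ => ([], [])) [] [] [] (mulLsb M x y) (num M)
        (Sim.cf (num h) [.mark])) =
        (((((Sim.mk (A := A) (fun _ => ([], [])) [] x y [] (num M) (Sim.cf (num h) [])).set
          .x []).set .y []).set .z (bs (mulLsb M x y))).set (.o .f) [.mark]) := by
      apply Store.ext'
      intro q
      rcases q with i | i | _ | _ | _ | _ | _ | (_ | _) <;> simp [Store.set, Sim.mk, Sim.cf]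
    rw [e1, Store.ovr_set he, Store.ovr_set he, Store.ovr_set he, Store.ovr_set he,
      Store.ovr_self he _ _ hst] at h'
    simpa [hedef, ho, SReg.elim, Sy.emb] using h'
  · right
    refine ⟨hle, ?_⟩
    have h' := hrun.lift he (Sy.bme_emb hs) s hst
    have e1 : (Sim.mk (A := A) (fun _ => ([], [])) [] [] [] [] (num M)
        (Sim.cf (num h) [])) =
        (((Sim.mk (A := A) (fun _ => ([], [])) [] x y [] (num M) (Sim.cf (num h) [])).set
          .x []).set .y []) := by
      apply Store.ext'
      intro q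
      rcases q with i | i | _ | _ | _ | _ | _ | (_ | _) <;> simp [Store.set, Sim.mk, Sim.cf]
    rw [e1, Store.ovr_set he, Store.ovr_set he, Store.ovr_self he _ _ hst] at h'
    simpa [hedef, SReg.elim] using h'

end Vale.Agent.P338
end

section

/-! The reduction of matrix transposition to integer multiplication on Turing machines. -/

namespace Vale.Agent.P338
open Reg R

/-- The reduction with the explicit cost bound. -/
theorem reduction (A : Machine) (hA : A.Multiplies) :
    ∃ B : Machine, B.Transposes ∧ ∃ C : ℕ, ∀ n : ℕ, 1 ≤ n →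
      B.transTime n ≤ C * costBound (A.mulTime (64 * n ^ 2)) n := by
  classical
  have := A.finTape
  obtain ⟨mulP, hmul⟩ := exists_clocked A hA (τ := A.Tape) (α := SExt A) id
    Function.injective_id id Function.injective_id
  have hm : MulSpec mulP A.mulTime 50 := hmul
  obtain ⟨C0, hC0⟩ := run_transG (coreP mulP) 16 64 (coreCost A.mulTime)
    (coreP_spec mulP A.mulTime 50 hm) (by norm_num)
  exact exists_transposer_of_core (transG 64 (coreP mulP)) A.mulTime 64 (by norm_num)
    ⟨C0, hC0⟩

end Vale.Agent.P338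
end

section

/-! The explicit form of the reduction of transposition to multiplication. -/

namespace Vale.Agent.P338

/-- The reduction with the closed form of the time bound. -/
theorem reduction_explicit (A : Machine) (hA : A.Multiplies) :
    ∃ B : Machine, B.Transposes ∧ ∃ C : ℝ, 0 < C ∧ ∀ n : ℕ, 16 ≤ n →
      (B.transTime n : ℝ) ≤
        C * ((A.mulTime (64 * n ^ 2) : ℝ) *
            Real.log (2 + (n : ℝ) ^ 2 * Real.log n / A.mulTime (64 * n ^ 2)) +
          (n : ℝ) ^ 2 * Real.log (Real.log n)) := by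
  obtain ⟨B, hB, C, hC⟩ := reduction A hA
  refine ⟨B, hB, 200 * (C + 1), by positivity, fun n hn => ?_⟩
  have h1 : (B.transTime n : ℝ) ≤ (C : ℝ) * costBound (A.mulTime (64 * n ^ 2)) n := by
    exact_mod_cast hC n (by omega)
  have h2 := costBound_le (A.mulTime (64 * n ^ 2)) n hn
  have h0 : (0 : ℝ) ≤ costBound (A.mulTime (64 * n ^ 2)) n := Nat.cast_nonneg _
  have h3 := h0.trans h2
  calc (B.transTime n : ℝ) ≤ (C : ℝ) * costBound (A.mulTime (64 * n ^ 2)) n := h1
    _ ≤ (C : ℝ) * (200 * ((A.mulTime (64 * n ^ 2) : ℝ) *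
            Real.log (2 + (n : ℝ) ^ 2 * Real.log n / A.mulTime (64 * n ^ 2)) +
          (n : ℝ) ^ 2 * Real.log (Real.log n))) :=
        mul_le_mul_of_nonneg_left h2 (Nat.cast_nonneg _)
    _ ≤ _ := by linarith

end Vale.Agent.P338
end

section

/-! The reduction with the second core program. -/

namespace Vale.Agent.P338
open Reg R Ex

/-- The cost function of the second core. -/
def coreCostF (T t : ℕ → ℕ) (k M : ℕ) : ℕ :=
  T M + M + 4 ^ k * (Nat.log 2 k + 1) + 4 ^ k / k * t (3 * (k + 1)) + t (3 * (k + 1))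

instance : Finite Ex := by
  have e : Function.Injective (fun x : Ex => (x.ctorIdx : ℕ)) := by
    intro x y h
    cases x <;> cases y <;> first | rfl | (exact absurd h (by decide))
  have hb : ∀ x : Ex, x.ctorIdx < 100 := by
    intro x; cases x <;> decide
  exact Finite.of_injective (fun x : Ex => (⟨x.ctorIdx, hb x⟩ : Fin 100)) (by
    intro x y h
    apply e
    simpa using h)

/-- A program for small multiplications. -/
theorem exists_small (K : Machine) (hK : K.Multiplies) {τ α : Type} [DecidableEq τ]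
    [DecidableEq K.Tape] (es : SExt K → α) (hs : Function.Injective es) :
    ∃ sm : Cmd (RF τ K.Tape) (Sy α), SmallSpec sm K.mulTime 50 := by
  obtain ⟨P, hP⟩ := exists_call K hK (ι := RF τ K.Tape) es hs
    (fun j => .tl (.inr (.inl j))) (fun j => .tr (.inr (.inl j))) (ex sST) (ex SX) (ex SY)
    (ex SZ) (ex nL) (by
      intro a b h
      cases a <;> cases b <;> first | exact Empty.elim ‹_› | simp_all [SReg.elim, ex])
  refine ⟨P, ?_⟩
  intro s l x y hl hx hy h1 h2 h3 h4 h5
  exact hP s l x y hl hx.le hy.le h1 h2 h3 h5.1 h5.2.1 h5.2.2 h4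

/-- A program for the large multiplication. -/
theorem exists_big (A : Machine) (hA : A.Multiplies) {κ α : Type} [DecidableEq κ]
    [DecidableEq A.Tape] (es : SExt A → α) (hs : Function.Injective es) :
    ∃ mulP : Cmd (RF A.Tape κ) (Sy α), BigSpec mulP A.mulTime 50 := by
  obtain ⟨P, hP⟩ := exists_call A hA (ι := RF A.Tape κ) es hs
    (fun j => .tl (.inl j)) (fun j => .tr (.inl j)) (r ST) (r C) (r G) (r P) (r M1) (by
      intro a b h
      cases a <;> cases b <;> first | exact Empty.elim ‹_› | simp_all [SReg.elim])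
  refine ⟨P, ?_⟩
  intro s M x y hM hx hy h1 h2 h3 h4 h5
  exact hP s M x y hM hx hy h1 h2 h3 h5.1 h5.2.1 h5.2.2 h4

end Vale.Agent.P338
end

section

/-! The reductions for rectangular matrices, and the conditional lower bound for every length. -/

namespace Vale.Agent.P338
open Reg R

theorem rectInput_length {r c : ℕ} (M : Matrix (Fin r) (Fin c) Bool) :
    (rectInput M).length = r * (c + 1) := by
  simp [rectInput, List.length_flatten, List.map_ofFn, Function.comp_def]

/-- From a core program to a machine for rectangular matrices. -/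
theorem exists_rect {τ α : Type} [DecidableEq τ] [Finite τ] [Finite α] (g c0 : ℕ)
    (core : Cmd (Reg τ) (Sy α)) (F : ℕ → ℕ → ℕ) (hcore : CoreSpec core c0 F) :
    ∃ B : Machine, B.TransposesRect ∧ ∃ C : ℕ, ∀ r c : ℕ, 1 ≤ r → 1 ≤ c →
      B.rectTime r c ≤ C * (F (kR r c - gR g r c) (mR g c0 r c) + (max r c) ^ 2) := by
  obtain ⟨C0, hC0⟩ := run_rectP g c0 core F hcore
  obtain ⟨B, C, hB⟩ := exists_machine (rectP g c0 core)
    (I := { x : Σ r : ℕ, Σ c : ℕ, Matrix (Fin r) (Fin c) Bool // 1 ≤ x.1 ∧ 1 ≤ x.2.1 })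
    (fun x => rectInput x.1.2.2) (fun x => rowMajor (x.1.2.2).transpose)
    (fun x => F (kR x.1.1 x.1.2.1 - gR g x.1.1 x.1.2.1) (mR g c0 x.1.1 x.1.2.1) +
      (max x.1.1 x.1.2.1) ^ 2)
    ⟨C0, fun x => hC0 x.1.1 x.1.2.1 x.2.1 x.2.2 x.1.2.2⟩
  refine ⟨B, ?_, C * 4, ?_⟩
  · intro r c hr hc M
    obtain ⟨t, _, ht, _⟩ := hB ⟨⟨r, c, M⟩, hr, hc⟩
    exact ⟨t, ht⟩
  · intro r c hr hc
    rw [Machine.rectTime]
    apply Finset.sup_le
    intro M _
    obtain ⟨t, ht, _, ht2⟩ := hB ⟨⟨r, c, M⟩, hr, hc⟩
    refine ht2.trans (ht.trans ?_)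
    simp only [rectInput_length]
    rw [mul_assoc]
    apply Nat.mul_le_mul_left
    have h1 : r * (c + 1) ≤ 2 * (max r c) ^ 2 := by
      have h2 : r ≤ max r c := le_max_left _ _
      have h3 : c + 1 ≤ 2 * max r c := by have := le_max_right r c; omega
      calc r * (c + 1) ≤ max r c * (2 * max r c) := Nat.mul_le_mul h2 h3
        _ = 2 * (max r c) ^ 2 := by ring
    have h4 : 1 ≤ (max r c) ^ 2 := Nat.one_le_pow _ _ (by omega)
    omega

theorem coreCost_mono {T : ℕ → ℕ} {k k' M M' : ℕ} (hk : k ≤ k') (hM : M ≤ M') :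
    coreCost T k M ≤ (∑ i ∈ Finset.range (Nat.log 2 k'), min (T M) (M' * (k' / 2 ^ (i + 1)))) +
      M' * (Nat.log 2 k' + 1) := by
  unfold coreCost
  have hl : Nat.log 2 k ≤ Nat.log 2 k' := Nat.log_mono_right hk
  apply Nat.add_le_add
  · refine le_trans (Finset.sum_le_sum (fun i _ => ?_))
      (Finset.sum_le_sum_of_subset (Finset.range_mono hl))
    exact min_le_min_left _ (Nat.mul_le_mul hM (Nat.div_le_div_right hk))
  · exact Nat.mul_le_mul hM (by omega)

theorem kR_le {r s : ℕ} (hr : 1 ≤ r) (hrs : r ≤ s) (hs : s ≤ 3 * r) :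
    kR r s ≤ Nat.clog 2 r + 2 := by
  unfold kR
  rw [max_eq_right hrs]
  apply max_le (by omega)
  apply Nat.clog_le_of_le_pow
  have h1 : r ≤ 2 ^ Nat.clog 2 r := Nat.le_pow_clog (by norm_num) r
  rw [pow_add]
  omega

theorem lt_kR {r s g : ℕ} (hrs : r ≤ s) (h : 2 ^ g < r) : g < kR r s := by
  unfold kR
  rw [max_eq_right hrs]
  refine lt_of_lt_of_le ?_ (le_max_right _ _)
  apply (Nat.lt_clog_iff_pow_lt (by norm_num)).2
  omega

/-- The cost of the first core for `r × s` matrices. -/
theorem rect_cost (T : ℕ → ℕ) (r s : ℕ) (hr : 64 ≤ r) (hrs : r ≤ s) (hs : s ≤ 3 * r) :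
    coreCost T (kR r s - gR 5 r s) (mR 5 16 r s) + (max r s) ^ 2 ≤
      15 * costBound (T (r ^ 2 + (s - r))) r := by
  have hlt : 5 < kR r s := lt_kR hrs (by norm_num; omega)
  rw [mR_eq (by omega) hrs hs (by norm_num) hlt]
  obtain ⟨M, hM⟩ : ∃ M, M = r ^ 2 + (s - r) := ⟨_, rfl⟩
  rw [← hM, max_eq_right hrs]
  have hr2 : r ≤ r ^ 2 := by
    rw [pow_two]; exact Nat.le_mul_of_pos_right _ (by omega)
  have hM3 : M ≤ 3 * r ^ 2 := by omega
  have hg : gR 5 r s = 5 := by unfold gR; omega
  have hk : kR r s - gR 5 r s ≤ max 1 (Nat.clog 2 r) := by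
    have := kR_le (by omega) hrs hs
    rw [hg]; omega
  have h1 := coreCost_mono (T := T) hk hM3
  have h2 := core_cost_le (T M) r 3 (by norm_num)
  have h3 : s ^ 2 ≤ 9 * r ^ 2 := (Nat.pow_le_pow_left hs 2).trans (le_of_eq (by ring))
  have h4 : r ^ 2 ≤ costBound (T M) r := by
    unfold costBound
    have h5 : r ^ 2 ≤ 4 ^ Nat.clog 2 r := by
      calc r ^ 2 ≤ (2 ^ Nat.clog 2 r) ^ 2 :=
            Nat.pow_le_pow_left (Nat.le_pow_clog (by norm_num) r) 2
        _ = 4 ^ Nat.clog 2 r := by rw [← pow_mul, mul_comm, pow_mul]; norm_num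
    have h6 : 4 ^ Nat.clog 2 r ≤ 4 ^ Nat.clog 2 r * (Nat.log 2 (Nat.clog 2 r) + 1) :=
      Nat.le_mul_of_pos_right _ (by omega)
    omega
  omega

/-- The reduction for rectangular matrices, first core. -/
theorem rect_reduction (A : Machine) (hA : A.Multiplies) :
    ∃ B : Machine, B.TransposesRect ∧ ∃ C : ℕ, ∀ r s : ℕ, 64 ≤ r → r ≤ s → s ≤ 3 * r →
      B.rectTime r s ≤ C * costBound (A.mulTime (r ^ 2 + (s - r))) r := by
  classical
  have := A.finTape
  obtain ⟨mulP, hmul⟩ := exists_clocked A hA (τ := A.Tape) (α := SExt A) id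
    Function.injective_id id Function.injective_id
  have hm : MulSpec mulP A.mulTime 50 := hmul
  obtain ⟨B, hB, C, hC⟩ := exists_rect 5 16 (coreP mulP) (coreCost A.mulTime)
    (coreP_spec mulP A.mulTime 50 hm)
  refine ⟨B, hB, C * 15, fun r s hr hrs hs => (hC r s (by omega) (by omega)).trans ?_⟩
  rw [mul_assoc]
  exact Nat.mul_le_mul_left _ (rect_cost A.mulTime r s hr hrs hs)

/-- From a lower bound for the transposition of rectangular matrices to the lower bound for the
multiplication of numbers of every length. -/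
theorem rect_lower_bound
    (hyp : ∀ B : Machine, B.TransposesRect → ∃ c : ℝ, 0 < c ∧ ∃ N : ℕ, ∀ r s : ℕ, N ≤ r →
      r ≤ s → s ≤ 3 * r → c * ((r : ℝ) * s * Real.log r) ≤ B.rectTime r s)
    (A : Machine) (hA : A.Multiplies) :
    ∃ c : ℝ, 0 < c ∧ ∃ N : ℕ, 2 ≤ N ∧ ∀ n : ℕ, N ≤ n →
      c * ((n : ℝ) * Real.log n) ≤ A.mulTime n := by
  obtain ⟨B, hB, C, hC⟩ := rect_reduction A hA
  obtain ⟨c, hc, N, hN⟩ := hyp B hB
  -- the length near `r ^ 2` for which `A` is fastest
  have hmin : ∀ r : ℕ, ∃ j ≤ 2 * r, ∀ i ≤ 2 * r, A.mulTime (r ^ 2 + j) ≤ A.mulTime (r ^ 2 + i) := by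
    intro r
    obtain ⟨j, hj, hj2⟩ := Finset.exists_min_image (Finset.range (2 * r + 1))
      (fun i => A.mulTime (r ^ 2 + i)) ⟨0, by simp⟩
    refine ⟨j, by simpa [Nat.lt_succ_iff] using hj, fun i hi => hj2 i ?_⟩
    simp only [Finset.mem_range]
    omega
  choose j hj1 hj2 using hmin
  have key := lower_of_costBound (fun r => A.mulTime (r ^ 2 + j r))
    (fun r => if r < 64 then 0 else B.rectTime r (r + j r)) C
    (by
      intro r _
      by_cases h : r < 64
      · simp [h]
      · simp only [h, if_false]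
        have := hC r (r + j r) (by omega) (by omega) (by have := hj1 r; omega)
        rwa [Nat.add_sub_cancel_left] at this)
    c hc (max N 64)
    (by
      intro r hr
      have hr1 : N ≤ r := le_trans (le_max_left _ _) hr
      have hr2 : 64 ≤ r := le_trans (le_max_right _ _) hr
      have h : ¬ r < 64 := by omega
      simp only [h, if_false]
      refine le_trans ?_ (hN r (r + j r) hr1 (by omega) (by have := hj1 r; omega))
      apply mul_le_mul_of_nonneg_left _ hc.le
      have hlog : 0 ≤ Real.log r := Real.log_natCast_nonneg r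
      have h1 : (r : ℝ) ≤ ((r + j r : ℕ) : ℝ) := by exact_mod_cast Nat.le_add_right _ _
      have h2 : (r : ℝ) ^ 2 ≤ (r : ℝ) * ((r + j r : ℕ) : ℝ) := by
        rw [pow_two]; exact mul_le_mul_of_nonneg_left h1 (Nat.cast_nonneg _)
      exact mul_le_mul_of_nonneg_right h2 hlog)
  obtain ⟨c', hc', N', hN'⟩ := key
  refine ⟨c' / 16, by positivity, (max N' 4) ^ 2, ?_, fun n hn => ?_⟩
  · have : 4 ≤ max N' 4 := le_max_right _ _
    nlinarith
  · obtain ⟨r, hr⟩ : ∃ r, r = Nat.sqrt n := ⟨_, rfl⟩
    have h1 : r * r ≤ n := by rw [hr]; exact Nat.sqrt_le n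
    have h2 : n < (r + 1) * (r + 1) := by rw [hr]; exact Nat.lt_succ_sqrt n
    have h3 : max N' 4 ≤ r := by
      rw [hr, Nat.le_sqrt]; rw [← pow_two]; exact hn
    have h4 : N' ≤ r := le_trans (le_max_left _ _) h3
    have h5 : 4 ≤ r := le_trans (le_max_right _ _) h3
    obtain ⟨i, hi⟩ : ∃ i, n = r ^ 2 + i := ⟨n - r ^ 2, by rw [pow_two]; omega⟩
    have hi2 : i ≤ 2 * r := by
      have : (r + 1) * (r + 1) = r ^ 2 + 2 * r + 1 := by ring
      omega
    have h6 : A.mulTime (r ^ 2 + j r) ≤ A.mulTime n := by rw [hi]; exact hj2 r i hi2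
    have h7 := hN' r h4
    have h8 : (A.mulTime (r ^ 2 + j r) : ℝ) ≤ A.mulTime n := by exact_mod_cast h6
    refine le_trans ?_ (h7.trans h8)
    have h5R : (4 : ℝ) ≤ r := by exact_mod_cast h5
    have hnR : (n : ℝ) ≤ 4 * (r : ℝ) ^ 2 := by
      have : n ≤ 4 * r ^ 2 := by
        have h9 : r ≤ r ^ 2 := by rw [pow_two]; exact Nat.le_mul_of_pos_right _ (by omega)
        omega
      exact_mod_cast this
    have hn0 : (0 : ℝ) < n := by
      have : 0 < n := lt_of_lt_of_le (Nat.mul_pos (by omega) (by omega)) h1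
      exact_mod_cast this
    have hlog : Real.log n ≤ 4 * Real.log r := by
      have h9 : (n : ℝ) ≤ (r : ℝ) ^ 4 := by
        have h10 : (4 : ℝ) ≤ (r : ℝ) ^ 2 := by
          rw [pow_two]
          exact h5R.trans (le_mul_of_one_le_right (by positivity)
            ((by norm_num : (1 : ℝ) ≤ 4).trans h5R))
        calc (n : ℝ) ≤ 4 * (r : ℝ) ^ 2 := hnR
          _ ≤ (r : ℝ) ^ 2 * (r : ℝ) ^ 2 := mul_le_mul_of_nonneg_right h10 (by positivity)
          _ = (r : ℝ) ^ 4 := by ring
      have := Real.log_le_log hn0 h9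
      rwa [Real.log_pow] at this
    have hlogr : 0 ≤ Real.log r := Real.log_natCast_nonneg r
    have hlogn : 0 ≤ Real.log n := Real.log_natCast_nonneg n
    calc c' / 16 * ((n : ℝ) * Real.log n) ≤ c' / 16 * ((4 * (r : ℝ) ^ 2) * (4 * Real.log r)) := by
          apply mul_le_mul_of_nonneg_left _ (by positivity)
          exact mul_le_mul hnR hlog hlogn (by positivity)
      _ = c' * ((r : ℝ) ^ 2 * Real.log r) := by ring

theorem log_le_clog (n : ℕ) (hn : 2 ≤ n) : Real.log n ≤ Nat.clog 2 n := by
  have h1 : n ≤ 2 ^ Nat.clog 2 n := Nat.le_pow_clog (by norm_num) n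
  have h2 : (n : ℝ) ≤ 2 ^ Nat.clog 2 n := by exact_mod_cast h1
  have h0 : (0 : ℝ) < n := by
    have : 0 < n := by omega
    exact_mod_cast this
  have h3 := Real.log_le_log h0 h2
  rw [Real.log_pow] at h3
  have h4 : Real.log 2 < 0.6931471808 := Real.log_two_lt_d9
  have h5 : (0 : ℝ) ≤ Nat.clog 2 n := Nat.cast_nonneg _
  exact h3.trans (mul_le_of_le_one_right h5 (h4.le.trans (by norm_num)))

/-- The cost of the second core for `r × s` matrices. -/
theorem rect_costF (T t : ℕ → ℕ) (r s : ℕ) (hr : 256 ≤ r) (hrs : r ≤ s) (hs3 : s ≤ 3 * r) :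
    ((coreCostF T t (kR r s - gR 7 r s) (mR 7 192 r s) + (max r s) ^ 2 : ℕ) : ℝ) ≤
      50 * ((T (r ^ 2 + (s - r)) : ℝ) +
        (r : ℝ) ^ 2 / Real.log r * t (3 * (Nat.clog 2 s - 6)) +
          (r : ℝ) ^ 2 * Real.log (Real.log r)) := by
  have hlt : 7 < kR r s := by
    unfold kR
    rw [max_eq_right hrs]
    refine lt_of_lt_of_le ?_ (le_max_right _ _)
    have h1 : Nat.clog 2 256 ≤ Nat.clog 2 s := Nat.clog_mono_right 2 (by omega)
    have h2 : Nat.clog 2 256 = 8 := by
      have : (256 : ℕ) = 2 ^ 8 := by norm_num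
      rw [this, Nat.clog_pow _ _ (by norm_num)]
    omega
  have hlog8 : 8 ≤ Nat.clog 2 r := by
    have h1 : Nat.clog 2 256 ≤ Nat.clog 2 r := Nat.clog_mono_right 2 (by omega)
    have h2 : Nat.clog 2 256 = 8 := by
      have : (256 : ℕ) = 2 ^ 8 := by norm_num
      rw [this, Nat.clog_pow _ _ (by norm_num)]
    omega
  rw [mR_eq (by omega) hrs hs3 (by norm_num) hlt]
  have hg : gR 7 r s = 7 := by unfold gR; omega
  have hkR : kR r s = Nat.clog 2 s := by
    unfold kR
    rw [max_eq_right hrs]
    have : Nat.clog 2 r ≤ Nat.clog 2 s := Nat.clog_mono_right 2 hrs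
    omega
  have hkle := kR_le (by omega) hrs hs3
  rw [hg, max_eq_right hrs]
  obtain ⟨k, hk⟩ : ∃ k, k = kR r s - 7 := ⟨_, rfl⟩
  have hk1 : 1 ≤ k := by omega
  have hkr : k + 5 ≤ Nat.clog 2 r := by omega
  have hkr2 : Nat.clog 2 r ≤ 8 * k := by
    have : Nat.clog 2 r ≤ Nat.clog 2 s := Nat.clog_mono_right 2 hrs
    omega
  have e6 : 3 * (Nat.clog 2 s - 6) = 3 * (k + 1) := by omega
  rw [e6, ← hk]
  obtain ⟨M, hM⟩ : ∃ M, M = r ^ 2 + (s - r) := ⟨_, rfl⟩
  rw [← hM]
  have hr2 : r ≤ r ^ 2 := by
    rw [pow_two]; exact Nat.le_mul_of_pos_right _ (by omega)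
  have hM3 : M ≤ 3 * r ^ 2 := by omega
  have hs9 : s ^ 2 ≤ 9 * r ^ 2 := (Nat.pow_le_pow_left hs3 2).trans (le_of_eq (by ring))
  have h4k : 4 ^ k ≤ r ^ 2 := by
    have h1 := four_pow_clog_le r (by omega)
    have h2 : 4 ^ (k + 5) ≤ 4 ^ Nat.clog 2 r := Nat.pow_le_pow_right (by norm_num) hkr
    rw [pow_add] at h2
    omega
  have hlogk : Nat.log 2 k ≤ Nat.log 2 (Nat.clog 2 r) := Nat.log_mono_right (by omega)
  unfold coreCostF
  -- real estimates
  have hll := one_le_loglog r (by omega)
  have hkk := loglog_clog_le r (by omega)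
  have hlog := log_le_clog r (by omega)
  obtain ⟨tK, htK⟩ : ∃ x : ℝ, x = t (3 * (k + 1)) := ⟨_, rfl⟩
  obtain ⟨TA, hTA⟩ : ∃ x : ℝ, x = T M := ⟨_, rfl⟩
  have hTA0 : 0 ≤ TA := by rw [hTA]; exact Nat.cast_nonneg _
  have htK0 : 0 ≤ tK := by rw [htK]; exact Nat.cast_nonneg _
  push_cast
  rw [← htK, ← hTA]
  have h16 : (256 : ℝ) ≤ r := by exact_mod_cast hr
  have hlogpos : 0 < Real.log r := Real.log_pos (by linarith)
  have hrr : (0 : ℝ) < (r : ℝ) ^ 2 := by positivity
  have h4kR : (4 : ℝ) ^ k ≤ (r : ℝ) ^ 2 := by exact_mod_cast h4k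
  have hMR : (M : ℝ) ≤ 3 * (r : ℝ) ^ 2 := by exact_mod_cast hM3
  have hsR : (s : ℝ) ^ 2 ≤ 9 * (r : ℝ) ^ 2 := by exact_mod_cast hs9
  have hlk : (Nat.log 2 k : ℝ) + 1 ≤ 4 * Real.log (Real.log r) := by
    have : (Nat.log 2 k : ℝ) ≤ Nat.log 2 (Nat.clog 2 r) := by exact_mod_cast hlogk
    linarith
  have hk0 : (0 : ℝ) < k := by exact_mod_cast hk1
  have hkR8 : (Nat.clog 2 r : ℝ) ≤ 8 * k := by exact_mod_cast hkr2
  have hdiv : ((4 ^ k / k : ℕ) : ℝ) ≤ 8 * ((r : ℝ) ^ 2 / Real.log r) := by
    have h1 : ((4 ^ k / k : ℕ) : ℝ) ≤ ((4 ^ k : ℕ) : ℝ) / k := Nat.cast_div_le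
    have h2 : ((4 ^ k : ℕ) : ℝ) = 4 ^ k := by push_cast; ring
    rw [h2] at h1
    calc ((4 ^ k / k : ℕ) : ℝ) ≤ 4 ^ k / k := h1
      _ ≤ (r : ℝ) ^ 2 / k := by gcongr
      _ = 8 * ((r : ℝ) ^ 2 / (8 * k)) := by field_simp
      _ ≤ 8 * ((r : ℝ) ^ 2 / Real.log r) := by
          apply mul_le_mul_of_nonneg_left _ (by norm_num)
          exact div_le_div_of_nonneg_left hrr.le hlogpos (by linarith)
  have hone : 1 ≤ (r : ℝ) ^ 2 / Real.log r := by
    rw [le_div_iff₀ hlogpos, one_mul]
    have h1 : Real.log r ≤ r - 1 := Real.log_le_sub_one_of_pos (by positivity)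
    rw [pow_two]
    exact (h1.trans (sub_le_self _ zero_le_one)).trans (le_mul_of_one_le_right (by positivity)
      ((by norm_num : (1 : ℝ) ≤ 256).trans h16))
  obtain ⟨Q, hQ⟩ : ∃ Q, Q = (r : ℝ) ^ 2 / Real.log r := ⟨_, rfl⟩
  obtain ⟨L, hLd⟩ : ∃ L, L = Real.log (Real.log r) := ⟨_, rfl⟩
  rw [← hQ] at hdiv hone ⊢
  rw [← hLd] at hll hlk ⊢
  have a1 : (4 : ℝ) ^ k * ((Nat.log 2 k : ℝ) + 1) ≤ 4 * ((r : ℝ) ^ 2 * L) := by
    calc (4 : ℝ) ^ k * ((Nat.log 2 k : ℝ) + 1) ≤ (r : ℝ) ^ 2 * (4 * L) :=
          mul_le_mul h4kR hlk (by positivity) hrr.le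
      _ = _ := by ring
  have a2 : ((4 ^ k / k : ℕ) : ℝ) * tK ≤ 8 * (Q * tK) := by
    calc ((4 ^ k / k : ℕ) : ℝ) * tK ≤ (8 * Q) * tK := mul_le_mul_of_nonneg_right hdiv htK0
      _ = _ := by ring
  have a3 : tK ≤ Q * tK := le_mul_of_one_le_left htK0 hone
  have a4 : (r : ℝ) ^ 2 ≤ (r : ℝ) ^ 2 * L := le_mul_of_one_le_right hrr.le hll
  have hQt : 0 ≤ Q * tK := mul_nonneg (by linarith) htK0
  have hnL : 0 ≤ (r : ℝ) ^ 2 * L := mul_nonneg hrr.le (by linarith)
  linarith

end Vale.Agent.P338
end

section

/-! Square matrices by way of the program for rectangular matrices: the length of the long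
multiplications is exactly the number of entries. -/

namespace Vale.Agent.P338
open Reg R RC

section
variable {τ α : Type} [DecidableEq τ]

/-- Insert the separators after the rows of the `n × n` matrix in `inp`, `N1` holds `n`. -/
def sepP : Cmd (Reg τ) (Sy α) := sq [
  zeroC (.r .N2), addC 1 (.r .N1) (.r .N2),
  forN (.r .N1) (.seq (moveN (.r .N2) (.r .inp) (.r .X)) (pushB (.r .X) .mark)),
  mvAll (.r .X) (.r .inp), clr (.r .N1), clr (.r .N2)]

/-- The whole program for square matrices. -/
def squareP (g c0 : ℕ) (core : Cmd (Reg τ) (Sy α)) : Cmd (Reg τ) (Sy α) := sq [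
  rootP, sepP, rectP g c0 core]

theorem run_sepP (n : ℕ) (row : ℕ → List (Sy α)) (hrow : ∀ i, (row i).length = n) :
    Runs sepP (ps (fm n row) [] [] [] [] (num n) [] [] [] [] [] [] [] : Store (Reg τ) (Sy α))
      (ps (fm n fun i => row i ++ [Sy.mark]) [] [] [] [] [] [] [] [] [] [] [] [])
      (5 * n ^ 2 + 30 * n + 30) := by
  have a1 := run_zeroC (c := (r N2 : Reg τ))
    (s := (ps (fm n row) [] [] [] [] (num n) [] [] [] [] [] [] [] : Store (Reg τ) (Sy α))) rfl
  have e1 : ((ps (fm n row) [] [] [] [] (num n) [] [] [] [] [] [] [] :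
      Store (Reg τ) (Sy α)).set (r N2) (num 0)) =
      ps (fm n row) [] [] [] [] (num n) (num 0) [] [] [] [] [] [] := ps_N2 ..
  rw [e1] at a1
  have a2 := run_addC (k := 1) (d := (r N1 : Reg τ)) (c := r N2) (by simp)
    (s := (ps (fm n row) [] [] [] [] (num n) (num 0) [] [] [] [] [] [] : Store (Reg τ) (Sy α)))
    (N := n) (m := 0) rfl rfl
  have e2 : ((ps (fm n row) [] [] [] [] (num n) (num 0) [] [] [] [] [] [] :
      Store (Reg τ) (Sy α)).set (r N2) (num (0 + 1 * n))) =
      ps (fm n row) [] [] [] [] (num n) (num n) [] [] [] [] [] [] := by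
    rw [show 0 + 1 * n = n by ring]; exact ps_N2 ..
  rw [e2] at a2
  have a3 := Runs.forN (c := (r N1 : Reg τ))
    (body := .seq (moveN (.r .N2) (.r .inp) (.r .X)) (pushB (.r .X) Sy.mark)) n
    (fun i => (ps (ft i n row) [] [] (fm i fun j => row j ++ [Sy.mark]) [] (num n) (num n)
      [] [] [] [] [] [] : Store (Reg τ) (Sy α))) (3 * n + 2 + 1)
    (fun _ => rfl)
    (by
      intro i hi y
      have e3 : ((ps (ft i n row) [] [] (fm i fun j => row j ++ [Sy.mark]) [] (num n) (num n)
          [] [] [] [] [] [] : Store (Reg τ) (Sy α)).set (r N1) y) =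
          ps (ft i n row) [] [] (fm i fun j => row j ++ [Sy.mark]) [] y (num n)
          [] [] [] [] [] [] := ps_N1 ..
      have e4 : ((ps (ft (i + 1) n row) [] [] (fm (i + 1) fun j => row j ++ [Sy.mark]) [] (num n)
          (num n) [] [] [] [] [] [] : Store (Reg τ) (Sy α)).set (r N1) y) =
          ps (ft (i + 1) n row) [] [] (fm (i + 1) fun j => row j ++ [Sy.mark]) [] y (num n)
          [] [] [] [] [] [] := ps_N1 ..
      rw [e3, e4]
      have b1 := run_moveN (c := (r N2 : Reg τ)) (a := r inp) (b := r X) (by simp) (by simp)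
        (by simp) (s := (ps (ft i n row) [] [] (fm i fun j => row j ++ [Sy.mark]) [] y (num n)
          [] [] [] [] [] [] : Store (Reg τ) (Sy α))) (N := n) (l := row i)
        (rest := ft (i + 1) n row) rfl (ft_step hi row) (hrow i)
      have e5 : (((ps (ft i n row) [] [] (fm i fun j => row j ++ [Sy.mark]) [] y (num n)
          [] [] [] [] [] [] : Store (Reg τ) (Sy α)).set (r inp) (ft (i + 1) n row)).set (r X)
          ((ps (ft i n row) [] [] (fm i fun j => row j ++ [Sy.mark]) [] y (num n)
          [] [] [] [] [] [] : Store (Reg τ) (Sy α)) (r X) ++ row i)) =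
          ps (ft (i + 1) n row) [] [] ((fm i fun j => row j ++ [Sy.mark]) ++ row i) [] y (num n)
          [] [] [] [] [] [] := by
        rw [ps_inp]; exact ps_X ..
      rw [e5] at b1
      have b2 := run_pushB (b := (r X : Reg τ))
        (s := (ps (ft (i + 1) n row) [] [] ((fm i fun j => row j ++ [Sy.mark]) ++ row i) [] y
          (num n) [] [] [] [] [] [] : Store (Reg τ) (Sy α))) (Sy.mark : Sy α)
      have e6 : ((ps (ft (i + 1) n row) [] [] ((fm i fun j => row j ++ [Sy.mark]) ++ row i) [] y
          (num n) [] [] [] [] [] [] : Store (Reg τ) (Sy α)).set (r X)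
          ((ps (ft (i + 1) n row) [] [] ((fm i fun j => row j ++ [Sy.mark]) ++ row i) [] y
          (num n) [] [] [] [] [] [] : Store (Reg τ) (Sy α)) (r X) ++ [Sy.mark])) =
          ps (ft (i + 1) n row) [] [] (fm (i + 1) fun j => row j ++ [Sy.mark]) [] y (num n)
          [] [] [] [] [] [] := by
        have e7 : ((fm i fun j => row j ++ [(Sy.mark : Sy α)]) ++ row i) ++ [Sy.mark] =
            fm (i + 1) fun j => row j ++ [Sy.mark] := by
          rw [fm_succ, List.append_assoc]
        rw [← e7]; exact ps_X ..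
      rw [e6] at b2
      exact b1.seq b2)
  simp only [ft_zero, fm_zero, ft_self] at a3
  have a4 := run_mvAll (a := (r X : Reg τ)) (b := r inp) (by simp)
    (s := (ps [] [] [] (fm n fun j => row j ++ [Sy.mark]) [] (num n) (num n)
      [] [] [] [] [] [] : Store (Reg τ) (Sy α)))
  have e8 : (((ps [] [] [] (fm n fun j => row j ++ [Sy.mark]) [] (num n) (num n)
      [] [] [] [] [] [] : Store (Reg τ) (Sy α)).set (r X) []).set (r inp)
      ((ps [] [] [] (fm n fun j => row j ++ [Sy.mark]) [] (num n) (num n)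
      [] [] [] [] [] [] : Store (Reg τ) (Sy α)) (r inp) ++
      (ps [] [] [] (fm n fun j => row j ++ [Sy.mark]) [] (num n) (num n)
      [] [] [] [] [] [] : Store (Reg τ) (Sy α)) (r X))) =
      ps (fm n fun j => row j ++ [Sy.mark]) [] [] [] [] (num n) (num n) [] [] [] [] [] [] := by
    rw [ps_X]; exact ps_inp ..
  rw [e8] at a4
  have hlen : (fm n fun j => row j ++ [(Sy.mark : Sy α)]).length = n * (n + 1) :=
    fm_length fun i _ => by rw [List.length_append, hrow]; rfl
  have e9 : ((ps [] [] [] (fm n fun j => row j ++ [Sy.mark]) [] (num n) (num n)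
      [] [] [] [] [] [] : Store (Reg τ) (Sy α)) (r X)).length = n * (n + 1) := hlen
  rw [e9] at a4
  have a5 := run_clr (a := (r N1 : Reg τ))
    (s := (ps (fm n fun j => row j ++ [Sy.mark]) [] [] [] [] (num n) (num n) [] [] [] [] [] [] :
      Store (Reg τ) (Sy α)))
  have e10 : ((ps (fm n fun j => row j ++ [Sy.mark]) [] [] [] [] (num n) (num n)
      [] [] [] [] [] [] : Store (Reg τ) (Sy α)).set (r N1) []) =
      ps (fm n fun j => row j ++ [Sy.mark]) [] [] [] [] [] (num n) [] [] [] [] [] [] := ps_N1 ..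
  have l10 : ((ps (fm n fun j => row j ++ [Sy.mark]) [] [] [] [] (num n) (num n)
      [] [] [] [] [] [] : Store (Reg τ) (Sy α)) (r N1)).length = n + 1 := num_length n
  rw [e10, l10] at a5
  have a6 := run_clr (a := (r N2 : Reg τ))
    (s := (ps (fm n fun j => row j ++ [Sy.mark]) [] [] [] [] [] (num n) [] [] [] [] [] [] :
      Store (Reg τ) (Sy α)))
  have e11 : ((ps (fm n fun j => row j ++ [Sy.mark]) [] [] [] [] [] (num n)
      [] [] [] [] [] [] : Store (Reg τ) (Sy α)).set (r N2) []) =
      ps (fm n fun j => row j ++ [Sy.mark]) [] [] [] [] [] [] [] [] [] [] [] [] := ps_N2 ..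
  have l11 : ((ps (fm n fun j => row j ++ [Sy.mark]) [] [] [] [] [] (num n)
      [] [] [] [] [] [] : Store (Reg τ) (Sy α)) (r N2)).length = n + 1 := num_length n
  rw [e11, l11] at a6
  unfold sepP
  refine (run_sq_cons a1 (run_sq_cons a2 (run_sq_cons a3 (run_sq_cons a4 (run_sq_cons a5
    (run_sq_cons a6 run_sq_nil)))))).mono ?_
  linarith

theorem rectInput_sy {n : ℕ} (M : Matrix (Fin n) (Fin n) Bool) :
    ((rectInput M).map Sym.toSy : List (Sy α)) =
      fm n fun x => (bs (fm n fun y => [extM M x y])) ++ [Sy.mark] := by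
  rw [rectInput_eq, map_fm]
  refine fm_congr fun x _ => ?_
  rw [List.map_append, map_fm]
  congr 1
  rw [bs_fm]
  rfl

theorem run_squareP (g c0 : ℕ) (core : Cmd (Reg τ) (Sy α)) (F : ℕ → ℕ → ℕ)
    (hcore : CoreSpec core c0 F) :
    ∃ C : ℕ, ∀ n : ℕ, 1 ≤ n → ∀ M : Matrix (Fin n) (Fin n) Bool,
    ∃ s' : Store (Reg τ) (Sy α), s' (r out) = bs (rowMajor M.transpose) ∧
    Runs (squareP g c0 core) (Store.set (fun _ => []) (r inp) (bs (rowMajor M))) s'
      (C * (F (kR n n - gR g n n) (mR g c0 n n) + n ^ 2)) := by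
  obtain ⟨C, hC⟩ := run_rectP g c0 core F hcore
  refine ⟨C + 200, fun n hn M => ?_⟩
  obtain ⟨s', h1, h2⟩ := hC n n hn hn M
  refine ⟨s', h1, ?_⟩
  have hrow : ∀ i, (bs (fm n fun y => [extM M i y]) : List (Sy α)).length = n := by
    intro i
    rw [bs_length, fm_length (c := 1) (fun _ _ => rfl), Nat.mul_one]
  have hw : (bs (rowMajor M) : List (Sy α)) = fm n fun x => bs (fm n fun y => [extM M x y]) := by
    rw [rowMajor_eq_fm, bs_fm]
  have hwl : (bs (rowMajor M) : List (Sy α)).length = n ^ 2 := by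
    rw [hw, fm_length (c := n) (fun i _ => hrow i)]
    ring
  have a1 := run_rootP (τ := τ) (bs (rowMajor M) : List (Sy α)) n hwl
  rw [← initS_eq] at a1
  rw [hw] at a1
  have a2 := run_sepP (τ := τ) n (fun x => (bs (fm n fun y => [extM M x y]) : List (Sy α))) hrow
  rw [← rectInput_sy, ← initS_eq] at a2
  have a3 : Runs (rectP g c0 core) (initS ((rectInput M).map Sym.toSy)) s' _ := h2
  rw [hw]
  unfold squareP
  refine (run_sq_cons a1 (run_sq_cons a2 (run_sq_cons a3 run_sq_nil))).mono ?_
  rw [max_self]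
  have e : (C + 200) * (F (kR n n - gR g n n) (mR g c0 n n) + n ^ 2) =
      C * (F (kR n n - gR g n n) (mR g c0 n n) + n ^ 2) +
        200 * (F (kR n n - gR g n n) (mR g c0 n n) + n ^ 2) := by ring
  rw [e]
  have h3 : n ≤ n ^ 2 := by rw [pow_two]; exact Nat.le_mul_of_pos_right _ hn
  omega

end

/-- From a core program to a machine for square matrices with the exact length of the
multiplications. -/
theorem exists_square {τ α : Type} [DecidableEq τ] [Finite τ] [Finite α] (g c0 : ℕ)
    (core : Cmd (Reg τ) (Sy α)) (F : ℕ → ℕ → ℕ) (hcore : CoreSpec core c0 F) :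
    ∃ B : Machine, B.Transposes ∧ ∃ C : ℕ, ∀ n : ℕ, 1 ≤ n →
      B.transTime n ≤ C * (F (kR n n - gR g n n) (mR g c0 n n) + n ^ 2 + n ^ 2) := by
  obtain ⟨C0, hC0⟩ := run_squareP g c0 core F hcore
  exact exists_transposer (squareP g c0 core)
    (fun n => F (kR n n - gR g n n) (mR g c0 n n) + n ^ 2) ⟨C0, hC0⟩

end Vale.Agent.P338
end

section

/-! The reductions for square matrices with multiplications of length exactly `n²`. -/

namespace Vale.Agent.P338
open Reg R

theorem sq_le_costBound (T n : ℕ) : n ^ 2 ≤ costBound T n := by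
  unfold costBound
  have h5 : n ^ 2 ≤ 4 ^ Nat.clog 2 n := by
    calc n ^ 2 ≤ (2 ^ Nat.clog 2 n) ^ 2 :=
          Nat.pow_le_pow_left (Nat.le_pow_clog (by norm_num) n) 2
      _ = 4 ^ Nat.clog 2 n := by rw [← pow_mul, mul_comm, pow_mul]; norm_num
  have h6 : 4 ^ Nat.clog 2 n ≤ 4 ^ Nat.clog 2 n * (Nat.log 2 (Nat.clog 2 n) + 1) :=
    Nat.le_mul_of_pos_right _ (by omega)
  omega

/-- The reduction for square matrices, first core, length exactly `n²`. -/
theorem square_reduction (A : Machine) (hA : A.Multiplies) :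
    ∃ B : Machine, B.Transposes ∧ ∃ C : ℕ, ∀ n : ℕ, 64 ≤ n →
      B.transTime n ≤ C * costBound (A.mulTime (n ^ 2)) n := by
  classical
  have := A.finTape
  obtain ⟨mulP, hmul⟩ := exists_clocked A hA (τ := A.Tape) (α := SExt A) id
    Function.injective_id id Function.injective_id
  have hm : MulSpec mulP A.mulTime 50 := hmul
  obtain ⟨B, hB, C, hC⟩ := exists_square 5 16 (coreP mulP) (coreCost A.mulTime)
    (coreP_spec mulP A.mulTime 50 hm)
  refine ⟨B, hB, C * 16, fun n hn => (hC n (by omega)).trans ?_⟩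
  rw [mul_assoc]
  apply Nat.mul_le_mul_left
  have h1 := rect_cost A.mulTime n n hn le_rfl (by omega)
  rw [Nat.sub_self, Nat.add_zero, max_self] at h1
  have h2 := sq_le_costBound (A.mulTime (n ^ 2)) n
  omega

/-- The closed form. -/
theorem square_reduction_explicit (A : Machine) (hA : A.Multiplies) :
    ∃ B : Machine, B.Transposes ∧ ∃ C : ℝ, 0 < C ∧ ∀ n : ℕ, 64 ≤ n →
      (B.transTime n : ℝ) ≤ C * ((A.mulTime (n ^ 2) : ℝ) *
        Real.log (2 + (n : ℝ) ^ 2 * Real.log n / A.mulTime (n ^ 2)) +
          (n : ℝ) ^ 2 * Real.log (Real.log n)) := by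
  obtain ⟨B, hB, C, hC⟩ := square_reduction A hA
  refine ⟨B, hB, 200 * (C + 1), by positivity, fun n hn => ?_⟩
  have h1 : (B.transTime n : ℝ) ≤ (C : ℝ) * costBound (A.mulTime (n ^ 2)) n := by
    exact_mod_cast hC n hn
  have h2 := costBound_le (A.mulTime (n ^ 2)) n (by omega)
  have h0 : (0 : ℝ) ≤ costBound (A.mulTime (n ^ 2)) n := Nat.cast_nonneg _
  have h3 := h0.trans h2
  calc (B.transTime n : ℝ) ≤ (C : ℝ) * costBound (A.mulTime (n ^ 2)) n := h1
    _ ≤ (C : ℝ) * (200 * ((A.mulTime (n ^ 2) : ℝ) *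
            Real.log (2 + (n : ℝ) ^ 2 * Real.log n / A.mulTime (n ^ 2)) +
          (n : ℝ) ^ 2 * Real.log (Real.log n))) :=
        mul_le_mul_of_nonneg_left h2 (Nat.cast_nonneg _)
    _ ≤ _ := by linarith

/-- The reduction for square matrices, second core, length exactly `n²`. -/
theorem square_reductionF (A K : Machine) (hA : A.Multiplies) (hK : K.Multiplies) :
    ∃ B : Machine, B.Transposes ∧ ∃ C : ℝ, 0 < C ∧ ∀ n : ℕ, 256 ≤ n →
      (B.transTime n : ℝ) ≤ C * ((A.mulTime (n ^ 2) : ℝ) +
        (n : ℝ) ^ 2 / Real.log n * K.mulTime (3 * (Nat.clog 2 n - 6)) +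
          (n : ℝ) ^ 2 * Real.log (Real.log n)) := by
  classical
  have := A.finTape
  have := K.finTape
  obtain ⟨sm, hs⟩ := exists_small K hK (τ := A.Tape) (α := SExt A ⊕ SExt K) Sum.inr
    Sum.inr_injective
  obtain ⟨mulP, hm⟩ := exists_big A hA (κ := K.Tape) (α := SExt A ⊕ SExt K) Sum.inl
    Sum.inl_injective
  have hcore : CoreSpec (coreF sm mulP) 192 (coreCostF A.mulTime K.mulTime) :=
    coreF_spec hs mulP A.mulTime 50 hm
  obtain ⟨B, hB, C, hC⟩ := exists_square 7 192 (coreF sm mulP) _ hcore
  refine ⟨B, hB, (C + 1) * 100, by positivity, fun n hn => ?_⟩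
  have h1 : (B.transTime n : ℝ) ≤ C * ((coreCostF A.mulTime K.mulTime (kR n n - gR 7 n n)
      (mR 7 192 n n) + n ^ 2 + n ^ 2 : ℕ) : ℝ) := by
    exact_mod_cast hC n (by omega)
  have h2 := rect_costF A.mulTime K.mulTime n n hn le_rfl (by omega)
  rw [Nat.sub_self, Nat.add_zero, max_self] at h2
  obtain ⟨X, hX⟩ : ∃ X : ℕ, X = coreCostF A.mulTime K.mulTime (kR n n - gR 7 n n)
      (mR 7 192 n n) := ⟨_, rfl⟩
  obtain ⟨Y, hY⟩ : ∃ Y : ℝ, Y = (A.mulTime (n ^ 2) : ℝ) +
        (n : ℝ) ^ 2 / Real.log n * K.mulTime (3 * (Nat.clog 2 n - 6)) +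
          (n : ℝ) ^ 2 * Real.log (Real.log n) := ⟨_, rfl⟩
  rw [← hX] at h1 h2
  rw [← hY] at h2 ⊢
  have hC0 : (0 : ℝ) ≤ C := Nat.cast_nonneg _
  have h3 : ((X + n ^ 2 + n ^ 2 : ℕ) : ℝ) ≤ 2 * ((X + n ^ 2 : ℕ) : ℝ) := by
    have : X + n ^ 2 + n ^ 2 ≤ 2 * (X + n ^ 2) := by omega
    exact_mod_cast this
  have h4 : (0 : ℝ) ≤ ((X + n ^ 2 : ℕ) : ℝ) := Nat.cast_nonneg _
  have h5 : ((X + n ^ 2 + n ^ 2 : ℕ) : ℝ) ≤ 100 * Y := by linarith
  calc (B.transTime n : ℝ) ≤ C * ((X + n ^ 2 + n ^ 2 : ℕ) : ℝ) := h1
    _ ≤ C * (100 * Y) := mul_le_mul_of_nonneg_left h5 hC0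
    _ ≤ (C + 1) * 100 * Y := by linarith

/-- The size of the small multiplications. -/
theorem small_size_le' (n : ℕ) (hn : 256 ≤ n) :
    ((3 * (Nat.clog 2 n - 6) : ℕ) : ℝ) ≤ 6 * Real.log n := by
  have h1 := clog_le_log n (by omega)
  have h2 : ((3 * (Nat.clog 2 n - 6) : ℕ) : ℝ) ≤ 3 * Nat.clog 2 n := by
    have : 3 * (Nat.clog 2 n - 6) ≤ 3 * Nat.clog 2 n := by omega
    exact_mod_cast this
  linarith

/-- The reduction for machines whose time per bit is nondecreasing. -/
theorem square_reduction_mono (A : Machine) (hA : A.Multiplies)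
    (hmono : ∀ m n : ℕ, 1 ≤ m → m ≤ n → (A.mulTime m : ℝ) / m ≤ (A.mulTime n : ℝ) / n) :
    ∃ B : Machine, B.Transposes ∧ ∃ C : ℝ, 0 < C ∧ ∀ n : ℕ, 256 ≤ n →
      (B.transTime n : ℝ) ≤ C * ((A.mulTime (n ^ 2) : ℝ) +
        (n : ℝ) ^ 2 * Real.log (Real.log n)) := by
  obtain ⟨B, hB, C, hC0, hC⟩ := square_reductionF A A hA hA
  refine ⟨B, hB, 7 * C, by positivity, fun n hn => (hC n hn).trans ?_⟩
  have hll := one_le_loglog n (by omega)
  have h256 : (256 : ℝ) ≤ n := by exact_mod_cast hn
  have hn0 : (0 : ℝ) < n := by linarith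
  have hlogpos : 0 < Real.log n := Real.log_pos (by linarith)
  obtain ⟨l, hl⟩ : ∃ l, l = 3 * (Nat.clog 2 n - 6) := ⟨_, rfl⟩
  have hlR := small_size_le' n hn
  have hc8 : 8 ≤ Nat.clog 2 n := by
    have h1 : Nat.clog 2 256 ≤ Nat.clog 2 n := Nat.clog_mono_right 2 hn
    have h2 : Nat.clog 2 256 = 8 := by
      have : (256 : ℕ) = 2 ^ 8 := by norm_num
      rw [this, Nat.clog_pow _ _ (by norm_num)]
    omega
  have hl1 : 1 ≤ l := by omega
  rw [← hl] at hlR ⊢
  have hlN : l ≤ n ^ 2 := by
    have h1 : Nat.clog 2 n ≤ n := by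
      apply Nat.clog_le_of_le_pow
      exact (Nat.lt_two_pow_self).le
    have h2 : 3 * n ≤ n ^ 2 := by rw [pow_two]; exact Nat.mul_le_mul_right n (by omega)
    omega
  have h1 := hmono l (n ^ 2) hl1 hlN
  have hl0 : (0 : ℝ) < l := by exact_mod_cast hl1
  obtain ⟨T, hT⟩ : ∃ T : ℝ, T = (A.mulTime (n ^ 2) : ℝ) := ⟨_, rfl⟩
  have hT0 : 0 ≤ T := by rw [hT]; exact Nat.cast_nonneg _
  rw [← hT] at h1 ⊢
  have h2 : (A.mulTime l : ℝ) ≤ T / ((n : ℝ) ^ 2) * l := by
    rw [div_le_iff₀ hl0] at h1
    push_cast at h1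
    exact h1
  have h3 : (n : ℝ) ^ 2 / Real.log n * A.mulTime l ≤ 6 * T := by
    calc (n : ℝ) ^ 2 / Real.log n * A.mulTime l
        ≤ (n : ℝ) ^ 2 / Real.log n * (T / ((n : ℝ) ^ 2) * (6 * Real.log n)) := by
          apply mul_le_mul_of_nonneg_left _ (by positivity)
          exact h2.trans (mul_le_mul_of_nonneg_left hlR (by positivity))
      _ = 6 * T := by field_simp
  have h4 : 0 ≤ (n : ℝ) ^ 2 * Real.log (Real.log n) := by positivity
  rw [mul_comm (7 : ℝ) C, mul_assoc]
  refine mul_le_mul_of_nonneg_left ?_ hC0.le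
  clear h1 h2 hlR hll hlogpos hn0 hl0 hT0
  linarith

/-- The conditional lower bound from square matrices: at every square, at some number in every
short interval, and everywhere if the running time is nondecreasing. -/
theorem square_lower_bound
    (hyp : ∀ B : Machine, B.Transposes → ∃ c : ℝ, 0 < c ∧ ∃ N : ℕ, ∀ n : ℕ, N ≤ n →
      c * ((n : ℝ) ^ 2 * Real.log n) ≤ B.transTime n)
    (A : Machine) (hA : A.Multiplies) :
    ∃ c : ℝ, 0 < c ∧ ∃ N : ℕ, 2 ≤ N ∧ ∀ n : ℕ, N ≤ n →
      c * ((n : ℝ) ^ 2 * Real.log n) ≤ A.mulTime (n ^ 2) ∧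
      (∃ m : ℕ, m ≤ n ∧ (n : ℝ) ≤ m + 2 * Real.sqrt n ∧
        c * ((n : ℝ) * Real.log n) ≤ A.mulTime m) ∧
      (Monotone A.mulTime → c * ((n : ℝ) * Real.log n) ≤ A.mulTime n) := by
  obtain ⟨B, hB, C, hC⟩ := square_reduction A hA
  obtain ⟨c, hc, N, hN⟩ := hyp B hB
  obtain ⟨c1, hc1, N1, hN1⟩ := lower_of_costBound (fun n => A.mulTime (n ^ 2))
    (fun n => if n < 64 then 0 else B.transTime n) C
    (by
      intro n _
      by_cases h : n < 64
      · simp [h]
      · simp only [h, if_false]
        exact hC n (by omega))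
    c hc (max N 64)
    (by
      intro n hn
      have h1 : N ≤ n := le_trans (le_max_left _ _) hn
      have h2 : 64 ≤ n := le_trans (le_max_right _ _) hn
      have h : ¬ n < 64 := by omega
      simp only [h, if_false]
      exact hN n h1)
  obtain ⟨c2, hc2, N2, hN2⟩ := sqrt_lower_bound A.mulTime 1 le_rfl
    ⟨c1, hc1, N1, by simpa using hN1⟩
  have hcm : 0 < min c1 c2 := lt_min hc1 hc2
  refine ⟨min c1 c2, hcm, max 2 (max N1 N2), le_max_left _ _, fun n hn => ?_⟩
  have hn1 : N1 ≤ n := le_trans (le_trans (le_max_left _ _) (le_max_right _ _)) hn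
  have hn2 : N2 ≤ n := le_trans (le_trans (le_max_right _ _) (le_max_right _ _)) hn
  have hlog : 0 ≤ Real.log n := Real.log_natCast_nonneg n
  obtain ⟨h1, h2⟩ := hN2 n hn2
  rw [Nat.div_one, one_mul] at h1 h2
  have h5 : min c1 c2 * ((n : ℝ) * Real.log n) ≤ c2 * ((n : ℝ) * Real.log n) :=
    mul_le_mul_of_nonneg_right (min_le_right _ _) (by positivity)
  refine ⟨le_trans ?_ (hN1 n hn1), ⟨Nat.sqrt n ^ 2, h1, ?_, h5.trans h2⟩, fun hmono => ?_⟩
  · exact mul_le_mul_of_nonneg_right (min_le_left _ _) (by positivity)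
  · have h6 : n < (Nat.sqrt n + 1) * (Nat.sqrt n + 1) := Nat.lt_succ_sqrt n
    have h7 : n ≤ Nat.sqrt n ^ 2 + 2 * Nat.sqrt n := by
      have : (Nat.sqrt n + 1) * (Nat.sqrt n + 1) = Nat.sqrt n ^ 2 + 2 * Nat.sqrt n + 1 := by ring
      omega
    have h8 : (n : ℝ) ≤ ((Nat.sqrt n ^ 2 : ℕ) : ℝ) + 2 * Nat.sqrt n := by exact_mod_cast h7
    have h9 : (Nat.sqrt n : ℝ) ≤ Real.sqrt n := Real.nat_sqrt_le_real_sqrt
    linarith
  · refine (h5.trans h2).trans ?_
    exact_mod_cast hmono h1

end Vale.Agent.P338
end
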