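import Vale.Agent.P338.Bdl.B6
import Vale.Agent.P338.Bdl.B5
import Vale.Agent.P338.Bdl.B4
import Vale.Agent.P338.Bdl.B1

set_option linter.all false

section

/-! The program for the kernel integer. -/

namespace Vale.Agent.P338
open Reg R

section
variable {ι α : Type} [DecidableEq ι]

theorem bs_zeros (n : ℕ) : (bs (zeros n) : List (Sy α)) = List.replicate n (.bit false) := by
  simp [zeros, bs_replicate]

theorem onehot_length {n : ℕ} (h : 1 ≤ n) : (onehot n).length = n := by
  simp [onehot]; omega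

/-- Nested fill. -/
theorem run_forFill {k : ℕ} {c d b : ι} {x : Sy α} (hcd : c ≠ d) (hcb : c ≠ b) (hdb : d ≠ b)
    {s : Store ι (Sy α)} {N M : ℕ} (hc : s c = num N) (hd : s d = num M) :
    Runs (forN c (fillN k d b x)) s (s.set b (s b ++ List.replicate (N * (k * M)) x))
      (N * (M * (k + 3) + 4) + 2) := by
  have key := Runs.forN (c := c) (body := fillN k d b x) N
    (fun i => s.set b (s b ++ List.replicate (i * (k * M)) x)) (M * (k + 3) + 2)
    (by intro i; simp [hcb, hc])
    (by
      intro i _ y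
      have := run_fillN (k := k) (c := d) (b := b) (x := x) hdb
        (s := (s.set b (s b ++ List.replicate (i * (k * M)) x)).set c y) (N := M)
        (by rw [Store.set_ne _ _ hcd.symm, Store.set_ne _ _ hdb, hd])
      refine Runs.cast this ?_ le_rfl
      rw [Store.set_ne _ _ hcb.symm, Store.set_same, List.append_assoc, ← List.replicate_add,
        ← Nat.succ_mul]
      apply Store.ext'
      intro r
      simp only [Store.set]
      clear this
      split_ifs <;> simp_all)
  simp only [Nat.zero_mul, List.replicate_zero, List.append_nil, Store.set_self] at key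
  exact key.mono (by ring_nf; omega)

end

section
variable {τ α : Type} [DecidableEq τ]

/-- Row number `d` of the kernel. -/
def kRow (q e d : ℕ) : List Bool :=
  (onehot (2 * (q * e))).rotate (e * d ^ 2) ++ zeros (6 * (q * e)) ++
    zeros ((q - 1) * (8 * (q * e)))

theorem kern_eq (q e : ℕ) : kern q e = fm (2 * q) (kRow q e) := rfl

/-- The store of the kernel program before row `d`. -/
def kSt (s : Store (Reg τ) (Sy α)) (q e d : ℕ) : Store (Reg τ) (Sy α) :=
  (((s.set (r H) (bs ((onehot (2 * (q * e))).rotate (e * d ^ 2)))).set (r A1)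
    (num (e * (2 * d + 1)))).set (r A3) (num (q - 1))).set (r G) (bs (fm d (kRow q e)))

theorem run_kernRow {s : Store (Reg τ) (Sy α)} {q e d : ℕ} (hq : 1 ≤ q) (he : 1 ≤ e)
    (hE : s (r nE) = num (q * e)) (hne : s (r ne) = num e) (hd : d < 2 * q) (y : List (Sy α)) :
    Runs kernRow ((kSt s q e d).set (r q1) y) ((kSt s q e (d + 1)).set (r q1) y)
      (100 * (q * (q * e))) := by
  have hE1 : 1 ≤ q * e := Nat.mul_pos hq he
  have hlen : ((bs ((onehot (2 * (q * e))).rotate (e * d ^ 2)) : List (Sy α))).length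
      = 2 * (q * e) := by
    rw [bs_length, List.length_rotate, onehot_length (by omega)]
  have r1 := run_cpy2 (α := α) (c := r nE) (a := r H) (b := r G) (by simp) (by simp) (by simp)
    (s := (kSt s q e d).set (r q1) y) (N := q * e) (by simp [kSt, hE]) (by simpa [kSt] using hlen)
  set s1 := ((kSt s q e d).set (r q1) y).set (r G) (((kSt s q e d).set (r q1) y) (r G) ++
    ((kSt s q e d).set (r q1) y) (r H)) with hs1
  have r2 := run_fillN (k := 6) (c := r nE) (b := r G) (x := Sy.bit false) (by simp) (s := s1)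
    (N := q * e) (by simp [hs1, kSt, hE])
  set s2 := s1.set (r G) (s1 (r G) ++ List.replicate (6 * (q * e)) (Sy.bit false)) with hs2
  have r3 := run_forFill (k := 8) (c := r A3) (d := r nE) (b := r G) (x := Sy.bit false) (by simp)
    (by simp) (by simp) (s := s2) (N := q - 1) (M := q * e) (by simp [hs2, hs1, kSt])
    (by simp [hs2, hs1, kSt, hE])
  set s3 := s2.set (r G) (s2 (r G) ++ List.replicate ((q - 1) * (8 * (q * e))) (Sy.bit false))
    with hs3
  have r4 := run_rotN (c := r A1) (a := r H) (by simp) (s := s3) (N := e * (2 * d + 1))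
    (by simp [hs3, hs2, hs1, kSt])
  set s4 := s3.set (r H) ((s3 (r H)).rotate (e * (2 * d + 1))) with hs4
  have r5 := run_addC (k := 2) (d := r ne) (c := r A1) (by simp) (s := s4) (N := e)
    (m := e * (2 * d + 1)) (by simp [hs4, hs3, hs2, hs1, kSt, hne])
    (by simp [hs4, hs3, hs2, hs1, kSt])
  have hh := run_sq_cons r1 (run_sq_cons r2 (run_sq_cons r3 (run_sq_cons r4
    (run_sq_cons r5 run_sq_nil))))
  refine Runs.cast hh ?_ ?_
  · have e1 : e * d ^ 2 + e * (2 * d + 1) = e * (d + 1) ^ 2 := by ring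
    have e2 : e * (2 * d + 1) + 2 * e = e * (2 * (d + 1) + 1) := by ring
    rw [e2]
    funext x
    rcases x with x | i | i
    · cases x
      case H => simp [hs4, hs3, hs2, hs1, kSt, bs_rotate, List.rotate_rotate, e1]
      case G => simp [hs4, hs3, hs2, hs1, kSt, fm_succ, kRow, bs_zeros]
      all_goals first | rfl | simp [hs4, hs3, hs2, hs1, kSt]
    · first | rfl | simp [hs4, hs3, hs2, hs1, kSt]
    · first | rfl | simp [hs4, hs3, hs2, hs1, kSt]
  · have h1 : (q - 1) * (q * e * (8 + 3) + 4) ≤ q * (15 * (q * e)) :=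
      Nat.mul_le_mul (by omega) (by omega)
    have h2 : e * (2 * d + 1) ≤ e * (4 * q) := Nat.mul_le_mul_left _ (by omega)
    have h3 : e * (4 * q) = 4 * (q * e) := by ring
    have h4 : q * (15 * (q * e)) = 15 * (q * (q * e)) := by ring
    have h5 : q * e ≤ q * (q * e) := Nat.le_mul_of_pos_left _ hq
    have h6 : e ≤ q * e := Nat.le_mul_of_pos_left _ hq
    omega

theorem run_kernP : ∃ C0 : ℕ, ∀ (s : Store (Reg τ) (Sy α)) (q e : ℕ), 1 ≤ q → 1 ≤ e →
    s (r q1) = num q → s (r q2) = num q → s (r nE) = num (q * e) → s (r ne) = num e →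
    s (r H) = [] → s (r A1) = [] → s (r A3) = [] → s (r G) = [] →
    Runs kernP s (s.set (r G) (bs (kern q e))) (C0 * (q * (q * (q * e)))) := by
  refine ⟨1000, fun s q e hq he hq1 hq2 hE hne hH hA1 hA3 hG => ?_⟩
  have hE1 : 1 ≤ q * e := Nat.mul_pos hq he
  have r1 := run_mkH (s := s) hE hE1 hH
  set s1 := s.set (r H) (bs (onehot (2 * (q * e)))) with hs1
  have r2 := run_zeroC (c := r A1) (s := s1) (by simp [hs1, hA1])
  set s2 := s1.set (r A1) (num 0) with hs2
  have r3 := run_addC (k := 1) (d := r ne) (c := r A1) (by simp) (s := s2) (N := e) (m := 0)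
    (by simp [hs2, hs1, hne]) (by simp [hs2])
  set s3 := s2.set (r A1) (num (0 + 1 * e)) with hs3
  have r4 := run_zeroC (c := r A3) (s := s3) (by simp [hs3, hs2, hs1, hA3])
  set s4 := s3.set (r A3) (num 0) with hs4
  have r5 := run_addC (k := 1) (d := r q1) (c := r A3) (by simp) (s := s4) (N := q) (m := 0)
    (by simp [hs4, hs3, hs2, hs1, hq1]) (by simp [hs4])
  set s5 := s4.set (r A3) (num (0 + 1 * q)) with hs5
  have r6 := run_popF (a := r A3) (s := s5)
  set s6 := s5.set (r A3) (s5 (r A3)).tail with hs6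
  have e6 : s6 = kSt s q e 0 := by
    have e7 : (num (0 + 1 * q) : List (Sy α)).tail = num (q - 1) := by
      obtain ⟨m, rfl⟩ : ∃ m, q = m + 1 := ⟨q - 1, by omega⟩
      simp [num, List.replicate_succ]
    funext x
    rcases x with x | i | i
    · cases x
      case A3 => simp only [hs6, hs5, Store.set_same, e7]; simp [kSt]
      all_goals first | rfl | simp [hs6, hs5, hs4, hs3, hs2, hs1, kSt, hG]
    · first | rfl | simp [hs6, hs5, hs4, hs3, hs2, hs1, kSt]
    · first | rfl | simp [hs6, hs5, hs4, hs3, hs2, hs1, kSt]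
  have r7 := Runs.forN (c := r q1) (body := kernRow) q (fun i => kSt s q e i)
    (100 * (q * (q * e))) (by intro i; simp [kSt, hq1])
    (fun i hi y => run_kernRow hq he hE hne (by omega) y)
  have r8 := Runs.forN (c := r q1) (body := kernRow) q (fun i => kSt s q e (q + i))
    (100 * (q * (q * e))) (by intro i; simp [kSt, hq1])
    (fun i hi y => run_kernRow hq he hE hne (by omega) y)
  simp only [Nat.add_zero] at r8
  rw [← e6] at r7
  have r9 := run_clr (a := r H) (s := kSt s q e (q + q))
  set s9 := (kSt s q e (q + q)).set (r H) [] with hs9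
  have r10 := run_clr (a := r A1) (s := s9)
  set s10 := s9.set (r A1) [] with hs10
  have r11 := run_clr (a := r A3) (s := s10)
  have hh := run_sq_cons r1 (run_sq_cons r2 (run_sq_cons r3 (run_sq_cons r4 (run_sq_cons r5
    (run_sq_cons r6 (run_sq_cons r7 (run_sq_cons r8 (run_sq_cons r9 (run_sq_cons r10
      (run_sq_cons r11 run_sq_nil))))))))))
  refine Runs.cast hh ?_ ?_
  · rw [kern_eq, two_mul]
    funext x
    rcases x with x | i | i
    · cases x
      all_goals first | rfl | simp [hs10, hs9, kSt, hH, hA1, hA3]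
    · first | rfl | simp [hs10, hs9, kSt]
    · first | rfl | simp [hs10, hs9, kSt]
  · have l1 : ((kSt s q e (q + q)) (r H)).length = 2 * (q * e) := by
      simp only [kSt]
      simp [onehot_length (show 1 ≤ 2 * (q * e) by omega)]
    have l2 : (s9 (r A1)).length = e * (2 * (q + q) + 1) + 1 := by
      simp [hs9, kSt, num]
    have l3 : (s10 (r A3)).length = (q - 1) + 1 := by
      simp [hs10, hs9, kSt, num]
    rw [l1, l2, l3]
    have h1 : q * (100 * (q * (q * e)) + 2) = 100 * (q * (q * (q * e))) + 2 * q := by ring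
    have h2 : e * (2 * (q + q) + 1) = 4 * (q * e) + e := by ring
    have h3 : q * e ≤ q * (q * e) := Nat.le_mul_of_pos_left _ hq
    have h4 : q * (q * e) ≤ q * (q * (q * e)) := Nat.le_mul_of_pos_left _ hq
    have h5 : e ≤ q * e := Nat.le_mul_of_pos_left _ hq
    have h6 : q ≤ q * e := Nat.le_mul_of_pos_right _ he
    omega

end

end Vale.Agent.P338
end

section

/-! The kernel integer of the second core. -/

namespace Vale.Agent.P338
open Reg R Ex

section
variable {ι α : Type} [DecidableEq ι]

/-- `cpL` appends. -/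
theorem run_cpLA {c a b : ι} (hca : c ≠ a) (hcb : c ≠ b) (hab : a ≠ b) {s : Store ι (Sy α)}
    {N : ℕ} (hc : s c = num N) (ha : (s a).length = N) :
    Runs (cpL c a b) s (s.set b (s b ++ s a)) (3 * N + 2) := by
  have hstep : ∀ j < N, ∀ y, Runs (cpB a b)
      (((s.set a ((s a).rotate j)).set b (s b ++ (s a).take j)).set c y)
      (((s.set a ((s a).rotate (j + 1))).set b (s b ++ (s a).take (j + 1))).set c y) 1 := by
    intro j hj y
    have hj' : j < (s a).length := by omega
    have hr : (s a).rotate j = (s a)[j] :: ((s a).drop (j + 1) ++ (s a).take j) := by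
      rw [List.rotate_eq_drop_append_take (by omega), List.drop_eq_getElem_cons hj']; rfl
    have hr' : (s a).rotate (j + 1) = ((s a).drop (j + 1) ++ (s a).take j) ++ [(s a)[j]] := by
      rw [List.rotate_eq_drop_append_take (by omega), List.append_assoc,
        ← List.take_succ_eq_append_getElem hj']
    have := run_cpB (a := a) (b := b) hab
      (s := ((s.set a ((s a).rotate j)).set b (s b ++ (s a).take j)).set c y)
      (x := (s a)[j]) (l := (s a).drop (j + 1) ++ (s a).take j)
      (by rw [Store.set_ne _ _ hca.symm, Store.set_ne _ _ hab, Store.set_same, hr])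
    convert this using 1
    rw [← hr', Store.set_ne _ _ hcb.symm, Store.set_same, List.append_assoc (s b),
      ← List.take_succ_eq_append_getElem hj']
    apply Store.ext'
    intro r
    simp only [Store.set]
    clear this
    split_ifs <;> simp_all
  have key := Runs.forN (c := c) (body := cpB a b) N
    (fun i => (s.set a ((s a).rotate i)).set b (s b ++ (s a).take i)) 1
    (by intro i; simp [hca, hcb, hc])
    (by
      intro i hi y
      exact hstep i hi y)
  simp only [List.rotate_zero, List.take_zero, List.append_nil, Store.set_self] at key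
  rw [← ha, List.rotate_length, List.take_length, Store.set_self] at key
  exact key.mono (by omega)

end

theorem choose_step (d : ℕ) : d * (d - 1) / 2 + d = (d + 1) * (d + 1 - 1) / 2 := by
  rcases d with _ | d
  · simp
  · have : (d + 1 + 1) * (d + 1 + 1 - 1) = (d + 1) * (d + 1 - 1) + 2 * (d + 1) := by
      simp; ring
    rw [this]; omega

section
variable {τ κ α : Type} [DecidableEq τ] [DecidableEq κ]
  {sm : Cmd (RF τ κ) (Sy α)} {t : ℕ → ℕ} {C1 : ℕ}

/-- A row of the kernel. -/
def krow (b l p z q : ℕ) (d : ℕ) : List Bool :=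
  lsb l (z ^ (d * (d - 1) / 2) % p) ++ zeros ((b * q - 1) * l)

/-- The store after `d` rows. -/
def kst (s : Store (RF τ κ) (Sy α)) (b l p z q : ℕ) (d : ℕ) : Store (RF τ κ) (Sy α) :=
  ((s.set (r G) (bs (fm d (krow b l p z q)))).set (ex U)
    (bs (lsb l (z ^ (d * (d - 1) / 2) % p)))).set (ex V) (bs (lsb l (z ^ d % p)))

theorem run_kernRowF (hs : SmallSpec sm t C1) : ∃ C0 : ℕ, ∀ (s : Store (RF τ κ) (Sy α))
    (l p w u v z : ℕ), Ctx s l p → s (r A3) = num w → s (ex U) = bs (lsb l u) →
    s (ex V) = bs (lsb l v) → s (ex ZT) = bs (lsb l z) → u < p → v < p → z < p →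
    s (r X) = [] →
    Runs (kernRowF sm) s
      (((s.set (r G) (s (r G) ++ bs (lsb l u ++ zeros (w * l)))).set (ex U)
        (bs (lsb l (u * v % p)))).set (ex V) (bs (lsb l (v * z % p))))
      (C0 * ((w + 1) * l + (t l + l))) := by
  obtain ⟨c, hc⟩ := run_mulR hs
  refine ⟨c + (c + 20), ?_⟩
  intro s l p w u v z hctx hA3 hU hV hZ hu hv hz hX
  have hl1 := hctx.l1
  obtain ⟨W, hW⟩ : ∃ W, W = (w + 1) * l + (t l + l) := ⟨_, rfl⟩
  rw [← hW]
  have hwl : (w + 1) * l = w * l + l := by ring
  have hw1 : w ≤ w * l := Nat.le_mul_of_pos_right _ hl1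
  have a1 := run_cpLA (c := (ex nL : RF τ κ)) (a := ex U) (b := r G) (by simp) (by simp)
    (by simp) (s := s) (N := l) hctx.nL (by rw [hU, bs_length, CW.lsb_length])
  rw [hU] at a1
  have a1' := a1.mono (T := 5 * W) (by omega)
  have a2 := run_forFill (k := 1) (c := (r A3 : RF τ κ)) (d := ex nL) (b := r G)
    (x := (.bit false : Sy α)) (by simp) (by simp) (by simp)
    (s := s.set (r G) (s (r G) ++ bs (lsb l u))) (N := w) (M := l)
    (by rw [Store.set_ne _ _ (by simp), hA3]) (by rw [Store.set_ne _ _ (by simp), hctx.nL])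
  rw [Store.set_same, Store.set_set, List.append_assoc, one_mul, ← bs_zeros, ← bs_append] at a2
  have a2' := a2.mono (T := 10 * W) (by
    have : w * (l * (1 + 3) + 4) = 4 * (w * l) + 4 * w := by ring
    omega)
  obtain ⟨g, hg⟩ : ∃ g, g = s (r G) ++ bs (lsb l u ++ zeros (w * l)) := ⟨_, rfl⟩
  rw [← hg] at a2' ⊢
  have hctx2 : Ctx (s.set (r G) g) l p := hctx.set rfl g
  have a3 := hc (s.set (r G) g) l p u v (ex U) (ex V) rfl (by simp) rfl (by simp) (by simp)
    hctx2 hu hv (by rw [Store.set_ne _ _ (by simp), hX])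
    (by rw [Store.set_ne _ _ (by simp), hU]) (by rw [Store.set_ne _ _ (by simp), hV])
  have a3' := a3.mono (T := c * W) (Nat.mul_le_mul_left _ (by omega))
  obtain ⟨x, hx⟩ : ∃ x : List (Sy α), x = bs (lsb l (u * v % p)) := ⟨_, rfl⟩
  rw [← hx] at a3' ⊢
  have hctx3 : Ctx ((s.set (r G) g).set (ex U) x) l p := hctx2.set rfl x
  have a4 := hc ((s.set (r G) g).set (ex U) x) l p v z (ex V) (ex ZT) rfl (by simp) rfl
    (by simp) (by simp) hctx3 hv hz
    (by rw [Store.set_ne _ _ (by simp), Store.set_ne _ _ (by simp), hX])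
    (by rw [Store.set_ne _ _ (by simp), Store.set_ne _ _ (by simp), hV])
    (by rw [Store.set_ne _ _ (by simp), Store.set_ne _ _ (by simp), hZ])
  have a4' := a4.mono (T := c * W) (Nat.mul_le_mul_left _ (by omega))
  unfold kernRowF
  refine (sqW_cons a1' (sqW_cons a2' (sqW_cons a3' (sqW_cons a4' (sqW_nil (by omega)))))).mono ?_
  apply Nat.mul_le_mul_right
  omega

theorem kst_step {s : Store (RF τ κ) (Sy α)} {b l p z q d : ℕ} (g : List (Sy α))
    (hg : g = bs (fm d (krow b l p z q)) ++
      bs (lsb l (z ^ (d * (d - 1) / 2) % p) ++ zeros ((b * q - 1) * l))) (y : List (Sy α)) :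
    (((((kst s b l p z q d).set (r q1) y).set (r G) g).set (ex U)
      (bs (lsb l (z ^ (d * (d - 1) / 2) % p * (z ^ d % p) % p)))).set (ex V)
      (bs (lsb l (z ^ d % p * z % p)))) = (kst s b l p z q (d + 1)).set (r q1) y := by
  have e1 : z ^ (d * (d - 1) / 2) % p * (z ^ d % p) % p = z ^ ((d + 1) * (d + 1 - 1) / 2) % p := by
    rw [← Nat.mul_mod, ← pow_add, choose_step]
  have e2 : z ^ d % p * z % p = z ^ (d + 1) % p := by
    rw [Nat.mod_mul_mod, ← pow_succ]
  have e3 : g = bs (fm (d + 1) (krow b l p z q)) := by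
    rw [hg, fm_succ, bs_append (fm d (krow b l p z q))]; rfl
  rw [e1, e2, e3]
  unfold kst
  apply Store.ext'
  intro i
  simp only [Store.set]
  split_ifs <;> simp_all

theorem run_kernF (hs : SmallSpec sm t C1) : ∃ C0 : ℕ, ∀ (s : Store (RF τ κ) (Sy α))
    (l p q b z h : ℕ), Pctx s l p q b z h → s (r G) = [] →
    Runs (kernF sm) s (s.set (r G) (bs (fkern q b l p z)))
      (C0 * (q * (b * q * l) + q * (t l + l))) := by
  obtain ⟨c, hc⟩ := run_kernRowF hs
  refine ⟨5 + (5 + ((c + 4) + ((c + 4) + (3 + (3 + 1))))), ?_⟩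
  intro s l p q b z h hP hG
  have hl1 := hP.ctx.l1
  have hp3 := hP.ctx.p3
  have hq1 : 1 ≤ q := by have := hP.root.hq; omega
  have hbq : 1 ≤ b * q := Nat.mul_pos hP.b1 hq1
  obtain ⟨W, hW⟩ : ∃ W, W = q * (b * q * l) + q * (t l + l) := ⟨_, rfl⟩
  rw [← hW]
  have hlW : l ≤ W := by
    have h1 : l ≤ t l + l := by omega
    have h2 : t l + l ≤ q * (t l + l) := Nat.le_mul_of_pos_left _ hq1
    omega
  have hqW : q ≤ W := by
    have h1 : q ≤ q * (t l + l) := Nat.le_mul_of_pos_right _ (by omega)
    omega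
  have hrow : ∀ d, ∀ y, Runs (kernRowF sm) ((kst s b l p z q d).set (r q1) y)
      ((kst s b l p z q (d + 1)).set (r q1) y) (c * (b * q * l + (t l + l))) := by
    intro d y
    have hctx : Ctx ((kst s b l p z q d).set (r q1) y) l p :=
      (((hP.ctx.set rfl _).set rfl _).set rfl _).set rfl _
    have := hc ((kst s b l p z q d).set (r q1) y) l p (b * q - 1)
      (z ^ (d * (d - 1) / 2) % p) (z ^ d % p) z hctx hP.A3 rfl rfl hP.ZT
      (Nat.mod_lt _ (by omega)) (Nat.mod_lt _ (by omega)) hP.root.zlt hP.X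
    exact Runs.cast this (kst_step _ rfl y) (by rw [Nat.sub_add_cancel hbq])
  have l1 := Runs.forN (c := (r q1 : RF τ κ)) (body := kernRowF sm) q
    (fun i => kst s b l p z q i) (c * (b * q * l + (t l + l))) (fun i => hP.q1)
    (fun i _ y => hrow i y)
  have l2 := Runs.forN (c := (r q1 : RF τ κ)) (body := kernRowF sm) q
    (fun i => kst s b l p z q (q + i)) (c * (b * q * l + (t l + l))) (fun i => hP.q1)
    (fun i _ y => hrow (q + i) y)
  have hcost : q * (c * (b * q * l + (t l + l)) + 2) + 2 ≤ (c + 4) * W := by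
    have : q * (c * (b * q * l + (t l + l)) + 2) + 2 = c * W + 2 * q + 2 := by rw [hW]; ring
    rw [this, Nat.add_mul]
    omega
  have a1 := run_cpL (nl := (ex nL : RF τ κ)) (a := ex ONE) (b := ex U) (by simp) (by simp)
    (by simp) (s := s) hP.ctx.nL hP.ONE (by rw [bs_length, CW.lsb_length]) hP.U
  have a2 := run_cpL (nl := (ex nL : RF τ κ)) (a := ex ONE) (b := ex V) (by simp) (by simp)
    (by simp) (s := s.set (ex U) (bs (lsb l 1))) (l := l)
    (by rw [Store.set_ne _ _ (by simp), hP.ctx.nL])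
    (by rw [Store.set_ne _ _ (by simp), hP.ONE]) (by rw [bs_length, CW.lsb_length])
    (by rw [Store.set_ne _ _ (by simp), hP.V])
  have e0 : ((s.set (ex U) (bs (lsb l 1))).set (ex V) (bs (lsb l 1))) =
      kst s b l p z q 0 := by
    have h1 : 1 % p = 1 := Nat.mod_eq_of_lt (by omega)
    unfold kst
    simp only [fm_zero, bs_nil, Nat.zero_mul, Nat.zero_div, pow_zero, h1]
    rw [Store.set_eq_self s hG]
  rw [e0] at a2
  have a5 := run_clr (a := (ex U : RF τ κ)) (s := kst s b l p z q (q + q))
  have a6 := run_clr (a := (ex V : RF τ κ)) (s := (kst s b l p z q (q + q)).set (ex U) [])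
  have eU : (kst s b l p z q (q + q)) (ex U) =
    bs (lsb l (z ^ ((q + q) * (q + q - 1) / 2) % p)) := rfl
  have eV : ((kst s b l p z q (q + q)).set (ex U) []) (ex V) =
    bs (lsb l (z ^ (q + q) % p)) := rfl
  rw [eU, bs_length, CW.lsb_length] at a5
  rw [eV, bs_length, CW.lsb_length] at a6
  have e1 : ((kst s b l p z q (q + q)).set (ex U) []).set (ex V) [] =
      s.set (r G) (bs (fkern q b l p z)) := by
    have e2 : fkern q b l p z = fm (q + q) (krow b l p z q) := by
      unfold fkern
      rw [two_mul]; rfl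
    have hU := hP.U
    have hV := hP.V
    rw [e2]
    unfold kst
    clear a1 a2 a5 a6 l1 l2 hrow hc eU eV e0 hP
    apply Store.ext'
    intro i
    simp only [Store.set]
    clear hs hl1 hp3 hq1 hbq hlW hqW hcost
    split_ifs <;> simp_all
  rw [e1] at a6
  unfold kernF
  exact sqW_cons (a1.mono (by omega)) (sqW_cons (a2.mono (by omega))
    (sqW_cons (l1.mono hcost) (sqW_cons (l2.mono hcost) (sqW_cons (a5.mono (by omega))
      (sqW_cons (a6.mono (by omega)) (sqW_nil (by omega)))))))

end

end Vale.Agent.P338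
end

section

/-! The first pass. -/

namespace Vale.Agent.P338
open Reg R

section
variable {β : Type}

/-- Rotation of a concatenation of blocks of equal length. -/
theorem fm_rotate {q E : ℕ} {f : ℕ → List β} (h : ∀ i < q, (f i).length = E) {m : ℕ}
    (hm : m ≤ q) : (fm q f).rotate (m * E) = fm q fun j => f ((j + m) % q) := by
  have h1 : fm q f = fm m f ++ fm (q - m) (fun j => f (m + j)) := by
    have := fm_add m (q - m) f
    rwa [Nat.add_sub_cancel' hm] at this
  have hl : (fm m f).length = m * E := fm_length fun i hi => h i (by omega)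
  rw [h1, ← hl, List.rotate_append_length_eq]
  have h2 : fm q (fun j => f ((j + m) % q)) =
      fm (q - m) (fun j => f ((j + m) % q)) ++
        fm m (fun j => f ((q - m + j + m) % q)) := by
    have := fm_add (q - m) m (fun j => f ((j + m) % q))
    rwa [Nat.sub_add_cancel hm] at this
  rw [h2]
  congr 1
  · refine fm_congr fun i hi => ?_
    rw [Nat.mod_eq_of_lt (by omega), Nat.add_comm]
  · refine fm_congr fun i hi => ?_
    have e : q - m + i + m = i + q := by omega
    rw [e, Nat.add_mod_right, Nat.mod_eq_of_lt (by omega)]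

theorem fm_sub {n i : ℕ} (hi : i < n) (f : ℕ → List β) :
    fm (n - i) (fun j => f (i + j)) = f i ++ fm (n - (i + 1)) (fun j => f (i + 1 + j)) := by
  obtain ⟨m, hm⟩ : ∃ m, n - i = m + 1 := ⟨n - i - 1, by omega⟩
  have h2 : n - (i + 1) = m := by omega
  rw [hm, h2, fm_succ', Nat.add_zero]
  congr 1
  refine fm_congr fun j _ => ?_
  congr 1
  omega

end

section
variable {ι α : Type} [DecidableEq ι]

/-- Nested move. -/
theorem run_forMove {c d a b : ι} (hcd : c ≠ d) (hca : c ≠ a) (hcb : c ≠ b) (hda : d ≠ a)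
    (hdb : d ≠ b) (hab : a ≠ b) {s : Store ι (Sy α)} {N M : ℕ} {l rest : List (Sy α)}
    (hc : s c = num N) (hd : s d = num M) (ha : s a = l ++ rest) (hl : l.length = N * M) :
    Runs (forN c (moveN d a b)) s ((s.set a rest).set b (s b ++ l))
      (N * (3 * M + 4) + 2) := by
  have key := Runs.forN (c := c) (body := moveN d a b) N
    (fun i => (s.set a (l.drop (i * M) ++ rest)).set b (s b ++ l.take (i * M))) (3 * M + 2)
    (by intro i; simp [hca, hcb, hc])
    (by
      intro i hi y
      have hi1 : i * M + M ≤ l.length := by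
        rw [hl]
        calc i * M + M = (i + 1) * M := by ring
          _ ≤ N * M := Nat.mul_le_mul_right _ hi
      have e1 : l.drop (i * M) = (l.drop (i * M)).take M ++ l.drop ((i + 1) * M) := by
        have := (List.take_append_drop M (l.drop (i * M))).symm
        rw [List.drop_drop] at this
        rw [Nat.succ_mul]
        exact this
      have e2 : l.take ((i + 1) * M) = l.take (i * M) ++ (l.drop (i * M)).take M := by
        rw [Nat.succ_mul, List.take_add]
      have := run_moveN (c := d) (a := a) (b := b) hda hdb hab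
        (s := ((s.set a (l.drop (i * M) ++ rest)).set b (s b ++ l.take (i * M))).set c y)
        (N := M) (l := (l.drop (i * M)).take M) (rest := l.drop ((i + 1) * M) ++ rest)
        (by rw [Store.set_ne _ _ hcd.symm, Store.set_ne _ _ hdb, Store.set_ne _ _ hda, hd])
        (by
          rw [Store.set_ne _ _ hca.symm, Store.set_ne _ _ hab, Store.set_same,
            ← List.append_assoc, ← e1])
        (by rw [List.length_take, List.length_drop]; omega)
      refine Runs.cast this ?_ le_rfl
      rw [Store.set_ne _ _ hcb.symm, Store.set_same, List.append_assoc, ← e2]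
      generalize l.drop ((i + 1) * M) ++ rest = v1
      generalize s b ++ l.take ((i + 1) * M) = v2
      generalize l.drop (i * M) ++ rest = v3
      generalize s b ++ l.take (i * M) = v4
      clear this e1 e2 hi1 hi hl ha hc hd
      funext r
      simp only [Store.set]
      split_ifs <;> simp_all)
  simp only [Nat.zero_mul, List.drop_zero, List.take_zero, List.append_nil] at key
  rw [← hl] at key
  simp only [List.drop_length, List.take_length, List.nil_append] at key
  have e0 : (s.set a (l ++ rest)).set b (s b) = s := by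
    rw [Store.set_eq_self s ha, Store.set_self]
  rw [e0] at key
  exact key.mono (by ring_nf; omega)

end

section
variable {ι α : Type} [DecidableEq ι]

/-- Nested addition. -/
theorem run_forAdd {k : ℕ} {c d a : ι} (hcd : c ≠ d) (hca : c ≠ a) (hda : d ≠ a)
    {s : Store ι (Sy α)} {N M m : ℕ} (hc : s c = num N) (hd : s d = num M) (ha : s a = num m) :
    Runs (forN c (addC k d a)) s (s.set a (num (m + N * (k * M)))) (N * (M * (k + 3) + 4) + 2) := by
  have key := Runs.forN (c := c) (body := addC k d a) N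
    (fun i => s.set a (num (m + i * (k * M)))) (M * (k + 3) + 2)
    (by intro i; simp [hca, hc])
    (by
      intro i _ y
      have := run_addC (k := k) (d := d) (c := a) hda
        (s := (s.set a (num (m + i * (k * M)))).set c y) (N := M) (m := m + i * (k * M))
        (by rw [Store.set_ne _ _ hcd.symm, Store.set_ne _ _ hda, hd])
        (by rw [Store.set_ne _ _ hca.symm, Store.set_same])
      refine Runs.cast this ?_ le_rfl
      rw [Nat.add_assoc, ← Nat.succ_mul, Nat.succ_eq_add_one, Store.set_comm _ _ _ hca.symm,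
        Store.set_set, Store.set_comm _ _ _ hca])
  simp only [Nat.zero_mul, Nat.add_zero] at key
  rw [← ha, Store.set_self] at key
  exact key.mono (by ring_nf; omega)

end

section
variable {τ α : Type} [DecidableEq τ]

theorem enc_length {x : List Bool} {E : ℕ} (h : x.length = E) : (enc x).length = 2 * E := by
  simp [enc, h]; omega

theorem rr_length (m : ℕ) (x : List Bool) : (rr m x).length = x.length := by
  simp [rr]

/-- The loop over the entries of a row in the first pass. -/
theorem run_encLoop {s : Store (Reg τ) (Sy α)} {q E m : ℕ} {g : ℕ → List Bool}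
    (hE1 : 1 ≤ E) (hg : ∀ j < q, (g j).length = E)
    (hE : s (r nE) = num E) (hq2 : s (r q2) = num q) (hX : s (r X) = []) (hY : s (r Y) = [])
    (hH2 : s (r H2) = []) (hH : s (r H) = bs ((onehot (2 * E)).rotate m))
    (hR : s (r RW) = bs (fm q g)) :
    Runs (forN (r q2) (sq [encRW, rotH (r H), outX])) s
      ((s.set (r RW) []).set (r C)
        (s (r C) ++ bs (fm q fun j => rr m (enc (g j)) ++ zeros (6 * E))))
      (q * (300 * E + 303) + 2) := by
  have key := Runs.forN (c := r q2) (body := sq [encRW, rotH (r H), outX]) q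
    (fun j => (s.set (r RW) (bs (fm (q - j) fun k => g (j + k)))).set (r C)
      (s (r C) ++ bs (fm j fun j => rr m (enc (g j)) ++ zeros (6 * E)))) (300 * E + 301)
    (by intro i; simp [hq2])
    (by
      intro j hj y
      set s0 := ((s.set (r RW) (bs (fm (q - j) fun k => g (j + k)))).set (r C)
        (s (r C) ++ bs (fm j fun j => rr m (enc (g j)) ++ zeros (6 * E)))).set (r q2) y with hs0
      have r1 := run_encRW (s := s0) (E := E) (x := g j)
        (rest := bs (fm (q - (j + 1)) fun k => g (j + 1 + k))) (by simp [hs0, hE])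
        (by simp [hs0, hX]) (by simp [hs0, hY])
        (by rw [← bs_append, ← fm_sub hj]; simp [hs0]) (hg j hj)
      set s1 := (s0.set (r RW) (bs (fm (q - (j + 1)) fun k => g (j + 1 + k)))).set (r X)
        (bs (enc (g j))) with hs1
      have r2 := run_rotH (a := r H) (by simp) (by simp) (by simp) (s := s1) (E := E) (m := m)
        (x := enc (g j)) (by simp [hs1, hs0, hE]) hE1 (by simp [hs1, hs0, hH2])
        (by simp [hs1, hs0, hH]) (by simp [hs1]) (enc_length (hg j hj))
      set s2 := s1.set (r X) (bs (rr m (enc (g j)))) with hs2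
      have r3 := run_outX (s := s2) (E := E) (x := rr m (enc (g j))) (by simp [hs2, hs1, hs0, hE])
        (by simp [hs2]) (by rw [rr_length, enc_length (hg j hj)])
      have hh := run_sq_cons r1 (run_sq_cons r2 (run_sq_cons r3 run_sq_nil))
      refine Runs.cast hh ?_ (by omega)
      funext x
      rcases x with x | i | i
      · cases x
        all_goals first | rfl | simp [hs2, hs1, hs0, fm_succ, hX]
      · first | rfl | simp [hs2, hs1, hs0]
      · simp [hs2, hs1, hs0])
  have e0 : (s.set (r RW) (bs (fm (q - 0) fun k => g (0 + k)))).set (r C)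
      (s (r C) ++ bs (fm 0 fun j => rr m (enc (g j)) ++ zeros (6 * E))) = s := by
    simp only [Nat.zero_add, Nat.sub_zero, fm_zero, bs_nil, List.append_nil]
    rw [Store.set_eq_self s hR, Store.set_self]
  rw [e0] at key
  simp only [Nat.sub_self, fm_zero, bs_nil] at key
  exact key.mono (by ring_nf; omega)

/-- Row `i` of a block of the first data integer. -/
def oRow (q e : ℕ) (en : ℕ → ℕ → List Bool) (i : ℕ) : List Bool :=
  fm q fun j => rr (e * i ^ 2) (enc (en i ((j + (q - i)) % q))) ++ zeros (6 * (q * e))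

/-- The store of the first pass before row `i` of a block with the entries `en`. -/
def p1St (s : Store (Reg τ) (Sy α)) (q e : ℕ) (en : ℕ → ℕ → List Bool) (D0 C0 : List (Sy α))
    (i : ℕ) : Store (Reg τ) (Sy α) :=
  ((((s.set (r H) (bs ((onehot (2 * (q * e))).rotate (e * i ^ 2)))).set (r A1)
    (num (e * (2 * i + 1)))).set (r A2) (num ((q - i) * (q * e)))).set (r D)
    (bs (fm (q - i) fun k => fm q (en (i + k))) ++ D0)).set (r C)
    (C0 ++ bs (fm i (oRow q e en)))

theorem run_p1row {s : Store (Reg τ) (Sy α)} {q e i : ℕ} {en : ℕ → ℕ → List Bool}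
    {D0 C0 : List (Sy α)} (hq : 1 ≤ q) (he : 1 ≤ e)
    (hen : ∀ i < q, ∀ j < q, (en i j).length = q * e) (hi : i < q)
    (hE : s (r nE) = num (q * e)) (hne : s (r ne) = num e) (hq2 : s (r q2) = num q)
    (hX : s (r X) = []) (hY : s (r Y) = []) (hH2 : s (r H2) = []) (hR : s (r RW) = [])
    (y : List (Sy α)) :
    Runs (sq [forN (r q2) (moveN (r nE) (r D) (r RW)), rotN (r A2) (r RW),
      forN (r q2) (sq [encRW, rotH (r H), outX]),
      rotN (r A1) (r H), addC 2 (r ne) (r A1), subC 1 (r nE) (r A2)])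
      ((p1St s q e en D0 C0 i).set (r q1) y) ((p1St s q e en D0 C0 (i + 1)).set (r q1) y)
      (1000 * (q * (q * e))) := by
  have hE1 : 1 ≤ q * e := Nat.mul_pos hq he
  set s0 := (p1St s q e en D0 C0 i).set (r q1) y with hs0
  have r1 := run_forMove (c := r q2) (d := r nE) (a := r D) (b := r RW) (by simp) (by simp)
    (by simp) (by simp) (by simp) (by simp) (s := s0) (N := q) (M := q * e)
    (l := bs (fm q (en i)))
    (rest := bs (fm (q - (i + 1)) fun k => fm q (en (i + 1 + k))) ++ D0)
    (by simp [hs0, p1St, hq2]) (by simp [hs0, p1St, hE])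
    (by
      have := fm_sub hi (fun k => fm q (en k))
      simp only [hs0, p1St]
      rw [Store.set_ne _ _ (by simp), Store.set_ne _ _ (by simp), Store.set_same, this, bs_append,
        List.append_assoc])
    (by rw [bs_length, fm_length fun j hj => hen i hi j hj])
  set s1 := (s0.set (r D) (bs (fm (q - (i + 1)) fun k => fm q (en (i + 1 + k))) ++ D0)).set
    (r RW) (s0 (r RW) ++ bs (fm q (en i))) with hs1
  have r2 := run_rotN (c := r A2) (a := r RW) (by simp) (s := s1) (N := (q - i) * (q * e))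
    (by simp [hs1, hs0, p1St])
  have eRW : (s1 (r RW)).rotate ((q - i) * (q * e)) =
      bs (fm q fun j => en i ((j + (q - i)) % q)) := by
    simp only [hs1, Store.set_same, hs0, p1St]
    rw [← fm_rotate (fun j hj => hen i hi j hj) (Nat.sub_le q i)]
    simp [hR, bs_rotate]
  rw [eRW] at r2
  set s2 := s1.set (r RW) (bs (fm q fun j => en i ((j + (q - i)) % q))) with hs2
  have r3 := run_encLoop (s := s2) (q := q) (E := q * e) (m := e * i ^ 2)
    (g := fun j => en i ((j + (q - i)) % q)) hE1
    (fun j hj => hen i hi _ (Nat.mod_lt _ hq)) (by simp [hs2, hs1, hs0, p1St, hE])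
    (by simp [hs2, hs1, hs0, p1St, hq2]) (by simp [hs2, hs1, hs0, p1St, hX])
    (by simp [hs2, hs1, hs0, p1St, hY]) (by simp [hs2, hs1, hs0, p1St, hH2])
    (by simp [hs2, hs1, hs0, p1St]) (by simp [hs2])
  set s3 := (s2.set (r RW) []).set (r C) (s2 (r C) ++ bs (fm q fun j =>
    rr (e * i ^ 2) (enc ((fun j => en i ((j + (q - i)) % q)) j)) ++ zeros (6 * (q * e)))) with hs3
  have r4 := run_rotN (c := r A1) (a := r H) (by simp) (s := s3) (N := e * (2 * i + 1))
    (by simp [hs3, hs2, hs1, hs0, p1St])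
  set s4 := s3.set (r H) ((s3 (r H)).rotate (e * (2 * i + 1))) with hs4
  have r5 := run_addC (k := 2) (d := r ne) (c := r A1) (by simp) (s := s4) (N := e)
    (m := e * (2 * i + 1)) (by simp [hs4, hs3, hs2, hs1, hs0, p1St, hne])
    (by simp [hs4, hs3, hs2, hs1, hs0, p1St])
  set s5 := s4.set (r A1) (num (e * (2 * i + 1) + 2 * e)) with hs5
  have r6 := run_subC (k := 1) (d := r nE) (c := r A2) (by simp) (s := s5) (N := q * e)
    (m := (q - i) * (q * e)) (by simp [hs5, hs4, hs3, hs2, hs1, hs0, p1St, hE])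
    (by simp [hs5, hs4, hs3, hs2, hs1, hs0, p1St])
    (by rw [Nat.one_mul]; exact Nat.le_mul_of_pos_left _ (by omega))
  have hh := run_sq_cons r1 (run_sq_cons r2 (run_sq_cons r3 (run_sq_cons r4
    (run_sq_cons r5 (run_sq_cons r6 run_sq_nil)))))
  refine Runs.cast hh ?_ ?_
  · have e1 : e * i ^ 2 + e * (2 * i + 1) = e * (i + 1) ^ 2 := by ring
    have e2 : e * (2 * i + 1) + 2 * e = e * (2 * (i + 1) + 1) := by ring
    have e3 : (q - i) * (q * e) - 1 * (q * e) = (q - (i + 1)) * (q * e) := by
      rw [← Nat.sub_mul, Nat.sub_sub]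
    rw [e3]
    funext x
    rcases x with x | k | k
    · cases x
      case H =>
        simp [hs5, hs4, hs3, hs2, hs1, hs0, p1St, bs_rotate, List.rotate_rotate, e1]
      case C => simp [hs5, hs4, hs3, hs2, hs1, hs0, p1St, fm_succ, oRow]
      case A1 => simp [hs5, hs4, hs3, hs2, hs1, hs0, p1St, e2]
      case RW => simp [hs5, hs4, hs3, hs2, hs1, hs0, p1St, hR]
      all_goals first | rfl | simp [hs5, hs4, hs3, hs2, hs1, hs0, p1St]
    · first | rfl | simp [hs5, hs4, hs3, hs2, hs1, hs0, p1St]
    · first | rfl | simp [hs5, hs4, hs3, hs2, hs1, hs0, p1St]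
  · have h1 : q * (3 * (q * e) + 4) = 3 * (q * (q * e)) + 4 * q := by ring
    have h2 : q * (300 * (q * e) + 303) = 300 * (q * (q * e)) + 303 * q := by ring
    have h3 : (q - i) * (q * e) ≤ q * (q * e) := Nat.mul_le_mul_right _ (by omega)
    have h4 : e * (2 * i + 1) ≤ e * (2 * q) := Nat.mul_le_mul_left _ (by omega)
    have h5 : e * (2 * q) = 2 * (q * e) := by ring
    have h6 : q * e ≤ q * (q * e) := Nat.le_mul_of_pos_left _ hq
    have h7 : e ≤ q * e := Nat.le_mul_of_pos_left _ hq
    have h8 : q ≤ q * e := Nat.le_mul_of_pos_right _ he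
    omega

/-- A block of the first data integer. -/
def oBlk (q e : ℕ) (en : ℕ → ℕ → List Bool) : List Bool :=
  fm q (oRow q e en) ++ zeros (q * (q * (8 * (q * e))))

theorem data1_eq (A q e : ℕ) (ent : ℕ → ℕ → ℕ → List Bool) :
    data1 A q e ent = fm A fun a => oBlk q e (ent a) := rfl

theorem run_p1blk {s : Store (Reg τ) (Sy α)} {q e n : ℕ} {en : ℕ → ℕ → List Bool}
    {D0 C0 : List (Sy α)} (hq : 1 ≤ q) (he : 1 ≤ e)
    (hen : ∀ i < q, ∀ j < q, (en i j).length = q * e)
    (hD : s (r D) = bs (fm q fun i => fm q (en i)) ++ D0) (hC : s (r C) = C0)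
    (hq1 : s (r q1) = num q) (hq2 : s (r q2) = num q)
    (hE : s (r nE) = num (q * e)) (hne : s (r ne) = num e) (hnA : s (r nA) = num n)
    (hX : s (r X) = []) (hY : s (r Y) = []) (hR : s (r RW) = [])
    (hH : s (r H) = []) (hH2 : s (r H2) = []) (hA1 : s (r A1) = []) (hA2 : s (r A2) = []) :
    Runs (sq [pushF (r nA) .mark,
      mkH, zeroC (r A1), addC 1 (r ne) (r A1),
      zeroC (r A2), forN (r q1) (addC 1 (r nE) (r A2)),
      forN (r q1) (sq [
        forN (r q2) (moveN (r nE) (r D) (r RW)),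
        rotN (r A2) (r RW),
        forN (r q2) (sq [encRW, rotH (r H), outX]),
        rotN (r A1) (r H), addC 2 (r ne) (r A1), subC 1 (r nE) (r A2)]),
      outZ, clr (r H), clr (r A1), clr (r A2)])
      s (((s.set (r D) D0).set (r C) (C0 ++ bs (oBlk q e en))).set (r nA) (num (n + 1)))
      (2000 * (q * (q * (q * e)))) := by
  have hE1 : 1 ≤ q * e := Nat.mul_pos hq he
  have r1 := run_pushF (b := r nA) (s := s) .mark
  rw [hnA] at r1
  have e1 : (Sy.mark :: num n : List (Sy α)) = num (n + 1) := by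
    simp [num, List.replicate_succ]
  rw [e1] at r1
  set s1 := s.set (r nA) (num (n + 1)) with hs1
  have r2 := run_mkH (s := s1) (E := q * e) (by simp [hs1, hE]) hE1 (by simp [hs1, hH])
  set s2 := s1.set (r H) (bs (onehot (2 * (q * e)))) with hs2
  have r3 := run_zeroC (c := r A1) (s := s2) (by simp [hs2, hs1, hA1])
  set s3 := s2.set (r A1) (num 0) with hs3
  have r4 := run_addC (k := 1) (d := r ne) (c := r A1) (by simp) (s := s3) (N := e) (m := 0)
    (by simp [hs3, hs2, hs1, hne]) (by simp [hs3])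
  set s4 := s3.set (r A1) (num (0 + 1 * e)) with hs4
  have r5 := run_zeroC (c := r A2) (s := s4) (by simp [hs4, hs3, hs2, hs1, hA2])
  set s5 := s4.set (r A2) (num 0) with hs5
  have r6 := run_forAdd (k := 1) (c := r q1) (d := r nE) (a := r A2) (by simp) (by simp)
    (by simp) (s := s5) (N := q) (M := q * e) (m := 0)
    (by simp [hs5, hs4, hs3, hs2, hs1, hq1]) (by simp [hs5, hs4, hs3, hs2, hs1, hE])
    (by simp [hs5])
  set s6 := s5.set (r A2) (num (0 + q * (1 * (q * e)))) with hs6
  have e6 : s6 = p1St s1 q e en D0 C0 0 := by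
    funext x
    rcases x with x | i | i
    · cases x
      all_goals first | rfl | simp [hs6, hs5, hs4, hs3, hs2, hs1, p1St, hD, hC]
    · first | rfl | simp [hs6, hs5, hs4, hs3, hs2, hs1, p1St]
    · first | rfl | simp [hs6, hs5, hs4, hs3, hs2, hs1, p1St]
  have r7 := Runs.forN (c := r q1) (body := sq [forN (r q2) (moveN (r nE) (r D) (r RW)),
      rotN (r A2) (r RW), forN (r q2) (sq [encRW, rotH (r H), outX]),
      rotN (r A1) (r H), addC 2 (r ne) (r A1), subC 1 (r nE) (r A2)]) q
    (fun i => p1St s1 q e en D0 C0 i) (1000 * (q * (q * e)))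
    (by intro i; simp [p1St, hs1, hq1])
    (fun i hi y => run_p1row hq he hen hi (by simp [hs1, hE]) (by simp [hs1, hne])
      (by simp [hs1, hq2]) (by simp [hs1, hX]) (by simp [hs1, hY]) (by simp [hs1, hH2])
      (by simp [hs1, hR]) y)
  rw [← e6] at r7
  set s7 := p1St s1 q e en D0 C0 q with hs7
  have r8 := run_outZ (s := s7) (E := q * e) (q := q) (by simp [hs7, p1St, hs1, hE])
    (by simp [hs7, p1St, hs1, hq1]) (by simp [hs7, p1St, hs1, hq2])
  set s8 := s7.set (r C) (s7 (r C) ++ bs (zeros (q * (q * (8 * (q * e)))))) with hs8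
  have r9 := run_clr (a := r H) (s := s8)
  set s9 := s8.set (r H) [] with hs9
  have r10 := run_clr (a := r A1) (s := s9)
  set s10 := s9.set (r A1) [] with hs10
  have r11 := run_clr (a := r A2) (s := s10)
  have hh := run_sq_cons r1 (run_sq_cons r2 (run_sq_cons r3 (run_sq_cons r4 (run_sq_cons r5
    (run_sq_cons r6 (run_sq_cons r7 (run_sq_cons r8 (run_sq_cons r9 (run_sq_cons r10
      (run_sq_cons r11 run_sq_nil))))))))))
  refine Runs.cast hh ?_ ?_
  · funext x
    rcases x with x | i | i
    · cases x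
      all_goals first | rfl | simp [hs10, hs9, hs8, hs7, p1St, hs1, hH, hA1, hA2, oBlk]
    · first | rfl | simp [hs10, hs9, hs8, hs7, p1St, hs1]
    · first | rfl | simp [hs10, hs9, hs8, hs7, p1St, hs1]
  · have l1 : (s8 (r H)).length = 2 * (q * e) := by
      simp [hs8, hs7, p1St, onehot_length (show 1 ≤ 2 * (q * e) by omega)]
    have l2 : (s9 (r A1)).length = e * (2 * q + 1) + 1 := by
      simp [hs9, hs8, hs7, p1St, num]
    have l3 : (s10 (r A2)).length = 1 := by
      simp [hs10, hs9, hs8, hs7, p1St, num]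
    rw [l1, l2, l3]
    have h1 : q * (1000 * (q * (q * e)) + 2) = 1000 * (q * (q * (q * e))) + 2 * q := by ring
    have h2 : e * (2 * q + 1) = 2 * (q * e) + e := by ring
    have h3 : q * e ≤ q * (q * e) := Nat.le_mul_of_pos_left _ hq
    have h4 : q * (q * e) ≤ q * (q * (q * e)) := Nat.le_mul_of_pos_left _ hq
    have h5 : e ≤ q * e := Nat.le_mul_of_pos_left _ hq
    have h6 : q ≤ q * e := Nat.le_mul_of_pos_right _ he
    have h7 : q * (q * e * (1 + 3) + 4) = 4 * (q * (q * e)) + 4 * q := by ring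
    have h8 : q * q ≤ q * (q * e) := Nat.mul_le_mul_left _ h6
    omega

theorem run_pass1 : ∃ C0 : ℕ, ∀ (s : Store (Reg τ) (Sy α)) (A q e : ℕ)
    (ent : ℕ → ℕ → ℕ → List Bool), 1 ≤ q → 1 ≤ e → 1 ≤ A →
    (∀ a < A, ∀ i < q, ∀ j < q, (ent a i j).length = q * e) →
    s (r D) = bs (fm A fun a => fm q fun i => fm q fun j => ent a i j) →
    s (r q1) = num q → s (r q2) = num q → s (r nE) = num (q * e) → s (r ne) = num e →
    s (r nA) = num 0 → s (r C) = [] → s (r X) = [] → s (r Y) = [] → s (r RW) = [] →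
    s (r H) = [] → s (r H2) = [] → s (r A1) = [] → s (r A2) = [] →
    Runs pass1 s (((s.set (r D) []).set (r C) (bs (data1 A q e ent))).set (r nA) (num A))
      (C0 * (A * (q * (q * (q * e))))) := by
  refine ⟨2002, fun s A q e ent hq he hA hlen hD hq1 hq2 hE hne hnA hC hX hY hR hH hH2 hA1
    hA2 => ?_⟩
  set S : ℕ → Store (Reg τ) (Sy α) := fun a =>
    ((s.set (r D) (bs (fm (A - a) fun k => fm q fun i => fm q fun j => ent (a + k) i j))).set (r C)
      (bs (fm a fun a => oBlk q e (ent a)))).set (r nA) (num a) with hS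
  have hZ : 1 ≤ q * (q * (q * e)) := Nat.mul_pos hq (Nat.mul_pos hq (Nat.mul_pos hq he))
  have key := Runs.loopN (c := sq [pushF (r nA) .mark,
      mkH, zeroC (r A1), addC 1 (r ne) (r A1),
      zeroC (r A2), forN (r q1) (addC 1 (r nE) (r A2)),
      forN (r q1) (sq [
        forN (r q2) (moveN (r nE) (r D) (r RW)),
        rotN (r A2) (r RW),
        forN (r q2) (sq [encRW, rotH (r H), outX]),
        rotN (r A1) (r H), addC 2 (r ne) (r A1), subC 1 (r nE) (r A2)]),
      outZ, clr (r H), clr (r A1), clr (r A2)]) (p := fun h => (h (.r .D)).isSome) A S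
    (2000 * (q * (q * (q * e))))
    (by
      intro a ha
      have hl : (S a (r D)).length = (A - a) * (q * (q * (q * e))) := by
        simp only [hS]
        rw [Store.set_ne _ _ (by simp), Store.set_ne _ _ (by simp), Store.set_same, bs_length]
        exact fm_length fun k hk => fm_length fun i hi => fm_length fun j hj =>
          hlen _ (by omega) i hi j hj
      have hp : 0 < (S a (r D)).length := by
        rw [hl]; exact Nat.mul_pos (by omega) hZ
      show (S a (r D)).head?.isSome = true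
      rcases hx : S a (r D) with _ | ⟨b, l⟩
      · rw [hx] at hp; simp at hp
      · rfl)
    (by
      intro a ha
      have := run_p1blk (s := S a) (q := q) (e := e) (n := a) (en := ent a)
        (D0 := bs (fm (A - (a + 1)) fun k => fm q fun i => fm q fun j => ent (a + 1 + k) i j))
        (C0 := bs (fm a fun a => oBlk q e (ent a))) hq he (hlen a ha)
        (by
          rw [← bs_append, ← fm_sub ha fun a => fm q fun i => fm q (ent a i)]
          simp [hS])
        (by simp [hS]) (by simp [hS, hq1]) (by simp [hS, hq2]) (by simp [hS, hE])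
        (by simp [hS, hne]) (by simp [hS]) (by simp [hS, hX]) (by simp [hS, hY])
        (by simp [hS, hR]) (by simp [hS, hH]) (by simp [hS, hH2]) (by simp [hS, hA1])
        (by simp [hS, hA2])
      refine Runs.cast this ?_ le_rfl
      funext x
      rcases x with x | i | i
      · cases x
        all_goals first | rfl | simp [hS, fm_succ]
      · simp [hS]
      · simp [hS])
    (by simp [hS, Store.heads])
  have e0 : S 0 = s := by
    funext x
    rcases x with x | i | i
    · cases x
      all_goals first | rfl | simp [hS, hD, hC, hnA]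
    · simp [hS]
    · simp [hS]
  rw [e0] at key
  refine Runs.cast key ?_ ?_
  · rw [data1_eq]
    simp [hS]
  · have h1 : A * (2000 * (q * (q * (q * e))) + 1) = 2000 * (A * (q * (q * (q * e)))) + A := by
      ring
    have h2 : A ≤ A * (q * (q * (q * e))) := Nat.le_mul_of_pos_right _ hZ
    omega

end

end Vale.Agent.P338
end

section

/-! The first pass of the second core. -/

namespace Vale.Agent.P338
open Reg R Ex

namespace PF1

theorem lsb_pad {l b : ℕ} (hb : b ≤ l) {x : List Bool} (hx : x.length = b) :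
    x ++ zeros (l - b) = lsb l (ofLsb x) := by
  refine SC.ofLsb_inj ?_ ?_
  · rw [List.length_append, zeros_length, SC.lsb_length, hx]; omega
  · rw [SC.ofLsb_append, SC.ofLsb_zeros, SC.ofLsb_lsb, Nat.mod_eq_of_lt]
    · simp
    · calc ofLsb x < 2 ^ x.length := SC.ofLsb_lt x
        _ ≤ 2 ^ l := Nat.pow_le_pow_right (by norm_num) (by omega)

theorem tri_succ (i : ℕ) : (i + 1) * (i + 1 + 1) / 2 = i * (i + 1) / 2 + (i + 1) := by
  have h : (i + 1) * (i + 1 + 1) = i * (i + 1) + (i + 1) * 2 := by ring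
  rw [h, Nat.add_mul_div_right _ _ (by norm_num)]

theorem mul_pow_mod (h i j p : ℕ) : h ^ i % p * (h ^ j % p) % p = h ^ (i + j) % p := by
  rw [← Nat.mul_mod, pow_add]

section
variable {τ κ α : Type} [DecidableEq τ] [DecidableEq κ]
  {sm : Cmd (RF τ κ) (Sy α)} {t : ℕ → ℕ} {C1 : ℕ}

/-- The conclusion of `run_mulX`. -/
def MulXSpec (sm : Cmd (RF τ κ) (Sy α)) (t : ℕ → ℕ) (K : ℕ) : Prop :=
  ∀ (s : Store (RF τ κ) (Sy α))
    (l p a b : ℕ) (v : RF τ κ), ctxReg v = false → v ≠ r X → Ctx s l p → a < p → b < p →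
    s (r X) = bs (lsb l a) → s v = bs (lsb l b) →
    Runs (mulX sm v) s (s.set (r X) (bs (lsb l (a * b % p)))) (K * (t l + l))

/-- The conclusion of `run_mulR`. -/
def MulRSpec (sm : Cmd (RF τ κ) (Sy α)) (t : ℕ → ℕ) (K : ℕ) : Prop :=
  ∀ (s : Store (RF τ κ) (Sy α))
    (l p a b : ℕ) (u v : RF τ κ), ctxReg v = false → v ≠ r X → ctxReg u = false → u ≠ r X →
    u ≠ v → Ctx s l p → a < p → b < p → s (r X) = [] →
    s u = bs (lsb l a) → s v = bs (lsb l b) →
    Runs (mulR sm u v) s (s.set u (bs (lsb l (a * b % p)))) (K * (t l + l))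

theorem run_ent {K : ℕ} (hK : MulXSpec sm t K) {s : Store (RF τ κ) (Sy α)} {l p b a : ℕ}
    {x : List Bool} {rest : List (Sy α)} (hc : Ctx s l p) (hb : b ≤ l) (hbp : 2 ^ b ≤ p)
    (hnb : s (ex nb1) = num b) (hnLb : s (ex nLb) = num (l - b)) (hX : s (r X) = [])
    (ha : a < p) (hU : s (ex U) = bs (lsb l a)) (hRW : s (r RW) = bs x ++ rest)
    (hx : x.length = b) :
    Runs (sq [moveN (ex nb1) (r RW) (r X), fillN 1 (ex nLb) (r X) (.bit false),
        mulX sm (ex U), mvAll (r X) (r C)]) s
      ((s.set (r RW) rest).set (r C) (s (r C) ++ bs (lsb l (ofLsb x * a % p))))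
      ((K + 20) * (t l + l)) := by
  have r1 := run_moveN (c := ex nb1) (a := r RW) (b := r X) (by simp) (by simp) (by simp)
    (s := s) (N := b) (l := bs x) (rest := rest) hnb hRW (by rw [bs_length, hx])
  set s1 := (s.set (r RW) rest).set (r X) (s (r X) ++ bs x) with hs1
  have r2 := run_fillN (k := 1) (c := ex nLb) (b := r X) (x := Sy.bit false) (by simp)
    (s := s1) (N := l - b) (by simp [hs1, hnLb])
  have e2 : s1 (r X) ++ List.replicate (1 * (l - b)) (Sy.bit false) =
      bs (lsb l (ofLsb x)) := by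
    rw [← lsb_pad hb hx, bs_append]
    simp [hs1, hX, zeros, bs_replicate]
  rw [e2] at r2
  set s2 := s1.set (r X) (bs (lsb l (ofLsb x))) with hs2
  have hx2 : ofLsb x < p := lt_of_lt_of_le (SC.ofLsb_lt x) (by rw [hx]; exact hbp)
  have r3 := hK s2 l p (ofLsb x) a (ex U) rfl (by simp)
    ((((hc.set rfl _).set rfl _)).set rfl _) hx2 ha (by simp [hs2])
    (by simp [hs2, hs1, hU])
  set s3 := s2.set (r X) (bs (lsb l (ofLsb x * a % p))) with hs3
  have r4 := run_mvAll (a := r X) (b := r C) (by simp) (s := s3)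
  have l1 := hc.l1
  have hh := run_sq_cons r1 (run_sq_cons r2 (run_sq_cons r3 (run_sq_cons r4 run_sq_nil)))
  refine Runs.cast hh ?_ ?_
  · funext y
    rcases y with y | i | i
    · cases y
      all_goals first | rfl | simp [hs3, hs2, hs1, hX]
    · rcases i with i | i | i
      all_goals first | rfl | simp [hs3, hs2, hs1]
    · first | rfl | simp [hs3, hs2, hs1]
  · have l2 : (s3 (r X)).length = l := by simp [hs3]
    rw [l2]
    have h1 : (K + 20) * (t l + l) = K * (t l + l) + 20 * t l + 20 * l := by ring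
    rw [h1]
    omega

theorem run_entLoop {K : ℕ} (hK : MulXSpec sm t K) {s : Store (RF τ κ) (Sy α)} {l p q b a : ℕ}
    {g : ℕ → List Bool} (hc : Ctx s l p) (hb : b ≤ l) (hbp : 2 ^ b ≤ p)
    (hnb : s (ex nb1) = num b) (hnLb : s (ex nLb) = num (l - b)) (hX : s (r X) = [])
    (hq2 : s (r q2) = num q)
    (ha : a < p) (hU : s (ex U) = bs (lsb l a)) (hRW : s (r RW) = bs (fm q g))
    (hg : ∀ j < q, (g j).length = b) :
    Runs (forN (r q2) (sq [moveN (ex nb1) (r RW) (r X), fillN 1 (ex nLb) (r X) (.bit false),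
        mulX sm (ex U), mvAll (r X) (r C)])) s
      ((s.set (r RW) []).set (r C)
        (s (r C) ++ bs (fm q fun j => lsb l (ofLsb (g j) * a % p))))
      (q * ((K + 20) * (t l + l) + 2) + 2) := by
  have key := Runs.forN (c := r q2) (body := sq [moveN (ex nb1) (r RW) (r X),
      fillN 1 (ex nLb) (r X) (.bit false), mulX sm (ex U), mvAll (r X) (r C)]) q
    (fun j => (s.set (r RW) (bs (fm (q - j) fun k => g (j + k)))).set (r C)
      (s (r C) ++ bs (fm j fun j => lsb l (ofLsb (g j) * a % p)))) ((K + 20) * (t l + l))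
    (by intro i; simp [hq2])
    (by
      intro j hj y
      have := run_ent hK (s := ((s.set (r RW) (bs (fm (q - j) fun k => g (j + k)))).set (r C)
        (s (r C) ++ bs (fm j fun j => lsb l (ofLsb (g j) * a % p)))).set (r q2) y)
        (l := l) (p := p) (b := b) (a := a) (x := g j)
        (rest := bs (fm (q - (j + 1)) fun k => g (j + 1 + k)))
        (((hc.set rfl _).set rfl _).set rfl _) hb hbp (by simp [hnb]) (by simp [hnLb])
        (by simp [hX]) ha (by simp [hU])
        (by rw [← bs_append, ← fm_sub hj]; simp) (hg j hj)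
      refine Runs.cast this ?_ le_rfl
      funext x
      rcases x with x | i | i
      · cases x
        all_goals first | rfl | simp [fm_succ]
      · simp
      · simp)
  have e0 : (s.set (r RW) (bs (fm (q - 0) fun k => g (0 + k)))).set (r C)
      (s (r C) ++ bs (fm 0 fun j => lsb l (ofLsb (g j) * a % p))) = s := by
    simp only [Nat.zero_add, Nat.sub_zero, fm_zero, bs_nil, List.append_nil]
    rw [Store.set_eq_self s hRW, Store.set_self]
  rw [e0] at key
  simp only [Nat.sub_self, fm_zero, bs_nil] at key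
  exact key

/-- A segment of the first data integer. -/
def seg (q l p a m : ℕ) (en : ℕ → List Bool) : List Bool :=
  fm q fun j => lsb l (ofLsb (en ((j + m) % q)) * a % p)

/-- The stores of the loop over the segments of a row. -/
def segSt (s : Store (RF τ κ) (Sy α)) (q b l p a m : ℕ) (en : ℕ → ℕ → List Bool)
    (D0 C0 : List (Sy α)) (c : ℕ) : Store (RF τ κ) (Sy α) :=
  (s.set (r D) (bs (fm (b - c) fun k => fm q (en (c + k))) ++ D0)).set (r C)
    (C0 ++ bs (fm c fun c => seg q l p a m (en c)))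

theorem run_seg {K : ℕ} (hK : MulXSpec sm t K) {s : Store (RF τ κ) (Sy α)} {l p q b a m c : ℕ}
    {en : ℕ → ℕ → List Bool} {D0 C0 : List (Sy α)} (hc : Ctx s l p) (hb : b ≤ l)
    (hbp : 2 ^ b ≤ p) (hq : 1 ≤ q)
    (hnb : s (ex nb1) = num b) (hnLb : s (ex nLb) = num (l - b)) (hX : s (r X) = [])
    (hR : s (r RW) = []) (hq2 : s (r q2) = num q) (hA2 : s (r A2) = num (m * b)) (hm : m ≤ q)
    (ha : a < p) (hU : s (ex U) = bs (lsb l a)) (hcb : c < b)
    (hg : ∀ j < q, (en c j).length = b) (y : List (Sy α)) :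
    Runs (sq [forN (r q2) (moveN (ex nb1) (r D) (r RW)), rotN (r A2) (r RW),
        forN (r q2) (sq [moveN (ex nb1) (r RW) (r X), fillN 1 (ex nLb) (r X) (.bit false),
          mulX sm (ex U), mvAll (r X) (r C)])])
      ((segSt s q b l p a m en D0 C0 c).set (ex nc) y)
      ((segSt s q b l p a m en D0 C0 (c + 1)).set (ex nc) y)
      (q * ((K + 40) * (t l + l))) := by
  set s0 := (segSt s q b l p a m en D0 C0 c).set (ex nc) y with hs0
  have r1 := run_forMove (c := r q2) (d := ex nb1) (a := r D) (b := r RW) (by simp) (by simp)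
    (by simp) (by simp) (by simp) (by simp) (s := s0) (N := q) (M := b)
    (l := bs (fm q (en c)))
    (rest := bs (fm (b - (c + 1)) fun k => fm q (en (c + 1 + k))) ++ D0)
    (by simp [hs0, segSt, hq2]) (by simp [hs0, segSt, hnb])
    (by
      have := fm_sub hcb (fun k => fm q (en k))
      simp only [hs0, segSt]
      rw [Store.set_ne _ _ (by simp), Store.set_ne _ _ (by simp), Store.set_same, this, bs_append,
        List.append_assoc])
    (by rw [bs_length, fm_length fun j hj => hg j hj])
  set s1 := (s0.set (r D) (bs (fm (b - (c + 1)) fun k => fm q (en (c + 1 + k))) ++ D0)).set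
    (r RW) (s0 (r RW) ++ bs (fm q (en c))) with hs1
  have r2 := run_rotN (c := r A2) (a := r RW) (by simp) (s := s1) (N := m * b)
    (by simp [hs1, hs0, segSt, hA2])
  have eRW : (s1 (r RW)).rotate (m * b) = bs (fm q fun j => en c ((j + m) % q)) := by
    simp only [hs1, Store.set_same, hs0, segSt]
    rw [← fm_rotate (fun j hj => hg j hj) hm]
    simp [hR, bs_rotate]
  rw [eRW] at r2
  set s2 := s1.set (r RW) (bs (fm q fun j => en c ((j + m) % q))) with hs2
  have r3 := run_entLoop hK (s := s2) (l := l) (p := p) (q := q) (b := b) (a := a)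
    (g := fun j => en c ((j + m) % q))
    ((((((hc.set rfl _).set rfl _).set rfl _).set rfl _).set rfl _).set rfl _) hb hbp
    (by simp [hs2, hs1, hs0, segSt, hnb]) (by simp [hs2, hs1, hs0, segSt, hnLb])
    (by simp [hs2, hs1, hs0, segSt, hX]) (by simp [hs2, hs1, hs0, segSt, hq2]) ha
    (by simp [hs2, hs1, hs0, segSt, hU]) (by simp [hs2])
    (fun j _ => hg _ (Nat.mod_lt _ hq))
  have hh := run_sq_cons r1 (run_sq_cons r2 (run_sq_cons r3 run_sq_nil))
  have l1 := hc.l1
  refine Runs.cast hh ?_ ?_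
  · funext x
    rcases x with x | i | i
    · cases x
      case C => simp [hs2, hs1, hs0, segSt, fm_succ, seg]
      case RW => simp [hs2, hs1, hs0, segSt, hR]
      all_goals first | rfl | simp [hs2, hs1, hs0, segSt]
    · rcases i with i | i | i
      · first | rfl | simp [hs2, hs1, hs0, segSt]
      · first | rfl | simp [hs2, hs1, hs0, segSt]
      · cases i
        all_goals first | rfl | simp [hs2, hs1, hs0, segSt]
    · first | rfl | simp [hs2, hs1, hs0, segSt]
  · have h1 : q * ((K + 40) * (t l + l)) =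
        q * ((K + 20) * (t l + l)) + 20 * (q * t l) + 20 * (q * l) := by ring
    have h2 : q * ((K + 20) * (t l + l) + 2) = q * ((K + 20) * (t l + l)) + 2 * q := by ring
    have h3 : m * b ≤ q * l := Nat.mul_le_mul hm hb
    have h4 : q ≤ q * l := Nat.le_mul_of_pos_right _ l1
    have h5 : q * b ≤ q * l := Nat.mul_le_mul_left _ hb
    have h6 : q * (3 * b + 4) = 3 * (q * b) + 4 * q := by ring
    rw [h1, h2, h6]
    omega

theorem run_segs {K : ℕ} (hK : MulXSpec sm t K) {s : Store (RF τ κ) (Sy α)} {l p q b a m : ℕ}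
    {en : ℕ → ℕ → List Bool} {D0 : List (Sy α)} (hc : Ctx s l p) (hb : b ≤ l)
    (hbp : 2 ^ b ≤ p) (hq : 1 ≤ q)
    (hnb : s (ex nb1) = num b) (hnLb : s (ex nLb) = num (l - b)) (hX : s (r X) = [])
    (hR : s (r RW) = []) (hq2 : s (r q2) = num q) (hnc : s (ex nc) = num b)
    (hA2 : s (r A2) = num (m * b)) (hm : m ≤ q)
    (ha : a < p) (hU : s (ex U) = bs (lsb l a))
    (hD : s (r D) = bs (fm b fun c => fm q (en c)) ++ D0)
    (hg : ∀ c < b, ∀ j < q, (en c j).length = b) :
    Runs (forN (ex nc) (sq [forN (r q2) (moveN (ex nb1) (r D) (r RW)), rotN (r A2) (r RW),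
        forN (r q2) (sq [moveN (ex nb1) (r RW) (r X), fillN 1 (ex nLb) (r X) (.bit false),
          mulX sm (ex U), mvAll (r X) (r C)])])) s
      ((s.set (r D) D0).set (r C) (s (r C) ++ bs (fm b fun c => seg q l p a m (en c))))
      (b * (q * ((K + 40) * (t l + l)) + 2) + 2) := by
  have key := Runs.forN (c := ex nc) (body := sq [forN (r q2) (moveN (ex nb1) (r D) (r RW)),
      rotN (r A2) (r RW), forN (r q2) (sq [moveN (ex nb1) (r RW) (r X),
        fillN 1 (ex nLb) (r X) (.bit false), mulX sm (ex U), mvAll (r X) (r C)])]) b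
    (segSt s q b l p a m en D0 (s (r C))) (q * ((K + 40) * (t l + l)))
    (by intro i; simp [segSt, hnc])
    (fun c hcb y => run_seg hK hc hb hbp hq hnb hnLb hX hR hq2 hA2 hm ha hU hcb (hg c hcb) y)
  have e0 : segSt s q b l p a m en D0 (s (r C)) 0 = s := by
    simp only [segSt, Nat.zero_add, Nat.sub_zero, fm_zero, bs_nil, List.append_nil]
    rw [Store.set_eq_self s hD, Store.set_self]
  rw [e0] at key
  refine Runs.cast key ?_ le_rfl
  simp [segSt]

/-- Row `i` of the first data integer. -/
def rowF (q b l p h : ℕ) (ent : ℕ → ℕ → ℕ → List Bool) (i : ℕ) : List Bool :=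
  fm b fun c => seg q l p (h ^ (i * (i + 1) / 2) % p) (q - i) (ent i c)

theorem fdata1_eq (q b l p h : ℕ) (ent : ℕ → ℕ → ℕ → List Bool) :
    fdata1 q b l p h ent = fm q (rowF q b l p h ent) := by
  unfold fdata1 rowF seg
  refine fm_congr fun i _ => fm_congr fun c _ => fm_congr fun j _ => ?_
  rw [Nat.mul_mod_mod, Nat.mul_comm]

/-- The stores of the loop over the rows. -/
def rowSt (s : Store (RF τ κ) (Sy α)) (q b l p h : ℕ) (ent : ℕ → ℕ → ℕ → List Bool) (i : ℕ) :
    Store (RF τ κ) (Sy α) :=
  ((((s.set (ex U) (bs (lsb l (h ^ (i * (i + 1) / 2) % p)))).set (ex V)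
    (bs (lsb l (h ^ (i + 1) % p)))).set (r A2) (num ((q - i) * b))).set (r D)
    (bs (fm (q - i) fun k => fm b fun c => fm q (ent (i + k) c)))).set (r C)
    (bs (fm i (rowF q b l p h ent)))

theorem run_row {K K' : ℕ} (hK : MulXSpec sm t K) (hK' : MulRSpec sm t K')
    {s : Store (RF τ κ) (Sy α)} {l p q b z h i : ℕ} {ent : ℕ → ℕ → ℕ → List Bool}
    (hs : Pctx s l p q b z h) (hen : ∀ i < q, ∀ c < b, ∀ j < q, (ent i c j).length = b)
    (hi : i < q) (y : List (Sy α)) :
    Runs (sq [forN (ex nc) (sq [forN (r q2) (moveN (ex nb1) (r D) (r RW)), rotN (r A2) (r RW),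
        forN (r q2) (sq [moveN (ex nb1) (r RW) (r X), fillN 1 (ex nLb) (r X) (.bit false),
          mulX sm (ex U), mvAll (r X) (r C)])]),
        mulR sm (ex U) (ex V), mulR sm (ex V) (ex HH), subC 1 (ex nb1) (r A2)])
      ((rowSt s q b l p h ent i).set (r q1) y) ((rowSt s q b l p h ent (i + 1)).set (r q1) y)
      (b * (q * ((K + 2 * K' + 60) * (t l + l)))) := by
  have hq : 1 ≤ q := by omega
  have hp0 : 0 < p := by have := hs.root.three; omega
  have hb1 := hs.b1
  have hbl := hs.bl
  set s0 := (rowSt s q b l p h ent i).set (r q1) y with hs0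
  have hc0 : Ctx s0 l p :=
    (((((hs.ctx.set rfl _).set rfl _).set rfl _).set rfl _).set rfl _).set rfl _
  have r1 := run_segs hK (s := s0) (l := l) (p := p) (q := q) (b := b)
    (a := h ^ (i * (i + 1) / 2) % p) (m := q - i) (en := ent i)
    (D0 := bs (fm (q - (i + 1)) fun k => fm b fun c => fm q (ent (i + 1 + k) c)))
    hc0 hbl hs.bp hq (by simp [hs0, rowSt, hs.nb1]) (by simp [hs0, rowSt, hs.nLb])
    (by simp [hs0, rowSt, hs.X]) (by simp [hs0, rowSt, hs.RW]) (by simp [hs0, rowSt, hs.q2])
    (by simp [hs0, rowSt, hs.nc]) (by simp [hs0, rowSt]) (Nat.sub_le _ _)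
    (Nat.mod_lt _ hp0) (by simp [hs0, rowSt])
    (by
      rw [← bs_append, ← fm_sub hi fun k => fm b fun c => fm q (ent k c)]
      simp [hs0, rowSt])
    (hen i hi)
  set s1 := (s0.set (r D) (bs (fm (q - (i + 1)) fun k => fm b fun c =>
    fm q (ent (i + 1 + k) c)))).set (r C) (s0 (r C) ++ bs (fm b fun c =>
      seg q l p (h ^ (i * (i + 1) / 2) % p) (q - i) (ent i c))) with hs1
  have hc1 : Ctx s1 l p := (hc0.set rfl _).set rfl _
  have r2 := hK' s1 l p (h ^ (i * (i + 1) / 2) % p) (h ^ (i + 1) % p) (ex U) (ex V) rfl (by simp)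
    rfl (by simp) (by simp) hc1 (Nat.mod_lt _ hp0) (Nat.mod_lt _ hp0)
    (by simp [hs1, hs0, rowSt, hs.X]) (by simp [hs1, hs0, rowSt]) (by simp [hs1, hs0, rowSt])
  rw [mul_pow_mod, ← tri_succ] at r2
  set s2 := s1.set (ex U) (bs (lsb l (h ^ ((i + 1) * (i + 1 + 1) / 2) % p))) with hs2
  have hc2 : Ctx s2 l p := hc1.set rfl _
  have r3 := hK' s2 l p (h ^ (i + 1) % p) h (ex V) (ex HH) rfl (by simp)
    rfl (by simp) (by simp) hc2 (Nat.mod_lt _ hp0) hs.root.hlt
    (by simp [hs2, hs1, hs0, rowSt, hs.X]) (by simp [hs2, hs1, hs0, rowSt])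
    (by simp [hs2, hs1, hs0, rowSt, hs.HH])
  rw [Nat.mod_mul_mod, ← pow_succ] at r3
  set s3 := s2.set (ex V) (bs (lsb l (h ^ (i + 1 + 1) % p))) with hs3
  have r4 := run_subC (k := 1) (d := ex nb1) (c := r A2) (by simp) (s := s3) (N := b)
    (m := (q - i) * b) (by simp [hs3, hs2, hs1, hs0, rowSt, hs.nb1])
    (by simp [hs3, hs2, hs1, hs0, rowSt])
    (by rw [Nat.one_mul]; exact Nat.le_mul_of_pos_left _ (by omega))
  have e3 : (q - i) * b - 1 * b = (q - (i + 1)) * b := by
    rw [← Nat.sub_mul, Nat.sub_sub]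
  rw [e3] at r4
  have hh := run_sq_cons r1 (run_sq_cons r2 (run_sq_cons r3 (run_sq_cons r4 run_sq_nil)))
  have l1 := hs.ctx.l1
  refine Runs.cast hh ?_ ?_
  · funext x
    rcases x with x | i | i
    · cases x
      case C => simp [hs3, hs2, hs1, hs0, rowSt, fm_succ, rowF]
      all_goals first | rfl | simp [hs3, hs2, hs1, hs0, rowSt]
    · rcases i with i | i | i
      · first | rfl | simp [hs3, hs2, hs1, hs0, rowSt]
      · first | rfl | simp [hs3, hs2, hs1, hs0, rowSt]
      · cases i
        all_goals first | rfl | simp [hs3, hs2, hs1, hs0, rowSt]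
    · first | rfl | simp [hs3, hs2, hs1, hs0, rowSt]
  · have h1 : b * (q * ((K + 2 * K' + 60) * (t l + l))) =
        b * (q * ((K + 40) * (t l + l))) + 2 * (b * (q * (K' * (t l + l)))) +
        20 * (b * (q * (t l))) + 20 * (b * (q * l)) := by ring
    have h2 : b * (q * ((K + 40) * (t l + l)) + 2) =
        b * (q * ((K + 40) * (t l + l))) + 2 * b := by ring
    have h3 : K' * (t l + l) ≤ b * (q * (K' * (t l + l))) := by
      rw [← Nat.mul_assoc]
      exact Nat.le_mul_of_pos_left _ (Nat.mul_pos hb1 hq)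
    have h4 : b ≤ b * (q * l) := Nat.le_mul_of_pos_right _ (Nat.mul_pos hq l1)
    rw [h1, h2]
    omega

end

end PF1

section
variable {τ κ α : Type} [DecidableEq τ] [DecidableEq κ]
  {sm : Cmd (RF τ κ) (Sy α)} {t : ℕ → ℕ} {C1 : ℕ}

theorem run_passF1 (hs : SmallSpec sm t C1) : ∃ C0 : ℕ, ∀ (s : Store (RF τ κ) (Sy α))
    (l p q b z h : ℕ) (ent : ℕ → ℕ → ℕ → List Bool), Pctx s l p q b z h →
    (∀ i < q, ∀ c < b, ∀ j < q, (ent i c j).length = b) →
    s (r D) = bs (fm q fun i => fm b fun c => fm q fun j => ent i c j) → s (r C) = [] →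
    Runs (passF1 sm) s ((s.set (r D) []).set (r C) (bs (fdata1 q b l p h ent)))
      (C0 * (q * (b * q) * (t l + l))) := by
  obtain ⟨K, hK⟩ := run_mulX hs
  obtain ⟨K', hK'⟩ := run_mulR hs
  refine ⟨K + 2 * K' + 200, fun s l p q b z h ent hp hen hD hC => ?_⟩
  have hp3 := hp.root.three
  have hpq := hp.root.hq
  have hb1 := hp.b1
  have hbl := hp.bl
  have l1 := hp.ctx.l1
  have hq : 1 ≤ q := by omega
  have r1 := run_cpL (nl := ex nL) (a := ex ONE) (b := ex U) (by simp) (by simp) (by simp)
    (s := s) (l := l) (x := bs (lsb l 1)) hp.ctx.nL hp.ONE (by simp) hp.U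
  set s1 := s.set (ex U) (bs (lsb l 1)) with hs1
  have r2 := run_cpL (nl := ex nL) (a := ex HH) (b := ex V) (by simp) (by simp) (by simp)
    (s := s1) (l := l) (x := bs (lsb l h)) (by simp [hs1, hp.ctx.nL]) (by simp [hs1, hp.HH])
    (by simp) (by simp [hs1, hp.V])
  set s2 := s1.set (ex V) (bs (lsb l h)) with hs2
  have r3 := run_zeroC (c := r A2) (s := s2) (by simp [hs2, hs1, hp.A2])
  set s3 := s2.set (r A2) (num 0) with hs3
  have r4 := run_forAdd (k := 1) (c := r q1) (d := ex nb1) (a := r A2) (by simp) (by simp)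
    (by simp) (s := s3) (N := q) (M := b) (m := 0)
    (by simp [hs3, hs2, hs1, hp.q1]) (by simp [hs3, hs2, hs1, hp.nb1]) (by simp [hs3])
  set s4 := s3.set (r A2) (num (0 + q * (1 * b))) with hs4
  have e4 : s4 = PF1.rowSt s q b l p h ent 0 := by
    funext x
    rcases x with x | i | i
    · cases x
      all_goals first | rfl | simp [hs4, hs3, hs2, hs1, PF1.rowSt, hD, hC]
    · rcases i with i | i | i
      · first | rfl | simp [hs4, hs3, hs2, hs1, PF1.rowSt]
      · first | rfl | simp [hs4, hs3, hs2, hs1, PF1.rowSt]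
      · cases i
        case U => simp [hs4, hs3, hs2, hs1, PF1.rowSt, Nat.mod_eq_of_lt (show 1 < p by omega)]
        case V => simp [hs4, hs3, hs2, hs1, PF1.rowSt, Nat.mod_eq_of_lt hp.root.hlt]
        all_goals first | rfl | simp [hs4, hs3, hs2, hs1, PF1.rowSt]
    · first | rfl | simp [hs4, hs3, hs2, hs1, PF1.rowSt]
  have r5 := Runs.forN (c := r q1) (body := sq [
      forN (ex nc) (sq [forN (r q2) (moveN (ex nb1) (r D) (r RW)), rotN (r A2) (r RW),
        forN (r q2) (sq [moveN (ex nb1) (r RW) (r X), fillN 1 (ex nLb) (r X) (.bit false),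
          mulX sm (ex U), mvAll (r X) (r C)])]),
        mulR sm (ex U) (ex V), mulR sm (ex V) (ex HH), subC 1 (ex nb1) (r A2)]) q
    (fun i => PF1.rowSt s q b l p h ent i) (b * (q * ((K + 2 * K' + 60) * (t l + l))))
    (by intro i; simp [PF1.rowSt, hp.q1])
    (fun i hi y => PF1.run_row hK hK' hp hen hi y)
  rw [← e4] at r5
  set s5 := PF1.rowSt s q b l p h ent q with hs5
  have r6 := run_clr (a := ex U) (s := s5)
  set s6 := s5.set (ex U) [] with hs6
  have r7 := run_clr (a := ex V) (s := s6)
  set s7 := s6.set (ex V) [] with hs7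
  have r8 := run_clr (a := r A2) (s := s7)
  have hh := run_sq_cons r1 (run_sq_cons r2 (run_sq_cons r3 (run_sq_cons r4 (run_sq_cons r5
    (run_sq_cons r6 (run_sq_cons r7 (run_sq_cons r8 run_sq_nil)))))))
  refine Runs.cast hh ?_ ?_
  · rw [PF1.fdata1_eq]
    funext x
    rcases x with x | i | i
    · cases x
      all_goals first | rfl | simp [hs7, hs6, hs5, PF1.rowSt, hp.A2]
    · rcases i with i | i | i
      · first | rfl | simp [hs7, hs6, hs5, PF1.rowSt]
      · first | rfl | simp [hs7, hs6, hs5, PF1.rowSt]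
      · cases i
        all_goals first | rfl | simp [hs7, hs6, hs5, PF1.rowSt, hp.U, hp.V]
    · first | rfl | simp [hs7, hs6, hs5, PF1.rowSt]
  · have l2 : (s5 (ex U)).length = l := by simp [hs5, PF1.rowSt]
    have l3 : (s6 (ex V)).length = l := by simp [hs6, hs5, PF1.rowSt]
    have l4 : (s7 (r A2)).length = 1 := by simp [hs7, hs6, hs5, PF1.rowSt, num]
    rw [l2, l3, l4]
    have h1 : (K + 2 * K' + 200) * (q * (b * q) * (t l + l)) =
        q * (b * (q * ((K + 2 * K' + 60) * (t l + l)))) + 140 * (q * (b * (q * t l))) +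
        140 * (q * (b * (q * l))) := by ring
    have h2 : q * (b * (q * ((K + 2 * K' + 60) * (t l + l))) + 2) =
        q * (b * (q * ((K + 2 * K' + 60) * (t l + l)))) + 2 * q := by ring
    have h3 : q * (b * (1 + 3) + 4) = 4 * (q * b) + 4 * q := by ring
    have hql : 1 ≤ q * l := Nat.mul_pos hq l1
    have h4 : l ≤ q * (b * (q * l)) := by
      calc l ≤ q * l := Nat.le_mul_of_pos_left _ hq
        _ ≤ b * (q * l) := Nat.le_mul_of_pos_left _ hb1
        _ ≤ q * (b * (q * l)) := Nat.le_mul_of_pos_left _ hq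
    have h5 : q * b ≤ q * (b * (q * l)) :=
      Nat.mul_le_mul_left _ (Nat.le_mul_of_pos_right _ hql)
    have h6 : q ≤ q * b := Nat.le_mul_of_pos_right _ hb1
    rw [h1, h2, h3]
    omega

end

end Vale.Agent.P338
end

section

/-! Correctness and cost of the second pass of the second core program. -/

namespace Vale.Agent.P338
open Reg R Ex

namespace G5

section
variable {τ κ α : Type} [DecidableEq τ] [DecidableEq κ]

/-- The store `s` with the registers used by the second pass overwritten. -/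
def St (s : Store (RF τ κ) (Sy α)) (x p c s0 dd vv ss : List (Sy α)) : Store (RF τ κ) (Sy α) :=
  ((((((s.set (r X) x).set (r P) p).set (r C) c).set (ex S0) s0).set (ex DD) dd).set
    (ex V) vv).set (ex S) ss

section St
variable (s : Store (RF τ κ) (Sy α)) (x p c s0 dd vv ss v : List (Sy α))

theorem St_get_X : St s x p c s0 dd vv ss (r X) = x := by simp [St]
theorem St_get_P : St s x p c s0 dd vv ss (r P) = p := by simp [St]
theorem St_get_C : St s x p c s0 dd vv ss (r C) = c := by simp [St]
theorem St_get_S0 : St s x p c s0 dd vv ss (ex S0) = s0 := by simp [St]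
theorem St_get_DD : St s x p c s0 dd vv ss (ex DD) = dd := by simp [St]
theorem St_get_V : St s x p c s0 dd vv ss (ex V) = vv := by simp [St]
theorem St_get_S : St s x p c s0 dd vv ss (ex S) = ss := by simp [St]

theorem St_get (a : RF τ κ) (h1 : a ≠ r X) (h2 : a ≠ r P) (h3 : a ≠ r C) (h4 : a ≠ ex S0)
    (h5 : a ≠ ex DD) (h6 : a ≠ ex V) (h7 : a ≠ ex S) :
    St s x p c s0 dd vv ss a = s a := by
  simp [St, h1, h2, h3, h4, h5, h6, h7]

theorem St_X : (St s x p c s0 dd vv ss).set (r X) v = St s v p c s0 dd vv ss := by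
  apply Store.ext'; intro i
  by_cases h1 : i = r X
  · subst h1; simp [St]
  · simp only [St, Store.set, h1, if_false]

theorem St_P : (St s x p c s0 dd vv ss).set (r P) v = St s x v c s0 dd vv ss := by
  apply Store.ext'; intro i
  by_cases h1 : i = r P
  · subst h1; simp [St]
  · simp only [St, Store.set, h1, if_false]

theorem St_C : (St s x p c s0 dd vv ss).set (r C) v = St s x p v s0 dd vv ss := by
  apply Store.ext'; intro i
  by_cases h1 : i = r C
  · subst h1; simp [St]
  · simp only [St, Store.set, h1, if_false]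

theorem St_S0 : (St s x p c s0 dd vv ss).set (ex S0) v = St s x p c v dd vv ss := by
  apply Store.ext'; intro i
  by_cases h1 : i = ex S0
  · subst h1; simp [St]
  · simp only [St, Store.set, h1, if_false]

theorem St_DD : (St s x p c s0 dd vv ss).set (ex DD) v = St s x p c s0 v vv ss := by
  apply Store.ext'; intro i
  by_cases h1 : i = ex DD
  · subst h1; simp [St]
  · simp only [St, Store.set, h1, if_false]

theorem St_V : (St s x p c s0 dd vv ss).set (ex V) v = St s x p c s0 dd v ss := by
  apply Store.ext'; intro i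
  by_cases h1 : i = ex V
  · subst h1; simp [St]
  · simp only [St, Store.set, h1, if_false]

theorem St_S : (St s x p c s0 dd vv ss).set (ex S) v = St s x p c s0 dd vv v := by
  apply Store.ext'; intro i
  by_cases h1 : i = ex S
  · subst h1; simp [St]
  · simp only [St, Store.set, h1, if_false]

/-- Overwriting a register not used by the pass commutes. -/
theorem St_set (a : RF τ κ) (h1 : a ≠ r X) (h2 : a ≠ r P) (h3 : a ≠ r C) (h4 : a ≠ ex S0)
    (h5 : a ≠ ex DD) (h6 : a ≠ ex V) (h7 : a ≠ ex S) :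
    (St s x p c s0 dd vv ss).set a v = St (s.set a v) x p c s0 dd vv ss := by
  apply Store.ext'; intro i
  by_cases hi : i = a
  · subst hi; simp [St, h1, h2, h3, h4, h5, h6, h7]
  · simp only [St, Store.set, hi, if_false]

theorem St_q1 : (St s x p c s0 dd vv ss).set (r q1) v = St (s.set (r q1) v) x p c s0 dd vv ss :=
  St_set _ _ _ _ _ _ _ _ _ _ (by simp) (by simp) (by simp) (by simp) (by simp) (by simp)
    (by simp)

theorem St_q2 : (St s x p c s0 dd vv ss).set (r q2) v = St (s.set (r q2) v) x p c s0 dd vv ss :=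
  St_set _ _ _ _ _ _ _ _ _ _ (by simp) (by simp) (by simp) (by simp) (by simp) (by simp)
    (by simp)

theorem St_nc : (St s x p c s0 dd vv ss).set (ex nc) v = St (s.set (ex nc) v) x p c s0 dd vv ss :=
  St_set _ _ _ _ _ _ _ _ _ _ (by simp) (by simp) (by simp) (by simp) (by simp) (by simp)
    (by simp)

variable {s} in
theorem St_ctx {l m : ℕ} (h : Ctx s l m) : Ctx (St s x p c s0 dd vv ss) l m :=
  ((((((h.set (a := r X) rfl x).set (a := r P) rfl p).set (a := r C) rfl c).set
    (a := ex S0) rfl s0).set (a := ex DD) rfl dd).set (a := ex V) rfl vv).set (a := ex S) rfl ss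

theorem St_nL : St s x p c s0 dd vv ss (ex nL) = s (ex nL) :=
  St_get _ _ _ _ _ _ _ _ _ (by simp) (by simp) (by simp) (by simp) (by simp) (by simp) (by simp)

theorem St_HH : St s x p c s0 dd vv ss (ex HH) = s (ex HH) :=
  St_get _ _ _ _ _ _ _ _ _ (by simp) (by simp) (by simp) (by simp) (by simp) (by simp) (by simp)

theorem St_ZT : St s x p c s0 dd vv ss (ex ZT) = s (ex ZT) :=
  St_get _ _ _ _ _ _ _ _ _ (by simp) (by simp) (by simp) (by simp) (by simp) (by simp) (by simp)

theorem St_ONE : St s x p c s0 dd vv ss (ex ONE) = s (ex ONE) :=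
  St_get _ _ _ _ _ _ _ _ _ (by simp) (by simp) (by simp) (by simp) (by simp) (by simp) (by simp)

theorem St_gq1 : St s x p c s0 dd vv ss (r q1) = s (r q1) :=
  St_get _ _ _ _ _ _ _ _ _ (by simp) (by simp) (by simp) (by simp) (by simp) (by simp) (by simp)

theorem St_gq2 : St s x p c s0 dd vv ss (r q2) = s (r q2) :=
  St_get _ _ _ _ _ _ _ _ _ (by simp) (by simp) (by simp) (by simp) (by simp) (by simp) (by simp)

theorem St_gnc : St s x p c s0 dd vv ss (ex nc) = s (ex nc) :=
  St_get _ _ _ _ _ _ _ _ _ (by simp) (by simp) (by simp) (by simp) (by simp) (by simp) (by simp)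

end St

end

section skip
variable {ι α : Type} [DecidableEq ι]

/-- A loop that removes `n` symbols from the front of `a` in every round. -/
theorem run_forDrop {c a : ι} (hca : c ≠ a) {body : Cmd ι (Sy α)} {s : Store ι (Sy α)}
    {N n K : ℕ} (hc : s c = num N)
    (hb : ∀ x y, Runs body ((s.set a x).set c y) (((s.set a x).set c y).set a (x.drop n)) K) :
    Runs (forN c body) s (s.set a ((s a).drop (N * n))) (N * (K + 2) + 2) := by
  have key := Runs.forN (c := c) (body := body) N
    (fun i => s.set a ((s a).drop (i * n))) K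
    (by intro i; simp [hca, hc])
    (by
      intro i _ y
      have := hb ((s a).drop (i * n)) y
      rw [List.drop_drop] at this
      refine this.cast ?_ le_rfl
      rw [Store.set_comm _ _ _ hca, Store.set_set, Nat.succ_mul])
  simpa using key

end skip

section
variable {τ κ α : Type} [DecidableEq τ] [DecidableEq κ]

/-- Skipping the first half of the product. -/
theorem run_skipF {s : Store (RF τ κ) (Sy α)} {q b l : ℕ} (hq : 1 ≤ q) (hb : 1 ≤ b) (hl : 1 ≤ l)
    (hq1 : s (r q1) = num q) (hq2 : s (r q2) = num q) (hnc : s (ex nc) = num b)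
    (hnL : s (ex nL) = num l) :
    Runs skipF s (s.set (r P) ((s (r P)).drop (q * (b * q * l)))) (18 * (q * (b * q * l))) := by
  have key := run_forDrop (c := r q1) (a := (r P : RF τ κ)) (by simp) (s := s) (N := q)
    (n := b * (q * (1 * l))) (K := b * (q * (l * (1 + 3) + 2 + 2) + 2 + 2) + 2)
    (body := forN (ex nc) (forN (.r .q2) (dropN 1 (ex nL) (.r .P)))) hq1 (by
      intro x y
      have h1 := run_forDrop (c := ex nc) (a := (r P : RF τ κ)) (by simp)
        (s := (s.set (r P) x).set (r q1) y) (N := b)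
        (n := q * (1 * l)) (K := q * (l * (1 + 3) + 2 + 2) + 2)
        (body := forN (.r .q2) (dropN 1 (ex nL) (.r .P))) (by simpa using hnc) (by
          intro x' y'
          have h2 := run_forDrop (c := r q2) (a := (r P : RF τ κ)) (by simp)
            (s := (((s.set (r P) x).set (r q1) y).set (r P) x').set (ex nc) y') (N := q)
            (n := 1 * l) (K := l * (1 + 3) + 2)
            (body := dropN 1 (ex nL) (.r .P)) (by simpa using hq2) (by
              intro x'' y''
              have h3 := run_dropN (k := 1) (c := ex nL) (a := (r P : RF τ κ)) (by simp)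
                (s := (((((s.set (r P) x).set (r q1) y).set (r P) x').set (ex nc) y').set
                  (r P) x'').set (r q2) y'') (N := l) (by simpa using hnL)
              refine h3.cast ?_ le_rfl
              congr 1)
          refine h2.cast ?_ le_rfl
          congr 1)
      refine h1.cast ?_ le_rfl
      congr 1)
  refine key.cast ?_ ?_
  · congr 2; ring
  · have h1 : 1 ≤ q * (b * q * l) := Nat.mul_pos hq (Nat.mul_pos (Nat.mul_pos hb hq) hl)
    have h2 : q * (b * q) * 1 ≤ q * (b * q) * l := Nat.mul_le_mul_left _ hl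
    have h3 : q * b * 1 ≤ q * b * (q * l) := Nat.mul_le_mul_left _ (Nat.mul_pos hq hl)
    have h4 : q * 1 ≤ q * (b * q * l) := Nat.mul_le_mul_left _ (Nat.mul_pos (Nat.mul_pos hb hq) hl)
    have e2 : q * (b * q) * l = q * (b * q * l) := by ring
    have e3 : q * b * (q * l) = q * (b * q * l) := by ring
    have e4 : q * (b * (q * (l * (1 + 3) + 2 + 2) + 2 + 2) + 2 + 2) + 2
      = 4 * (q * (b * q * l)) + 4 * (q * (b * q) * 1) + 4 * (q * b * 1) + 4 * (q * 1) + 2 := by ring
    omega

end

section
variable {τ κ α : Type} [DecidableEq τ] [DecidableEq κ]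
  {sm : Cmd (RF τ κ) (Sy α)} {t : ℕ → ℕ} {C1 : ℕ}

/-- Processing of one slot. -/
theorem run_slotF (hs : SmallSpec sm t C1) : ∃ K : ℕ, ∀ (s : Store (RF τ κ) (Sy α))
    (l p a g : ℕ) (x : List Bool) (rest c s0 dd : List (Sy α)), Ctx s l p → a < p → g < p →
    x.length = l →
    Runs (sq [
        moveN (ex nL) (.r .P) (.r .X), redX sm, mulX sm (ex S), mvAll (.r .X) (.r .C),
        mulR sm (ex S) (ex V)])
      (St s [] (bs x ++ rest) c s0 dd (bs (lsb l g)) (bs (lsb l a)))
      (St s [] rest (c ++ bs (lsb l (ofLsb x % p * a % p))) s0 dd (bs (lsb l g))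
        (bs (lsb l (a * g % p)))) (K * (t l + l)) := by
  obtain ⟨Cr, hr⟩ := run_redX hs
  obtain ⟨Cm, hm⟩ := run_mulX hs
  obtain ⟨CR, hR⟩ := run_mulR hs
  refine ⟨5 + (Cr + (Cm + (3 + (CR + 1)))), ?_⟩
  intro s l p a g x rest c s0 dd hc ha hg hx
  have hl := hc.l1
  have hp3 := hc.p3
  have h1 := run_moveN (c := ex nL) (a := (r P : RF τ κ)) (b := r X) (by simp) (by simp) (by simp)
    (s := St s [] (bs x ++ rest) c s0 dd (bs (lsb l g)) (bs (lsb l a))) (N := l) (l := bs x)
    (rest := rest) (by rw [St_nL]; exact hc.nL) (by rw [St_get_P]) (by simpa using hx)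
  rw [St_P, St_X, St_get_X, List.nil_append] at h1
  have h2 := hr (St s (bs x) rest c s0 dd (bs (lsb l g)) (bs (lsb l a))) l p x
    (St_ctx _ _ _ _ _ _ _ hc) hx (by rw [St_get_X])
  rw [St_X] at h2
  have h3 := hm (St s (bs (lsb l (ofLsb x % p))) rest c s0 dd (bs (lsb l g)) (bs (lsb l a))) l p
    (ofLsb x % p) a (ex S) rfl (by simp) (St_ctx _ _ _ _ _ _ _ hc)
    (Nat.mod_lt _ (by omega)) ha (by rw [St_get_X]) (by rw [St_get_S])
  rw [St_X] at h3
  have h4 := run_mvAll (a := (r X : RF τ κ)) (b := r C) (by simp)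
    (s := St s (bs (lsb l (ofLsb x % p * a % p))) rest c s0 dd (bs (lsb l g)) (bs (lsb l a)))
  rw [St_X, St_C, St_get_X, St_get_C] at h4
  have h5 := hR (St s [] rest (c ++ bs (lsb l (ofLsb x % p * a % p))) s0 dd (bs (lsb l g))
    (bs (lsb l a))) l p a g (ex S) (ex V) rfl (by simp) rfl (by simp) (by simp)
    (St_ctx _ _ _ _ _ _ _ hc) ha hg (by rw [St_get_X]) (by rw [St_get_S]) (by rw [St_get_V])
  rw [St_S] at h5
  refine (run_sq_cons h1 (run_sq_cons h2 (run_sq_cons h3 (run_sq_cons h4 (run_sq_cons h5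
    run_sq_nil))))).mono ?_
  have e4 : (bs (lsb l (ofLsb x % p * a % p)) : List (Sy α)).length = l := by simp [lsb]
  rw [e4]
  simp only [Nat.add_mul, Nat.one_mul]
  omega

theorem bs_drop_split (p : List Bool) (o w : ℕ) :
    (bs (p.drop o) : List (Sy α)) = bs ((p.drop o).take w) ++ bs (p.drop (o + w)) := by
  rw [← bs_append, ← List.drop_drop, List.take_append_drop]

/-- One segment. -/
theorem run_segF (hs : SmallSpec sm t C1) : ∃ K : ℕ, ∀ (s : Store (RF τ κ) (Sy α))
    (l p a g q o : ℕ) (v : List Bool) (c dd : List (Sy α)), Ctx s l p → a < p → g < p →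
    1 ≤ q → s (r q2) = num q → o + q * l ≤ v.length →
    Runs (sq [
        cpL (ex nL) (ex S0) (ex S),
        forN (.r .q2) (sq [
          moveN (ex nL) (.r .P) (.r .X), redX sm, mulX sm (ex S), mvAll (.r .X) (.r .C),
          mulR sm (ex S) (ex V)]),
        clr (ex S)])
      (St s [] (bs (v.drop o)) c (bs (lsb l a)) dd (bs (lsb l g)) [])
      (St s [] (bs (v.drop (o + q * l))) (c ++ bs (fm q fun j =>
          lsb l (ofLsb ((v.drop (o + j * l)).take l) % p * (a * g ^ j % p) % p)))
        (bs (lsb l a)) dd (bs (lsb l g)) []) (K * (q * (t l + l))) := by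
  obtain ⟨K, hK⟩ := run_slotF hs
  refine ⟨K + 13, ?_⟩
  intro s l p a g q o v c dd hc ha hg hq hq2 hv
  have hl := hc.l1
  have hp3 := hc.p3
  have h1 := run_cpL (nl := ex nL) (a := ex S0) (b := ex S) (by simp) (by simp) (by simp)
    (s := St s [] (bs (v.drop o)) c (bs (lsb l a)) dd (bs (lsb l g)) [])
    (l := l) (x := bs (lsb l a)) (by rw [St_nL]; exact hc.nL) (by rw [St_get_S0])
    (by simp [lsb]) (by rw [St_get_S])
  rw [St_S] at h1
  have h2 := Runs.forN (c := r q2) (body := sq [
          moveN (ex nL) (.r .P) (.r .X), redX sm, mulX sm (ex S), mvAll (.r .X) (.r .C),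
          mulR sm (ex S) (ex V)]) q
    (fun i => St s [] (bs (v.drop (o + i * l))) (c ++ bs (fm i fun j =>
          lsb l (ofLsb ((v.drop (o + j * l)).take l) % p * (a * g ^ j % p) % p)))
        (bs (lsb l a)) dd (bs (lsb l g)) (bs (lsb l (a * g ^ i % p)))) (K * (t l + l))
    (by intro i; rw [St_gq2]; exact hq2)
    (by
      intro i hi x
      have hle : (i + 1) * l ≤ q * l := Nat.mul_le_mul_right _ hi
      have hle2 : (i + 1) * l = i * l + l := by ring
      have hV : ((v.drop (o + i * l)).take l).length = l := by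
        rw [List.length_take, List.length_drop]; omega
      have h := hK (s.set (r q2) x) l p (a * g ^ i % p) g ((v.drop (o + i * l)).take l)
        (bs (v.drop (o + i * l + l))) (c ++ bs (fm i fun j =>
          lsb l (ofLsb ((v.drop (o + j * l)).take l) % p * (a * g ^ j % p) % p)))
        (bs (lsb l a)) dd (hc.set rfl x) (Nat.mod_lt _ (by omega)) hg hV
      have eo : o + (i + 1) * l = o + i * l + l := by ring
      have eg : a * g ^ i % p * g % p = a * g ^ (i + 1) % p := by
        rw [Nat.mod_mul_mod, pow_succ, Nat.mul_assoc]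
      rw [← bs_drop_split, ← eo, List.append_assoc, ← bs_append, ← fm_succ i (fun j =>
          lsb l (ofLsb ((v.drop (o + j * l)).take l) % p * (a * g ^ j % p) % p)), eg] at h
      rw [St_q2, St_q2]
      exact h)
  simp only [Nat.zero_mul, Nat.add_zero, fm_zero, bs_nil, List.append_nil, pow_zero,
    Nat.mul_one] at h2
  rw [Nat.mod_eq_of_lt ha] at h2
  have h3 := run_clr (a := ex S) (s := St s [] (bs (v.drop (o + q * l))) (c ++ bs (fm q fun j =>
          lsb l (ofLsb ((v.drop (o + j * l)).take l) % p * (a * g ^ j % p) % p)))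
        (bs (lsb l a)) dd (bs (lsb l g)) (bs (lsb l (a * g ^ q % p))))
  rw [St_S, St_get_S] at h3
  refine (run_sq_cons h1 (run_sq_cons h2 (run_sq_cons h3 run_sq_nil))).mono ?_
  have e3 : (bs (lsb l (a * g ^ q % p)) : List (Sy α)).length = l := by simp [lsb]
  rw [e3]
  have i1 : 1 * (t l + l) ≤ q * (t l + l) := Nat.mul_le_mul_right _ hq
  have i2 : q * 1 ≤ q * (t l + l) := Nat.mul_le_mul_left _ (by omega)
  have i3 : q * (K * (t l + l) + 2) + 2 = K * (q * (t l + l)) + 2 * (q * 1) + 2 := by ring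
  rw [i3, Nat.add_mul]
  omega

/-- One row. -/
theorem run_rowF (hs : SmallSpec sm t C1) : ∃ K : ℕ, ∀ (s : Store (RF τ κ) (Sy α))
    (l p a g q b o : ℕ) (v : List Bool) (c dd : List (Sy α)), Ctx s l p → a < p → g < p →
    1 ≤ q → 1 ≤ b → s (r q2) = num q → s (ex nc) = num b → o + b * (q * l) ≤ v.length →
    Runs (forN (ex nc) (sq [
        cpL (ex nL) (ex S0) (ex S),
        forN (.r .q2) (sq [
          moveN (ex nL) (.r .P) (.r .X), redX sm, mulX sm (ex S), mvAll (.r .X) (.r .C),
          mulR sm (ex S) (ex V)]),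
        clr (ex S)]))
      (St s [] (bs (v.drop o)) c (bs (lsb l a)) dd (bs (lsb l g)) [])
      (St s [] (bs (v.drop (o + b * (q * l)))) (c ++ bs (fm b fun i => fm q fun j =>
          lsb l (ofLsb ((v.drop (o + i * (q * l) + j * l)).take l) % p * (a * g ^ j % p) % p)))
        (bs (lsb l a)) dd (bs (lsb l g)) []) (K * (b * (q * (t l + l)))) := by
  obtain ⟨K, hK⟩ := run_segF hs
  refine ⟨K + 4, ?_⟩
  intro s l p a g q b o v c dd hc ha hg hq hb hq2 hnc hv
  have hl := hc.l1
  have h2 := Runs.forN (c := ex nc) (body := sq [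
        cpL (ex nL) (ex S0) (ex S),
        forN (.r .q2) (sq [
          moveN (ex nL) (.r .P) (.r .X), redX sm, mulX sm (ex S), mvAll (.r .X) (.r .C),
          mulR sm (ex S) (ex V)]),
        clr (ex S)]) b
    (fun k => St s [] (bs (v.drop (o + k * (q * l)))) (c ++ bs (fm k fun i => fm q fun j =>
          lsb l (ofLsb ((v.drop (o + i * (q * l) + j * l)).take l) % p * (a * g ^ j % p) % p)))
        (bs (lsb l a)) dd (bs (lsb l g)) []) (K * (q * (t l + l)))
    (by intro i; rw [St_gnc]; exact hnc)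
    (by
      intro k hk x
      have hle : (k + 1) * (q * l) ≤ b * (q * l) := Nat.mul_le_mul_right _ hk
      have hle2 : (k + 1) * (q * l) = k * (q * l) + q * l := by ring
      have h := hK (s.set (ex nc) x) l p a g q (o + k * (q * l)) v
        (c ++ bs (fm k fun i => fm q fun j =>
          lsb l (ofLsb ((v.drop (o + i * (q * l) + j * l)).take l) % p * (a * g ^ j % p) % p)))
        dd (hc.set rfl x) ha hg hq (by simpa using hq2) (by omega)
      have eo : o + (k + 1) * (q * l) = o + k * (q * l) + q * l := by ring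
      rw [← eo, List.append_assoc, ← bs_append, ← fm_succ k (fun i => fm q fun j =>
          lsb l (ofLsb ((v.drop (o + i * (q * l) + j * l)).take l) % p * (a * g ^ j % p) % p))] at h
      rw [St_nc, St_nc]
      exact h)
  simp only [Nat.zero_mul, Nat.add_zero, fm_zero, bs_nil, List.append_nil] at h2
  refine h2.mono ?_
  have i1 : b * 1 ≤ b * (q * (t l + l)) := Nat.mul_le_mul_left _ (Nat.mul_pos hq (by omega))
  have i3 : b * (K * (q * (t l + l)) + 2) + 2 = K * (b * (q * (t l + l))) + 2 * (b * 1) + 2 := by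
    ring
  rw [i3, Nat.add_mul]
  omega

omit [DecidableEq τ] [DecidableEq κ] in
theorem modEntry (p a g X j A G : ℕ) (ha : a = A % p) (hg : g = G % p) :
    X % p * (a * g ^ j % p) % p = A * G ^ j * X % p := by
  subst ha hg
  have h1 : X % p * (A % p * (G % p) ^ j % p) ≡ X * (A * G ^ j) [MOD p] :=
    (Nat.mod_modEq _ _).mul ((Nat.mod_modEq _ _).trans ((Nat.mod_modEq _ _).mul
      ((Nat.mod_modEq _ _).pow j)))
  rw [Nat.mul_comm X] at h1
  exact h1

/-- One row with the updates of the factors. -/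
theorem run_rowU (hs : SmallSpec sm t C1) : ∃ K : ℕ, ∀ (s : Store (RF τ κ) (Sy α))
    (l p z h q b o k : ℕ) (v : List Bool) (c : List (Sy α)), Ctx s l p → z < p → h < p →
    1 ≤ q → 1 ≤ b → s (r q2) = num q → s (ex nc) = num b → s (ex HH) = bs (lsb l h) →
    s (ex ZT) = bs (lsb l z) → o + b * (q * l) ≤ v.length →
    Runs (sq [
      forN (ex nc) (sq [
        cpL (ex nL) (ex S0) (ex S),
        forN (.r .q2) (sq [
          moveN (ex nL) (.r .P) (.r .X), redX sm, mulX sm (ex S), mvAll (.r .X) (.r .C),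
          mulR sm (ex S) (ex V)]),
        clr (ex S)]),
      mulR sm (ex S0) (ex DD), mulR sm (ex DD) (ex HH), mulR sm (ex DD) (ex HH),
      mulR sm (ex V) (ex ZT)])
      (St s [] (bs (v.drop o)) c (bs (lsb l (h ^ (k ^ 2) % p))) (bs (lsb l (h ^ (2 * k + 1) % p)))
        (bs (lsb l (z ^ k % p))) [])
      (St s [] (bs (v.drop (o + b * (q * l)))) (c ++ bs (fm b fun i => fm q fun j =>
          lsb l (h ^ (k ^ 2) * z ^ (k * j) * ofLsb ((v.drop (o + i * (q * l) + j * l)).take l) % p)))
        (bs (lsb l (h ^ ((k + 1) ^ 2) % p))) (bs (lsb l (h ^ (2 * (k + 1) + 1) % p)))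
        (bs (lsb l (z ^ (k + 1) % p))) []) (K * (b * (q * (t l + l)))) := by
  obtain ⟨K, hK⟩ := run_rowF hs
  obtain ⟨CR, hR⟩ := run_mulR hs
  refine ⟨K + (CR + (CR + (CR + (CR + 1)))), ?_⟩
  intro s l p z h q b o k v c hc hz hh hq hb hq2 hnc hHH hZT hv
  have hl := hc.l1
  have hp3 := hc.p3
  have hpos : 0 < p := by omega
  have h1 := hK s l p (h ^ (k ^ 2) % p) (z ^ k % p) q b o v c (bs (lsb l (h ^ (2 * k + 1) % p)))
    hc (Nat.mod_lt _ hpos) (Nat.mod_lt _ hpos) hq hb hq2 hnc hv
  have e1 : (fm b fun i => fm q fun j =>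
      lsb l (ofLsb ((v.drop (o + i * (q * l) + j * l)).take l) % p *
        (h ^ (k ^ 2) % p * (z ^ k % p) ^ j % p) % p)) = (fm b fun i => fm q fun j =>
      lsb l (h ^ (k ^ 2) * z ^ (k * j) * ofLsb ((v.drop (o + i * (q * l) + j * l)).take l) % p)) := by
    refine fm_congr fun i _ => fm_congr fun j _ => ?_
    rw [modEntry p _ _ _ j (h ^ (k ^ 2)) (z ^ k) rfl rfl, ← pow_mul]
  rw [e1] at h1
  generalize hout : (fm b fun i => fm q fun j =>
      lsb l (h ^ (k ^ 2) * z ^ (k * j) *
        ofLsb ((v.drop (o + i * (q * l) + j * l)).take l) % p)) = out at h1 ⊢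
  have h2 := hR (St s [] (bs (v.drop (o + b * (q * l)))) (c ++ bs out)
    (bs (lsb l (h ^ (k ^ 2) % p))) (bs (lsb l (h ^ (2 * k + 1) % p))) (bs (lsb l (z ^ k % p))) [])
    l p (h ^ (k ^ 2) % p) (h ^ (2 * k + 1) % p) (ex S0) (ex DD) rfl (by simp) rfl (by simp)
    (by simp) (St_ctx _ _ _ _ _ _ _ hc) (Nat.mod_lt _ hpos) (Nat.mod_lt _ hpos)
    (by rw [St_get_X]) (by rw [St_get_S0]) (by rw [St_get_DD])
  have e2 : h ^ (k ^ 2) % p * (h ^ (2 * k + 1) % p) % p = h ^ ((k + 1) ^ 2) % p := by
    rw [← Nat.mul_mod, ← pow_add]; congr 2; ring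
  rw [St_S0, e2] at h2
  have h3 := hR (St s [] (bs (v.drop (o + b * (q * l)))) (c ++ bs out)
    (bs (lsb l (h ^ ((k + 1) ^ 2) % p))) (bs (lsb l (h ^ (2 * k + 1) % p)))
    (bs (lsb l (z ^ k % p))) [])
    l p (h ^ (2 * k + 1) % p) h (ex DD) (ex HH) rfl (by simp) rfl (by simp)
    (by simp) (St_ctx _ _ _ _ _ _ _ hc) (Nat.mod_lt _ hpos) hh
    (by rw [St_get_X]) (by rw [St_get_DD]) (by rw [St_HH, hHH])
  have e3 : h ^ (2 * k + 1) % p * h % p = h ^ (2 * k + 2) % p := by
    rw [Nat.mod_mul_mod, ← pow_succ]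
  rw [St_DD, e3] at h3
  have h4 := hR (St s [] (bs (v.drop (o + b * (q * l)))) (c ++ bs out)
    (bs (lsb l (h ^ ((k + 1) ^ 2) % p))) (bs (lsb l (h ^ (2 * k + 2) % p)))
    (bs (lsb l (z ^ k % p))) [])
    l p (h ^ (2 * k + 2) % p) h (ex DD) (ex HH) rfl (by simp) rfl (by simp)
    (by simp) (St_ctx _ _ _ _ _ _ _ hc) (Nat.mod_lt _ hpos) hh
    (by rw [St_get_X]) (by rw [St_get_DD]) (by rw [St_HH, hHH])
  have e4 : h ^ (2 * k + 2) % p * h % p = h ^ (2 * (k + 1) + 1) % p := by
    rw [Nat.mod_mul_mod, ← pow_succ]; rfl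
  rw [St_DD, e4] at h4
  have h5 := hR (St s [] (bs (v.drop (o + b * (q * l)))) (c ++ bs out)
    (bs (lsb l (h ^ ((k + 1) ^ 2) % p))) (bs (lsb l (h ^ (2 * (k + 1) + 1) % p)))
    (bs (lsb l (z ^ k % p))) [])
    l p (z ^ k % p) z (ex V) (ex ZT) rfl (by simp) rfl (by simp)
    (by simp) (St_ctx _ _ _ _ _ _ _ hc) (Nat.mod_lt _ hpos) hz
    (by rw [St_get_X]) (by rw [St_get_V]) (by rw [St_ZT, hZT])
  have e5 : z ^ k % p * z % p = z ^ (k + 1) % p := by
    rw [Nat.mod_mul_mod, ← pow_succ]
  rw [St_V, e5] at h5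
  refine (run_sq_cons h1 (run_sq_cons h2 (run_sq_cons h3 (run_sq_cons h4 (run_sq_cons h5
    run_sq_nil))))).mono ?_
  have i1 : 1 * (t l + l) ≤ b * (q * (t l + l)) := by
    calc 1 * (t l + l) = 1 * (1 * (t l + l)) := by ring
      _ ≤ b * (q * (t l + l)) := Nat.mul_le_mul hb (Nat.mul_le_mul_right _ hq)
  have i2 : CR * (t l + l) ≤ CR * (b * (q * (t l + l))) := Nat.mul_le_mul_left _ (by omega)
  simp only [Nat.add_mul, Nat.one_mul] at i1 i2 ⊢
  omega

omit [DecidableEq τ] [DecidableEq κ] in
theorem St_final [DecidableEq τ] [DecidableEq κ] (s : Store (RF τ κ) (Sy α)) (p c : List (Sy α))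
    (hX : s (r X) = []) (hS0 : s (ex S0) = []) (hDD : s (ex DD) = []) (hV : s (ex V) = [])
    (hS : s (ex S) = []) : St s [] p c [] [] [] [] = (s.set (r P) p).set (r C) c := by
  have e : s.set (r X) [] = s := Store.set_eq_self s hX
  unfold St
  rw [e, Store.set_eq_self, Store.set_eq_self, Store.set_eq_self, Store.set_eq_self] <;>
    simp [hS0, hDD, hV, hS]

end

end G5

section
variable {τ κ α : Type} [DecidableEq τ] [DecidableEq κ]
  {sm : Cmd (RF τ κ) (Sy α)} {t : ℕ → ℕ} {C1 : ℕ}
open G5

theorem run_passF2 (hs : SmallSpec sm t C1) : ∃ C0 : ℕ, ∀ (s : Store (RF τ κ) (Sy α))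
    (l p q b z h : ℕ) (v : List Bool), Pctx s l p q b z h → 2 * q * (b * q * l) ≤ v.length →
    s (r P) = bs v → s (r C) = [] →
    Runs (passF2 sm) s ((s.set (r P) (bs (v.drop (2 * q * (b * q * l))))).set (r C)
        (bs (fdata2 q b l p z h v)))
      (C0 * (q * (b * q) * (t l + l))) := by
  obtain ⟨K, hK⟩ := run_rowU hs
  refine ⟨K + 60, ?_⟩
  intro s l p q b z h v hp hv hP hC
  have hl := hp.ctx.l1
  have hp3 := hp.ctx.p3
  have hq : 1 ≤ q := by have := hp.root.hq; omega
  have hb := hp.b1
  have e0 : s = St s [] (bs v) [] [] [] [] [] := by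
    rw [St_final s _ _ hp.X hp.S0 hp.DD hp.V hp.S, Store.set_eq_self s hP,
      Store.set_eq_self s hC]
  have h1 := run_skipF (s := St s [] (bs v) [] [] [] [] []) (q := q) (b := b) (l := l) hq hb hl
    (by rw [St_gq1]; exact hp.q1) (by rw [St_gq2]; exact hp.q2) (by rw [St_gnc]; exact hp.nc)
    (by rw [St_nL]; exact hp.ctx.nL)
  have e1 : (bs v : List (Sy α)).drop (q * (b * q * l)) = bs (v.drop (q * (b * q * l))) := by
    simp [bs]
  rw [St_get_P, St_P, e1] at h1
  have h2 := run_cpL (nl := ex nL) (a := ex ONE) (b := ex S0) (by simp) (by simp) (by simp)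
    (s := St s [] (bs (v.drop (q * (b * q * l)))) [] [] [] [] [])
    (l := l) (x := bs (lsb l 1)) (by rw [St_nL]; exact hp.ctx.nL) (by rw [St_ONE]; exact hp.ONE)
    (by simp [lsb]) (by rw [St_get_S0])
  rw [St_S0] at h2
  have h3 := run_cpL (nl := ex nL) (a := ex HH) (b := ex DD) (by simp) (by simp) (by simp)
    (s := St s [] (bs (v.drop (q * (b * q * l)))) [] (bs (lsb l 1)) [] [] [])
    (l := l) (x := bs (lsb l h)) (by rw [St_nL]; exact hp.ctx.nL) (by rw [St_HH]; exact hp.HH)
    (by simp [lsb]) (by rw [St_get_DD])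
  rw [St_DD] at h3
  have h4 := run_cpL (nl := ex nL) (a := ex ONE) (b := ex V) (by simp) (by simp) (by simp)
    (s := St s [] (bs (v.drop (q * (b * q * l)))) [] (bs (lsb l 1)) (bs (lsb l h)) [] [])
    (l := l) (x := bs (lsb l 1)) (by rw [St_nL]; exact hp.ctx.nL) (by rw [St_ONE]; exact hp.ONE)
    (by simp [lsb]) (by rw [St_get_V])
  rw [St_V] at h4
  have h5 := Runs.forN (c := r q1) (body := sq [
      forN (ex nc) (sq [
        cpL (ex nL) (ex S0) (ex S),
        forN (.r .q2) (sq [
          moveN (ex nL) (.r .P) (.r .X), redX sm, mulX sm (ex S), mvAll (.r .X) (.r .C),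
          mulR sm (ex S) (ex V)]),
        clr (ex S)]),
      mulR sm (ex S0) (ex DD), mulR sm (ex DD) (ex HH), mulR sm (ex DD) (ex HH),
      mulR sm (ex V) (ex ZT)]) q
    (fun k => St s [] (bs (v.drop (q * (b * q * l) + k * (b * (q * l)))))
      (bs (fm k fun k' => fm b fun c => fm q fun j =>
        lsb l ((h ^ (k' ^ 2) * z ^ (k' * j) * ofLsb (fslot q b l v k' c j)) % p)))
      (bs (lsb l (h ^ (k ^ 2) % p))) (bs (lsb l (h ^ (2 * k + 1) % p))) (bs (lsb l (z ^ k % p))) [])
    (K * (b * (q * (t l + l))))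
    (by intro i; rw [St_gq1]; exact hp.q1)
    (by
      intro k hk x
      have hle : (k + 1) * (b * (q * l)) ≤ q * (b * (q * l)) := Nat.mul_le_mul_right _ hk
      have hle2 : (k + 1) * (b * (q * l)) = k * (b * (q * l)) + b * (q * l) := by ring
      have hle3 : 2 * q * (b * q * l) = q * (b * q * l) + q * (b * (q * l)) := by ring
      have hrun := hK (s.set (r q1) x) l p z h q b (q * (b * q * l) + k * (b * (q * l))) k v
        (bs (fm k fun k' => fm b fun c => fm q fun j =>
          lsb l ((h ^ (k' ^ 2) * z ^ (k' * j) * ofLsb (fslot q b l v k' c j)) % p)))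
        (hp.ctx.set rfl x) hp.root.zlt hp.root.hlt hq hb (by simpa using hp.q2)
        (by simpa using hp.nc) (by simpa using hp.HH) (by simpa using hp.ZT) (by omega)
      have eo : q * (b * q * l) + (k + 1) * (b * (q * l)) =
        q * (b * q * l) + k * (b * (q * l)) + b * (q * l) := by ring
      have es : (fm b fun i => fm q fun j => lsb l (h ^ (k ^ 2) * z ^ (k * j) *
          ofLsb ((v.drop (q * (b * q * l) + k * (b * (q * l)) + i * (q * l) + j * l)).take l) %
            p)) = (fm b fun c => fm q fun j =>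
          lsb l ((h ^ (k ^ 2) * z ^ (k * j) * ofLsb (fslot q b l v k c j)) % p)) := by
        refine fm_congr fun i _ => fm_congr fun j _ => ?_
        have : q * (b * q * l) + k * (b * (q * l)) + i * (q * l) + j * l
          = (((q + k) * b + i) * q + j) * l := by ring
        rw [this]
        rfl
      rw [← eo, ← bs_append, es, ← fm_succ k (fun k' => fm b fun c => fm q fun j =>
          lsb l ((h ^ (k' ^ 2) * z ^ (k' * j) * ofLsb (fslot q b l v k' c j)) % p))] at hrun
      rw [St_q1, St_q1]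
      exact hrun)
  have e5 : 1 % p = 1 := Nat.mod_eq_of_lt (by omega)
  have e6 : h % p = h := Nat.mod_eq_of_lt hp.root.hlt
  simp only [Nat.zero_mul, Nat.add_zero, fm_zero, bs_nil, Nat.mul_zero, Nat.zero_add, pow_zero,
    pow_one, ne_eq, OfNat.ofNat_ne_zero, not_false_eq_true, zero_pow, e5, e6] at h5
  have e7 : q * (b * q * l) + q * (b * (q * l)) = 2 * q * (b * q * l) := by ring
  rw [e7] at h5
  have ef : (fm q fun k' => fm b fun c => fm q fun j =>
          lsb l ((h ^ (k' ^ 2) * z ^ (k' * j) * ofLsb (fslot q b l v k' c j)) % p)) =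
      fdata2 q b l p z h v := rfl
  rw [ef] at h5
  have h6 := run_clr (a := ex S0) (s := St s [] (bs (v.drop (2 * q * (b * q * l))))
      (bs (fdata2 q b l p z h v))
      (bs (lsb l (h ^ (q ^ 2) % p))) (bs (lsb l (h ^ (2 * q + 1) % p))) (bs (lsb l (z ^ q % p))) [])
  rw [St_S0, St_get_S0] at h6
  have h7 := run_clr (a := ex DD) (s := St s [] (bs (v.drop (2 * q * (b * q * l))))
      (bs (fdata2 q b l p z h v)) [] (bs (lsb l (h ^ (2 * q + 1) % p))) (bs (lsb l (z ^ q % p))) [])
  rw [St_DD, St_get_DD] at h7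
  have h8 := run_clr (a := ex V) (s := St s [] (bs (v.drop (2 * q * (b * q * l))))
      (bs (fdata2 q b l p z h v)) [] [] (bs (lsb l (z ^ q % p))) [])
  rw [St_V, St_get_V, St_final s _ _ hp.X hp.S0 hp.DD hp.V hp.S] at h8
  rw [← e0] at h1
  refine (run_sq_cons h1 (run_sq_cons h2 (run_sq_cons h3 (run_sq_cons h4 (run_sq_cons h5
    (run_sq_cons h6 (run_sq_cons h7 (run_sq_cons h8 run_sq_nil)))))))).mono ?_
  have len : ∀ w, (bs (lsb l w) : List (Sy α)).length = l := by intro w; simp [lsb]
  rw [len, len, len]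
  have hW : l ≤ t l + l := by omega
  have hqq : 1 ≤ q * (b * q) := Nat.mul_pos hq (Nat.mul_pos hb hq)
  have i1 : q * (b * q * l) ≤ q * (b * q) * (t l + l) := by
    calc q * (b * q * l) = q * (b * q) * l := by ring
      _ ≤ _ := Nat.mul_le_mul_left _ hW
  have i2 : l ≤ q * (b * q) * (t l + l) := by
    calc l ≤ 1 * (t l + l) := by omega
      _ ≤ _ := Nat.mul_le_mul_right _ hqq
  have i3 : q * 1 ≤ q * (b * q) * (t l + l) := by
    rw [Nat.mul_assoc]
    exact Nat.mul_le_mul_left _ (Nat.mul_pos (Nat.mul_pos hb hq) (by omega))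
  have i4 : q * (K * (b * (q * (t l + l))) + 2) + 2 = K * (q * (b * q) * (t l + l)) +
    2 * (q * 1) + 2 := by ring
  rw [i4, Nat.add_mul K 60]
  omega

end

end Vale.Agent.P338
end

section

/-! Skipping half of a product, and reading the slots of the other half. -/

namespace Vale.Agent.P338
open Reg R Ex

section
variable {ι α : Type} [DecidableEq ι]

/-- A loop whose body drops `M` symbols of `a`. -/
theorem run_forDrop {c a : ι} {body : Cmd ι (Sy α)} (hca : c ≠ a) {s : Store ι (Sy α)}
    {N M K : ℕ} (hc : s c = num N)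
    (hb : ∀ v y, Runs body ((s.set a v).set c y) ((s.set a (v.drop M)).set c y) K) :
    Runs (forN c body) s (s.set a ((s a).drop (N * M))) (N * (K + 2) + 2) := by
  have key := Runs.forN (c := c) (body := body) N (fun i => s.set a ((s a).drop (i * M))) K
    (by intro i; simp [hca, hc])
    (by
      intro i _ y
      have := hb ((s a).drop (i * M)) y
      rw [List.drop_drop] at this
      rw [Nat.succ_mul]
      exact this)
  simp only [Nat.zero_mul, List.drop_zero, Store.set_self] at key
  exact key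

end

section
variable {τ κ α : Type} [DecidableEq τ] [DecidableEq κ]

theorem run_skipF {s : Store (RF τ κ) (Sy α)} {q b l : ℕ} (hq : 1 ≤ q) (hb : 1 ≤ b)
    (hl : 1 ≤ l) (hq1 : s (r q1) = num q) (hq2 : s (r q2) = num q) (hnc : s (ex nc) = num b)
    (hnL : s (ex nL) = num l) :
    Runs skipF s (s.set (r P) ((s (r P)).drop (q * (b * q * l)))) (20 * (q * (b * (q * l)))) := by
  have h1 : ∀ s : Store (RF τ κ) (Sy α), s (ex nL) = num l → s (r q2) = num q →
      Runs (forN (r q2) (dropN 1 (ex nL) (r P))) s (s.set (r P) ((s (r P)).drop (q * l)))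
        (q * (l * 4 + 4) + 2) := by
    intro s h1 h2
    refine (run_forDrop (by simp) h2 (K := l * 4 + 2) fun v y => ?_).mono (by ring_nf; omega)
    have := run_dropN (k := 1) (c := ex nL) (a := r P) (by simp)
      (s := (s.set (r P) v).set (r q2) y) (N := l) (by simp [h1])
    refine Runs.cast this ?_ (by omega)
    rw [Store.set_ne _ _ (by simp), Store.set_same, Nat.one_mul,
      Store.set_comm _ _ _ (by simp), Store.set_set]
  have h2 : ∀ s : Store (RF τ κ) (Sy α), s (ex nL) = num l → s (r q2) = num q →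
      s (ex nc) = num b →
      Runs (forN (ex nc) (forN (r q2) (dropN 1 (ex nL) (r P)))) s
        (s.set (r P) ((s (r P)).drop (b * (q * l)))) (b * (q * (l * 4 + 4) + 4) + 2) := by
    intro s g1 g2 g3
    refine (run_forDrop (by simp) g3 (K := q * (l * 4 + 4) + 2) fun v y => ?_).mono
      (by ring_nf; omega)
    refine Runs.cast (h1 ((s.set (r P) v).set (ex nc) y) (by simp [g1]) (by simp [g2])) ?_ le_rfl
    rw [Store.set_ne _ _ (by simp), Store.set_same,
      Store.set_comm _ _ _ (by simp), Store.set_set]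
  have h3 := run_forDrop (c := r q1) (a := r P)
    (body := forN (ex nc) (forN (r q2) (dropN 1 (ex nL) (r P)))) (by simp) hq1
    (M := b * (q * l)) (K := b * (q * (l * 4 + 4) + 4) + 2) (by
      intro v y
      refine Runs.cast (h2 ((s.set (r P) v).set (r q1) y) (by simp [hnL]) (by simp [hq2])
        (by simp [hnc])) ?_ le_rfl
      rw [Store.set_ne _ _ (by simp), Store.set_same,
        Store.set_comm _ _ _ (by simp), Store.set_set])
  refine Runs.cast h3 (by rw [Nat.mul_assoc b q l]) ?_
  have e1 : q * (b * (q * (l * 4 + 4) + 4) + 2 + 2) =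
      4 * (q * (b * (q * l))) + 4 * (q * (b * q)) + 4 * (q * b) + 4 * q := by ring
  have e2 : q * (b * q) ≤ q * (b * (q * l)) :=
    Nat.mul_le_mul_left _ (Nat.mul_le_mul_left _ (Nat.le_mul_of_pos_right _ hl))
  have e3 : q * b ≤ q * (b * q) := Nat.mul_le_mul_left _ (Nat.le_mul_of_pos_right _ hq)
  have e4 : q ≤ q * b := Nat.le_mul_of_pos_right _ hb
  rw [e1]
  omega

/-- The position of a slot in the product. -/
def fpos (q b l k c j : ℕ) : ℕ := (((q + k) * b + c) * q + j) * l

theorem fpos_zero (q b l : ℕ) : fpos q b l 0 0 0 = q * (b * q * l) := by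
  simp [fpos]; ring

theorem fpos_succ (q b l k c j : ℕ) : fpos q b l k c (j + 1) = fpos q b l k c j + l := by
  unfold fpos; ring

theorem fpos_q (q b l k c : ℕ) : fpos q b l k c q = fpos q b l k (c + 1) 0 := by
  unfold fpos; ring

theorem fpos_b (q b l k : ℕ) : fpos q b l k b 0 = fpos q b l (k + 1) 0 0 := by
  unfold fpos; ring

theorem fpos_end (q b l : ℕ) : fpos q b l q 0 0 = 2 * q * (b * q * l) := by
  unfold fpos; ring

theorem fpos_le {q b l k c j : ℕ} (hk : k < q) (hc : c < b) (hj : j < q) :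
    fpos q b l k c j + l ≤ 2 * q * (b * q * l) := by
  have h1 : ((q + k) * b + c) * q + (j + 1) ≤ 2 * q * (b * q) := by
    have h2 : (q + k) * b + (c + 1) ≤ 2 * q * b := by
      have h3 : q + (k + 1) ≤ 2 * q := by omega
      calc (q + k) * b + (c + 1) ≤ (q + k) * b + b := by omega
        _ = (q + (k + 1)) * b := by ring
        _ ≤ 2 * q * b := Nat.mul_le_mul_right _ h3
    calc ((q + k) * b + c) * q + (j + 1) ≤ ((q + k) * b + c) * q + q := by omega
      _ = ((q + k) * b + (c + 1)) * q := by ring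
      _ ≤ 2 * q * b * q := Nat.mul_le_mul_right _ h2
      _ = 2 * q * (b * q) := by ring
  calc fpos q b l k c j + l = (((q + k) * b + c) * q + (j + 1)) * l := by unfold fpos; ring
    _ ≤ 2 * q * (b * q) * l := Nat.mul_le_mul_right _ h1
    _ = 2 * q * (b * q * l) := by ring

theorem fslot_len3 {q b l k c j : ℕ} {v : List Bool} (hv : 2 * q * (b * q * l) ≤ v.length)
    (hk : k < q) (hc : c < b) (hj : j < q) : (fslot q b l v k c j).length = l := by
  have := fpos_le (l := l) hk hc hj
  unfold fpos at this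
  unfold fslot
  rw [List.length_take, List.length_drop]
  omega

theorem fslot_split (q b l k c j : ℕ) (v : List Bool) :
    (bs (v.drop (fpos q b l k c j)) : List (Sy α)) =
      bs (fslot q b l v k c j) ++ bs (v.drop (fpos q b l k c (j + 1))) := by
  rw [← bs_append, fpos_succ]
  congr 1
  unfold fslot fpos
  rw [← List.drop_drop, List.take_append_drop]

end

end Vale.Agent.P338
end
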