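import Vale.Agent.P338.Bdl.B6
import Vale.Agent.P338.Bdl.B4
import Vale.Agent.P338.Bdl.B8
import Vale.Agent.P338.Bdl.B5
import Vale.Agent.P338.Bdl.B7
import Vale.Agent.P338.Bdl.B2

set_option linter.all false

section

/-! Correctness and cost of the second pass. -/

namespace Vale.Agent.P338
open Reg R

section
variable {τ α : Type} [DecidableEq τ]

/-- The store `s` with the registers used by the second pass overwritten. -/
def W2 (s : Store (Reg τ) (Sy α)) (x p c h h3 a1 a2 : List (Sy α)) : Store (Reg τ) (Sy α)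
  | .r .X => x
  | .r .P => p
  | .r .C => c
  | .r .H => h
  | .r .H3 => h3
  | .r .A1 => a1
  | .r .A2 => a2
  | i => s i

section W2
variable (s : Store (Reg τ) (Sy α)) (x p c h h3 a1 a2 v : List (Sy α))

theorem W2_X : (W2 s x p c h h3 a1 a2).set (r X) v = W2 s v p c h h3 a1 a2 := by
  funext i; rcases i with i | i | i
  · cases i <;> simp [Store.set, W2]
  · simp [Store.set, W2]
  · simp [Store.set, W2]

theorem W2_P : (W2 s x p c h h3 a1 a2).set (r P) v = W2 s x v c h h3 a1 a2 := by
  funext i; rcases i with i | i | i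
  · cases i <;> simp [Store.set, W2]
  · simp [Store.set, W2]
  · simp [Store.set, W2]

theorem W2_C : (W2 s x p c h h3 a1 a2).set (r C) v = W2 s x p v h h3 a1 a2 := by
  funext i; rcases i with i | i | i
  · cases i <;> simp [Store.set, W2]
  · simp [Store.set, W2]
  · simp [Store.set, W2]

theorem W2_H : (W2 s x p c h h3 a1 a2).set (r H) v = W2 s x p c v h3 a1 a2 := by
  funext i; rcases i with i | i | i
  · cases i <;> simp [Store.set, W2]
  · simp [Store.set, W2]
  · simp [Store.set, W2]

theorem W2_H3 : (W2 s x p c h h3 a1 a2).set (r H3) v = W2 s x p c h v a1 a2 := by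
  funext i; rcases i with i | i | i
  · cases i <;> simp [Store.set, W2]
  · simp [Store.set, W2]
  · simp [Store.set, W2]

theorem W2_A1 : (W2 s x p c h h3 a1 a2).set (r A1) v = W2 s x p c h h3 v a2 := by
  funext i; rcases i with i | i | i
  · cases i <;> simp [Store.set, W2]
  · simp [Store.set, W2]
  · simp [Store.set, W2]

theorem W2_A2 : (W2 s x p c h h3 a1 a2).set (r A2) v = W2 s x p c h h3 a1 v := by
  funext i; rcases i with i | i | i
  · cases i <;> simp [Store.set, W2]
  · simp [Store.set, W2]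
  · simp [Store.set, W2]

theorem W2_q1 : (W2 s x p c h h3 a1 a2).set (r q1) v = W2 (s.set (r q1) v) x p c h h3 a1 a2 := by
  funext i; rcases i with i | i | i
  · cases i <;> simp [Store.set, W2]
  · simp [Store.set, W2]
  · simp [Store.set, W2]

theorem W2_q2 : (W2 s x p c h h3 a1 a2).set (r q2) v = W2 (s.set (r q2) v) x p c h h3 a1 a2 := by
  funext i; rcases i with i | i | i
  · cases i <;> simp [Store.set, W2]
  · simp [Store.set, W2]
  · simp [Store.set, W2]

theorem W2_nA : (W2 s x p c h h3 a1 a2).set (r nA) v = W2 (s.set (r nA) v) x p c h h3 a1 a2 := by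
  funext i; rcases i with i | i | i
  · cases i <;> simp [Store.set, W2]
  · simp [Store.set, W2]
  · simp [Store.set, W2]

end W2

/-- Processing of one slot. -/
theorem run_slot2 {s : Store (Reg τ) (Sy α)} {E m d : ℕ} {V : List Bool}
    {rest c h a1 : List (Sy α)} (hE1 : 1 ≤ E) (hE : s (r nE) = num E) (hCY : s (r CY) = [])
    (hH2 : s (r H2) = []) (hV : V.length = 8 * E) (hd : d ≤ 2 * E)
    (hlen : (fold4 (2 * E) V).length = 2 * E) :
    Runs (sq [foldP, rotH (.r .H3), rotN (.r .A2) (.r .H3), outX])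
      (W2 s [] (bs V ++ rest) c h (bs ((onehot (2 * E)).rotate m)) a1 (num d))
      (W2 s [] rest (c ++ bs (rr m (fold4 (2 * E) V) ++ zeros (6 * E))) h
        (bs ((onehot (2 * E)).rotate (m + d))) a1 (num d)) (700 * E) := by
  have h1 := run_foldP (s := W2 s [] (bs V ++ rest) c h (bs ((onehot (2 * E)).rotate m)) a1 (num d))
    (E := E) (V := V) (rest := rest) hE rfl hCY rfl hV
  rw [W2_X, W2_P] at h1
  have h2 := run_rotH (a := r H3) (by simp) (by simp) (by simp)
    (s := W2 s (bs (fold4 (2 * E) V)) rest c h (bs ((onehot (2 * E)).rotate m)) a1 (num d))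
    (E := E) (m := m) (x := fold4 (2 * E) V) hE hE1 hH2 rfl rfl hlen
  rw [W2_X] at h2
  have h3 := run_rotN (c := r A2) (a := r H3) (by simp)
    (s := W2 s (bs (rr m (fold4 (2 * E) V))) rest c h (bs ((onehot (2 * E)).rotate m)) a1 (num d))
    (N := d) rfl
  rw [W2_H3] at h3
  have e3 : (W2 s (bs (rr m (fold4 (2 * E) V))) rest c h (bs ((onehot (2 * E)).rotate m)) a1
      (num d)) (r H3) = bs ((onehot (2 * E)).rotate m) := rfl
  have e4 : (bs ((onehot (2 * E)).rotate m) : List (Sy α)).rotate d
      = bs ((onehot (2 * E)).rotate (m + d)) := by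
    simp [bs, List.map_rotate, List.rotate_rotate]
  rw [e3, e4] at h3
  have h4 := run_outX
    (s := W2 s (bs (rr m (fold4 (2 * E) V))) rest c h (bs ((onehot (2 * E)).rotate (m + d))) a1
      (num d)) (E := E) (x := rr m (fold4 (2 * E) V)) hE rfl (by simp [rr, hlen])
  rw [W2_X, W2_C] at h4
  exact (run_sq_cons h1 (run_sq_cons h2 (run_sq_cons h3 (run_sq_cons h4 run_sq_nil)))).cast rfl
    (by omega)

omit [DecidableEq τ] in
theorem p2_addc_length (x y : List Bool) (c : Bool) :
    (addc x y c).1.length = min x.length y.length := by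
  induction x generalizing y c with
  | nil => rw [addc_nil]; simp
  | cons a x ih =>
    cases y with
    | nil => rw [addc_nil_right]; simp
    | cons b y => rw [addc_cons]; simp [ih]

omit [DecidableEq τ] in
theorem p2_fold4_length {m : ℕ} {V : List Bool} (hV : V.length = 4 * m) :
    (fold4 m V).length = m := by
  simp only [fold4, p2_addc_length, zeros_length, List.length_take, List.length_drop, hV]
  omega

omit [DecidableEq τ] in
theorem p2_bs_drop (p : List Bool) (o w : ℕ) :
    (bs (p.drop o) : List (Sy α)) = bs ((p.drop o).take w) ++ bs (p.drop (o + w)) := by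
  rw [← bs_append, ← List.drop_drop, List.take_append_drop]

/-- One row of slots of the second pass. -/
theorem run_slots2 {s : Store (Reg τ) (Sy α)} {E m d q o : ℕ} {p : List Bool}
    {c : List (Sy α)} {h a1 : List (Sy α)} (hE1 : 1 ≤ E) (hE : s (r nE) = num E)
    (hCY : s (r CY) = []) (hH2 : s (r H2) = []) (hq2 : s (r q2) = num q) (hd : d ≤ 2 * E)
    (hp : o + q * (8 * E) ≤ p.length) :
    Runs (forN (.r .q2) (sq [foldP, rotH (.r .H3), rotN (.r .A2) (.r .H3), outX]))
      (W2 s [] (bs (p.drop o)) c h (bs ((onehot (2 * E)).rotate m)) a1 (num d))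
      (W2 s [] (bs (p.drop (o + q * (8 * E)))) (c ++ bs (fm q fun j =>
          rr (m + j * d) (fold4 (2 * E) ((p.drop (o + j * (8 * E))).take (8 * E))) ++
            zeros (6 * E))) h
        (bs ((onehot (2 * E)).rotate (m + q * d))) a1 (num d)) (q * (702 * E) + 2) := by
  have key := Runs.forN (c := r q2)
    (body := sq [foldP, rotH (.r .H3), rotN (.r .A2) (.r .H3), outX]) q
    (fun i => W2 s [] (bs (p.drop (o + i * (8 * E)))) (c ++ bs (fm i fun j =>
          rr (m + j * d) (fold4 (2 * E) ((p.drop (o + j * (8 * E))).take (8 * E))) ++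
            zeros (6 * E))) h
        (bs ((onehot (2 * E)).rotate (m + i * d))) a1 (num d)) (700 * E)
    (fun i => hq2)
    (by
      intro i hi x
      have hle : (i + 1) * (8 * E) ≤ q * (8 * E) := Nat.mul_le_mul_right _ hi
      have hle2 : (i + 1) * (8 * E) = i * (8 * E) + 8 * E := by ring
      have hV : ((p.drop (o + i * (8 * E))).take (8 * E)).length = 8 * E := by
        rw [List.length_take, List.length_drop]; omega
      have h1 := run_slot2 (s := s.set (r q2) x) (E := E) (m := m + i * d) (d := d)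
        (V := (p.drop (o + i * (8 * E))).take (8 * E))
        (rest := bs (p.drop (o + (i + 1) * (8 * E))))
        (c := c ++ bs (fm i fun j =>
          rr (m + j * d) (fold4 (2 * E) ((p.drop (o + j * (8 * E))).take (8 * E))) ++
            zeros (6 * E))) (h := h) (a1 := a1) hE1 (by simpa using hE) (by simpa using hCY)
        (by simpa using hH2) hV hd (p2_fold4_length (by omega))
      have eo : o + (i + 1) * (8 * E) = o + i * (8 * E) + 8 * E := by ring
      have em : m + i * d + d = m + (i + 1) * d := by ring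
      rw [eo, ← p2_bs_drop, List.append_assoc, ← bs_append, em, ← eo, ← fm_succ i (fun j =>
          rr (m + j * d) (fold4 (2 * E) ((p.drop (o + j * (8 * E))).take (8 * E))) ++
            zeros (6 * E))] at h1
      rw [W2_q2, W2_q2]
      exact h1)
  simp only [Nat.zero_mul, Nat.add_zero, fm_zero, bs_nil, List.append_nil] at key
  refine key.mono ?_
  have : q * 1 ≤ q * E := Nat.mul_le_mul_left _ hE1
  nlinarith

/-- One row of the second pass. -/
theorem run_row2 {s : Store (Reg τ) (Sy α)} {E e m d a q o : ℕ} {p : List Bool}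
    {c : List (Sy α)} (hE1 : 1 ≤ E) (hq : 1 ≤ q) (_heE : e ≤ E) (hE : s (r nE) = num E)
    (he : s (r ne) = num e) (hCY : s (r CY) = []) (hH2 : s (r H2) = []) (hq2 : s (r q2) = num q)
    (hd : d ≤ 2 * E) (hd2 : 2 * e ≤ d) (ha : a ≤ 6 * E) (hp : o + q * (8 * E) ≤ p.length) :
    Runs (sq [
      cpy2 (.r .nE) (.r .H) (.r .H3),
      forN (.r .q2) (sq [foldP, rotH (.r .H3), rotN (.r .A2) (.r .H3), outX]),
      clr (.r .H3),
      rotN (.r .A1) (.r .H), addC 4 (.r .ne) (.r .A1), subC 2 (.r .ne) (.r .A2)])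
      (W2 s [] (bs (p.drop o)) c (bs ((onehot (2 * E)).rotate m)) [] (num a) (num d))
      (W2 s [] (bs (p.drop (o + q * (8 * E)))) (c ++ bs (fm q fun j =>
          rr (m + j * d) (fold4 (2 * E) ((p.drop (o + j * (8 * E))).take (8 * E))) ++
            zeros (6 * E)))
        (bs ((onehot (2 * E)).rotate (m + a))) [] (num (a + 4 * e)) (num (d - 2 * e)))
      (800 * (q * E)) := by
  have hoh : ∀ k, ((bs ((onehot (2 * E)).rotate k) : List (Sy α))).length = 2 * E := by
    intro k
    simp [onehot]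
    omega
  have h1 := run_cpy2 (c := r nE) (a := r H) (b := r H3) (by simp) (by simp) (by simp)
    (s := W2 s [] (bs (p.drop o)) c (bs ((onehot (2 * E)).rotate m)) [] (num a) (num d))
    (N := E) hE (hoh m)
  rw [W2_H3] at h1
  have e1 : (W2 s [] (bs (p.drop o)) c (bs ((onehot (2 * E)).rotate m)) [] (num a) (num d))
      (r H3) ++ (W2 s [] (bs (p.drop o)) c (bs ((onehot (2 * E)).rotate m)) [] (num a) (num d))
      (r H) = bs ((onehot (2 * E)).rotate m) := rfl
  rw [e1] at h1
  have h2 := run_slots2 (s := s) (E := E) (m := m) (d := d) (q := q) (o := o) (p := p) (c := c)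
    (h := bs ((onehot (2 * E)).rotate m)) (a1 := num a) hE1 hE hCY hH2 hq2 hd hp
  have h3 := run_clr (a := r H3)
    (s := W2 s [] (bs (p.drop (o + q * (8 * E)))) (c ++ bs (fm q fun j =>
          rr (m + j * d) (fold4 (2 * E) ((p.drop (o + j * (8 * E))).take (8 * E))) ++
            zeros (6 * E))) (bs ((onehot (2 * E)).rotate m))
        (bs ((onehot (2 * E)).rotate (m + q * d))) (num a) (num d))
  rw [W2_H3] at h3
  have e3 : ((W2 s [] (bs (p.drop (o + q * (8 * E)))) (c ++ bs (fm q fun j =>
          rr (m + j * d) (fold4 (2 * E) ((p.drop (o + j * (8 * E))).take (8 * E))) ++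
            zeros (6 * E))) (bs ((onehot (2 * E)).rotate m))
        (bs ((onehot (2 * E)).rotate (m + q * d))) (num a) (num d)) (r H3)).length = 2 * E :=
    hoh _
  rw [e3] at h3
  have h4 := run_rotN (c := r A1) (a := r H) (by simp)
    (s := W2 s [] (bs (p.drop (o + q * (8 * E)))) (c ++ bs (fm q fun j =>
          rr (m + j * d) (fold4 (2 * E) ((p.drop (o + j * (8 * E))).take (8 * E))) ++
            zeros (6 * E))) (bs ((onehot (2 * E)).rotate m)) [] (num a) (num d)) (N := a) rfl
  rw [W2_H] at h4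
  have e4 : ((W2 s [] (bs (p.drop (o + q * (8 * E)))) (c ++ bs (fm q fun j =>
          rr (m + j * d) (fold4 (2 * E) ((p.drop (o + j * (8 * E))).take (8 * E))) ++
            zeros (6 * E))) (bs ((onehot (2 * E)).rotate m)) [] (num a) (num d)) (r H)).rotate a
      = bs ((onehot (2 * E)).rotate (m + a)) := by
    have : ((bs ((onehot (2 * E)).rotate m) : List (Sy α))).rotate a
      = bs ((onehot (2 * E)).rotate (m + a)) := by
      simp [bs, List.map_rotate, List.rotate_rotate]
    exact this
  rw [e4] at h4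
  have h5 := run_addC (k := 4) (d := r ne) (c := r A1) (by simp)
    (s := W2 s [] (bs (p.drop (o + q * (8 * E)))) (c ++ bs (fm q fun j =>
          rr (m + j * d) (fold4 (2 * E) ((p.drop (o + j * (8 * E))).take (8 * E))) ++
            zeros (6 * E))) (bs ((onehot (2 * E)).rotate (m + a))) [] (num a) (num d))
    (N := e) (m := a) he rfl
  rw [W2_A1] at h5
  have h6 := run_subC (k := 2) (d := r ne) (c := r A2) (by simp)
    (s := W2 s [] (bs (p.drop (o + q * (8 * E)))) (c ++ bs (fm q fun j =>
          rr (m + j * d) (fold4 (2 * E) ((p.drop (o + j * (8 * E))).take (8 * E))) ++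
            zeros (6 * E))) (bs ((onehot (2 * E)).rotate (m + a))) [] (num (a + 4 * e)) (num d))
    (N := e) (m := d) he rfl hd2
  rw [W2_A2] at h6
  refine (run_sq_cons h1 (run_sq_cons h2 (run_sq_cons h3 (run_sq_cons h4 (run_sq_cons h5
    (run_sq_cons h6 run_sq_nil)))))).cast rfl ?_
  have h7 : 1 * E ≤ q * E := Nat.mul_le_mul_right _ hq
  have h8 : q * (702 * E) = 702 * (q * E) := by ring
  omega

/-- The rows of a block of the second pass. -/
theorem run_rows2 {s : Store (Reg τ) (Sy α)} {e q o : ℕ} {p : List Bool}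
    {c : List (Sy α)} (hq : 1 ≤ q) (he1 : 1 ≤ e) (hE : s (r nE) = num (q * e))
    (he : s (r ne) = num e) (hCY : s (r CY) = []) (hH2 : s (r H2) = []) (hq1 : s (r q1) = num q)
    (hq2 : s (r q2) = num q) (hp : o + q * (q * (8 * (q * e))) ≤ p.length) :
    Runs (forN (.r .q1) (sq [
      cpy2 (.r .nE) (.r .H) (.r .H3),
      forN (.r .q2) (sq [foldP, rotH (.r .H3), rotN (.r .A2) (.r .H3), outX]),
      clr (.r .H3),
      rotN (.r .A1) (.r .H), addC 4 (.r .ne) (.r .A1), subC 2 (.r .ne) (.r .A2)]))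
      (W2 s [] (bs (p.drop o)) c (bs (onehot (2 * (q * e)))) [] (num (2 * e)) (num (2 * (q * e))))
      (W2 s [] (bs (p.drop (o + q * (q * (8 * (q * e)))))) (c ++ bs (fm q fun k => fm q fun j =>
          rr (2 * e * k ^ 2 + 2 * e * (q - k) * j)
            (fold4 (2 * (q * e)) ((p.drop (o + k * (q * (8 * (q * e))) +
              j * (8 * (q * e)))).take (8 * (q * e)))) ++ zeros (6 * (q * e))))
        (bs ((onehot (2 * (q * e))).rotate (2 * e * q ^ 2))) []
        (num (2 * e + 4 * e * q)) (num 0))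
      (900 * (q * (q * (q * e)))) := by
  have hE1 : 1 ≤ q * e := Nat.mul_pos hq he1
  have key := Runs.forN (c := r q1)
    (body := sq [
      cpy2 (.r .nE) (.r .H) (.r .H3),
      forN (.r .q2) (sq [foldP, rotH (.r .H3), rotN (.r .A2) (.r .H3), outX]),
      clr (.r .H3),
      rotN (.r .A1) (.r .H), addC 4 (.r .ne) (.r .A1), subC 2 (.r .ne) (.r .A2)]) q
    (fun i => W2 s [] (bs (p.drop (o + i * (q * (8 * (q * e)))))) (c ++ bs (fm i fun k =>
          fm q fun j =>
          rr (2 * e * k ^ 2 + 2 * e * (q - k) * j)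
            (fold4 (2 * (q * e)) ((p.drop (o + k * (q * (8 * (q * e))) +
              j * (8 * (q * e)))).take (8 * (q * e)))) ++ zeros (6 * (q * e))))
        (bs ((onehot (2 * (q * e))).rotate (2 * e * i ^ 2))) []
        (num (2 * e + 4 * e * i)) (num (2 * e * (q - i)))) (800 * (q * (q * e)))
    (fun i => hq1)
    (by
      intro i hi x
      have hle : (i + 1) * (q * (8 * (q * e))) ≤ q * (q * (8 * (q * e))) :=
        Nat.mul_le_mul_right _ hi
      have hle2 : (i + 1) * (q * (8 * (q * e))) = i * (q * (8 * (q * e))) + q * (8 * (q * e)) := by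
        ring
      have hd1 : 2 * e * (q - i) ≤ 2 * (q * e) := by
        calc 2 * e * (q - i) ≤ 2 * e * q := Nat.mul_le_mul_left _ (Nat.sub_le _ _)
          _ = 2 * (q * e) := by ring
      have hd2 : 2 * e ≤ 2 * e * (q - i) := Nat.le_mul_of_pos_right _ (by omega)
      have ha : 2 * e + 4 * e * i ≤ 6 * (q * e) := by
        have h1 : e * i ≤ e * q := Nat.mul_le_mul_left _ hi.le
        have h2 : e * 1 ≤ e * q := Nat.mul_le_mul_left _ hq
        have h3 : q * e = e * q := Nat.mul_comm _ _
        have h4 : 4 * e * i = 4 * (e * i) := by ring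
        omega
      have heE : e ≤ q * e := Nat.le_mul_of_pos_left _ hq
      have h1 := run_row2 (s := s.set (r q1) x) (E := q * e) (e := e) (m := 2 * e * i ^ 2)
        (d := 2 * e * (q - i)) (a := 2 * e + 4 * e * i) (q := q)
        (o := o + i * (q * (8 * (q * e)))) (p := p)
        (c := c ++ bs (fm i fun k => fm q fun j =>
          rr (2 * e * k ^ 2 + 2 * e * (q - k) * j)
            (fold4 (2 * (q * e)) ((p.drop (o + k * (q * (8 * (q * e))) +
              j * (8 * (q * e)))).take (8 * (q * e)))) ++ zeros (6 * (q * e))))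
        hE1 hq heE (by simpa using hE) (by simpa using he) (by simpa using hCY)
        (by simpa using hH2) (by simpa using hq2) hd1 hd2 ha (by omega)
      have eo : o + (i + 1) * (q * (8 * (q * e))) = o + i * (q * (8 * (q * e))) +
        q * (8 * (q * e)) := by ring
      have em : 2 * e * i ^ 2 + (2 * e + 4 * e * i) = 2 * e * (i + 1) ^ 2 := by ring
      have ea : 2 * e + 4 * e * i + 4 * e = 2 * e + 4 * e * (i + 1) := by ring
      have ed : 2 * e * (q - i) - 2 * e = 2 * e * (q - (i + 1)) := by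
        obtain ⟨w, hw⟩ : ∃ w, q - i = w + 1 := ⟨q - i - 1, by omega⟩
        have hw2 : q - (i + 1) = w := by omega
        rw [hw, hw2, Nat.mul_succ]; omega
      have ej : ∀ j, j * (2 * e * (q - i)) = 2 * e * (q - i) * j := fun j => Nat.mul_comm _ _
      rw [← eo, List.append_assoc, ← bs_append, em, ea, ed] at h1
      simp only [ej] at h1
      rw [← fm_succ i (fun k => fm q fun j =>
          rr (2 * e * k ^ 2 + 2 * e * (q - k) * j)
            (fold4 (2 * (q * e)) ((p.drop (o + k * (q * (8 * (q * e))) +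
              j * (8 * (q * e)))).take (8 * (q * e)))) ++ zeros (6 * (q * e)))] at h1
      rw [W2_q1, W2_q1]
      exact h1)
  have e1 : 2 * (q * e) = 2 * e * q := by ring
  simp only [Nat.zero_mul, Nat.add_zero, fm_zero, bs_nil, List.append_nil, Nat.mul_zero,
    Nat.sub_zero, Nat.sub_self, ne_eq, OfNat.ofNat_ne_zero, not_false_eq_true, zero_pow,
    List.rotate_zero] at key
  rw [← e1] at key
  refine key.mono ?_
  have h1 : q * 1 ≤ q * (q * (q * e)) := Nat.mul_le_mul_left _ (Nat.mul_pos hq hE1)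
  have h2 : 1 ≤ q * (q * (q * e)) := Nat.mul_pos hq (Nat.mul_pos hq hE1)
  have h3 : q * (800 * (q * (q * e)) + 2) + 2 = 800 * (q * (q * (q * e))) + 2 * (q * 1) + 2 := by
    ring
  omega

theorem run_skipP {s : Store (Reg τ) (Sy α)} {E q : ℕ} (hq : 1 ≤ q) (hE1 : 1 ≤ E)
    (hE : s (r nE) = num E) (hq1 : s (r q1) = num q) (hq2 : s (r q2) = num q) :
    Runs skipP s (s.set (r P) ((s (r P)).drop (q * (q * (8 * E))))) (30 * (q * (q * E))) := by
  have key := Runs.forN (c := r q1) (body := forN (.r .q2) (dropN 8 (.r .nE) (.r .P))) q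
    (fun i => s.set (r P) ((s (r P)).drop (i * (q * (8 * E))))) (q * (E * 11 + 4) + 2)
    (fun i => by simpa using hq1)
    (by
      intro i _ x
      have key2 := Runs.forN (c := r q2) (body := dropN 8 (.r .nE) (.r .P)) q
        (fun j => (s.set (r P) ((s (r P)).drop (i * (q * (8 * E)) + j * (8 * E)))).set (r q1) x)
        (E * 11 + 2)
        (fun j => by simpa using hq2)
        (by
          intro j _ y
          have := run_dropN (k := 8) (c := r nE) (a := r P) (by simp)
            (s := ((s.set (r P) ((s (r P)).drop (i * (q * (8 * E)) + j * (8 * E)))).set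
              (r q1) x).set (r q2) y) (N := E) (by simpa using hE)
          convert this using 1
          · apply Store.ext'
            intro k
            rcases k with k | k | k
            · cases k <;> simp [Store.set, List.drop_drop]
              congr 1; ring
            · simp [Store.set]
            · simp [Store.set])
      have e1 : (i + 1) * (q * (8 * E)) = i * (q * (8 * E)) + q * (8 * E) := by ring
      rw [e1]
      have e2 : i * (q * (8 * E)) = i * (q * (8 * E)) + 0 * (8 * E) := by ring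
      conv => arg 2; rw [e2]
      exact key2.mono (le_of_eq (by ring)))
  simp only [Nat.zero_mul, List.drop_zero, Store.set_self] at key
  refine key.mono ?_
  have h1 : q * 1 ≤ q * (q * E) := Nat.mul_le_mul_left _ (Nat.mul_pos hq hE1)
  have h2 : 1 ≤ q * (q * E) := Nat.mul_pos hq (Nat.mul_pos hq hE1)
  have h3 : q * q ≤ q * (q * E) := Nat.mul_le_mul_left _ (Nat.le_mul_of_pos_right _ hE1)
  have h4 : q * (q * (E * 11 + 4) + 2 + 2) + 2 = 11 * (q * (q * E)) + 4 * (q * q) + 4 * (q * 1)
    + 2 := by ring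
  omega

/-- One block of the second pass. -/
theorem run_block2 {s : Store (Reg τ) (Sy α)} {e q o : ℕ} {p : List Bool}
    {c : List (Sy α)} (hq : 1 ≤ q) (he1 : 1 ≤ e) (hE : s (r nE) = num (q * e))
    (he : s (r ne) = num e) (hCY : s (r CY) = []) (hH2 : s (r H2) = []) (hq1 : s (r q1) = num q)
    (hq2 : s (r q2) = num q) (hp : o + 2 * q * (q * (8 * (q * e))) ≤ p.length) :
    Runs (sq [
    skipP,
    mkH, zeroC (.r .A1), addC 2 (.r .ne) (.r .A1), zeroC (.r .A2), addC 2 (.r .nE) (.r .A2),
    forN (.r .q1) (sq [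
      cpy2 (.r .nE) (.r .H) (.r .H3),
      forN (.r .q2) (sq [foldP, rotH (.r .H3), rotN (.r .A2) (.r .H3), outX]),
      clr (.r .H3),
      rotN (.r .A1) (.r .H), addC 4 (.r .ne) (.r .A1), subC 2 (.r .ne) (.r .A2)]),
    outZ, clr (.r .H), clr (.r .A1), clr (.r .A2)])
      (W2 s [] (bs (p.drop o)) c [] [] [] [])
      (W2 s [] (bs (p.drop (o + 2 * q * (q * (8 * (q * e)))))) (c ++ bs ((fm q fun k =>
          fm q fun j =>
          rr (2 * e * k ^ 2 + 2 * e * (q - k) * j)
            (fold4 (2 * (q * e)) ((p.drop (o + q * (q * (8 * (q * e))) + k * (q * (8 * (q * e))) +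
              j * (8 * (q * e)))).take (8 * (q * e)))) ++ zeros (6 * (q * e))) ++
          zeros (q * (q * (8 * (q * e)))))) [] [] [] [])
      (2000 * (q * (q * (q * e)))) := by
  have hE1 : 1 ≤ q * e := Nat.mul_pos hq he1
  have h1 := run_skipP (s := W2 s [] (bs (p.drop o)) c [] [] [] []) hq hE1 hE hq1 hq2
  rw [W2_P] at h1
  have e1 : ((W2 s [] (bs (p.drop o)) c [] [] [] []) (r P)).drop (q * (q * (8 * (q * e))))
      = bs (p.drop (o + q * (q * (8 * (q * e))))) := by
    have : (bs (p.drop o) : List (Sy α)).drop (q * (q * (8 * (q * e))))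
      = bs (p.drop (o + q * (q * (8 * (q * e))))) := by
      simp [bs, List.drop_drop]
    exact this
  rw [e1] at h1
  set o1 := o + q * (q * (8 * (q * e))) with ho1
  have h2 := run_mkH (s := W2 s [] (bs (p.drop o1)) c [] [] [] []) hE hE1 rfl
  rw [W2_H] at h2
  have h3 := run_zeroC (c := r A1)
    (s := W2 s [] (bs (p.drop o1)) c (bs (onehot (2 * (q * e)))) [] [] []) rfl
  rw [W2_A1] at h3
  have h4 := run_addC (k := 2) (d := r ne) (c := r A1) (by simp)
    (s := W2 s [] (bs (p.drop o1)) c (bs (onehot (2 * (q * e)))) [] (num 0) []) (N := e) (m := 0)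
    he rfl
  rw [W2_A1, Nat.zero_add] at h4
  have h5 := run_zeroC (c := r A2)
    (s := W2 s [] (bs (p.drop o1)) c (bs (onehot (2 * (q * e)))) [] (num (2 * e)) []) rfl
  rw [W2_A2] at h5
  have h6 := run_addC (k := 2) (d := r nE) (c := r A2) (by simp)
    (s := W2 s [] (bs (p.drop o1)) c (bs (onehot (2 * (q * e)))) [] (num (2 * e)) (num 0))
    (N := q * e) (m := 0) hE rfl
  rw [W2_A2, Nat.zero_add] at h6
  have h7 := run_rows2 (s := s) (e := e) (q := q) (o := o1) (p := p) (c := c) hq he1 hE he hCY hH2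
    hq1 hq2 (by
      have : 2 * q * (q * (8 * (q * e))) = q * (q * (8 * (q * e))) + q * (q * (8 * (q * e))) := by
        ring
      omega)
  have eo : o1 + q * (q * (8 * (q * e))) = o + 2 * q * (q * (8 * (q * e))) := by
    rw [ho1]; ring
  rw [eo] at h7
  set rows := (fm q fun k => fm q fun j =>
          rr (2 * e * k ^ 2 + 2 * e * (q - k) * j)
            (fold4 (2 * (q * e)) ((p.drop (o1 + k * (q * (8 * (q * e))) +
              j * (8 * (q * e)))).take (8 * (q * e)))) ++ zeros (6 * (q * e))) with hrows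
  have h8 := run_outZ (s := W2 s [] (bs (p.drop (o + 2 * q * (q * (8 * (q * e))))))
    (c ++ bs rows) (bs ((onehot (2 * (q * e))).rotate (2 * e * q ^ 2))) []
        (num (2 * e + 4 * e * q)) (num 0)) (E := q * e) (q := q) hE hq1 hq2
  rw [W2_C] at h8
  have e8 : (W2 s [] (bs (p.drop (o + 2 * q * (q * (8 * (q * e))))))
    (c ++ bs rows) (bs ((onehot (2 * (q * e))).rotate (2 * e * q ^ 2))) []
        (num (2 * e + 4 * e * q)) (num 0)) (r C) = c ++ bs rows := rfl
  rw [e8, List.append_assoc, ← bs_append] at h8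
  have h9 := run_clr (a := r H) (s := W2 s [] (bs (p.drop (o + 2 * q * (q * (8 * (q * e))))))
    (c ++ bs (rows ++ zeros (q * (q * (8 * (q * e))))))
    (bs ((onehot (2 * (q * e))).rotate (2 * e * q ^ 2))) [] (num (2 * e + 4 * e * q)) (num 0))
  rw [W2_H] at h9
  have h10 := run_clr (a := r A1) (s := W2 s [] (bs (p.drop (o + 2 * q * (q * (8 * (q * e))))))
    (c ++ bs (rows ++ zeros (q * (q * (8 * (q * e)))))) [] [] (num (2 * e + 4 * e * q)) (num 0))
  rw [W2_A1] at h10
  have h11 := run_clr (a := r A2) (s := W2 s [] (bs (p.drop (o + 2 * q * (q * (8 * (q * e))))))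
    (c ++ bs (rows ++ zeros (q * (q * (8 * (q * e)))))) [] [] [] (num 0))
  rw [W2_A2] at h11
  refine (run_sq_cons h1 (run_sq_cons h2 (run_sq_cons h3 (run_sq_cons h4 (run_sq_cons h5
    (run_sq_cons h6 (run_sq_cons h7 (run_sq_cons h8 (run_sq_cons h9 (run_sq_cons h10
    (run_sq_cons h11 run_sq_nil))))))))))).cast rfl ?_
  have l9 : ((W2 s [] (bs (p.drop (o + 2 * q * (q * (8 * (q * e))))))
    (c ++ bs (rows ++ zeros (q * (q * (8 * (q * e))))))
    (bs ((onehot (2 * (q * e))).rotate (2 * e * q ^ 2))) [] (num (2 * e + 4 * e * q)) (num 0))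
      (r H)).length = 2 * (q * e) := by
    have : ((bs ((onehot (2 * (q * e))).rotate (2 * e * q ^ 2)) : List (Sy α))).length
      = 2 * (q * e) := by
      simp [onehot]
      omega
    exact this
  have l10 : ((W2 s [] (bs (p.drop (o + 2 * q * (q * (8 * (q * e))))))
    (c ++ bs (rows ++ zeros (q * (q * (8 * (q * e)))))) [] [] (num (2 * e + 4 * e * q)) (num 0))
      (r A1)).length = 2 * e + 4 * e * q + 1 := by
    have : (num (2 * e + 4 * e * q) : List (Sy α)).length = 2 * e + 4 * e * q + 1 := by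
      simp [num]
    exact this
  have l11 : ((W2 s [] (bs (p.drop (o + 2 * q * (q * (8 * (q * e))))))
    (c ++ bs (rows ++ zeros (q * (q * (8 * (q * e)))))) [] [] [] (num 0))
      (r A2)).length = 1 := rfl
  rw [l9, l10, l11]
  have i1 : q * e ≤ q * (q * (q * e)) := by
    calc q * e = 1 * (1 * (q * e)) := by ring
      _ ≤ q * (q * (q * e)) := Nat.mul_le_mul hq (Nat.mul_le_mul_right _ hq)
  have i2 : e ≤ q * e := Nat.le_mul_of_pos_left _ hq
  have i3 : 4 * e * q = 4 * (q * e) := by ring
  have i4 : q * q ≤ q * (q * (q * e)) := Nat.mul_le_mul_left _ (Nat.le_mul_of_pos_right _ hE1)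
  have i5 : q ≤ q * q := Nat.le_mul_of_pos_left _ hq
  omega

theorem W2_final (s : Store (Reg τ) (Sy α)) (p c : List (Sy α)) (hX : s (r X) = [])
    (hH : s (r H) = []) (hH3 : s (r H3) = []) (hA1 : s (r A1) = []) (hA2 : s (r A2) = []) :
    W2 s [] p c [] [] [] [] = (s.set (r P) p).set (r C) c := by
  funext i; rcases i with i | i | i
  · cases i <;> simp [Store.set, W2, *]
  · simp [Store.set, W2]
  · simp [Store.set, W2]

theorem run_pass2 : ∃ C0 : ℕ, ∀ (s : Store (Reg τ) (Sy α)) (A q e : ℕ) (p : List Bool),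
    1 ≤ q → 1 ≤ e → 1 ≤ A → A * (2 * q * (q * (8 * (q * e)))) ≤ p.length →
    s (r P) = bs p → s (r q1) = num q → s (r q2) = num q → s (r nE) = num (q * e) →
    s (r ne) = num e → s (r nA) = num A → s (r C) = [] → s (r X) = [] → s (r CY) = [] →
    s (r H) = [] → s (r H2) = [] → s (r H3) = [] → s (r A1) = [] → s (r A2) = [] →
    Runs pass2 s ((s.set (r P) (bs (p.drop (A * (2 * q * (q * (8 * (q * e)))))))).set (r C)
        (bs (data2 A q e p)))
      (C0 * (A * (q * (q * (q * e))))) := by
  refine ⟨2004, ?_⟩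
  intro s A q e p hq he1 hA1 hp hP hq1 hq2 hE he hA hC hX hCY hH hH2 hH3 hsA1 hsA2
  have key := Runs.forN (c := r nA) (body := sq [
    skipP,
    mkH, zeroC (.r .A1), addC 2 (.r .ne) (.r .A1), zeroC (.r .A2), addC 2 (.r .nE) (.r .A2),
    forN (.r .q1) (sq [
      cpy2 (.r .nE) (.r .H) (.r .H3),
      forN (.r .q2) (sq [foldP, rotH (.r .H3), rotN (.r .A2) (.r .H3), outX]),
      clr (.r .H3),
      rotN (.r .A1) (.r .H), addC 4 (.r .ne) (.r .A1), subC 2 (.r .ne) (.r .A2)]),
    outZ, clr (.r .H), clr (.r .A1), clr (.r .A2)]) A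
    (fun a => W2 s [] (bs (p.drop (a * (2 * q * (q * (8 * (q * e))))))) (bs (data2 a q e p))
      [] [] [] []) (2000 * (q * (q * (q * e))))
    (fun a => hA)
    (by
      intro a ha x
      have hle : (a + 1) * (2 * q * (q * (8 * (q * e)))) ≤ A * (2 * q * (q * (8 * (q * e)))) :=
        Nat.mul_le_mul_right _ ha
      have hle2 : (a + 1) * (2 * q * (q * (8 * (q * e)))) = a * (2 * q * (q * (8 * (q * e)))) +
        2 * q * (q * (8 * (q * e))) := by ring
      have h1 := run_block2 (s := s.set (r nA) x) (e := e) (q := q)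
        (o := a * (2 * q * (q * (8 * (q * e))))) (p := p) (c := bs (data2 a q e p)) hq he1
        (by simpa using hE) (by simpa using he) (by simpa using hCY) (by simpa using hH2)
        (by simpa using hq1) (by simpa using hq2) (by omega)
      rw [← hle2, ← bs_append] at h1
      have ed : data2 (a + 1) q e p = data2 a q e p ++ ((fm q fun k =>
          fm q fun j =>
          rr (2 * e * k ^ 2 + 2 * e * (q - k) * j)
            (fold4 (2 * (q * e)) ((p.drop (a * (2 * q * (q * (8 * (q * e)))) +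
              q * (q * (8 * (q * e))) + k * (q * (8 * (q * e))) +
              j * (8 * (q * e)))).take (8 * (q * e)))) ++ zeros (6 * (q * e))) ++
          zeros (q * (q * (8 * (q * e))))) := by
        have es : ∀ k j, slotOf q e p a k j = (p.drop (a * (2 * q * (q * (8 * (q * e)))) +
              q * (q * (8 * (q * e))) + k * (q * (8 * (q * e))) +
              j * (8 * (q * e)))).take (8 * (q * e)) := by
          intro k j
          unfold slotOf
          congr 2
          ring
        unfold data2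
        rw [fm_succ]
        simp only [es]
      rw [← ed] at h1
      rw [W2_nA, W2_nA]
      exact h1)
  simp only [Nat.zero_mul, List.drop_zero] at key
  have e0 : data2 0 q e p = [] := by simp [data2]
  rw [e0, W2_final s _ _ hX hH hH3 hsA1 hsA2, W2_final s _ _ hX hH hH3 hsA1 hsA2] at key
  have e1 : (s.set (r P) (bs p)).set (r C) (bs []) = s := by
    rw [Store.set_eq_self s hP]
    exact Store.set_eq_self s hC
  rw [e1] at key
  refine key.mono ?_
  have h2 : 1 ≤ q * (q * (q * e)) := Nat.mul_pos hq (Nat.mul_pos hq (Nat.mul_pos hq he1))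
  have h3 : A * 1 ≤ A * (q * (q * (q * e))) := Nat.mul_le_mul_left _ h2
  have h4 : A * (2000 * (q * (q * (q * e))) + 2) + 2 = 2000 * (A * (q * (q * (q * e)))) +
    2 * (A * 1) + 2 := by ring
  have h5 : 1 ≤ A * (q * (q * (q * e))) := Nat.mul_pos hA1 h2
  omega

end

end Vale.Agent.P338
end

section

/-! Correctness and cost of the third pass. -/

namespace Vale.Agent.P338
open Reg R

section
variable {τ α : Type} [DecidableEq τ]

/-- The store `s` with the registers used by the third pass overwritten. -/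
def W3 (s : Store (Reg τ) (Sy α)) (x p d w h a1 a2 : List (Sy α)) : Store (Reg τ) (Sy α)
  | .r .X => x
  | .r .P => p
  | .r .D => d
  | .r .RW => w
  | .r .H => h
  | .r .A1 => a1
  | .r .A2 => a2
  | i => s i

section W3
variable (s : Store (Reg τ) (Sy α)) (x p d w h a1 a2 v : List (Sy α))

theorem W3_X : (W3 s x p d w h a1 a2).set (r X) v = W3 s v p d w h a1 a2 := by
  funext i; rcases i with i | i | i
  · cases i <;> simp [Store.set, W3]
  · simp [Store.set, W3]
  · simp [Store.set, W3]

theorem W3_P : (W3 s x p d w h a1 a2).set (r P) v = W3 s x v d w h a1 a2 := by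
  funext i; rcases i with i | i | i
  · cases i <;> simp [Store.set, W3]
  · simp [Store.set, W3]
  · simp [Store.set, W3]

theorem W3_D : (W3 s x p d w h a1 a2).set (r D) v = W3 s x p v w h a1 a2 := by
  funext i; rcases i with i | i | i
  · cases i <;> simp [Store.set, W3]
  · simp [Store.set, W3]
  · simp [Store.set, W3]

theorem W3_RW : (W3 s x p d w h a1 a2).set (r RW) v = W3 s x p d v h a1 a2 := by
  funext i; rcases i with i | i | i
  · cases i <;> simp [Store.set, W3]
  · simp [Store.set, W3]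
  · simp [Store.set, W3]

theorem W3_H : (W3 s x p d w h a1 a2).set (r H) v = W3 s x p d w v a1 a2 := by
  funext i; rcases i with i | i | i
  · cases i <;> simp [Store.set, W3]
  · simp [Store.set, W3]
  · simp [Store.set, W3]

theorem W3_A1 : (W3 s x p d w h a1 a2).set (r A1) v = W3 s x p d w h v a2 := by
  funext i; rcases i with i | i | i
  · cases i <;> simp [Store.set, W3]
  · simp [Store.set, W3]
  · simp [Store.set, W3]

theorem W3_A2 : (W3 s x p d w h a1 a2).set (r A2) v = W3 s x p d w h a1 v := by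
  funext i; rcases i with i | i | i
  · cases i <;> simp [Store.set, W3]
  · simp [Store.set, W3]
  · simp [Store.set, W3]

theorem W3_q1 : (W3 s x p d w h a1 a2).set (r q1) v = W3 (s.set (r q1) v) x p d w h a1 a2 := by
  funext i; rcases i with i | i | i
  · cases i <;> simp [Store.set, W3]
  · simp [Store.set, W3]
  · simp [Store.set, W3]

theorem W3_q2 : (W3 s x p d w h a1 a2).set (r q2) v = W3 (s.set (r q2) v) x p d w h a1 a2 := by
  funext i; rcases i with i | i | i
  · cases i <;> simp [Store.set, W3]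
  · simp [Store.set, W3]
  · simp [Store.set, W3]

theorem W3_nA : (W3 s x p d w h a1 a2).set (r nA) v = W3 (s.set (r nA) v) x p d w h a1 a2 := by
  funext i; rcases i with i | i | i
  · cases i <;> simp [Store.set, W3]
  · simp [Store.set, W3]
  · simp [Store.set, W3]

end W3

omit [DecidableEq τ] in
theorem p3_bs_drop (l : List Bool) (k : ℕ) : (bs l : List (Sy α)).drop k = bs (l.drop k) := by
  simp [bs]

omit [DecidableEq τ] in
theorem p3_bs_rotate (l : List Bool) (k : ℕ) :
    (bs l : List (Sy α)).rotate k = bs (l.rotate k) := by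
  simp [bs, List.map_rotate]

/-- Processing of one slot. -/
theorem run_slot3 {s : Store (Reg τ) (Sy α)} {E m : ℕ} {V : List Bool}
    {rest d w a1 a2 : List (Sy α)} (hE1 : 1 ≤ E) (hE : s (r nE) = num E) (hCY : s (r CY) = [])
    (hH2 : s (r H2) = []) (hV : V.length = 8 * E) :
    Runs (sq [foldP, rotH (.r .H), dropN 1 (.r .nE) (.r .X), moveN (.r .nE) (.r .X) (.r .RW)])
      (W3 s [] (bs V ++ rest) d w (bs ((onehot (2 * E)).rotate m)) a1 a2)
      (W3 s [] rest d (w ++ bs ((rr m (fold4 (2 * E) V)).drop E))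
        (bs ((onehot (2 * E)).rotate m)) a1 a2) (500 * E) := by
  have hlen : (fold4 (2 * E) V).length = 2 * E := p2_fold4_length (by omega)
  have h1 := run_foldP (s := W3 s [] (bs V ++ rest) d w (bs ((onehot (2 * E)).rotate m)) a1 a2)
    (E := E) (V := V) (rest := rest) hE rfl hCY rfl hV
  rw [W3_X, W3_P] at h1
  have h2 := run_rotH (a := r H) (by simp) (by simp) (by simp)
    (s := W3 s (bs (fold4 (2 * E) V)) rest d w (bs ((onehot (2 * E)).rotate m)) a1 a2)
    (E := E) (m := m) (x := fold4 (2 * E) V) hE hE1 hH2 rfl rfl hlen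
  rw [W3_X] at h2
  have h3 := run_dropN (k := 1) (c := r nE) (a := r X) (by simp)
    (s := W3 s (bs (rr m (fold4 (2 * E) V))) rest d w (bs ((onehot (2 * E)).rotate m)) a1 a2)
    (N := E) hE
  rw [W3_X] at h3
  have e3 : (W3 s (bs (rr m (fold4 (2 * E) V))) rest d w (bs ((onehot (2 * E)).rotate m)) a1 a2)
      (r X) = bs (rr m (fold4 (2 * E) V)) := rfl
  rw [e3, p3_bs_drop, Nat.one_mul] at h3
  have h4 := run_moveN (c := r nE) (a := r X) (b := r RW) (by simp) (by simp) (by simp)
    (s := W3 s (bs ((rr m (fold4 (2 * E) V)).drop E)) rest d w (bs ((onehot (2 * E)).rotate m))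
      a1 a2) (N := E) (l := bs ((rr m (fold4 (2 * E) V)).drop E)) (rest := []) hE
    (by simp [W3]) (by simp [rr, hlen]; omega)
  rw [W3_X, W3_RW] at h4
  exact (run_sq_cons h1 (run_sq_cons h2 (run_sq_cons h3 (run_sq_cons h4 run_sq_nil)))).cast rfl
    (by omega)

/-- One row of slots of the third pass. -/
theorem run_slots3 {s : Store (Reg τ) (Sy α)} {E m q o : ℕ} {p : List Bool}
    {d a1 a2 : List (Sy α)} (hE1 : 1 ≤ E) (hE : s (r nE) = num E)
    (hCY : s (r CY) = []) (hH2 : s (r H2) = []) (hq2 : s (r q2) = num q)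
    (hp : o + q * (8 * E) ≤ p.length) :
    Runs (forN (.r .q2) (sq [foldP, rotH (.r .H), dropN 1 (.r .nE) (.r .X),
        moveN (.r .nE) (.r .X) (.r .RW)]))
      (W3 s [] (bs (p.drop o)) d [] (bs ((onehot (2 * E)).rotate m)) a1 a2)
      (W3 s [] (bs (p.drop (o + q * (8 * E)))) d (bs (fm q fun j =>
          (rr m (fold4 (2 * E) ((p.drop (o + j * (8 * E))).take (8 * E)))).drop E))
        (bs ((onehot (2 * E)).rotate m)) a1 a2) (q * (502 * E) + 2) := by
  have key := Runs.forN (c := r q2)
    (body := sq [foldP, rotH (.r .H), dropN 1 (.r .nE) (.r .X),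
        moveN (.r .nE) (.r .X) (.r .RW)]) q
    (fun i => W3 s [] (bs (p.drop (o + i * (8 * E)))) d (bs (fm i fun j =>
          (rr m (fold4 (2 * E) ((p.drop (o + j * (8 * E))).take (8 * E)))).drop E))
        (bs ((onehot (2 * E)).rotate m)) a1 a2) (500 * E)
    (fun i => hq2)
    (by
      intro i hi x
      have hle : (i + 1) * (8 * E) ≤ q * (8 * E) := Nat.mul_le_mul_right _ hi
      have hle2 : (i + 1) * (8 * E) = i * (8 * E) + 8 * E := by ring
      have hV : ((p.drop (o + i * (8 * E))).take (8 * E)).length = 8 * E := by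
        rw [List.length_take, List.length_drop]; omega
      have h1 := run_slot3 (s := s.set (r q2) x) (E := E) (m := m)
        (V := (p.drop (o + i * (8 * E))).take (8 * E))
        (rest := bs (p.drop (o + (i + 1) * (8 * E)))) (d := d)
        (w := bs (fm i fun j =>
          (rr m (fold4 (2 * E) ((p.drop (o + j * (8 * E))).take (8 * E)))).drop E))
        (a1 := a1) (a2 := a2) hE1 (by simpa using hE) (by simpa using hCY)
        (by simpa using hH2) hV
      have eo : o + (i + 1) * (8 * E) = o + i * (8 * E) + 8 * E := by ring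
      rw [eo, ← p2_bs_drop, ← bs_append, ← eo, ← fm_succ i (fun j =>
          (rr m (fold4 (2 * E) ((p.drop (o + j * (8 * E))).take (8 * E)))).drop E)] at h1
      rw [W3_q2, W3_q2]
      exact h1)
  simp only [Nat.zero_mul, Nat.add_zero, fm_zero, bs_nil] at key
  refine key.mono ?_
  have h1 : q * 1 ≤ q * E := Nat.mul_le_mul_left _ hE1
  have h2 : q * (500 * E + 2) + 2 = 500 * (q * E) + 2 * (q * 1) + 2 := by ring
  have h3 : q * (502 * E) + 2 = 502 * (q * E) + 2 := by ring
  omega

/-- Moving a row to the output. -/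
theorem run_mvrow3 {s : Store (Reg τ) (Sy α)} {E q : ℕ} {w : List Bool}
    {p d h a1 a2 : List (Sy α)} (hE : s (r nE) = num E) (hq2 : s (r q2) = num q)
    (hw : w.length = q * E) :
    Runs (forN (.r .q2) (moveN (.r .nE) (.r .RW) (.r .D)))
      (W3 s [] p d (bs w) h a1 a2) (W3 s [] p (d ++ bs w) [] h a1 a2) (q * (3 * E + 4) + 2) := by
  have key := Runs.forN (c := r q2) (body := moveN (.r .nE) (.r .RW) (.r .D)) q
    (fun i => W3 s [] p (d ++ bs (w.take (i * E))) (bs (w.drop (i * E))) h a1 a2) (3 * E + 2)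
    (fun i => hq2)
    (by
      intro i hi x
      have hle : (i + 1) * E ≤ q * E := Nat.mul_le_mul_right _ hi
      have hle2 : (i + 1) * E = i * E + E := by ring
      have h1 := run_moveN (c := r nE) (a := r RW) (b := r D) (by simp) (by simp) (by simp)
        (s := W3 (s.set (r q2) x) [] p (d ++ bs (w.take (i * E))) (bs (w.drop (i * E))) h a1 a2)
        (N := E) (l := bs ((w.drop (i * E)).take E)) (rest := bs (w.drop (i * E + E)))
        (by simpa [W3] using hE) (p2_bs_drop w (i * E) E) (by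
          rw [bs_length, List.length_take, List.length_drop]; omega)
      rw [W3_RW, W3_D] at h1
      have e1 : (W3 (s.set (r q2) x) [] p (d ++ bs (w.take (i * E))) (bs (w.drop (i * E))) h a1
        a2) (r D) ++ bs ((w.drop (i * E)).take E) = d ++ bs (w.take ((i + 1) * E)) := by
        have : (d ++ bs (w.take (i * E))) ++ bs ((w.drop (i * E)).take E)
          = d ++ bs (w.take ((i + 1) * E)) := by
          rw [List.append_assoc, ← bs_append, hle2, List.take_add]
        exact this
      rw [e1, ← hle2] at h1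
      rw [W3_q2, W3_q2]
      exact h1)
  simp only [Nat.zero_mul, List.take_zero, bs_nil, List.append_nil, List.drop_zero] at key
  rw [List.take_of_length_le (by omega), List.drop_eq_nil_of_le (by omega), bs_nil] at key
  exact key.mono (le_of_eq (by ring))

/-- One row of the third pass. -/
theorem run_row3 {s : Store (Reg τ) (Sy α)} {E e m a b q o : ℕ} {p : List Bool}
    {d : List (Sy α)} (hE1 : 1 ≤ E) (hq : 1 ≤ q) (heE : e ≤ E) (hE : s (r nE) = num E)
    (he : s (r ne) = num e) (hCY : s (r CY) = []) (hH2 : s (r H2) = []) (hq2 : s (r q2) = num q)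
    (ha : a ≤ 3 * E) (hb : b ≤ q * E) (hp : o + q * (8 * E) ≤ p.length) :
    Runs (sq [
      forN (.r .q2) (sq [foldP, rotH (.r .H), dropN 1 (.r .nE) (.r .X),
        moveN (.r .nE) (.r .X) (.r .RW)]),
      rotN (.r .A2) (.r .RW), forN (.r .q2) (moveN (.r .nE) (.r .RW) (.r .D)),
      rotN (.r .A1) (.r .H), addC 2 (.r .ne) (.r .A1), addC 1 (.r .nE) (.r .A2)])
      (W3 s [] (bs (p.drop o)) d [] (bs ((onehot (2 * E)).rotate m)) (num a) (num b))
      (W3 s [] (bs (p.drop (o + q * (8 * E)))) (d ++ bs ((fm q fun j =>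
          (rr m (fold4 (2 * E) ((p.drop (o + j * (8 * E))).take (8 * E)))).drop E).rotate b)) []
        (bs ((onehot (2 * E)).rotate (m + a))) (num (a + 2 * e)) (num (b + E)))
      (600 * (q * E)) := by
  have h1 := run_slots3 (s := s) (E := E) (m := m) (q := q) (o := o) (p := p) (d := d)
    (a1 := num a) (a2 := num b) hE1 hE hCY hH2 hq2 hp
  set w := (fm q fun j =>
          (rr m (fold4 (2 * E) ((p.drop (o + j * (8 * E))).take (8 * E)))).drop E) with hw
  have hwl : w.length = q * E := by
    rw [hw]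
    refine fm_length fun j hj => ?_
    have hle : (j + 1) * (8 * E) ≤ q * (8 * E) := Nat.mul_le_mul_right _ hj
    have hle2 : (j + 1) * (8 * E) = j * (8 * E) + 8 * E := by ring
    have hV : ((p.drop (o + j * (8 * E))).take (8 * E)).length = 4 * (2 * E) := by
      rw [List.length_take, List.length_drop]; omega
    simp [rr, p2_fold4_length hV]
    omega
  have h2 := run_rotN (c := r A2) (a := r RW) (by simp)
    (s := W3 s [] (bs (p.drop (o + q * (8 * E)))) d (bs w)
      (bs ((onehot (2 * E)).rotate m)) (num a) (num b)) (N := b) rfl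
  rw [W3_RW] at h2
  have e2 : ((W3 s [] (bs (p.drop (o + q * (8 * E)))) d (bs w)
      (bs ((onehot (2 * E)).rotate m)) (num a) (num b)) (r RW)).rotate b = bs (w.rotate b) :=
    p3_bs_rotate w b
  rw [e2] at h2
  have h3 := run_mvrow3 (s := s) (E := E) (q := q) (w := w.rotate b)
    (p := bs (p.drop (o + q * (8 * E)))) (d := d) (h := bs ((onehot (2 * E)).rotate m))
    (a1 := num a) (a2 := num b) hE hq2 (by rw [List.length_rotate, hwl])
  have h4 := run_rotN (c := r A1) (a := r H) (by simp)
    (s := W3 s [] (bs (p.drop (o + q * (8 * E)))) (d ++ bs (w.rotate b)) []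
      (bs ((onehot (2 * E)).rotate m)) (num a) (num b)) (N := a) rfl
  rw [W3_H] at h4
  have e4 : ((W3 s [] (bs (p.drop (o + q * (8 * E)))) (d ++ bs (w.rotate b)) []
      (bs ((onehot (2 * E)).rotate m)) (num a) (num b)) (r H)).rotate a
      = bs ((onehot (2 * E)).rotate (m + a)) := by
    have : ((bs ((onehot (2 * E)).rotate m) : List (Sy α))).rotate a
      = bs ((onehot (2 * E)).rotate (m + a)) := by
      rw [p3_bs_rotate, List.rotate_rotate]
    exact this
  rw [e4] at h4
  have h5 := run_addC (k := 2) (d := r ne) (c := r A1) (by simp)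
    (s := W3 s [] (bs (p.drop (o + q * (8 * E)))) (d ++ bs (w.rotate b)) []
      (bs ((onehot (2 * E)).rotate (m + a))) (num a) (num b)) (N := e) (m := a) he rfl
  rw [W3_A1] at h5
  have h6 := run_addC (k := 1) (d := r nE) (c := r A2) (by simp)
    (s := W3 s [] (bs (p.drop (o + q * (8 * E)))) (d ++ bs (w.rotate b)) []
      (bs ((onehot (2 * E)).rotate (m + a))) (num (a + 2 * e)) (num b)) (N := E) (m := b) hE rfl
  rw [W3_A2, Nat.one_mul] at h6
  refine (run_sq_cons h1 (run_sq_cons h2 (run_sq_cons h3 (run_sq_cons h4 (run_sq_cons h5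
    (run_sq_cons h6 run_sq_nil)))))).cast rfl ?_
  have h7 : 1 * E ≤ q * E := Nat.mul_le_mul_right _ hq
  have h8 : q * (502 * E) = 502 * (q * E) := by ring
  have h9 : q * (3 * E + 4) = 3 * (q * E) + 4 * (q * 1) := by ring
  have h10 : q * 1 ≤ q * E := Nat.mul_le_mul_left _ hE1
  omega

/-- The rows of a block of the third pass. -/
theorem run_rows3 {s : Store (Reg τ) (Sy α)} {e q o g : ℕ} {p : List Bool}
    {d : List (Sy α)} (hq : 1 ≤ q) (he1 : 1 ≤ e) (hE : s (r nE) = num (q * e))
    (he : s (r ne) = num e) (hCY : s (r CY) = []) (hH2 : s (r H2) = []) (hq1 : s (r q1) = num q)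
    (hq2 : s (r q2) = num q) (hp : o + q * (q * (8 * (q * e))) ≤ p.length) :
    Runs (forN (.r .q1) (sq [
      forN (.r .q2) (sq [foldP, rotH (.r .H), dropN 1 (.r .nE) (.r .X),
        moveN (.r .nE) (.r .X) (.r .RW)]),
      rotN (.r .A2) (.r .RW), forN (.r .q2) (moveN (.r .nE) (.r .RW) (.r .D)),
      rotN (.r .A1) (.r .H), addC 2 (.r .ne) (.r .A1), addC 1 (.r .nE) (.r .A2)]))
      (W3 s [] (bs (p.drop o)) d [] (bs ((onehot (2 * (q * e))).rotate g)) (num e) (num 0))
      (W3 s [] (bs (p.drop (o + q * (q * (8 * (q * e)))))) (d ++ bs (fm q fun l =>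
          (fm q fun j => (rr (g + e * l ^ 2)
            (fold4 (2 * (q * e)) ((p.drop (o + l * (q * (8 * (q * e))) +
              j * (8 * (q * e)))).take (8 * (q * e))))).drop (q * e)).rotate (l * (q * e)))) []
        (bs ((onehot (2 * (q * e))).rotate (g + e * q ^ 2)))
        (num (e + 2 * e * q)) (num (q * (q * e))))
      (700 * (q * (q * (q * e)))) := by
  have hE1 : 1 ≤ q * e := Nat.mul_pos hq he1
  have key := Runs.forN (c := r q1)
    (body := sq [
      forN (.r .q2) (sq [foldP, rotH (.r .H), dropN 1 (.r .nE) (.r .X),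
        moveN (.r .nE) (.r .X) (.r .RW)]),
      rotN (.r .A2) (.r .RW), forN (.r .q2) (moveN (.r .nE) (.r .RW) (.r .D)),
      rotN (.r .A1) (.r .H), addC 2 (.r .ne) (.r .A1), addC 1 (.r .nE) (.r .A2)]) q
    (fun i => W3 s [] (bs (p.drop (o + i * (q * (8 * (q * e)))))) (d ++ bs (fm i fun l =>
          (fm q fun j => (rr (g + e * l ^ 2)
            (fold4 (2 * (q * e)) ((p.drop (o + l * (q * (8 * (q * e))) +
              j * (8 * (q * e)))).take (8 * (q * e))))).drop (q * e)).rotate (l * (q * e)))) []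
        (bs ((onehot (2 * (q * e))).rotate (g + e * i ^ 2)))
        (num (e + 2 * e * i)) (num (i * (q * e)))) (600 * (q * (q * e)))
    (fun i => hq1)
    (by
      intro i hi x
      have hle : (i + 1) * (q * (8 * (q * e))) ≤ q * (q * (8 * (q * e))) :=
        Nat.mul_le_mul_right _ hi
      have hle2 : (i + 1) * (q * (8 * (q * e))) = i * (q * (8 * (q * e))) + q * (8 * (q * e)) := by
        ring
      have ha : e + 2 * e * i ≤ 3 * (q * e) := by
        have h1 : e * i ≤ e * q := Nat.mul_le_mul_left _ hi.le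
        have h2 : e * 1 ≤ e * q := Nat.mul_le_mul_left _ hq
        have h3 : q * e = e * q := Nat.mul_comm _ _
        have h4 : 2 * e * i = 2 * (e * i) := by ring
        omega
      have hb : i * (q * e) ≤ q * (q * e) := Nat.mul_le_mul_right _ hi.le
      have heE : e ≤ q * e := Nat.le_mul_of_pos_left _ hq
      have h1 := run_row3 (s := s.set (r q1) x) (E := q * e) (e := e) (m := g + e * i ^ 2)
        (a := e + 2 * e * i) (b := i * (q * e)) (q := q)
        (o := o + i * (q * (8 * (q * e)))) (p := p)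
        (d := d ++ bs (fm i fun l =>
          (fm q fun j => (rr (g + e * l ^ 2)
            (fold4 (2 * (q * e)) ((p.drop (o + l * (q * (8 * (q * e))) +
              j * (8 * (q * e)))).take (8 * (q * e))))).drop (q * e)).rotate (l * (q * e))))
        hE1 hq heE (by simpa using hE) (by simpa using he) (by simpa using hCY)
        (by simpa using hH2) (by simpa using hq2) ha hb (by omega)
      have eo : o + (i + 1) * (q * (8 * (q * e))) = o + i * (q * (8 * (q * e))) +
        q * (8 * (q * e)) := by ring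
      have em : g + e * i ^ 2 + (e + 2 * e * i) = g + e * (i + 1) ^ 2 := by ring
      have ea : e + 2 * e * i + 2 * e = e + 2 * e * (i + 1) := by ring
      have eb : i * (q * e) + q * e = (i + 1) * (q * e) := by ring
      rw [← eo, List.append_assoc, ← bs_append, em, ea, eb, ← fm_succ i (fun l =>
          (fm q fun j => (rr (g + e * l ^ 2)
            (fold4 (2 * (q * e)) ((p.drop (o + l * (q * (8 * (q * e))) +
              j * (8 * (q * e)))).take (8 * (q * e))))).drop (q * e)).rotate (l * (q * e)))] at h1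
      rw [W3_q1, W3_q1]
      exact h1)
  simp only [Nat.zero_mul, Nat.add_zero, fm_zero, bs_nil, List.append_nil, Nat.mul_zero,
    ne_eq, OfNat.ofNat_ne_zero, not_false_eq_true, zero_pow] at key
  refine key.mono ?_
  have h1 : q * 1 ≤ q * (q * (q * e)) := Nat.mul_le_mul_left _ (Nat.mul_pos hq hE1)
  have h2 : 1 ≤ q * (q * (q * e)) := Nat.mul_pos hq (Nat.mul_pos hq hE1)
  have h3 : q * (600 * (q * (q * e)) + 2) + 2 = 600 * (q * (q * (q * e))) + 2 * (q * 1) + 2 := by
    ring
  omega

/-- One block of the third pass. -/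
theorem run_block3 {s : Store (Reg τ) (Sy α)} {e q o h : ℕ} {p : List Bool}
    {d : List (Sy α)} (hq : 1 ≤ q) (he1 : 1 ≤ e) (hh : h < 2 * (q * e))
    (hE : s (r nE) = num (q * e)) (he : s (r ne) = num e) (hnh : s (r nh) = num h)
    (hCY : s (r CY) = []) (hH2 : s (r H2) = []) (hq1 : s (r q1) = num q)
    (hq2 : s (r q2) = num q) (hp : o + 2 * q * (q * (8 * (q * e))) ≤ p.length) :
    Runs (sq [
    skipP,
    mkHh, zeroC (.r .A1), addC 1 (.r .ne) (.r .A1), zeroC (.r .A2),
    forN (.r .q1) (sq [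
      forN (.r .q2) (sq [foldP, rotH (.r .H), dropN 1 (.r .nE) (.r .X),
        moveN (.r .nE) (.r .X) (.r .RW)]),
      rotN (.r .A2) (.r .RW), forN (.r .q2) (moveN (.r .nE) (.r .RW) (.r .D)),
      rotN (.r .A1) (.r .H), addC 2 (.r .ne) (.r .A1), addC 1 (.r .nE) (.r .A2)]),
    clr (.r .H), clr (.r .A1), clr (.r .A2)])
      (W3 s [] (bs (p.drop o)) d [] [] [] [])
      (W3 s [] (bs (p.drop (o + 2 * q * (q * (8 * (q * e)))))) (d ++ bs (fm q fun l =>
          (fm q fun j => (rr ((2 * (q * e) - h) + e * l ^ 2)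
            (fold4 (2 * (q * e)) ((p.drop (o + q * (q * (8 * (q * e))) +
              l * (q * (8 * (q * e))) +
              j * (8 * (q * e)))).take (8 * (q * e))))).drop (q * e)).rotate (l * (q * e))))
        [] [] [] [])
      (2000 * (q * (q * (q * e)))) := by
  have hE1 : 1 ≤ q * e := Nat.mul_pos hq he1
  have h1 := run_skipP (s := W3 s [] (bs (p.drop o)) d [] [] [] []) hq hE1 hE hq1 hq2
  rw [W3_P] at h1
  have e1 : ((W3 s [] (bs (p.drop o)) d [] [] [] []) (r P)).drop (q * (q * (8 * (q * e))))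
      = bs (p.drop (o + q * (q * (8 * (q * e))))) := by
    have : (bs (p.drop o) : List (Sy α)).drop (q * (q * (8 * (q * e))))
      = bs (p.drop (o + q * (q * (8 * (q * e))))) := by
      simp [bs, List.drop_drop]
    exact this
  rw [e1] at h1
  set o1 := o + q * (q * (8 * (q * e))) with ho1
  have h2 := run_mkHh (s := W3 s [] (bs (p.drop o1)) d [] [] [] []) hE hnh hh rfl
  rw [W3_H] at h2
  set oh := bs ((onehot (2 * (q * e))).rotate (2 * (q * e) - h)) (α := α) with hoh
  have h3 := run_zeroC (c := r A1) (s := W3 s [] (bs (p.drop o1)) d [] oh [] []) rfl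
  rw [W3_A1] at h3
  have h4 := run_addC (k := 1) (d := r ne) (c := r A1) (by simp)
    (s := W3 s [] (bs (p.drop o1)) d [] oh (num 0) []) (N := e) (m := 0) he rfl
  rw [W3_A1, Nat.zero_add, Nat.one_mul] at h4
  have h5 := run_zeroC (c := r A2) (s := W3 s [] (bs (p.drop o1)) d [] oh (num e) []) rfl
  rw [W3_A2] at h5
  have h7 := run_rows3 (s := s) (e := e) (q := q) (o := o1) (g := 2 * (q * e) - h) (p := p)
    (d := d) hq he1 hE he hCY hH2 hq1 hq2 (by
      have : 2 * q * (q * (8 * (q * e))) = q * (q * (8 * (q * e))) + q * (q * (8 * (q * e))) := by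
        ring
      omega)
  have eo : o1 + q * (q * (8 * (q * e))) = o + 2 * q * (q * (8 * (q * e))) := by
    rw [ho1]; ring
  rw [eo] at h7
  set rows := (fm q fun l =>
          (fm q fun j => (rr ((2 * (q * e) - h) + e * l ^ 2)
            (fold4 (2 * (q * e)) ((p.drop (o1 +
              l * (q * (8 * (q * e))) +
              j * (8 * (q * e)))).take (8 * (q * e))))).drop (q * e)).rotate (l * (q * e)))
    with hrows
  have h9 := run_clr (a := r H) (s := W3 s [] (bs (p.drop (o + 2 * q * (q * (8 * (q * e))))))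
    (d ++ bs rows) [] (bs ((onehot (2 * (q * e))).rotate (2 * (q * e) - h + e * q ^ 2)))
    (num (e + 2 * e * q)) (num (q * (q * e))))
  rw [W3_H] at h9
  have h10 := run_clr (a := r A1) (s := W3 s [] (bs (p.drop (o + 2 * q * (q * (8 * (q * e))))))
    (d ++ bs rows) [] [] (num (e + 2 * e * q)) (num (q * (q * e))))
  rw [W3_A1] at h10
  have h11 := run_clr (a := r A2) (s := W3 s [] (bs (p.drop (o + 2 * q * (q * (8 * (q * e))))))
    (d ++ bs rows) [] [] [] (num (q * (q * e))))
  rw [W3_A2] at h11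
  refine (run_sq_cons h1 (run_sq_cons h2 (run_sq_cons h3 (run_sq_cons h4 (run_sq_cons h5
    (run_sq_cons h7 (run_sq_cons h9 (run_sq_cons h10
    (run_sq_cons h11 run_sq_nil))))))))).cast rfl ?_
  have l9 : ((W3 s [] (bs (p.drop (o + 2 * q * (q * (8 * (q * e))))))
    (d ++ bs rows) [] (bs ((onehot (2 * (q * e))).rotate (2 * (q * e) - h + e * q ^ 2)))
    (num (e + 2 * e * q)) (num (q * (q * e)))) (r H)).length = 2 * (q * e) := by
    have : ((bs ((onehot (2 * (q * e))).rotate (2 * (q * e) - h + e * q ^ 2)) :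
      List (Sy α))).length = 2 * (q * e) := by
      simp [onehot]
      omega
    exact this
  have l10 : ((W3 s [] (bs (p.drop (o + 2 * q * (q * (8 * (q * e))))))
    (d ++ bs rows) [] [] (num (e + 2 * e * q)) (num (q * (q * e)))) (r A1)).length
      = e + 2 * e * q + 1 := by
    have : (num (e + 2 * e * q) : List (Sy α)).length = e + 2 * e * q + 1 := by
      simp [num]
    exact this
  have l11 : ((W3 s [] (bs (p.drop (o + 2 * q * (q * (8 * (q * e))))))
    (d ++ bs rows) [] [] [] (num (q * (q * e)))) (r A2)).length = q * (q * e) + 1 := by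
    have : (num (q * (q * e)) : List (Sy α)).length = q * (q * e) + 1 := by
      simp [num]
    exact this
  rw [l9, l10, l11]
  have i0 : q * (q * e) ≤ q * (q * (q * e)) :=
    Nat.mul_le_mul_left _ (Nat.le_mul_of_pos_left _ hq)
  have i1 : q * e ≤ q * (q * e) := Nat.le_mul_of_pos_left _ hq
  have i2 : e ≤ q * e := Nat.le_mul_of_pos_left _ hq
  have i3 : 2 * e * q = 2 * (q * e) := by ring
  omega

theorem W3_final (s : Store (Reg τ) (Sy α)) (p d : List (Sy α)) (hX : s (r X) = [])
    (hR : s (r RW) = []) (hH : s (r H) = []) (hA1 : s (r A1) = []) (hA2 : s (r A2) = []) :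
    W3 s [] p d [] [] [] [] = (s.set (r P) p).set (r D) d := by
  funext i; rcases i with i | i | i
  · cases i <;> simp [Store.set, W3, *]
  · simp [Store.set, W3]
  · simp [Store.set, W3]

theorem run_pass3 : ∃ C0 : ℕ, ∀ (s : Store (Reg τ) (Sy α)) (A q e h : ℕ) (p : List Bool),
    1 ≤ q → 1 ≤ e → 1 ≤ A → h < 2 * (q * e) → A * (2 * q * (q * (8 * (q * e)))) ≤ p.length →
    s (r P) = bs p → s (r q1) = num q → s (r q2) = num q → s (r nE) = num (q * e) →
    s (r ne) = num e → s (r nA) = num A → s (r nh) = num h → s (r D) = [] → s (r X) = [] →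
    s (r CY) = [] → s (r RW) = [] →
    s (r H) = [] → s (r H2) = [] → s (r A1) = [] → s (r A2) = [] →
    Runs pass3 s ((s.set (r P) (bs (p.drop (A * (2 * q * (q * (8 * (q * e)))))))).set (r D)
        (bs (data3 A q e h p)))
      (C0 * (A * (q * (q * (q * e))))) := by
  refine ⟨2004, ?_⟩
  intro s A q e h p hq he1 hA1 hh hp hP hq1 hq2 hE he hA hnh hD hX hCY hRW hH hH2 hsA1 hsA2
  have key := Runs.forN (c := r nA) (body := sq [
    skipP,
    mkHh, zeroC (.r .A1), addC 1 (.r .ne) (.r .A1), zeroC (.r .A2),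
    forN (.r .q1) (sq [
      forN (.r .q2) (sq [foldP, rotH (.r .H), dropN 1 (.r .nE) (.r .X),
        moveN (.r .nE) (.r .X) (.r .RW)]),
      rotN (.r .A2) (.r .RW), forN (.r .q2) (moveN (.r .nE) (.r .RW) (.r .D)),
      rotN (.r .A1) (.r .H), addC 2 (.r .ne) (.r .A1), addC 1 (.r .nE) (.r .A2)]),
    clr (.r .H), clr (.r .A1), clr (.r .A2)]) A
    (fun a => W3 s [] (bs (p.drop (a * (2 * q * (q * (8 * (q * e))))))) (bs (data3 a q e h p))
      [] [] [] []) (2000 * (q * (q * (q * e))))
    (fun a => hA)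
    (by
      intro a ha x
      have hle : (a + 1) * (2 * q * (q * (8 * (q * e)))) ≤ A * (2 * q * (q * (8 * (q * e)))) :=
        Nat.mul_le_mul_right _ ha
      have hle2 : (a + 1) * (2 * q * (q * (8 * (q * e)))) = a * (2 * q * (q * (8 * (q * e)))) +
        2 * q * (q * (8 * (q * e))) := by ring
      have h1 := run_block3 (s := s.set (r nA) x) (e := e) (q := q) (h := h)
        (o := a * (2 * q * (q * (8 * (q * e))))) (p := p) (d := bs (data3 a q e h p)) hq he1 hh
        (by simpa using hE) (by simpa using he) (by simpa using hnh) (by simpa using hCY)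
        (by simpa using hH2) (by simpa using hq1) (by simpa using hq2) (by omega)
      rw [← hle2, ← bs_append] at h1
      have ed : data3 (a + 1) q e h p = data3 a q e h p ++ (fm q fun l =>
          (fm q fun j => (rr ((2 * (q * e) - h) + e * l ^ 2)
            (fold4 (2 * (q * e)) ((p.drop (a * (2 * q * (q * (8 * (q * e)))) +
              q * (q * (8 * (q * e))) +
              l * (q * (8 * (q * e))) +
              j * (8 * (q * e)))).take (8 * (q * e))))).drop (q * e)).rotate (l * (q * e))) := by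
        have es : ∀ k j, slotOf q e p a k j = (p.drop (a * (2 * q * (q * (8 * (q * e)))) +
              q * (q * (8 * (q * e))) + k * (q * (8 * (q * e))) +
              j * (8 * (q * e)))).take (8 * (q * e)) := by
          intro k j
          unfold slotOf
          congr 2
          ring
        unfold data3
        rw [fm_succ]
        simp only [es]
      rw [← ed] at h1
      rw [W3_nA, W3_nA]
      exact h1)
  simp only [Nat.zero_mul, List.drop_zero] at key
  have e0 : data3 0 q e h p = [] := by simp [data3]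
  rw [e0, W3_final s _ _ hX hRW hH hsA1 hsA2, W3_final s _ _ hX hRW hH hsA1 hsA2] at key
  have e1 : (s.set (r P) (bs p)).set (r D) (bs []) = s := by
    rw [Store.set_eq_self s hP]
    exact Store.set_eq_self s hD
  rw [e1] at key
  refine key.mono ?_
  have h2 : 1 ≤ q * (q * (q * e)) := Nat.mul_pos hq (Nat.mul_pos hq (Nat.mul_pos hq he1))
  have h3 : A * 1 ≤ A * (q * (q * (q * e))) := Nat.mul_le_mul_left _ h2
  have h4 : A * (2000 * (q * (q * (q * e))) + 2) + 2 = 2000 * (A * (q * (q * (q * e)))) +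
    2 * (A * 1) + 2 := by ring
  have h5 : 1 ≤ A * (q * (q * (q * e))) := Nat.mul_pos hA1 h2
  omega

end

end Vale.Agent.P338
end

section

/-! The adaptive block transposition. -/

namespace Vale.Agent.P338
open Reg R CW

section
variable {τ α : Type} [DecidableEq τ]

theorem run_backup {s : Store (Reg τ) (Sy α)} (hB : s (r B) = []) (hX : s (r X) = []) :
    Runs backup s (s.set (r B) (s (r D))) (4 * (s (r D)).length + 3) := by
  generalize hd : s (r D) = d
  have key := Runs.loopN (p := fun h : Reg τ → Option (Sy α) => (h (.r .D)).isSome)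
    (c := .act fun h i =>
      if i = .r .D then { pop := true }
      else if i = .r .B ∨ i = .r .X then { pb := h (.r .D) } else {})
    d.length
    (fun i => ((s.set (r D) (d.drop i)).set (r B) (d.take i)).set (r X) (d.take i)) 1
    (by
      intro i hi
      simp only [Store.heads]
      rw [Store.set_ne _ _ (by simp), Store.set_ne _ _ (by simp), Store.set_same,
        List.drop_eq_getElem_cons hi]; rfl)
    (by
      intro i hi
      refine Runs.act' _ fun x => ?_
      have e1 : (d.drop i).head? = some d[i] := by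
        rw [List.drop_eq_getElem_cons hi]; rfl
      have e2 : d.take (i + 1) = d.take i ++ [d[i]] := by
        rw [List.take_succ_eq_append_getElem hi]
      by_cases hxD : x = r D
      · subst hxD; simp [Act.app]
      · by_cases hxB : x = r B
        · subst hxB
          simp [Act.app, Store.heads, e1, e2, -List.head?_drop, -List.take_append_getElem]
        · by_cases hxX : x = r X
          · subst hxX
            simp [Act.app, Store.heads, e1, e2, -List.head?_drop, -List.take_append_getElem]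
          · simp [Act.app, hxD, hxB, hxX])
    (by simp [Store.heads])
  simp only [List.drop_zero, List.take_zero, List.drop_length, List.take_length] at key
  have e0 : ((s.set (r D) d).set (r B) []).set (r X) [] = s := by
    rw [← hd, Store.set_self, Store.set_eq_self s hB, Store.set_eq_self s hX]
  rw [e0] at key
  have h2 := run_mvAll (a := r X) (b := r D) (by simp)
    (s := ((s.set (r D) []).set (r B) d).set (r X) d)
  refine Runs.cast (run_sq_cons key (run_sq_cons h2 run_sq_nil)) ?_ ?_
  · apply Store.ext'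
    intro x
    simp only [Store.set]
    clear key h2
    split_ifs <;> simp_all
  · simp; omega

/-- The last part of `swapP`. -/
def swapTail : List (Cmd (Reg τ) (Sy α)) := [
  .ite (fun h => (h (.r .FL)).isSome)
    (sq [clr (.r .FL), clr (.r .B)])
    (sq [mvAll (.r .B) (.r .D), naive]),
  clr (.r .nA)]

theorem st_eq1 {s : Store (Reg τ) (Sy α)} (d v : List (Sy α)) (hB : s (r B) = [])
    (hd : s (r D) = d) :
    let s0 := ((s.set (r B) d).set (r D) []).set (r nA) v
    (s0.set (r B) []).set (r D) (s0 (r D) ++ s0 (r B)) = s.set (r nA) v := by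
  intro s0
  apply Store.ext'
  intro x
  obtain rfl | h1 := eq_or_ne x (r D)
  · simp [s0, hd]
  obtain rfl | h2 := eq_or_ne x (r B)
  · simp [hB]
  obtain rfl | h3 := eq_or_ne x (r nA)
  · simp [s0]
  simp [s0, h1, h2, h3]

theorem st_eq2 {s : Store (Reg τ) (Sy α)} (v w : List (Sy α)) (hA : s (r nA) = []) :
    ((s.set (r nA) v).set (r D) w).set (r nA) [] = s.set (r D) w := by
  apply Store.ext'
  intro x
  obtain rfl | h1 := eq_or_ne x (r nA)
  · simp [hA]
  obtain rfl | h2 := eq_or_ne x (r D)
  · simp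
  simp [h1, h2]

theorem run_tail_fail : ∃ C0 : ℕ, ∀ (s : Store (Reg τ) (Sy α)) (A h E W : ℕ)
    (ent : ℕ → ℕ → ℕ → List Bool), 1 ≤ A → 1 ≤ h → 1 ≤ E →
    (∀ a i j, (ent a i j).length = E) →
    s (r D) = bs (fm A fun a => fm (2 ^ h) fun i => fm (2 ^ h) fun j => ent a i j) →
    s (r q1) = num (2 ^ h) → s (r nE) = num E → s (r nh) = num h →
    s (r B) = [] → s (r FL) = [] → s (r nA) = [] →
    s (r X) = [] → s (r C) = [] → s (r A1) = [] → s (r A3) = [] →
    h * (A * (2 ^ h * (2 ^ h * E))) ≤ W →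
    Runs (sq swapTail) (((s.set (r B) (s (r D))).set (r D) []).set (r nA) (num A))
      (s.set (r D) (bs (fm A fun a => fm (2 ^ h) fun j => fm (2 ^ h) fun i => ent a i j)))
      (C0 * W) := by
  obtain ⟨cn, hn⟩ := run_naive (τ := τ) (α := α)
  refine ⟨((3 + (cn + 1)) + 1) + (5 + 1), ?_⟩
  intro s A h E W ent hA hh hE hlen hD hq1 hnE hnh hB hFL hnA hX hC hA1 hA3 hW
  have hl : (s (r D)).length = A * (2 ^ h * (2 ^ h * E)) := by
    rw [hD, bs_length, fm_length (c := 2 ^ h * (2 ^ h * E))]
    intro a _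
    rw [fm_length (c := 2 ^ h * E)]
    intro i _
    rw [fm_length]
    intro j _
    exact hlen a i j
  have hL1 : 1 ≤ A * (2 ^ h * (2 ^ h * E)) :=
    Nat.mul_pos hA (Nat.mul_pos (by positivity) (Nat.mul_pos (by positivity) hE))
  have hLW : A * (2 ^ h * (2 ^ h * E)) ≤ W := le_trans (Nat.le_mul_of_pos_left _ hh) hW
  have hW1 : 1 ≤ W := hL1.trans hLW
  have hAW : A ≤ W := le_trans (Nat.le_mul_of_pos_right _ (Nat.mul_pos (by positivity)
    (Nat.mul_pos (by positivity) hE))) hLW
  have r1 : Runs (mvAll (r B) (r D)) (((s.set (r B) (s (r D))).set (r D) []).set (r nA) (num A))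
      (s.set (r nA) (num A)) (3 * W) := by
    have := run_mvAll (a := r B) (b := r D) (by simp)
      (s := ((s.set (r B) (s (r D))).set (r D) []).set (r nA) (num A))
    refine this.cast (st_eq1 _ _ hB rfl) ?_
    have : (((s.set (r B) (s (r D))).set (r D) []).set (r nA) (num A) (r B)).length
        = A * (2 ^ h * (2 ^ h * E)) := by simp [hl]
    rw [this]
    omega
  have r2 : Runs naive (s.set (r nA) (num A))
      ((s.set (r nA) (num A)).set (r D)
        (bs (fm A fun a => fm (2 ^ h) fun j => fm (2 ^ h) fun i => ent a i j))) (cn * W) := by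
    have := hn (s.set (r nA) (num A)) A h E (fun a i j => bs (ent a i j)) hA hh hE
      (by simp [hlen]) (by simp [hD, bs_fm]) (by simp [hq1]) (by simp [hnE]) (by simp [hnh])
      (by simp [hX]) (by simp [hC]) (by simp [hA1]) (by simp [hA3])
    simp only [bs_fm]
    exact this.mono (Nat.mul_le_mul_left _ hW)
  have r3 := iteW_F (c := sq [clr (.r .FL), clr (.r .B)])
    (s := ((s.set (r B) (s (r D))).set (r D) []).set (r nA) (num A))
    (p := fun h : Reg τ → Option (Sy α) => (h (.r .FL)).isSome) hW1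
    (by simp [Store.heads, hFL]) (sqW_cons r1 (sqW_cons r2 (sqW_nil hW1)))
  have r4 : Runs (clr (r nA)) _ _ (5 * W) := (run_clr (a := r nA)
    (s := (s.set (r nA) (num A)).set (r D)
        (bs (fm A fun a => fm (2 ^ h) fun j => fm (2 ^ h) fun i => ent a i j)))).mono (by
      simp [num]; omega)
  exact (sqW_cons r3 (sqW_cons r4 (sqW_nil hW1))).cast (st_eq2 _ _ hnA) le_rfl

theorem run_tail_succ {s : Store (Reg τ) (Sy α)} {A W : ℕ} {res : List (Sy α)}
    (hB : s (r B) = []) (hFL : s (r FL) = []) (hnA : s (r nA) = [])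
    (hD : (s (r D)).length ≤ W) (hA : A ≤ W) (hW : 1 ≤ W) :
    Runs (sq swapTail)
      ((((s.set (r B) (s (r D))).set (r D) res).set (r nA) (num A)).set (r FL) [.mark])
      (s.set (r D) res) (20 * W) := by
  generalize hd : s (r D) = d at hD
  have r1 : Runs (clr (r FL)) ((((s.set (r B) d).set (r D) res).set (r nA) (num A)).set (r FL)
      [.mark]) (((s.set (r B) d).set (r D) res).set (r nA) (num A)) (3 * W) := by
    refine run_clr.cast ?_ (by simp; omega)
    apply Store.ext'
    intro x
    obtain rfl | h1 := eq_or_ne x (r FL)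
    · simp [hFL]
    simp [h1]
  have r2 : Runs (clr (r B)) (((s.set (r B) d).set (r D) res).set (r nA) (num A))
      ((s.set (r D) res).set (r nA) (num A)) (3 * W) := by
    refine run_clr.cast ?_ (by simp; omega)
    apply Store.ext'
    intro x
    obtain rfl | h1 := eq_or_ne x (r B)
    · simp [hB]
    obtain rfl | h2 := eq_or_ne x (r D)
    · simp
    obtain rfl | h3 := eq_or_ne x (r nA)
    · simp
    simp [h1, h2, h3]
  have r3 := iteW_T (d := sq [mvAll (.r .B) (.r .D), naive])
    (p := fun h : Reg τ → Option (Sy α) => (h (.r .FL)).isSome) hW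
    (by simp [Store.heads]) (sqW_cons r1 (sqW_cons r2 (sqW_nil hW)))
  have r4 : Runs (clr (r nA)) ((s.set (r D) res).set (r nA) (num A)) (s.set (r D) res)
      (5 * W) := by
    refine run_clr.cast ?_ (by simp [num]; omega)
    apply Store.ext'
    intro x
    obtain rfl | h1 := eq_or_ne x (r nA)
    · simp [hnA]
    simp [h1]
  exact (sqW_cons r3 (sqW_cons r4 (sqW_nil hW))).cast rfl (Nat.mul_le_mul_right _ (by norm_num))

theorem st_eq3 {s : Store (Reg τ) (Sy α)} (d c1 g1 v : List (Sy α))
    (hC : s (r C) = []) (hG : s (r G) = []) :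
    ((((((((s.set (r B) d).set (r nA) (num 0)).set (r D) []).set (r C) c1).set (r nA) v).set
      (r G) g1).set (r C) []).set (r G) []) =
    ((s.set (r B) d).set (r D) []).set (r nA) v := by
  apply Store.ext'
  intro x
  simp only [Store.set]
  split_ifs <;> simp_all

/-- clear a register that was empty before -/
theorem st_clr {s : Store (Reg τ) (Sy α)} {a : Reg τ} (v : List (Sy α)) (h : s a = []) :
    (s.set a v).set a [] = s := by
  rw [Store.set_set, Store.set_eq_self _ h]

theorem st_clr2 {s : Store (Reg τ) (Sy α)} {a b : Reg τ} (v w w' : List (Sy α)) (hab : a ≠ b)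
    (h : s a = []) :
    ((((s.set a v).set a w').set b w).set a []) = s.set b w := by
  apply Store.ext'
  intro x
  simp only [Store.set]
  split_ifs <;> simp_all

theorem st_eq4 {s : Store (Reg τ) (Sy α)} (c g : List (Sy α))
    (hC : s (r C) = []) (hG : s (r G) = []) :
    ((((s.set (r C) c).set (r G) g).set (r C) []).set (r G) []) = s := by
  apply Store.ext'
  intro x
  simp only [Store.set]
  split_ifs <;> simp_all

theorem run_swapP (mulP : Cmd (Reg τ) (Sy α)) (T : ℕ → ℕ) (C1 : ℕ) (hm : MulSpec mulP T C1) :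
    ∃ C0 : ℕ, ∀ (s : Store (Reg τ) (Sy α)) (A h e M : ℕ) (ent : ℕ → ℕ → ℕ → List Bool),
    1 ≤ A → 1 ≤ h → 1 ≤ e → 16 * (A * (2 ^ h * (2 ^ h * (2 ^ h * e)))) ≤ M →
    (∀ a i j, (ent a i j).length = 2 ^ h * e) →
    s (r D) = bs (fm A fun a => fm (2 ^ h) fun i => fm (2 ^ h) fun j => ent a i j) →
    s (r q1) = num (2 ^ h) → s (r q2) = num (2 ^ h) → s (r nE) = num (2 ^ h * e) →
    s (r ne) = num e → s (r nh) = num h → s (r M1) = num M → Clean s →
    Runs (swapP mulP) s
      (s.set (r D) (bs (fm A fun a => fm (2 ^ h) fun j => fm (2 ^ h) fun i => ent a i j)))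
      (C0 * (min (T M) (M * h) + M)) := by
  obtain ⟨cp1, hp1⟩ := run_pass1 (τ := τ) (α := α)
  obtain ⟨ck, hk⟩ := run_kernP (τ := τ) (α := α)
  obtain ⟨cp2, hp2⟩ := run_pass2 (τ := τ) (α := α)
  obtain ⟨cp3, hp3⟩ := run_pass3 (τ := τ) (α := α)
  obtain ⟨ct, ht⟩ := run_tail_fail (τ := τ) (α := α)
  let cs : ℕ := (3 + (cp2 + (5 + (ck + (2 * C1 + ((cp3 + (5 + 1)) + 1 + 1)))))) + 1
  refine ⟨7 + (1 + (cp1 + (ck + (2 * C1 + (cs + (ct + 20)))))), ?_⟩
  intro s A h e M ent hA hh he hM hlen hD hq1 hq2 hnE hne hnh hM1 hcl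
  obtain ⟨hcl0, htl, htr⟩ := hcl
  have hB : s (r B) = [] := hcl0 B (by simp)
  have hC : s (r C) = [] := hcl0 C (by simp)
  have hG : s (r G) = [] := hcl0 G (by simp)
  have hP : s (r P) = [] := hcl0 P (by simp)
  have hX : s (r X) = [] := hcl0 X (by simp)
  have hY : s (r Y) = [] := hcl0 Y (by simp)
  have hRW : s (r RW) = [] := hcl0 RW (by simp)
  have hH : s (r H) = [] := hcl0 H (by simp)
  have hH2 : s (r H2) = [] := hcl0 H2 (by simp)
  have hH3 : s (r H3) = [] := hcl0 H3 (by simp)
  have hCY : s (r CY) = [] := hcl0 CY (by simp)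
  have hFL : s (r FL) = [] := hcl0 FL (by simp)
  have hA1 : s (r A1) = [] := hcl0 A1 (by simp)
  have hA2 : s (r A2) = [] := hcl0 A2 (by simp)
  have hA3 : s (r A3) = [] := hcl0 A3 (by simp)
  have hnA : s (r nA) = [] := hcl0 nA (by simp)
  have hST : s (r ST) = [] := hcl0 ST (by simp)
  clear hcl0
  -- sizes
  have hq0 : 1 ≤ 2 ^ h := Nat.one_le_two_pow
  have hE1 : 1 ≤ 2 ^ h * e := Nat.mul_pos hq0 he
  have hK1 : 1 ≤ 2 ^ h * (2 ^ h * (2 ^ h * e)) := Nat.mul_pos hq0 (Nat.mul_pos hq0 hE1)
  have hspec := SC.swap_spec (A := A) (h := h) (e := e) (M := M) (ent := ent) he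
    (fun a _ i _ j _ => hlen a i j) (by
      have : A * (2 * 2 ^ h * 2 ^ h * (8 * (2 ^ h * e))) =
        16 * (A * (2 ^ h * (2 ^ h * (2 ^ h * e)))) := by ring
      omega)
  obtain ⟨L, hLdef⟩ : ∃ L, L = A * (2 ^ h * (2 ^ h * (2 ^ h * e))) := ⟨_, rfl⟩
  have hp1' := hp1
  have hML : 16 * L ≤ M := hLdef ▸ hM
  have hL1 : 1 ≤ L := hLdef ▸ Nat.mul_pos hA hK1
  have hAL : A ≤ L := hLdef ▸ Nat.le_mul_of_pos_right _ hK1
  have hKL : 2 ^ h * (2 ^ h * (2 ^ h * e)) ≤ L := hLdef ▸ Nat.le_mul_of_pos_left _ hA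
  have hhL : h ≤ L := by
    have h1 : h < 2 ^ h := Nat.lt_two_pow_self
    have h2 : 2 ^ h ≤ 2 ^ h * (2 ^ h * (2 ^ h * e)) :=
      Nat.le_mul_of_pos_right _ (Nat.mul_pos hq0 hE1)
    omega
  obtain ⟨W, hWdef⟩ : ∃ W, W = min (T M) (M * h) + M := ⟨_, rfl⟩
  rw [← hWdef]
  have hMW : M ≤ W := by omega
  have hW1 : 1 ≤ W := by omega
  have hLW : L ≤ W := by omega
  have hdl : (s (r D)).length = L := by
    rw [hD, bs_length, hLdef, fm_length (c := 2 ^ h * (2 ^ h * (2 ^ h * e)))]
    intro a _
    rw [fm_length (c := 2 ^ h * (2 ^ h * e))]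
    intro i _
    rw [fm_length]
    intro j _
    exact hlen a i j
  have hl1 : (data1 A (2 ^ h) e ent).length ≤ M := by
    rw [data1_length hq0 (fun a _ i _ j _ => hlen a i j)]; exact hM
  have hlk : (kern (2 ^ h) e).length ≤ M := by
    rw [kern_length hq0 he]; omega
  have hP2 : A * (2 * 2 ^ h * (2 ^ h * (8 * (2 ^ h * e)))) ≤ 2 * M := by
    have : A * (2 * 2 ^ h * (2 ^ h * (8 * (2 ^ h * e)))) =
      16 * (A * (2 ^ h * (2 ^ h * (2 ^ h * e)))) := by ring
    omega
  obtain ⟨P1, hP1def⟩ : ∃ P1, P1 = mulLsb M (data1 A (2 ^ h) e ent) (kern (2 ^ h) e) := ⟨_, rfl⟩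
  have hP1l : P1.length = 2 * M := by rw [hP1def, mulLsb_length]
  have hl2 : (data2 A (2 ^ h) e P1).length ≤ M := by
    rw [data2_length (by rw [hP1l]; exact hP2)]; exact hM
  obtain ⟨P2, hP2def⟩ : ∃ P2, P2 = mulLsb M (data2 A (2 ^ h) e P1) (kern (2 ^ h) e) := ⟨_, rfl⟩
  have hP2l : P2.length = 2 * M := by rw [hP2def, mulLsb_length]
  rw [← hP1def, ← hP2def] at hspec
  obtain ⟨res, hres⟩ : ∃ res, res = (fm A fun a => fm (2 ^ h) fun j => fm (2 ^ h) fun i =>
    ent a i j) := ⟨_, rfl⟩
  rw [← hres] at hspec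
  have htail := ht s A h (2 ^ h * e) (M * h) ent hA hh hE1 hlen hD hq1 hnE hnh hB hFL hnA hX hC
    hA1 hA3 (by rw [Nat.mul_comm M h]; exact Nat.mul_le_mul_left _ (by omega))
  rw [← hres] at htail ⊢
  -- the steps
  have g1 : Runs backup s (s.set (r B) (s (r D))) (7 * W) :=
    (run_backup hB hX).mono (by omega)
  have g2 : Runs (zeroC (r nA)) (s.set (r B) (s (r D)))
      ((s.set (r B) (s (r D))).set (r nA) (num 0)) (1 * W) :=
    (run_zeroC (by simp [hnA])).mono (by omega)
  have g3 := hp1 ((s.set (r B) (s (r D))).set (r nA) (num 0)) A (2 ^ h) e ent hq0 he hA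
    (fun a _ i _ j _ => hlen a i j) (by simp [hD]) (by simp [hq1]) (by simp [hq2])
    (by simp [hnE]) (by simp [hne]) (by simp) (by simp [hC]) (by simp [hX]) (by simp [hY])
    (by simp [hRW]) (by simp [hH]) (by simp [hH2]) (by simp [hA1]) (by simp [hA2])
  rw [← hLdef] at g3
  have g3 := g3.mono (Nat.mul_le_mul_left cp1 hLW)
  obtain ⟨c1, hc1⟩ : ∃ c1 : List (Sy α), c1 = bs (data1 A (2 ^ h) e ent) := ⟨_, rfl⟩
  rw [← hc1] at g3
  obtain ⟨s3, hs3⟩ : ∃ s3, s3 = (((((s.set (r B) (s (r D))).set (r nA) (num 0)).set (r D) []).set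
    (r C) c1).set (r nA) (num A)) := ⟨_, rfl⟩
  rw [← hs3] at g3
  have g4 := hk s3 (2 ^ h) e hq0 he (by simp [hs3, hq1]) (by simp [hs3, hq2])
    (by simp [hs3, hnE]) (by simp [hs3, hne]) (by simp [hs3, hH]) (by simp [hs3, hA1])
    (by simp [hs3, hA3]) (by simp [hs3, hG])
  have g4 := g4.mono (Nat.mul_le_mul_left ck (hKL.trans hLW))
  obtain ⟨k1, hk1⟩ : ∃ k1 : List (Sy α), k1 = bs (kern (2 ^ h) e) := ⟨_, rfl⟩
  rw [← hk1] at g4
  obtain ⟨U, hU, g5⟩ := hm (s3.set (r G) k1) M h (data1 A (2 ^ h) e ent) (kern (2 ^ h) e)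
    (by omega) hh hl1 hlk (by simp [hs3, hc1]) (by simp [hk1]) (by simp [hs3, hP])
    (by simp [hs3, hFL]) (by simp [hs3, hST]) (by simp [hs3, htl]) (by simp [hs3, htr])
    (by simp [hs3, hM1]) (by simp [hs3, hnh])
  have hU' : U ≤ 2 * C1 * W := hU.trans (by
    calc C1 * (min (T M) (M * h) + M + h) ≤ C1 * (2 * W) := Nat.mul_le_mul_left _ (by omega)
      _ = 2 * C1 * W := by ring)
  have hfailst : (((s3.set (r G) k1).set (r C) []).set (r G) []) =
      ((s.set (r B) (s (r D))).set (r D) []).set (r nA) (num A) := by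
    rw [hs3]; exact st_eq3 _ _ _ _ hC hG
  obtain ⟨sF, hsF⟩ : ∃ sF, sF = ((s.set (r B) (s (r D))).set (r D) []).set (r nA) (num A) :=
    ⟨_, rfl⟩
  rw [← hsF] at hfailst htail
  -- it is enough to treat the part after the first multiplication
  have hfinal : ∀ s5, Runs mulP (s3.set (r G) k1) s5 (2 * C1 * W) →
      (∃ s6, Runs (.ite (fun h => (h (.r .FL)).isSome)
        (sq [clr (.r .FL), pass2, clr (.r .P), kernP, mulP,
          .ite (fun h => (h (.r .FL)).isSome) (sq [pass3, clr (.r .P)]) (sq [])])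
        (sq [])) s5 s6 (cs * W) ∧ Runs (sq swapTail) s6 (s.set (r D) (bs res)) ((ct + 20) * W)) →
      Runs (swapP mulP) s (s.set (r D) (bs res))
        ((7 + (1 + (cp1 + (ck + (2 * C1 + (cs + (ct + 20))))))) * W) := by
    intro s5 h5 ⟨s6, h6, h7⟩
    exact sqW_cons g1 (sqW_cons g2 (sqW_cons g3 (sqW_cons g4 (sqW_cons h5 (sqW_cons h6 h7)))))
  rcases g5 with g5 | ⟨hMT, g5⟩
  swap
  · -- first multiplication fails
    refine hfinal _ (g5.mono hU') ⟨sF, ?_, ?_⟩
    · rw [hfailst]
      refine (iteW_F (a := 1) hW1 (by simp [Store.heads, hsF, hFL]) (sqW_nil hW1)).mono ?_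
      exact Nat.mul_le_mul_right _ (by simp only [cs]; omega)
    · refine htail.mono ?_
      have : M * h ≤ W := by omega
      exact Nat.mul_le_mul (by omega) this
  · refine hfinal _ (g5.mono hU') ?_
    rw [hfailst, ← hP1def]
    -- after clearing the flag
    have f1 : Runs (clr (r FL)) ((sF.set (r P) (bs P1)).set (r FL) [.mark]) (sF.set (r P) (bs P1))
        (3 * W) := by
      refine run_clr.cast (st_clr _ ?_) (by simp; omega)
      simp [hsF, hFL]
    have f2 := hp2 (sF.set (r P) (bs P1)) A (2 ^ h) e P1 hq0 he hA (by rw [hP1l]; exact hP2)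
      (by simp) (by simp [hsF, hq1]) (by simp [hsF, hq2]) (by simp [hsF, hnE])
      (by simp [hsF, hne]) (by simp [hsF]) (by simp [hsF, hC]) (by simp [hsF, hX])
      (by simp [hsF, hCY]) (by simp [hsF, hH]) (by simp [hsF, hH2]) (by simp [hsF, hH3])
      (by simp [hsF, hA1]) (by simp [hsF, hA2])
    rw [← hLdef] at f2
    have f2 := f2.mono (Nat.mul_le_mul_left cp2 hLW)
    obtain ⟨c2, hc2⟩ : ∃ c2 : List (Sy α), c2 = bs (data2 A (2 ^ h) e P1) := ⟨_, rfl⟩
    rw [← hc2] at f2
    have f3 : Runs (clr (r P)) _ (sF.set (r C) c2) (5 * W) :=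
      (run_clr (a := r P) (s := ((sF.set (r P) (bs P1)).set (r P)
        (bs (P1.drop (A * (2 * 2 ^ h * (2 ^ h * (8 * (2 ^ h * e)))))))).set (r C) c2)).cast
        (st_clr2 _ _ _ (by simp) (by simp [hsF, hP])) (by
          simp [hP1l]; omega)
    have f4 := hk (sF.set (r C) c2) (2 ^ h) e hq0 he (by simp [hsF, hq1]) (by simp [hsF, hq2])
      (by simp [hsF, hnE]) (by simp [hsF, hne]) (by simp [hsF, hH]) (by simp [hsF, hA1])
      (by simp [hsF, hA3]) (by simp [hsF, hG])
    have f4 := f4.mono (Nat.mul_le_mul_left ck (hKL.trans hLW))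
    rw [← hk1] at f4
    obtain ⟨V, hV, f5⟩ := hm ((sF.set (r C) c2).set (r G) k1) M h (data2 A (2 ^ h) e P1)
      (kern (2 ^ h) e)
      (by omega) hh hl2 hlk (by simp [hc2]) (by simp [hk1]) (by simp [hsF, hP])
      (by simp [hsF, hFL]) (by simp [hsF, hST]) (by simp [hsF, htl]) (by simp [hsF, htr])
      (by simp [hsF, hM1]) (by simp [hsF, hnh])
    have hV' : V ≤ 2 * C1 * W := hV.trans (by
      calc C1 * (min (T M) (M * h) + M + h) ≤ C1 * (2 * W) := Nat.mul_le_mul_left _ (by omega)
        _ = 2 * C1 * W := by ring)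
    have hfailst2 : ((((sF.set (r C) c2).set (r G) k1).set (r C) []).set (r G) []) = sF :=
      st_eq4 _ _ (by simp [hsF, hC]) (by simp [hsF, hG])
    rcases f5 with f5 | ⟨hMT, f5⟩
    · -- success
      rw [hfailst2, ← hP2def] at f5
      have f6 := hp3 ((sF.set (r P) (bs P2)).set (r FL) [.mark]) A (2 ^ h) e h P2 hq0 he hA
        (by
          have h1 : h < 2 ^ h := Nat.lt_two_pow_self
          have h2 : 2 ^ h ≤ 2 ^ h * e := Nat.le_mul_of_pos_right _ he
          omega)
        (by rw [hP2l]; exact hP2)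
        (by simp) (by simp [hsF, hq1]) (by simp [hsF, hq2]) (by simp [hsF, hnE])
        (by simp [hsF, hne]) (by simp [hsF]) (by simp [hsF, hnh]) (by simp [hsF])
        (by simp [hsF, hX]) (by simp [hsF, hCY]) (by simp [hsF, hRW]) (by simp [hsF, hH])
        (by simp [hsF, hH2]) (by simp [hsF, hA1]) (by simp [hsF, hA2])
      rw [← hLdef, hspec] at f6
      have f6 := f6.mono (Nat.mul_le_mul_left cp3 hLW)
      obtain ⟨s6, hs6⟩ : ∃ s6, s6 = ((((s.set (r B) (s (r D))).set (r D) (bs res)).set (r nA)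
        (num A)).set (r FL) [.mark]) := ⟨_, rfl⟩
      have f7 : Runs (clr (r P)) ((((sF.set (r P) (bs P2)).set (r FL) [.mark]).set (r P)
          (bs (P2.drop (A * (2 * 2 ^ h * (2 ^ h * (8 * (2 ^ h * e)))))))).set (r D)
          (bs res)) s6 (5 * W) := by
        refine (run_clr (a := r P) (s := ((((sF.set (r P) (bs P2)).set (r FL) [.mark]).set (r P)
          (bs (P2.drop (A * (2 * 2 ^ h * (2 ^ h * (8 * (2 ^ h * e)))))))).set (r D)
          (bs res)))).cast ?_ (by simp [hP2l]; omega)
        rw [hsF, hs6]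
        clear * - hP
        apply Store.ext'
        intro x
        simp only [Store.set]
        split_ifs <;> simp_all
      have f8 := iteW_T (p := fun h : Reg τ → Option (Sy α) => (h (.r .FL)).isSome) (d := sq [])
        (s := (sF.set (r P) (bs P2)).set (r FL) [.mark]) hW1 (by simp [Store.heads]) (sqW_cons f6 (sqW_cons f7 (sqW_nil hW1)))
      have f9 := sqW_cons f1 (sqW_cons f2 (sqW_cons f3 (sqW_cons f4 (sqW_cons (f5.mono hV')
        (sqW_cons f8 (sqW_nil hW1))))))
      have f10 := iteW_T (p := fun h : Reg τ → Option (Sy α) => (h (.r .FL)).isSome) (d := sq [])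
        (s := (sF.set (r P) (bs P1)).set (r FL) [.mark]) hW1 (by simp [Store.heads]) f9
      refine ⟨s6, f10.mono (Nat.mul_le_mul_right _ (by simp only [cs]; omega)), ?_⟩
      rw [hs6]
      exact (run_tail_succ hB hFL hnA (by omega) (by omega) hW1).mono
        (Nat.mul_le_mul_right _ (by omega))
    · -- failure
      rw [hfailst2] at f5
      have f8 := iteW_F (p := fun h : Reg τ → Option (Sy α) => (h (.r .FL)).isSome)
        (c := sq [pass3, clr (.r .P)]) (a := 1) (s := sF)
        hW1 (by simp [Store.heads, hsF, hFL]) (sqW_nil (s := sF) hW1)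
      have f9 := sqW_cons f1 (sqW_cons f2 (sqW_cons f3 (sqW_cons f4 (sqW_cons (f5.mono hV')
        (sqW_cons f8 (sqW_nil hW1))))))
      have f10 := iteW_T (p := fun h : Reg τ → Option (Sy α) => (h (.r .FL)).isSome) (d := sq [])
        (s := (sF.set (r P) (bs P1)).set (r FL) [.mark]) hW1 (by simp [Store.heads]) f9
      refine ⟨sF, f10.mono (Nat.mul_le_mul_right _ (by simp only [cs]; omega)), ?_⟩
      refine htail.mono ?_
      have : M * h ≤ W := by omega
      exact Nat.mul_le_mul (by omega) this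

end

end Vale.Agent.P338
end
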